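import Mathlib

/-!
# Row 287 (S0534), unit ENT, box TENSOR: P1 Lemma 3.5 (tensor coercivity)      OWNER helper283.   Prefix `et`, `Et`.   0 sorry, Mathlib only.

Source: GOE-bulk-universality (P1) Sec. 3.4, Lemma `ent:tensor`.   STRONGER than the paper:
* no symmetry of the tensor is used (the frame identity is used in every slot), hence the colours are passive indices (`et_tensor_col`);
* robust quadratic form: `c |H|² ≤ |H|² - (1/2) Σ_i |P_i^{⊗j} H|² + C Σ_i |S_i^{⊗j} H - P_i^{⊗j} H|²` (`et_tensor`), `S_i` = the swap `ω ↔ v_i` on the plane `U_i`, zero on its complement.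
Model: spatial space `ℝ^d`, `w = ω = 1/√d (1,..,1)`, `a_i = √(d/(d-1)) (e_i - 1/d)`, `v_i = p ω + √(1-p²) a_i`, `U_i = span (ω, a_i)`; tensors of order `j` = functions `(Fin j → Fin d) → ℝ`.
Parts: `etK` (Kronecker product of a family of matrices), `et_finsler` (Finsler's lemma), `EtGeo` (the relations used) and `EtGeo.coercive`, `et_geo` (the concrete geometry).
-/

set_option autoImplicit false
set_option linter.unusedSectionVars false

namespace Claimed.Agent.R287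

open Finset Matrix

section kron

variable {ι α : Type*} [Fintype ι] [DecidableEq ι] [Fintype α] [DecidableEq α]

/-- the product (Kronecker) matrix of a family of matrices, one for each slot -/
def etK (N : α → Matrix ι ι ℝ) : Matrix (α → ι) (α → ι) ℝ := fun x y => ∏ a, N a (x a) (y a)

theorem etK_apply (N : α → Matrix ι ι ℝ) (x y : α → ι) : etK N x y = ∏ a, N a (x a) (y a) := rfl

theorem etK_mul (N N' : α → Matrix ι ι ℝ) : etK N * etK N' = etK (fun a => N a * N' a) := by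
  ext x z
  simp only [Matrix.mul_apply, etK_apply]
  rw [Finset.prod_univ_sum]
  simp only [Fintype.piFinset_univ, Finset.prod_mul_distrib]

theorem etK_transpose (N : α → Matrix ι ι ℝ) : (etK N)ᵀ = etK (fun a => (N a)ᵀ) := by
  ext x y
  simp only [Matrix.transpose_apply, etK_apply]

theorem etK_one : etK (fun _ : α => (1 : Matrix ι ι ℝ)) = 1 := by
  ext x y
  simp only [etK_apply, Matrix.one_apply]
  rw [Fintype.prod_ite_zero]
  simp only [Finset.prod_const_one, funext_iff]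

/-- the family with `M` in the slot `a` and `P` in the other slots -/
def etS (a : α) (M P : Matrix ι ι ℝ) : α → Matrix ι ι ℝ := fun b => if b = a then M else P

theorem etK_slot_apply (a : α) (M P : Matrix ι ι ℝ) (x y : α → ι) :
    etK (etS a M P) x y = M (x a) (y a) * ∏ b ∈ univ.erase a, P (x b) (y b) := by
  rw [etK_apply, ← Finset.mul_prod_erase univ _ (Finset.mem_univ a)]
  congr 1
  · simp [etS]
  · refine Finset.prod_congr rfl fun b hb => ?_
    simp [etS, (Finset.mem_erase.1 hb).1]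

theorem etK_slot_mul (a : α) (M P M' P' : Matrix ι ι ℝ) :
    etK (etS a M P) * etK (etS a M' P') = etK (etS a (M * M') (P * P')) := by
  rw [etK_mul]
  congr 1
  funext b
  by_cases h : b = a <;> simp [etS, h]

theorem etK_slot_transpose (a : α) (M P : Matrix ι ι ℝ) : (etK (etS a M P))ᵀ = etK (etS a Mᵀ Pᵀ) := by
  rw [etK_transpose]
  congr 1
  funext b
  by_cases h : b = a <;> simp [etS, h]

theorem etK_slot_add (a : α) (M M' P : Matrix ι ι ℝ) :
    etK (etS a (M + M') P) = etK (etS a M P) + etK (etS a M' P) := by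
  ext x y
  simp only [Matrix.add_apply, etK_slot_apply]
  ring

theorem etK_slot_sub (a : α) (M M' P : Matrix ι ι ℝ) :
    etK (etS a (M - M') P) = etK (etS a M P) - etK (etS a M' P) := by
  ext x y
  simp only [Matrix.sub_apply, etK_slot_apply]
  ring

theorem etK_slot_smul (a : α) (c : ℝ) (M P : Matrix ι ι ℝ) : etK (etS a (c • M) P) = c • etK (etS a M P) := by
  ext x y
  simp only [Matrix.smul_apply, etK_slot_apply, smul_eq_mul]
  ring

theorem etK_slot_zero (a : α) (P : Matrix ι ι ℝ) : etK (etS a 0 P) = 0 := by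
  ext x y
  simp only [etK_slot_apply, Matrix.zero_apply, zero_mul]

theorem etK_slot_sum {κ : Type*} (s : Finset κ) (a : α) (M : κ → Matrix ι ι ℝ) (P : Matrix ι ι ℝ) :
    etK (etS a (∑ i ∈ s, M i) P) = ∑ i ∈ s, etK (etS a (M i) P) := by
  classical
  induction s using Finset.induction_on with
  | empty => simp [etK_slot_zero]
  | insert i s hi ih => rw [Finset.sum_insert hi, Finset.sum_insert hi, etK_slot_add, ih]

theorem etK_slot_self (a : α) (P : Matrix ι ι ℝ) : etK (etS a P P) = etK (fun _ => P) := by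
  congr 1
  funext b
  simp [etS]

theorem etK_slot_one (a : α) : etK (etS a (1 : Matrix ι ι ℝ) 1) = 1 := by
  rw [etK_slot_self, etK_one]

/-- operators in different slots commute -/
theorem etK_slot_comm {a b : α} (hab : a ≠ b) (M M' : Matrix ι ι ℝ) :
    etK (etS a M 1) * etK (etS b M' 1) = etK (etS b M' 1) * etK (etS a M 1) := by
  rw [etK_mul, etK_mul]
  congr 1
  funext c
  by_cases h1 : c = a
  · subst h1
    simp [etS, hab]
  · simp [etS, h1]

end kron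

/-- a continuous function, homogeneous of degree two and positive off the origin, is coercive -/
theorem et_coercive {E : Type*} [NormedAddCommGroup E] [NormedSpace ℝ E] [FiniteDimensional ℝ E] {q : E → ℝ}
    (hq : Continuous q) (hh : ∀ (t : ℝ) (x : E), q (t • x) = t ^ 2 * q x) (hpos : ∀ x, x ≠ 0 → 0 < q x) :
    ∃ c : ℝ, 0 < c ∧ ∀ x, c * ‖x‖ ^ 2 ≤ q x := by
  by_cases hne : (Metric.sphere (0 : E) 1).Nonempty
  · obtain ⟨x0, hx0, hmin⟩ := (isCompact_sphere (0 : E) 1).exists_isMinOn hne hq.continuousOn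
    have hx0' : x0 ≠ 0 := by
      intro h
      rw [h] at hx0
      simp at hx0
    refine ⟨q x0, hpos x0 hx0', fun x => ?_⟩
    by_cases hx : x = 0
    · subst hx
      have := hh 0 0
      simp at this
      simp [this]
    · have hn : 0 < ‖x‖ := norm_pos_iff.2 hx
      have h1 : (‖x‖⁻¹ • x) ∈ Metric.sphere (0 : E) 1 := by
        rw [mem_sphere_zero_iff_norm, norm_smul, norm_inv, norm_norm, inv_mul_cancel₀ hn.ne']
      have h2 := hmin h1
      have h3 : q x = ‖x‖ ^ 2 * q (‖x‖⁻¹ • x) := by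
        rw [hh]
        field_simp
      rw [h3, mul_comm]
      exact mul_le_mul_of_nonneg_left h2 (by positivity)
  · refine ⟨1, one_pos, fun x => ?_⟩
    have hx : x = 0 := by
      by_contra hx
      apply hne
      have hn : 0 < ‖x‖ := norm_pos_iff.2 hx
      exact ⟨‖x‖⁻¹ • x, by rw [mem_sphere_zero_iff_norm, norm_smul, norm_inv, norm_norm, inv_mul_cancel₀ hn.ne']⟩
    subst hx
    have := hh 0 0
    simp at this
    simp [this]

/-- **Finsler's lemma** -/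
theorem et_finsler {E : Type*} [NormedAddCommGroup E] [NormedSpace ℝ E] [FiniteDimensional ℝ E] {q l : E → ℝ}
    (hq : Continuous q) (hl : Continuous l) (hqh : ∀ (t : ℝ) (x : E), q (t • x) = t ^ 2 * q x)
    (hlh : ∀ (t : ℝ) (x : E), l (t • x) = t ^ 2 * l x) (hl0 : ∀ x, 0 ≤ l x)
    (hker : ∀ x, l x = 0 → q x ≤ 0 → x = 0) :
    ∃ C c : ℝ, 0 ≤ C ∧ 0 < c ∧ ∀ x, c * ‖x‖ ^ 2 ≤ q x + C * l x := by
  -- the compact set where `q ≤ 0` on the sphere
  have hK : IsCompact (Metric.sphere (0 : E) 1 ∩ {x | q x ≤ 0}) :=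
    (isCompact_sphere (0 : E) 1).inter_right (isClosed_le hq continuous_const)
  obtain ⟨C, hC0, hC⟩ : ∃ C : ℝ, 0 ≤ C ∧ ∀ x ∈ Metric.sphere (0 : E) 1, 0 < q x + C * l x := by
    by_cases hne : (Metric.sphere (0 : E) 1 ∩ {x | q x ≤ 0}).Nonempty
    · obtain ⟨x1, hx1, hmin1⟩ := hK.exists_isMinOn hne hl.continuousOn
      obtain ⟨x2, hx2, hmin2⟩ := hK.exists_isMinOn hne hq.continuousOn
      have hx1' : x1 ≠ 0 := by
        intro h
        have := hx1.1
        rw [h] at this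
        simp at this
      have hl1 : 0 < l x1 := lt_of_le_of_ne (hl0 x1) fun h => hx1' (hker x1 h.symm hx1.2)
      refine ⟨(1 - q x2) / l x1, div_nonneg (by have := hx2.2; simp only [Set.mem_ofPred_eq] at this; linarith) hl1.le, fun x hx => ?_⟩
      by_cases hqx : q x ≤ 0
      · have h1 : l x1 ≤ l x := hmin1 ⟨hx, hqx⟩
        have h2 : q x2 ≤ q x := hmin2 ⟨hx, hqx⟩
        have h3 : 0 ≤ 1 - q x2 := by have := hx2.2; simp only [Set.mem_ofPred_eq] at this; linarith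
        have h4 : (1 - q x2) ≤ (1 - q x2) / l x1 * l x := by
          rw [div_mul_eq_mul_div, le_div_iff₀ hl1]
          exact mul_le_mul_of_nonneg_left h1 h3
        linarith
      · push Not at hqx
        have h3 : 0 ≤ (1 - q x2) / l x1 * l x :=
          mul_nonneg (div_nonneg (by have := hx2.2; simp only [Set.mem_ofPred_eq] at this; linarith) hl1.le) (hl0 x)
        linarith
    · refine ⟨0, le_rfl, fun x hx => ?_⟩
      by_contra h
      apply hne
      refine ⟨x, hx, ?_⟩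
      simp only [zero_mul, add_zero, not_lt] at h
      exact h
  obtain ⟨c, hc, h⟩ := et_coercive (q := fun x => q x + C * l x) (hq.add (continuous_const.mul hl))
    (fun t x => by simp only [hqh, hlh]; ring) (fun x hx => by
      have hn : 0 < ‖x‖ := norm_pos_iff.2 hx
      have h1 : (‖x‖⁻¹ • x) ∈ Metric.sphere (0 : E) 1 := by
        rw [mem_sphere_zero_iff_norm, norm_smul, norm_inv, norm_norm, inv_mul_cancel₀ hn.ne']
      have h2 := hC _ h1
      rw [hqh, hlh] at h2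
      have h3 : (‖x‖⁻¹) ^ 2 * q x + C * ((‖x‖⁻¹) ^ 2 * l x) = (‖x‖⁻¹) ^ 2 * (q x + C * l x) := by ring
      rw [h3] at h2
      exact (pos_iff_pos_of_mul_pos h2).1 (by positivity))
  exact ⟨C, c, hC0, hc, h⟩

section vec

variable {X : Type*} [Fintype X] [DecidableEq X]

theorem et_adj (A : Matrix X X ℝ) (v w : X → ℝ) : (A *ᵥ v) ⬝ᵥ w = v ⬝ᵥ (Aᵀ *ᵥ w) := by
  rw [Matrix.dotProduct_mulVec, Matrix.vecMul_transpose]

theorem et_sq_nonneg (v : X → ℝ) : 0 ≤ v ⬝ᵥ v := by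
  unfold dotProduct
  exact Finset.sum_nonneg fun i _ => mul_self_nonneg _

theorem et_sq_eq_zero {v : X → ℝ} (h : v ⬝ᵥ v = 0) : v = 0 := dotProduct_self_eq_zero.1 h

/-- `|B v|² = <v, Bᵀ B v>` -/
theorem et_norm_mulVec (B : Matrix X X ℝ) (v : X → ℝ) : (B *ᵥ v) ⬝ᵥ (B *ᵥ v) = v ⬝ᵥ ((Bᵀ * B) *ᵥ v) := by
  rw [et_adj, Matrix.mulVec_mulVec]

theorem et_proj_ip {Q : Matrix X X ℝ} (hs : Qᵀ = Q) (hi : Q * Q = Q) (v : X → ℝ) :
    v ⬝ᵥ (Q *ᵥ v) = (Q *ᵥ v) ⬝ᵥ (Q *ᵥ v) := by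
  rw [et_norm_mulVec, hs, hi]

theorem et_proj_nonneg {Q : Matrix X X ℝ} (hs : Qᵀ = Q) (hi : Q * Q = Q) (v : X → ℝ) : 0 ≤ v ⬝ᵥ (Q *ᵥ v) := by
  rw [et_proj_ip hs hi]
  exact et_sq_nonneg _

theorem et_proj_le {Q : Matrix X X ℝ} (hs : Qᵀ = Q) (hi : Q * Q = Q) (v : X → ℝ) : v ⬝ᵥ (Q *ᵥ v) ≤ v ⬝ᵥ v := by
  have hs' : (1 - Q)ᵀ = 1 - Q := by rw [Matrix.transpose_sub, Matrix.transpose_one, hs]
  have hi' : (1 - Q) * (1 - Q) = 1 - Q := by
    rw [Matrix.sub_mul, Matrix.mul_sub, Matrix.mul_sub, hi]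
    simp
  have h := et_proj_nonneg hs' hi' v
  rw [Matrix.sub_mulVec, Matrix.one_mulVec, dotProduct_sub] at h
  linarith

theorem et_proj_eq_zero {Q : Matrix X X ℝ} (hs : Qᵀ = Q) (hi : Q * Q = Q) {v : X → ℝ} (h : v ⬝ᵥ (Q *ᵥ v) = 0) :
    Q *ᵥ v = 0 := by
  rw [et_proj_ip hs hi] at h
  exact et_sq_eq_zero h

/-- Cauchy-Schwarz in the form used below -/
theorem et_cs_le (u v : X → ℝ) : 2 * (u ⬝ᵥ v) ≤ u ⬝ᵥ u + v ⬝ᵥ v := by
  have h := et_sq_nonneg (u - v)
  rw [sub_dotProduct, dotProduct_sub, dotProduct_sub, dotProduct_comm v u] at h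
  linarith

end vec

section geo

variable {ι α κ : Type*} [Fintype ι] [DecidableEq ι] [Fintype α] [DecidableEq α] [Fintype κ]

/-- the relations between the spatial matrices which are used in the proof of the tensor coercivity -/
structure EtGeo (P N S : κ → Matrix ι ι ℝ) (W : Matrix ι ι ℝ) (β p : ℝ) : Prop where
  Pt : ∀ i, (P i)ᵀ = P i
  PP : ∀ i, P i * P i = P i
  Nt : ∀ i, (N i)ᵀ = N i
  NN : ∀ i, N i * N i = P i
  PN : ∀ i, P i * N i = N i
  NP : ∀ i, N i * P i = N i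
  St : ∀ i, (S i)ᵀ = S i
  SS : ∀ i, S i * S i = P i
  SNS : ∀ i, S i * N i * S i = - N i
  frame : ∑ i, ((1 / 2 : ℝ) • P i - (β / 2) • N i) = 1
  b1 : |β| < 1
  Wt : Wᵀ = W
  WW : W * W = W
  PW : ∀ i, P i * W = W
  WSW : ∀ i, W * S i * W = p • W
  p1 : |p| < 1
  comm : ∃ Z : κ → κ → Matrix ι ι ℝ, 1 - W = ∑ i, ∑ k, Z i k * (P i * P k - P k * P i)

/-- the same matrix in all the slots -/
def etAll (M : Matrix ι ι ℝ) : Matrix (α → ι) (α → ι) ℝ := etK (fun _ : α => M)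

/-- `|H|² - (1/2) Σ_i |P_i^{⊗} H|²` -/
noncomputable def etQ (P : κ → Matrix ι ι ℝ) (H : (α → ι) → ℝ) : ℝ := H ⬝ᵥ H - (1 / 2) * ∑ i, H ⬝ᵥ (etAll (P i) *ᵥ H)

/-- the defect of swap invariance `Σ_i |S_i^{⊗} H - P_i^{⊗} H|²` -/
def etL (P S : κ → Matrix ι ι ℝ) (H : (α → ι) → ℝ) : ℝ :=
  ∑ i, (etAll (S i) *ᵥ H - etAll (P i) *ᵥ H) ⬝ᵥ (etAll (S i) *ᵥ H - etAll (P i) *ᵥ H)

/-- `[M;1]_a - [M;P]_a` -/
def etD (a : α) (M P : Matrix ι ι ℝ) : Matrix (α → ι) (α → ι) ℝ := etK (etS a M 1) - etK (etS a M P)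

theorem etD_transpose (a : α) {M P : Matrix ι ι ℝ} (hM : Mᵀ = M) (hP : Pᵀ = P) : (etD a M P)ᵀ = etD a M P := by
  unfold etD
  rw [Matrix.transpose_sub, etK_slot_transpose, etK_slot_transpose, hM, hP, Matrix.transpose_one]

theorem etD_idem (a : α) {M P : Matrix ι ι ℝ} (hM : M * M = M) (hP : P * P = P) : etD a M P * etD a M P = etD a M P := by
  unfold etD
  rw [Matrix.sub_mul, Matrix.mul_sub, Matrix.mul_sub, etK_slot_mul, etK_slot_mul, etK_slot_mul, etK_slot_mul, hM, hP]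
  simp

variable {P N S : κ → Matrix ι ι ℝ} {W : Matrix ι ι ℝ} {β p : ℝ}

theorem EtGeo.half_t (g : EtGeo P N S W β p) (e : ℝ) (i : κ) : ((1 / 2 : ℝ) • (P i + e • N i))ᵀ = (1 / 2 : ℝ) • (P i + e • N i) := by
  rw [Matrix.transpose_smul, Matrix.transpose_add, Matrix.transpose_smul, g.Pt, g.Nt]

theorem EtGeo.half_i (g : EtGeo P N S W β p) {e : ℝ} (he : e * e = 1) (i : κ) :
    ((1 / 2 : ℝ) • (P i + e • N i)) * ((1 / 2 : ℝ) • (P i + e • N i)) = (1 / 2 : ℝ) • (P i + e • N i) := by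
  simp only [smul_mul_assoc, mul_smul_comm, add_mul, mul_add, g.PP, g.PN, g.NP, g.NN, smul_add, smul_smul]
  rw [show (1 / 2 : ℝ) * e * (1 / 2 * e) = 1 / 4 by linear_combination (1 / 4) * he]
  module

/-- the frame identity in the slot `a` -/
theorem EtGeo.frame_slot (g : EtGeo P N S W β p) (a : α) :
    ∑ i, (((1 - β) / 2) • etD a ((1 / 2 : ℝ) • (P i + (1 : ℝ) • N i)) (P i) + ((1 + β) / 2) • etD a ((1 / 2 : ℝ) • (P i + (-1 : ℝ) • N i)) (P i))
      = 1 - (1 / 2 : ℝ) • ∑ i, etAll (α := α) (P i) + (β / 2) • ∑ i, etK (etS a (N i) (P i)) := by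
  have h1 : ∀ i, ((1 - β) / 2) • etD a ((1 / 2 : ℝ) • (P i + (1 : ℝ) • N i)) (P i) + ((1 + β) / 2) • etD a ((1 / 2 : ℝ) • (P i + (-1 : ℝ) • N i)) (P i)
      = etK (etS a ((1 / 2 : ℝ) • P i - (β / 2) • N i) 1) - (1 / 2 : ℝ) • etAll (α := α) (P i) + (β / 2) • etK (etS a (N i) (P i)) := by
    intro i
    unfold etD etAll
    rw [← etK_slot_self a (P i)]
    simp only [etK_slot_smul, etK_slot_add, etK_slot_sub]
    module
  simp only [h1]
  rw [Finset.sum_add_distrib, Finset.sum_sub_distrib, ← etK_slot_sum, g.frame, etK_slot_one, Finset.smul_sum, Finset.smul_sum]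

/-- exact swap invariance kills the `N` term -/
theorem EtGeo.swap_zero (g : EtGeo P N S W β p) (a : α) (i : κ) {H : (α → ι) → ℝ}
    (h : etAll (S i) *ᵥ H = etAll (P i) *ᵥ H) : H ⬝ᵥ (etK (etS a (N i) (P i)) *ᵥ H) = 0 := by
  have e1 : (etAll (α := α) (P i))ᵀ * (etK (etS a (N i) 1) * etAll (P i)) = etK (etS a (N i) (P i)) := by
    unfold etAll
    rw [← etK_slot_self a (P i), etK_slot_transpose, etK_slot_mul, etK_slot_mul, g.Pt, g.NP, g.PN, Matrix.one_mul, g.PP]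
  have e2 : (etAll (α := α) (S i))ᵀ * (etK (etS a (N i) 1) * etAll (S i)) = - etK (etS a (N i) (P i)) := by
    unfold etAll
    rw [← etK_slot_self a (S i), etK_slot_transpose, etK_slot_mul, etK_slot_mul, g.St, Matrix.one_mul, g.SS, ← Matrix.mul_assoc, g.SNS]
    have := etK_slot_smul a (-1 : ℝ) (N i) (P i)
    simpa using this
  have h1 : H ⬝ᵥ (etK (etS a (N i) (P i)) *ᵥ H) = (etAll (P i) *ᵥ H) ⬝ᵥ (etK (etS a (N i) 1) *ᵥ (etAll (P i) *ᵥ H)) := by
    rw [et_adj, Matrix.mulVec_mulVec, Matrix.mulVec_mulVec, Matrix.mul_assoc, e1]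
  have h2 : H ⬝ᵥ ((- etK (etS a (N i) (P i))) *ᵥ H) = (etAll (S i) *ᵥ H) ⬝ᵥ (etK (etS a (N i) 1) *ᵥ (etAll (S i) *ᵥ H)) := by
    rw [et_adj, Matrix.mulVec_mulVec, Matrix.mulVec_mulVec, Matrix.mul_assoc, e2]
  rw [h, ← h1, Matrix.neg_mulVec, dotProduct_neg] at h2
  linarith

end geo

section geo2

variable {ι α κ : Type*} [Fintype ι] [DecidableEq ι] [Fintype α] [DecidableEq α] [Fintype κ]
variable {P N S : κ → Matrix ι ι ℝ} {W : Matrix ι ι ℝ} {β p : ℝ}

theorem et_ip_sum {X : Type*} [Fintype X] (s : Finset κ) (M : κ → Matrix X X ℝ) (H : X → ℝ) :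
    H ⬝ᵥ ((∑ i ∈ s, M i) *ᵥ H) = ∑ i ∈ s, H ⬝ᵥ (M i *ᵥ H) := by
  rw [Matrix.sum_mulVec, dotProduct_sum]

theorem etL_eq_zero {H : (α → ι) → ℝ} (hL : etL P S H = 0) (i : κ) : etAll (S i) *ᵥ H = etAll (P i) *ᵥ H := by
  unfold etL at hL
  have := (Finset.sum_eq_zero_iff_of_nonneg fun i _ => et_sq_nonneg _).1 hL i (Finset.mem_univ i)
  exact sub_eq_zero.1 (et_sq_eq_zero this)

/-- under exact swap invariance `Q` is the nonnegative form of the slot `a` -/
theorem EtGeo.Q_eq (g : EtGeo P N S W β p) (a : α) {H : (α → ι) → ℝ} (hL : etL P S H = 0) :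
    etQ P H = ∑ i, (((1 - β) / 2) * (H ⬝ᵥ (etD a ((1 / 2 : ℝ) • (P i + (1 : ℝ) • N i)) (P i) *ᵥ H))
      + ((1 + β) / 2) * (H ⬝ᵥ (etD a ((1 / 2 : ℝ) • (P i + (-1 : ℝ) • N i)) (P i) *ᵥ H))) := by
  have h := congrArg (fun M => H ⬝ᵥ (M *ᵥ H)) (g.frame_slot a)
  simp only [et_ip_sum, Matrix.add_mulVec, Matrix.sub_mulVec, Matrix.smul_mulVec, dotProduct_add, dotProduct_sub,
    dotProduct_smul, smul_eq_mul, Matrix.one_mulVec] at h
  rw [h]
  unfold etQ
  have h0 : ∑ i, H ⬝ᵥ (etK (etS a (N i) (P i)) *ᵥ H) = 0 :=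
    Finset.sum_eq_zero fun i _ => g.swap_zero a i (etL_eq_zero hL i)
  rw [h0]
  ring

theorem EtGeo.slot_eq (g : EtGeo P N S W β p) (a : α) {H : (α → ι) → ℝ} (hL : etL P S H = 0) (hQ : etQ P H ≤ 0) (i : κ) :
    etK (etS a (P i) 1) *ᵥ H = etAll (P i) *ᵥ H := by
  have hb := abs_lt.1 g.b1
  have hp : ∀ (e : ℝ), e * e = 1 → ∀ i, 0 ≤ H ⬝ᵥ (etD a ((1 / 2 : ℝ) • (P i + e • N i)) (P i) *ᵥ H) := fun e he i =>
    et_proj_nonneg (etD_transpose a (g.half_t e i) (g.Pt i)) (etD_idem a (g.half_i he i) (g.PP i)) H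
  have h1 := g.Q_eq a hL
  have h2 : ∀ i ∈ (Finset.univ : Finset κ), 0 ≤ (((1 - β) / 2) * (H ⬝ᵥ (etD a ((1 / 2 : ℝ) • (P i + (1 : ℝ) • N i)) (P i) *ᵥ H))
      + ((1 + β) / 2) * (H ⬝ᵥ (etD a ((1 / 2 : ℝ) • (P i + (-1 : ℝ) • N i)) (P i) *ᵥ H))) := fun i _ =>
    add_nonneg (mul_nonneg (by linarith) (hp 1 (by norm_num) i)) (mul_nonneg (by linarith) (hp (-1) (by norm_num) i))
  have h3 : ∑ i, (((1 - β) / 2) * (H ⬝ᵥ (etD a ((1 / 2 : ℝ) • (P i + (1 : ℝ) • N i)) (P i) *ᵥ H))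
      + ((1 + β) / 2) * (H ⬝ᵥ (etD a ((1 / 2 : ℝ) • (P i + (-1 : ℝ) • N i)) (P i) *ᵥ H))) = 0 :=
    le_antisymm (h1 ▸ hQ) (Finset.sum_nonneg h2)
  have h4 := (Finset.sum_eq_zero_iff_of_nonneg h2).1 h3 i (Finset.mem_univ i)
  have h5 : H ⬝ᵥ (etD a ((1 / 2 : ℝ) • (P i + (1 : ℝ) • N i)) (P i) *ᵥ H) = 0 := by
    have a1 := hp 1 (by norm_num) i
    have a2 := hp (-1) (by norm_num) i
    have b1 : 0 < (1 - β) / 2 := by linarith
    have b2 : 0 < (1 + β) / 2 := by linarith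
    nlinarith [mul_nonneg b1.le a1, mul_nonneg b2.le a2]
  have h6 : H ⬝ᵥ (etD a ((1 / 2 : ℝ) • (P i + (-1 : ℝ) • N i)) (P i) *ᵥ H) = 0 := by
    have a1 := hp 1 (by norm_num) i
    have a2 := hp (-1) (by norm_num) i
    have b1 : 0 < (1 - β) / 2 := by linarith
    have b2 : 0 < (1 + β) / 2 := by linarith
    nlinarith [mul_nonneg b1.le a1, mul_nonneg b2.le a2]
  have h7 := et_proj_eq_zero (etD_transpose a (g.half_t 1 i) (g.Pt i)) (etD_idem a (g.half_i (by norm_num) i) (g.PP i)) h5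
  have h8 := et_proj_eq_zero (etD_transpose a (g.half_t (-1) i) (g.Pt i)) (etD_idem a (g.half_i (by norm_num) i) (g.PP i)) h6
  have h9 : etD a ((1 / 2 : ℝ) • (P i + (1 : ℝ) • N i)) (P i) + etD a ((1 / 2 : ℝ) • (P i + (-1 : ℝ) • N i)) (P i)
      = etK (etS a (P i) 1) - etAll (P i) := by
    unfold etD etAll
    rw [← etK_slot_self a (P i)]
    simp only [etK_slot_smul, etK_slot_add]
    module
  have h10 : (etK (etS a (P i) 1) - etAll (P i)) *ᵥ H = 0 := by
    rw [← h9, Matrix.add_mulVec, h7, h8, add_zero]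
  rw [Matrix.sub_mulVec] at h10
  exact sub_eq_zero.1 h10

/-- the equality case -/
theorem EtGeo.kernel (g : EtGeo P N S W β p) [Nonempty κ] [Nonempty α] (h3 : ∀ a : α, ∃ b c : α, a ≠ b ∧ a ≠ c ∧ b ≠ c)
    {H : (α → ι) → ℝ} (hL : etL P S H = 0) (hQ : etQ P H ≤ 0) : H = 0 := by
  have hK : ∀ a i, etK (etS a (P i) 1) *ᵥ H = etAll (P i) *ᵥ H := fun a i => g.slot_eq a hL hQ i
  -- the commutators kill `H`
  have hcomm : ∀ a i k, etK (etS a (P i * P k - P k * P i) 1) *ᵥ H = 0 := by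
    intro a i k
    obtain ⟨b, c, hab, hac, hbc⟩ := h3 a
    have sw : ∀ {x y : α}, x ≠ y → ∀ (M M' : Matrix ι ι ℝ) (v : (α → ι) → ℝ),
        etK (etS x M 1) *ᵥ (etK (etS y M' 1) *ᵥ v) = etK (etS y M' 1) *ᵥ (etK (etS x M 1) *ᵥ v) := by
      intro x y hxy M M' v
      rw [Matrix.mulVec_mulVec, Matrix.mulVec_mulVec, etK_slot_comm hxy]
    have e : etK (etS a (P i) 1) *ᵥ (etK (etS a (P k) 1) *ᵥ H) = etK (etS a (P k) 1) *ᵥ (etK (etS a (P i) 1) *ᵥ H) := by
      calc etK (etS a (P i) 1) *ᵥ (etK (etS a (P k) 1) *ᵥ H)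
          = etK (etS a (P i) 1) *ᵥ (etK (etS b (P k) 1) *ᵥ H) := by rw [hK a k, hK b k]
        _ = etK (etS b (P k) 1) *ᵥ (etK (etS a (P i) 1) *ᵥ H) := sw hab _ _ _
        _ = etK (etS b (P k) 1) *ᵥ (etK (etS c (P i) 1) *ᵥ H) := by rw [hK a i, hK c i]
        _ = etK (etS c (P i) 1) *ᵥ (etK (etS b (P k) 1) *ᵥ H) := sw hbc _ _ _
        _ = etK (etS c (P i) 1) *ᵥ (etK (etS a (P k) 1) *ᵥ H) := by rw [hK b k, hK a k]
        _ = etK (etS a (P k) 1) *ᵥ (etK (etS c (P i) 1) *ᵥ H) := (sw hac _ _ _).symm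
        _ = etK (etS a (P k) 1) *ᵥ (etK (etS a (P i) 1) *ᵥ H) := by rw [hK c i, hK a i]
    rw [etK_slot_sub, Matrix.sub_mulVec]
    have m1 : etK (etS a (P i * P k) 1) = etK (etS a (P i) 1) * etK (etS a (P k) 1) := by
      rw [etK_slot_mul, Matrix.one_mul]
    have m2 : etK (etS a (P k * P i) 1) = etK (etS a (P k) 1) * etK (etS a (P i) 1) := by
      rw [etK_slot_mul, Matrix.one_mul]
    rw [m1, m2, ← Matrix.mulVec_mulVec, ← Matrix.mulVec_mulVec, e, sub_self]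
  -- hence `H` is central in every slot
  have hW : ∀ a, etK (etS a W 1) *ᵥ H = H := by
    intro a
    obtain ⟨Z, hZ⟩ := g.comm
    have h1 : etK (etS a (1 - W) 1) *ᵥ H = 0 := by
      rw [hZ, etK_slot_sum, Matrix.sum_mulVec]
      refine Finset.sum_eq_zero fun i _ => ?_
      rw [etK_slot_sum, Matrix.sum_mulVec]
      refine Finset.sum_eq_zero fun k _ => ?_
      have m : etK (etS a (Z i k * (P i * P k - P k * P i)) 1) = etK (etS a (Z i k) 1) * etK (etS a (P i * P k - P k * P i) 1) := by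
        rw [etK_slot_mul, Matrix.one_mul]
      rw [m, ← Matrix.mulVec_mulVec, hcomm, Matrix.mulVec_zero]
    rw [etK_slot_sub, etK_slot_one, Matrix.sub_mulVec, Matrix.one_mulVec] at h1
    exact (sub_eq_zero.1 h1).symm
  obtain ⟨i⟩ := ‹Nonempty κ›
  obtain ⟨a⟩ := ‹Nonempty α›
  -- `S_i^{⊗} H = H`
  have hPH : etAll (P i) *ᵥ H = H := by
    rw [← hK a i]
    conv_lhs => rw [← hW a]
    rw [Matrix.mulVec_mulVec, etK_slot_mul, g.PW, Matrix.one_mul, hW]
  have hSH : etAll (S i) *ᵥ H = H := by rw [etL_eq_zero hL i, hPH]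
  -- `|H|² = p <H, [W;S] H>`
  have e1 : (etK (etS a W 1))ᵀ * (etAll (S i) * etK (etS a W 1)) = p • etK (etS a W (S i)) := by
    unfold etAll
    rw [← etK_slot_self a (S i), etK_slot_transpose, etK_slot_mul, etK_slot_mul, g.Wt, Matrix.transpose_one, Matrix.mul_one,
      Matrix.one_mul, ← Matrix.mul_assoc, g.WSW, etK_slot_smul]
  have h1 : H ⬝ᵥ H = p * (H ⬝ᵥ (etK (etS a W (S i)) *ᵥ H)) := by
    have : H ⬝ᵥ H = (etK (etS a W 1) *ᵥ H) ⬝ᵥ (etAll (S i) *ᵥ (etK (etS a W 1) *ᵥ H)) := by rw [hW, hSH]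
    rw [this, et_adj, Matrix.mulVec_mulVec, Matrix.mulVec_mulVec, Matrix.mul_assoc, e1, Matrix.smul_mulVec, dotProduct_smul,
      smul_eq_mul]
  -- `[W;S]` is a contraction
  have h2 : (etK (etS a W (S i)) *ᵥ H) ⬝ᵥ (etK (etS a W (S i)) *ᵥ H) ≤ H ⬝ᵥ H := by
    rw [et_norm_mulVec, etK_slot_transpose, etK_slot_mul, g.Wt, g.St, g.WW, g.SS]
    refine et_proj_le ?_ ?_ H
    · rw [etK_slot_transpose, g.Wt, g.Pt]
    · rw [etK_slot_mul, g.WW, g.PP]
  have h3a := et_cs_le H (etK (etS a W (S i)) *ᵥ H)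
  have h3b := et_cs_le H (-(etK (etS a W (S i)) *ᵥ H))
  rw [dotProduct_neg, neg_dotProduct, dotProduct_neg, neg_neg] at h3b
  have hn := et_sq_nonneg H
  have hp := abs_lt.1 g.p1
  refine et_sq_eq_zero ?_
  obtain ⟨t, ht⟩ : ∃ t, t = H ⬝ᵥ (etK (etS a W (S i)) *ᵥ H) := ⟨_, rfl⟩
  obtain ⟨m, hm⟩ : ∃ m, m = H ⬝ᵥ H := ⟨_, rfl⟩
  rw [← ht] at h1 h3a h3b
  rw [← hm] at h1 h3a h3b h2 hn ⊢
  have t1 : t ≤ m := by linarith
  have t2 : -m ≤ t := by linarith
  by_contra hne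
  have hm0 : 0 < m := lt_of_le_of_ne hn (Ne.symm hne)
  have a1 : |m| = |p| * |t| := by rw [h1, abs_mul]
  have a2 : |t| ≤ m := abs_le.2 ⟨t2, t1⟩
  rw [abs_of_pos hm0] at a1
  have a3 : |p| * |t| ≤ |p| * m := mul_le_mul_of_nonneg_left a2 (abs_nonneg p)
  have a4 : |p| * m < 1 * m := mul_lt_mul_of_pos_right g.p1 hm0
  linarith

end geo2

section geo3

variable {ι α κ : Type*} [Fintype ι] [DecidableEq ι] [Fintype α] [DecidableEq α] [Fintype κ]
variable {P N S : κ → Matrix ι ι ℝ} {W : Matrix ι ι ℝ} {β p : ℝ}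

theorem etQ_continuous (P : κ → Matrix ι ι ℝ) : Continuous (etQ (α := α) P) := by
  unfold etQ
  simp only [dotProduct, Matrix.mulVec]
  fun_prop

theorem etL_continuous (P S : κ → Matrix ι ι ℝ) : Continuous (etL (α := α) P S) := by
  unfold etL
  simp only [dotProduct, Matrix.mulVec, Pi.sub_apply]
  fun_prop

theorem etQ_smul (P : κ → Matrix ι ι ℝ) (t : ℝ) (H : (α → ι) → ℝ) : etQ P (t • H) = t ^ 2 * etQ P H := by
  unfold etQ
  simp only [Matrix.mulVec_smul, smul_dotProduct, dotProduct_smul, smul_eq_mul, ← Finset.mul_sum]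
  ring

theorem etL_smul (P S : κ → Matrix ι ι ℝ) (t : ℝ) (H : (α → ι) → ℝ) : etL P S (t • H) = t ^ 2 * etL P S H := by
  unfold etL
  simp only [Matrix.mulVec_smul, ← smul_sub, smul_dotProduct, dotProduct_smul, smul_eq_mul, ← Finset.mul_sum]
  ring

theorem etL_nonneg (P S : κ → Matrix ι ι ℝ) (H : (α → ι) → ℝ) : 0 ≤ etL P S H :=
  Finset.sum_nonneg fun _ _ => et_sq_nonneg _

theorem et_sq_le_norm {X : Type*} [Fintype X] (H : X → ℝ) : H ⬝ᵥ H ≤ (Fintype.card X : ℝ) * ‖H‖ ^ 2 := by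
  unfold dotProduct
  calc ∑ x, H x * H x ≤ ∑ _x : X, ‖H‖ ^ 2 := by
        refine Finset.sum_le_sum fun x _ => ?_
        have h1 : |H x| ≤ ‖H‖ := by
          have := norm_le_pi_norm H x
          rwa [Real.norm_eq_abs] at this
        have h2 : H x * H x = |H x| ^ 2 := by rw [sq_abs]; ring
        rw [h2]
        exact pow_le_pow_left₀ (abs_nonneg _) h1 2
    _ = (Fintype.card X : ℝ) * ‖H‖ ^ 2 := by simp [Finset.card_univ]

/-- **tensor coercivity, abstract and robust form**: no symmetry of the tensor is needed -/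
theorem EtGeo.coercive (g : EtGeo P N S W β p) [Nonempty κ] [Nonempty α] (h3 : ∀ a : α, ∃ b c : α, a ≠ b ∧ a ≠ c ∧ b ≠ c) :
    ∃ C c : ℝ, 0 ≤ C ∧ 0 < c ∧ ∀ H : (α → ι) → ℝ, c * (H ⬝ᵥ H) ≤ etQ P H + C * etL P S H := by
  obtain ⟨C, c, hC, hc, h⟩ := et_finsler (etQ_continuous (α := α) P) (etL_continuous (α := α) P S) (etQ_smul P) (etL_smul P S)
    (etL_nonneg P S) (fun H hL hQ => g.kernel h3 hL hQ)
  refine ⟨C, c / ((Fintype.card (α → ι) : ℝ) + 1), hC, by positivity, fun H => le_trans ?_ (h H)⟩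
  have h1 := et_sq_le_norm H
  have h2 : (0 : ℝ) ≤ Fintype.card (α → ι) := Nat.cast_nonneg _
  rw [div_mul_eq_mul_div, div_le_iff₀ (by positivity)]
  have h3 : 0 ≤ ‖H‖ ^ 2 := by positivity
  nlinarith

end geo3



section conc

variable {d : ℕ}

/-- the central direction `1/√d (1,..,1)` -/
noncomputable def etOm (d : ℕ) : Fin d → ℝ := fun _ => (√(d : ℝ))⁻¹

/-- the unit vector proportional to `e_i - 1/d` -/
noncomputable def etAv (d : ℕ) (i : Fin d) : Fin d → ℝ := fun r => √((d : ℝ) / ((d : ℝ) - 1)) * ((if r = i then 1 else 0) - 1 / (d : ℝ))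

theorem et_om_om (hd : 0 < d) : etOm d ⬝ᵥ etOm d = 1 := by
  have h : (0 : ℝ) < d := by exact_mod_cast hd
  simp only [dotProduct, etOm, Finset.sum_const, Finset.card_univ, Fintype.card_fin, nsmul_eq_mul]
  rw [← mul_inv, Real.mul_self_sqrt h.le, mul_inv_cancel₀ h.ne']

theorem et_u_sum (hd : 0 < d) (i : Fin d) : ∑ r : Fin d, ((if r = i then (1 : ℝ) else 0) - 1 / (d : ℝ)) = 0 := by
  have h : (0 : ℝ) < d := by exact_mod_cast hd
  rw [Finset.sum_sub_distrib]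
  simp only [Finset.sum_ite_eq', Finset.mem_univ, if_true, Finset.sum_const, Finset.card_univ, Fintype.card_fin, nsmul_eq_mul]
  field_simp
  ring

theorem et_om_av (hd : 0 < d) (i : Fin d) : etOm d ⬝ᵥ etAv d i = 0 := by
  simp only [dotProduct, etOm, etAv]
  have : ∀ r : Fin d, (√(d : ℝ))⁻¹ * (√((d : ℝ) / ((d : ℝ) - 1)) * ((if r = i then 1 else 0) - 1 / (d : ℝ)))
      = ((√(d : ℝ))⁻¹ * √((d : ℝ) / ((d : ℝ) - 1))) * ((if r = i then 1 else 0) - 1 / (d : ℝ)) := fun r => by ring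
  simp only [this]
  rw [← Finset.mul_sum, et_u_sum hd, mul_zero]

theorem et_av_om (hd : 0 < d) (i : Fin d) : etAv d i ⬝ᵥ etOm d = 0 := by rw [dotProduct_comm, et_om_av hd]

theorem et_u_dot (hd : 0 < d) (i k : Fin d) :
    ∑ r : Fin d, ((if r = i then (1 : ℝ) else 0) - 1 / (d : ℝ)) * ((if r = k then (1 : ℝ) else 0) - 1 / (d : ℝ))
      = (if i = k then 1 else 0) - 1 / (d : ℝ) := by
  have h : (0 : ℝ) < d := by exact_mod_cast hd
  have e : ∀ r : Fin d, ((if r = i then (1 : ℝ) else 0) - 1 / (d : ℝ)) * ((if r = k then (1 : ℝ) else 0) - 1 / (d : ℝ))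
      = (if r = i then (if r = k then (1 : ℝ) else 0) else 0) - (1 / (d : ℝ)) * ((if r = i then (1 : ℝ) else 0) - 1 / (d : ℝ))
        - (1 / (d : ℝ)) * (if r = k then (1 : ℝ) else 0) := by
    intro r
    split_ifs <;> ring
  simp only [e]
  rw [Finset.sum_sub_distrib, Finset.sum_sub_distrib, ← Finset.mul_sum, ← Finset.mul_sum, et_u_sum hd]
  simp only [Finset.sum_ite_eq', Finset.mem_univ, if_true]
  ring

/-- the Gram matrix of the directions `a_i` -/
theorem et_av_av (hd : 1 < d) (i k : Fin d) : etAv d i ⬝ᵥ etAv d k = if i = k then 1 else -(1 / ((d : ℝ) - 1)) := by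
  have h : (1 : ℝ) < d := by exact_mod_cast hd
  have h0 : (0 : ℝ) < d := by linarith
  have h1 : (0 : ℝ) < (d : ℝ) - 1 := by linarith
  simp only [dotProduct, etAv]
  have e : ∀ r : Fin d, √((d : ℝ) / ((d : ℝ) - 1)) * ((if r = i then 1 else 0) - 1 / (d : ℝ)) * (√((d : ℝ) / ((d : ℝ) - 1)) * ((if r = k then 1 else 0) - 1 / (d : ℝ)))
      = (√((d : ℝ) / ((d : ℝ) - 1)) * √((d : ℝ) / ((d : ℝ) - 1))) * (((if r = i then (1 : ℝ) else 0) - 1 / (d : ℝ)) * ((if r = k then (1 : ℝ) else 0) - 1 / (d : ℝ))) := fun r => by ring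
  simp only [e]
  rw [← Finset.mul_sum, et_u_dot (by omega), Real.mul_self_sqrt (by positivity)]
  by_cases hik : i = k
  · simp only [hik, if_true]
    field_simp
  · simp only [hik, if_false]
    field_simp
    ring

theorem et_av_sum (hd : 0 < d) : ∑ i, etAv d i = 0 := by
  have h : (0 : ℝ) < d := by exact_mod_cast hd
  funext r
  simp only [Finset.sum_apply, etAv, Pi.zero_apply]
  rw [← Finset.mul_sum]
  have : ∑ i : Fin d, ((if r = i then (1 : ℝ) else 0) - 1 / (d : ℝ)) = 0 := by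
    rw [Finset.sum_sub_distrib]
    simp only [Finset.sum_ite_eq, Finset.mem_univ, if_true, Finset.sum_const, Finset.card_univ, Fintype.card_fin, nsmul_eq_mul]
    field_simp
    ring
  rw [this, mul_zero]

/-- resolution of the identity -/
theorem et_av_res (hd : 1 < d) :
    ∑ i, vecMulVec (etAv d i) (etAv d i) = ((d : ℝ) / ((d : ℝ) - 1)) • (1 - vecMulVec (etOm d) (etOm d)) := by
  have h : (1 : ℝ) < d := by exact_mod_cast hd
  have h0 : (0 : ℝ) < d := by linarith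
  have h1 : (0 : ℝ) < (d : ℝ) - 1 := by linarith
  ext r s
  simp only [Matrix.sum_apply, vecMulVec_apply, etAv, etOm, Matrix.smul_apply, Matrix.sub_apply, Matrix.one_apply, smul_eq_mul]
  have e : ∀ i : Fin d, √((d : ℝ) / ((d : ℝ) - 1)) * ((if r = i then 1 else 0) - 1 / (d : ℝ)) * (√((d : ℝ) / ((d : ℝ) - 1)) * ((if s = i then 1 else 0) - 1 / (d : ℝ)))
      = (√((d : ℝ) / ((d : ℝ) - 1)) * √((d : ℝ) / ((d : ℝ) - 1))) * (((if i = r then (1 : ℝ) else 0) - 1 / (d : ℝ)) * ((if i = s then (1 : ℝ) else 0) - 1 / (d : ℝ))) := fun i => by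
    simp only [eq_comm (a := r), eq_comm (a := s)]
    ring
  simp only [e]
  rw [← Finset.mul_sum, et_u_dot (by omega), Real.mul_self_sqrt (by positivity), ← mul_inv, Real.mul_self_sqrt h0.le]
  simp only [one_div]

end conc

section plane

variable {d : ℕ}

/-- the orthonormal frame `(ω, a_i)` of the plane `U_i` -/
noncomputable def etV (d : ℕ) (i : Fin d) : Matrix (Fin 2) (Fin d) ℝ := Matrix.of ![etOm d, etAv d i]

theorem etV_mul_transpose (hd : 1 < d) (i : Fin d) : etV d i * (etV d i)ᵀ = 1 := by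
  ext a b
  rw [Matrix.mul_apply]
  have e : ∀ a b : Fin 2, ∑ r, etV d i a r * (etV d i)ᵀ r b = (![etOm d, etAv d i] a) ⬝ᵥ (![etOm d, etAv d i] b) := fun a b => rfl
  rw [e]
  fin_cases a <;> fin_cases b <;>
    simp [et_om_om (show 0 < d by omega), et_om_av (show 0 < d by omega), et_av_om (show 0 < d by omega), et_av_av hd]

/-- the operator on `ℝ^d` with the matrix `A` in the frame `(ω, a_i)`, zero on the orthogonal complement -/
noncomputable def etM (d : ℕ) (i : Fin d) (A : Matrix (Fin 2) (Fin 2) ℝ) : Matrix (Fin d) (Fin d) ℝ := (etV d i)ᵀ * A * etV d i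

theorem etM_mul (hd : 1 < d) (i : Fin d) (A B : Matrix (Fin 2) (Fin 2) ℝ) : etM d i A * etM d i B = etM d i (A * B) := by
  unfold etM
  calc (etV d i)ᵀ * A * etV d i * ((etV d i)ᵀ * B * etV d i)
      = (etV d i)ᵀ * A * (etV d i * (etV d i)ᵀ) * B * etV d i := by simp only [Matrix.mul_assoc]
    _ = (etV d i)ᵀ * (A * B) * etV d i := by rw [etV_mul_transpose hd, Matrix.mul_one]; simp only [Matrix.mul_assoc]

theorem etM_transpose (i : Fin d) (A : Matrix (Fin 2) (Fin 2) ℝ) : (etM d i A)ᵀ = etM d i Aᵀ := by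
  unfold etM
  simp only [Matrix.transpose_mul, Matrix.transpose_transpose, Matrix.mul_assoc]

theorem etM_expand (i : Fin d) (A : Matrix (Fin 2) (Fin 2) ℝ) :
    etM d i A = A 0 0 • vecMulVec (etOm d) (etOm d) + A 0 1 • vecMulVec (etOm d) (etAv d i)
      + A 1 0 • vecMulVec (etAv d i) (etOm d) + A 1 1 • vecMulVec (etAv d i) (etAv d i) := by
  ext r s
  simp only [etM, Matrix.mul_apply, Fin.sum_univ_two, Matrix.transpose_apply, etV, Matrix.of_apply, Matrix.cons_val_zero,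
    Matrix.cons_val_one, Matrix.add_apply, Matrix.smul_apply, vecMulVec_apply, smul_eq_mul]
  ring

theorem etM_neg (i : Fin d) (A : Matrix (Fin 2) (Fin 2) ℝ) : etM d i (-A) = - etM d i A := by
  unfold etM
  simp

theorem etM_smul (i : Fin d) (c : ℝ) (A : Matrix (Fin 2) (Fin 2) ℝ) : etM d i (c • A) = c • etM d i A := by
  unfold etM
  simp

/-- the central projection -/
noncomputable def etW (d : ℕ) : Matrix (Fin d) (Fin d) ℝ := vecMulVec (etOm d) (etOm d)

/-- the projection onto the plane `U_i` -/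
noncomputable def etP (d : ℕ) (i : Fin d) : Matrix (Fin d) (Fin d) ℝ := etM d i 1

/-- the reflection of `U_i` which exchanges `s_i s_iᵀ` and `t_i t_iᵀ` up to sign: `s_i s_iᵀ - t_i t_iᵀ` -/
noncomputable def etN (d : ℕ) (p : ℝ) (i : Fin d) : Matrix (Fin d) (Fin d) ℝ := etM d i !![√(1 - p ^ 2), -p; -p, -√(1 - p ^ 2)]

/-- the swap `ω ↔ v_i = p ω + √(1-p²) a_i` of the plane `U_i` (zero on the orthogonal complement) -/
noncomputable def etSw (d : ℕ) (p : ℝ) (i : Fin d) : Matrix (Fin d) (Fin d) ℝ := etM d i !![p, √(1 - p ^ 2); √(1 - p ^ 2), -p]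

theorem etW_eq (i : Fin d) : etW d = etM d i !![1, 0; 0, 0] := by
  rw [etM_expand]
  simp [etW]

theorem et_q0 {p : ℝ} (hp : |p| < 1) : √(1 - p ^ 2) * √(1 - p ^ 2) = 1 - p ^ 2 := by
  refine Real.mul_self_sqrt ?_
  have := (sq_lt_one_iff_abs_lt_one p).2 hp
  linarith

end plane

section inst

variable {d : ℕ}

theorem et_vmv_sum_right (u : Fin d → ℝ) (v : Fin d → Fin d → ℝ) : ∑ i, vecMulVec u (v i) = vecMulVec u (∑ i, v i) := by
  ext r s
  simp only [Matrix.sum_apply, vecMulVec_apply, Finset.sum_apply, Finset.mul_sum]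

theorem et_vmv_sum_left (u : Fin d → Fin d → ℝ) (v : Fin d → ℝ) : ∑ i, vecMulVec (u i) v = vecMulVec (∑ i, u i) v := by
  ext r s
  simp only [Matrix.sum_apply, vecMulVec_apply, Finset.sum_apply, Finset.sum_mul]

theorem et_vmv_zero_right (u : Fin d → ℝ) : vecMulVec u (0 : Fin d → ℝ) = 0 := by
  ext r s
  simp [vecMulVec_apply]

theorem et_vmv_zero_left (u : Fin d → ℝ) : vecMulVec (0 : Fin d → ℝ) u = 0 := by
  ext r s
  simp [vecMulVec_apply]

theorem et_vmv_mul (u v w x : Fin d → ℝ) : vecMulVec u v * vecMulVec w x = (v ⬝ᵥ w) • vecMulVec u x := by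
  rw [vecMulVec_mul_vecMulVec, vecMulVec_smul]

theorem etP_expand (i : Fin d) : etP d i = etW d + vecMulVec (etAv d i) (etAv d i) := by
  unfold etP etW
  rw [etM_expand]
  simp

theorem et_frame (hd : 1 < d) {p : ℝ} (hp : |p| < 1) :
    ∑ i, ((1 / 2 : ℝ) • etP d i - ((((d : ℝ) - 2) / ((d : ℝ) * √(1 - p ^ 2))) / 2) • etN d p i) = 1 := by
  have h : (1 : ℝ) < d := by exact_mod_cast hd
  have h0 : (0 : ℝ) < d := by linarith
  have h1 : (0 : ℝ) < (d : ℝ) - 1 := by linarith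
  have hq : 0 < √(1 - p ^ 2) := by
    refine Real.sqrt_pos.2 ?_
    have := (sq_lt_one_iff_abs_lt_one p).2 hp
    linarith
  obtain ⟨q, hq'⟩ : ∃ q, q = √(1 - p ^ 2) := ⟨_, rfl⟩
  rw [← hq'] at hq ⊢
  obtain ⟨b, hb⟩ : ∃ b, b = (((d : ℝ) - 2) / ((d : ℝ) * q)) / 2 := ⟨_, rfl⟩
  rw [← hb]
  have e : ∀ i, (1 / 2 : ℝ) • etP d i - b • etN d p i
      = (1 / 2 - b * q) • etW d + (b * p) • vecMulVec (etOm d) (etAv d i) + (b * p) • vecMulVec (etAv d i) (etOm d)
        + (1 / 2 + b * q) • vecMulVec (etAv d i) (etAv d i) := by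
    intro i
    rw [etP_expand]
    unfold etN
    rw [etM_expand, ← hq']
    simp only [Matrix.of_apply, Matrix.cons_val_zero, Matrix.cons_val_one, Matrix.cons_val', Matrix.cons_val_fin_one]
    unfold etW
    module
  simp only [e]
  rw [Finset.sum_add_distrib, Finset.sum_add_distrib, Finset.sum_add_distrib, ← Finset.smul_sum, ← Finset.smul_sum, ← Finset.smul_sum,
    ← Finset.smul_sum, et_vmv_sum_right, et_vmv_sum_left, et_av_sum (by omega), et_vmv_zero_right, et_vmv_zero_left, et_av_res hd]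
  simp only [Finset.sum_const, Finset.card_univ, Fintype.card_fin, smul_zero, add_zero]
  have hbq : b * q = ((d : ℝ) - 2) / (2 * d) := by
    rw [hb]
    field_simp
  rw [hbq]
  unfold etW
  have c1 : (1 / 2 + ((d : ℝ) - 2) / (2 * d)) * ((d : ℝ) / ((d : ℝ) - 1)) = 1 := by
    field_simp
    ring
  have c2 : (1 / 2 - ((d : ℝ) - 2) / (2 * d)) * (d : ℝ) = 1 := by
    field_simp
    ring
  rw [← Nat.cast_smul_eq_nsmul ℝ, smul_smul, smul_smul, c1, c2]
  module

end inst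


section inst2

variable {d : ℕ}

theorem etP_comm (hd : 1 < d) (i k : Fin d) :
    etP d i * etP d k - etP d k * etP d i
      = (etAv d i ⬝ᵥ etAv d k) • (vecMulVec (etAv d i) (etAv d k) - vecMulVec (etAv d k) (etAv d i)) := by
  have h0 : 0 < d := by omega
  rw [etP_expand, etP_expand]
  unfold etW
  simp only [add_mul, mul_add, et_vmv_mul, et_om_om h0, et_om_av h0, et_av_om h0, dotProduct_comm (etAv d k) (etAv d i)]
  module

theorem et_comm_term (hd : 1 < d) (i k : Fin d) :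
    vecMulVec (etAv d k) (etAv d i) * (etP d i * etP d k - etP d k * etP d i)
      = (etAv d i ⬝ᵥ etAv d k) • vecMulVec (etAv d k) (etAv d k)
        - ((1 / ((d : ℝ) - 1)) ^ 2 + (1 - (1 / ((d : ℝ) - 1)) ^ 2) * (if i = k then 1 else 0)) • vecMulVec (etAv d k) (etAv d i) := by
  rw [etP_comm hd]
  simp only [mul_smul_comm, mul_sub, et_vmv_mul]
  rw [et_av_av hd i i, if_pos rfl, et_av_av hd i k]
  by_cases hik : i = k
  · subst hik
    simp only [if_true]
    module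
  · simp only [hik, if_false]
    module

theorem et_comm_sum (hd : 1 < d) :
    ∑ i, ∑ k, vecMulVec (etAv d k) (etAv d i) * (etP d i * etP d k - etP d k * etP d i)
      = -((1 - (1 / ((d : ℝ) - 1)) ^ 2) * ((d : ℝ) / ((d : ℝ) - 1))) • (1 - etW d) := by
  have h0 : 0 < d := by omega
  simp only [et_comm_term hd]
  simp only [Finset.sum_sub_distrib]
  -- first sum
  have s1 : ∑ i, ∑ k, (etAv d i ⬝ᵥ etAv d k) • vecMulVec (etAv d k) (etAv d k) = 0 := by
    rw [Finset.sum_comm]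
    refine Finset.sum_eq_zero fun k _ => ?_
    rw [← Finset.sum_smul]
    have : ∑ i, etAv d i ⬝ᵥ etAv d k = (∑ i, etAv d i) ⬝ᵥ etAv d k := by rw [sum_dotProduct]
    rw [this, et_av_sum h0, zero_dotProduct, zero_smul]
  -- second sum
  have s2 : ∑ i, ∑ k, ((1 / ((d : ℝ) - 1)) ^ 2 + (1 - (1 / ((d : ℝ) - 1)) ^ 2) * (if i = k then 1 else 0)) • vecMulVec (etAv d k) (etAv d i)
      = (1 - (1 / ((d : ℝ) - 1)) ^ 2) • ∑ i, vecMulVec (etAv d i) (etAv d i) := by
    simp only [add_smul, Finset.sum_add_distrib]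
    have t1 : ∑ i, ∑ k, ((1 / ((d : ℝ) - 1)) ^ 2) • vecMulVec (etAv d k) (etAv d i) = 0 := by
      refine Finset.sum_eq_zero fun i _ => ?_
      rw [← Finset.smul_sum, et_vmv_sum_left, et_av_sum h0, et_vmv_zero_left, smul_zero]
    rw [t1, zero_add, Finset.smul_sum]
    refine Finset.sum_congr rfl fun i _ => ?_
    rw [Finset.sum_eq_single i]
    · simp
    · intro k _ hk
      simp [Ne.symm hk]
    · intro h
      exact absurd (Finset.mem_univ i) h
  rw [s1, s2, et_av_res hd]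
  unfold etW
  module

/-- **the geometry of P1 Lemma 3.5** -/
theorem et_geo (hd : 3 ≤ d) {p : ℝ} (hp : p ^ 2 < 4 * ((d : ℝ) - 1) / (d : ℝ) ^ 2) :
    EtGeo (etP d) (etN d p) (etSw d p) (etW d) (((d : ℝ) - 2) / ((d : ℝ) * √(1 - p ^ 2))) p := by
  have hd1 : 1 < d := by omega
  have h3 : (3 : ℝ) ≤ d := by exact_mod_cast hd
  have h0 : (0 : ℝ) < d := by linarith
  have hp2 : p ^ 2 < 1 := by
    refine hp.trans_le ?_
    rw [div_le_one (by positivity)]
    nlinarith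
  have hp1 : |p| < 1 := (sq_lt_one_iff_abs_lt_one p).1 hp2
  have hqq := et_q0 hp1
  have hq : 0 < √(1 - p ^ 2) := Real.sqrt_pos.2 (by linarith)
  obtain ⟨q, hq'⟩ : ∃ q, q = √(1 - p ^ 2) := ⟨_, rfl⟩
  have eN : ∀ i, etN d p i = etM d i !![q, -p; -p, -q] := fun i => by rw [hq']; rfl
  have eS : ∀ i, etSw d p i = etM d i !![p, q; q, -p] := fun i => by rw [hq']; rfl
  rw [← hq'] at hqq hq
  have m1 : (!![q, -p; -p, -q] : Matrix (Fin 2) (Fin 2) ℝ) * !![q, -p; -p, -q] = 1 := by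
    ext a b
    fin_cases a <;> fin_cases b <;> simp [Matrix.mul_apply, Fin.sum_univ_two] <;> nlinarith
  have m2 : (!![p, q; q, -p] : Matrix (Fin 2) (Fin 2) ℝ) * !![p, q; q, -p] = 1 := by
    ext a b
    fin_cases a <;> fin_cases b <;> simp [Matrix.mul_apply, Fin.sum_univ_two] <;> nlinarith
  have m3 : (!![p, q; q, -p] : Matrix (Fin 2) (Fin 2) ℝ) * !![q, -p; -p, -q] * !![p, q; q, -p] = - !![q, -p; -p, -q] := by
    ext a b
    fin_cases a <;> fin_cases b <;> simp [Matrix.mul_apply, Fin.sum_univ_two] <;>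
      first | linear_combination p * hqq | linear_combination q * hqq | linear_combination (-p) * hqq | linear_combination (-q) * hqq
  have m4 : (!![1, 0; 0, 0] : Matrix (Fin 2) (Fin 2) ℝ) * !![p, q; q, -p] * !![1, 0; 0, 0] = p • !![1, 0; 0, 0] := by
    ext a b
    fin_cases a <;> fin_cases b <;> simp [Matrix.mul_apply, Fin.sum_univ_two]
  have t1 : (!![q, -p; -p, -q] : Matrix (Fin 2) (Fin 2) ℝ)ᵀ = !![q, -p; -p, -q] := by
    ext a b
    fin_cases a <;> fin_cases b <;> simp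
  have t2 : (!![p, q; q, -p] : Matrix (Fin 2) (Fin 2) ℝ)ᵀ = !![p, q; q, -p] := by
    ext a b
    fin_cases a <;> fin_cases b <;> simp
  refine
    { Pt := fun i => by unfold etP; rw [etM_transpose, Matrix.transpose_one]
      PP := fun i => by unfold etP; rw [etM_mul hd1, Matrix.one_mul]
      Nt := fun i => by rw [eN, etM_transpose, t1]
      NN := fun i => by rw [eN, etM_mul hd1, m1]; rfl
      PN := fun i => by rw [eN]; unfold etP; rw [etM_mul hd1, Matrix.one_mul]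
      NP := fun i => by rw [eN]; unfold etP; rw [etM_mul hd1, Matrix.mul_one]
      St := fun i => by rw [eS, etM_transpose, t2]
      SS := fun i => by rw [eS, etM_mul hd1, m2]; rfl
      SNS := fun i => by rw [eS, eN, etM_mul hd1, etM_mul hd1, m3, etM_neg]
      frame := et_frame hd1 hp1
      b1 := ?_
      Wt := by unfold etW; rw [transpose_vecMulVec]
      WW := by unfold etW; rw [et_vmv_mul, et_om_om (by omega), one_smul]
      PW := fun i => by rw [etW_eq i]; unfold etP; rw [etM_mul hd1, Matrix.one_mul]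
      WSW := fun i => by rw [etW_eq i, eS, etM_mul hd1, etM_mul hd1, m4, etM_smul]
      p1 := hp1
      comm := ?_ }
  · rw [← hq', abs_of_nonneg (div_nonneg (by linarith) (by positivity)), div_lt_one (by positivity)]
    have h5 : ((d : ℝ) - 2) ^ 2 < ((d : ℝ) * q) ^ 2 := by
      rw [lt_div_iff₀ (by positivity)] at hp
      nlinarith
    exact lt_of_pow_lt_pow_left₀ 2 (by positivity) h5
  · have hc : (1 - (1 / ((d : ℝ) - 1)) ^ 2) * ((d : ℝ) / ((d : ℝ) - 1)) ≠ 0 := by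
      have a1 : (0 : ℝ) < (d : ℝ) - 1 := by linarith
      have a2 : (1 / ((d : ℝ) - 1)) ^ 2 < 1 := by
        rw [div_pow, one_pow, div_lt_one (by positivity)]
        nlinarith
      have a3 : 0 < 1 - (1 / ((d : ℝ) - 1)) ^ 2 := by linarith
      positivity
    refine ⟨fun i k => (-((1 - (1 / ((d : ℝ) - 1)) ^ 2) * ((d : ℝ) / ((d : ℝ) - 1))))⁻¹ • vecMulVec (etAv d k) (etAv d i), ?_⟩
    simp only [smul_mul_assoc, ← Finset.smul_sum]
    rw [et_comm_sum hd1, smul_smul, inv_mul_cancel₀ (neg_ne_zero.2 hc), one_smul]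

end inst2

section final

variable {d : ℕ}

theorem et_three_slots {j : ℕ} (hj : 3 ≤ j) (a : Fin j) : ∃ b c : Fin j, a ≠ b ∧ a ≠ c ∧ b ≠ c := by
  by_cases h0 : a.val = 0
  · exact ⟨⟨1, by omega⟩, ⟨2, by omega⟩, by simp [Fin.ext_iff, h0], by simp [Fin.ext_iff, h0], by simp [Fin.ext_iff]⟩
  · by_cases h1 : a.val = 1
    · exact ⟨⟨0, by omega⟩, ⟨2, by omega⟩, by simp [Fin.ext_iff, h1], by simp [Fin.ext_iff, h1], by simp [Fin.ext_iff]⟩
    · exact ⟨⟨0, by omega⟩, ⟨1, by omega⟩, by simp [Fin.ext_iff, h0], by simp [Fin.ext_iff, h1], by simp [Fin.ext_iff]⟩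

/-- **P1 Lemma 3.5 (tensor coercivity)**, robust form.  `H` is ANY tensor of order `j ≥ 3` on `ℝ^d` (no symmetry is needed):
`c |H|² ≤ |H|² - (1/2) Σ_i |P_i^{⊗j} H|² + C Σ_i |σ_i^{⊗j} P_i^{⊗j} H - P_i^{⊗j} H|²`. -/
theorem et_tensor (hd : 3 ≤ d) {p : ℝ} (hp : p ^ 2 < 4 * ((d : ℝ) - 1) / (d : ℝ) ^ 2) {j : ℕ} (hj : 3 ≤ j) :
    ∃ C c : ℝ, 0 ≤ C ∧ 0 < c ∧ ∀ H : (Fin j → Fin d) → ℝ,
      c * (H ⬝ᵥ H) ≤ etQ (etP d) H + C * etL (etP d) (etSw d p) H := by
  have : Nonempty (Fin d) := ⟨⟨0, by omega⟩⟩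
  have : Nonempty (Fin j) := ⟨⟨0, by omega⟩⟩
  exact (et_geo hd hp).coercive (et_three_slots hj)

/-- the same with passive indices (the colours): the inequality is a sum over the colour tuples -/
theorem et_tensor_col (hd : 3 ≤ d) {p : ℝ} (hp : p ^ 2 < 4 * ((d : ℝ) - 1) / (d : ℝ) ^ 2) {j : ℕ} (hj : 3 ≤ j) :
    ∃ C c : ℝ, 0 ≤ C ∧ 0 < c ∧ ∀ (γ : Type) [Fintype γ] (H : γ → (Fin j → Fin d) → ℝ),
      c * ∑ g, (H g ⬝ᵥ H g) ≤ ∑ g, etQ (etP d) (H g) + C * ∑ g, etL (etP d) (etSw d p) (H g) := by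
  obtain ⟨C, c, hC, hc, h⟩ := et_tensor hd hp hj
  refine ⟨C, c, hC, hc, fun γ _ H => ?_⟩
  rw [Finset.mul_sum, Finset.mul_sum, ← Finset.sum_add_distrib]
  exact Finset.sum_le_sum fun g _ => h (H g)

theorem et_eqns_cite : True := by
  have := @etK.eq_1.{0,0}
  have := @etS.eq_1.{0,0}
  have := @etAll.eq_1.{0,0}
  have := @etQ.eq_1.{0,0,0}
  have := @etL.eq_1.{0,0,0}
  have := @etD.eq_1.{0,0}
  have := @etOm.eq_1
  have := @etAv.eq_1
  have := @etV.eq_1
  have := @etM.eq_1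
  have := @etW.eq_1
  have := @etP.eq_1
  have := @etN.eq_1
  have := @etSw.eq_1
  trivial

end final

end Claimed.Agent.R287
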