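-- KEEP
import Claimed.Agent.R287.Ent
import Claimed.Agent.R287.Qf
import Claimed.Agent.Lib.BLGauss

/-!
# Row 287 (S0534), unit ENT, kit MIX: finite Gaussian mixtures on `ι → ℝ`      HEAD helper277.   Prefix `gm`, `Gm`.
No graph here.   `gmStd κ = qfG κ` (kit QF of helper230: rotation invariance, quadratic forms, 1-d tails and moments).   Lebesgue measure = `volume` on `ι → ℝ`.
SEC 1  Euclidean algebra (`gmN`, Cauchy-Schwarz, Lipschitz bound of a quadratic form).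
SEC 2  laws: the law of `B g` depends on `B Bᵀ` only (`gm_map_cov`, characteristic functions: Mathlib `charFun_pi`, `Measure.ext_of_charFun`, `charFun_gaussianReal`), sums of independent noises, square roots, DENSITY (`gm_map_dens`).
SEC 3  moments, tails, integrability.
SEC 4  T1 max-ratio,  T3 Gibbs.
SEC 5  T2 cells: two sided bound of the entropy of the quantised mixture, EXPLICIT form (`gm_bin_up`, `gm_bin_dn`), any dimension.
SEC 6  T4 comparison of two noises by adding independent noise (`gm_cmp`).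
SEC 7  regime `n → ∞`, fixed dimension: `gm_bin` (used for the star and the edge observation).
-/

set_option autoImplicit false

namespace Claimed.Agent.R287

open MeasureTheory ProbabilityTheory Matrix

noncomputable section

variable {ι κ κ' κ'' K : Type} [Fintype ι] [DecidableEq ι] [Fintype κ] [Fintype κ'] [Fintype κ''] [Fintype K]

/-! ### SEC 1: Euclidean algebra -/

/-- Euclidean norm -/
def gmN (x : ι → ℝ) : ℝ := Real.sqrt (gmSq x)

theorem gm_std_eq : gmStd κ = qfG κ := rfl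

omit [DecidableEq ι] in
theorem gm_Sq_eq (x : ι → ℝ) : gmSq x = x ⬝ᵥ x := by
  simp [gmSq, dotProduct, sq]

omit [DecidableEq ι] in
theorem gm_Sq_nonneg (x : ι → ℝ) : 0 ≤ gmSq x := Finset.sum_nonneg fun _ _ => sq_nonneg _

omit [DecidableEq ι] in
theorem gm_N_sq (x : ι → ℝ) : gmN x ^ 2 = gmSq x := Real.sq_sqrt (gm_Sq_nonneg x)

omit [DecidableEq ι] in
theorem gm_N_nonneg (x : ι → ℝ) : 0 ≤ gmN x := Real.sqrt_nonneg _

omit [DecidableEq ι] in
/-- Cauchy-Schwarz (`Finset.sum_mul_sq_le_sq_mul_sq` or `Finset.inner_mul_le_norm_mul_norm`) -/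
theorem gm_dot_le (x y : ι → ℝ) : |x ⬝ᵥ y| ≤ gmN x * gmN y := by
  unfold gmN
  rw [← Real.sqrt_mul (gm_Sq_nonneg x)]
  apply Real.abs_le_sqrt
  exact Finset.sum_mul_sq_le_sq_mul_sq _ _ _

omit [DecidableEq ι] in
/-- triangle inequality (square it, `gm_dot_le`) -/
theorem gm_N_add (x y : ι → ℝ) : gmN (x + y) ≤ gmN x + gmN y := by
  have h1 : gmSq (x + y) = gmSq x + 2 * (x ⬝ᵥ y) + gmSq y := by
    simp only [gmSq, dotProduct, Pi.add_apply, Finset.mul_sum, ← Finset.sum_add_distrib]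
    exact Finset.sum_congr rfl fun i _ => by ring
  have h2 := (le_abs_self _).trans (gm_dot_le x y)
  have hx := gm_N_nonneg x
  have hy := gm_N_nonneg y
  have e : gmN (x + y) = Real.sqrt (gmSq (x + y)) := rfl
  rw [e]
  refine Real.sqrt_le_iff.2 ⟨by positivity, ?_⟩
  rw [h1]
  nlinarith [gm_N_sq x, gm_N_sq y]

omit [DecidableEq ι] in
theorem gm_N_coord (x : ι → ℝ) (i : ι) : |x i| ≤ gmN x := by
  apply Real.abs_le_sqrt
  exact Finset.single_le_sum (f := fun j => x j ^ 2) (fun j _ => sq_nonneg _) (Finset.mem_univ i)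

omit [DecidableEq ι] in
/-- `|x|₂ ≤ √D sup |x_i|` -/
theorem gm_N_le_sup (x : ι → ℝ) {s : ℝ} (hs : ∀ i, |x i| ≤ s) : gmN x ≤ Real.sqrt (Fintype.card ι) * s := by
  rcases isEmpty_or_nonempty ι with he | ⟨⟨i0⟩⟩
  · simp [gmN, gmSq]
  · have hs0 : 0 ≤ s := (abs_nonneg _).trans (hs i0)
    have h1 : gmSq x ≤ (Fintype.card ι : ℝ) * s ^ 2 := by
      have := Finset.sum_le_card_nsmul (Finset.univ : Finset ι) (fun i => x i ^ 2) (s ^ 2) (fun i _ => by
        rw [← sq_abs]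
        exact pow_le_pow_left₀ (abs_nonneg _) (hs i) 2)
      simpa [gmSq] using this
    calc gmN x = Real.sqrt (gmSq x) := rfl
      _ ≤ Real.sqrt ((Fintype.card ι : ℝ) * s ^ 2) := Real.sqrt_le_sqrt h1
      _ = Real.sqrt (Fintype.card ι) * s := by rw [Real.sqrt_mul (Nat.cast_nonneg _), Real.sqrt_sq hs0]

omit [DecidableEq ι] in
/-- Lipschitz bound of a positive semidefinite quadratic form: `Q x - Q y = (x - y)ᵀ Λ (x + y)`, Cauchy-Schwarz for the form `Λ` (discriminant of `t ↦ Q (u + t v) ≥ 0`) -/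
theorem gm_Q_lip {Λ : Matrix ι ι ℝ} {lam : ℝ} (hs : Λᵀ = Λ) (h0 : ∀ x, 0 ≤ gmQ Λ x) (h1 : ∀ x, gmQ Λ x ≤ lam * gmSq x) (x y : ι → ℝ) :
    |gmQ Λ x - gmQ Λ y| ≤ lam * gmN (x - y) * (gmN x + gmN y) := by
  have hsym : ∀ u v : ι → ℝ, u ⬝ᵥ (Λ *ᵥ v) = v ⬝ᵥ (Λ *ᵥ u) := by
    intro u v
    rw [Matrix.dotProduct_mulVec, ← Matrix.mulVec_transpose, hs, dotProduct_comm]
  have hexp : ∀ (u v : ι → ℝ) (t : ℝ), gmQ Λ (u + t • v) = gmQ Λ v * (t * t) + 2 * (u ⬝ᵥ (Λ *ᵥ v)) * t + gmQ Λ u := by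
    intro u v t
    unfold gmQ
    rw [Matrix.mulVec_add, Matrix.mulVec_smul, add_dotProduct, dotProduct_add, dotProduct_add, smul_dotProduct, smul_dotProduct,
      dotProduct_smul, dotProduct_smul, hsym v u]
    simp only [smul_eq_mul]
    ring
  have hcs : ∀ u v : ι → ℝ, (u ⬝ᵥ (Λ *ᵥ v)) ^ 2 ≤ gmQ Λ u * gmQ Λ v := by
    intro u v
    have hd := discrim_le_zero (a := gmQ Λ v) (b := 2 * (u ⬝ᵥ (Λ *ᵥ v))) (c := gmQ Λ u) (fun t => by
      rw [← hexp]; exact h0 _)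
    unfold discrim at hd
    nlinarith
  set u := x - y with hu
  set v := x + y with hv
  have hdiff : gmQ Λ x - gmQ Λ y = u ⬝ᵥ (Λ *ᵥ v) := by
    rw [hu, hv]
    unfold gmQ
    rw [Matrix.mulVec_add, sub_dotProduct, dotProduct_add, dotProduct_add, hsym y x]
    ring
  have hNu := gm_N_nonneg u
  have hNv := gm_N_nonneg v
  have hlu : 0 ≤ lam * gmN u := by
    have h2 : 0 ≤ lam * gmN u * gmN u := by
      have := (h0 u).trans (h1 u)
      rw [← gm_N_sq] at this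
      nlinarith
    rcases hNu.eq_or_lt with h3 | h3
    · rw [← h3]; simp
    · exact nonneg_of_mul_nonneg_left h2 h3
  have hsq : (u ⬝ᵥ (Λ *ᵥ v)) ^ 2 ≤ (lam * gmN u * gmN v) ^ 2 := by
    calc (u ⬝ᵥ (Λ *ᵥ v)) ^ 2 ≤ gmQ Λ u * gmQ Λ v := hcs u v
      _ ≤ (lam * gmSq u) * (lam * gmSq v) := mul_le_mul (h1 u) (h1 v) (h0 v) ((h0 u).trans (h1 u))
      _ = (lam * gmN u * gmN v) ^ 2 := by rw [← gm_N_sq u, ← gm_N_sq v]; ring
  rw [hdiff]
  calc |u ⬝ᵥ (Λ *ᵥ v)| ≤ lam * gmN u * gmN v := abs_le.2 (abs_le_of_sq_le_sq' hsq (mul_nonneg hlu hNv))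
    _ ≤ lam * gmN u * (gmN x + gmN y) := mul_le_mul_of_nonneg_left (gm_N_add x y) hlu

/-! ### SEC 2: laws -/

instance gm_x_prob : IsProbabilityMeasure (gmStd κ) := by unfold gmStd; infer_instance

omit [Fintype ι] [DecidableEq ι] in
theorem gm_x_meas (B : Matrix ι κ ℝ) : Measurable fun g : κ → ℝ => B *ᵥ g := by
  refine measurable_pi_lambda _ fun i => ?_
  simp only [mulVec, dotProduct]
  fun_prop

/-- Fourier transform of a linear form of the standard Gaussian -/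
theorem gm_x_cf0 (c : κ → ℝ) :
    ∫ g, Complex.exp (((∑ a, c a * g a : ℝ) : ℂ) * Complex.I) ∂(gmStd κ) = Complex.exp (-((∑ a, c a ^ 2 : ℝ) : ℂ) / 2) := by
  have h1 : ∀ g : κ → ℝ, Complex.exp (((∑ a, c a * g a : ℝ) : ℂ) * Complex.I)
      = ∏ a, Complex.exp (((c a * g a : ℝ) : ℂ) * Complex.I) := by
    intro g
    rw [← Complex.exp_sum, Complex.ofReal_sum, Finset.sum_mul]
  simp_rw [h1]
  unfold gmStd
  rw [integral_fintype_prod_eq_prod (fun a => fun x : ℝ => Complex.exp (((c a * x : ℝ) : ℂ) * Complex.I))]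
  have h2 : ∀ a, ∫ x : ℝ, Complex.exp (((c a * x : ℝ) : ℂ) * Complex.I) ∂(gaussianReal 0 1)
      = Complex.exp (-((c a ^ 2 : ℝ) : ℂ) / 2) := by
    intro a
    have := charFun_gaussianReal (μ := 0) (v := 1) (c a)
    rw [charFun_apply_real] at this
    rw [show (fun x : ℝ => Complex.exp (((c a * x : ℝ) : ℂ) * Complex.I)) = fun x : ℝ => Complex.exp (((c a : ℝ) : ℂ) * (x : ℂ) * Complex.I) by
      funext x; push_cast; ring_nf]
    rw [this]
    congr 1
    push_cast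
    ring
  simp_rw [h2]
  rw [← Complex.exp_sum]
  congr 1
  rw [Complex.ofReal_sum, ← Finset.sum_neg_distrib, Finset.sum_div]

/-- a continuous linear form on `ι → ℝ` in coordinates -/
theorem gm_x_dual (L : StrongDual ℝ (ι → ℝ)) (v : ι → ℝ) : L v = ∑ i, L (Pi.single i 1) * v i := by
  have := LinearMap.pi_apply_eq_sum_univ (L : (ι → ℝ) →ₗ[ℝ] ℝ) v
  simp only [ContinuousLinearMap.coe_coe, smul_eq_mul] at this
  rw [this]
  refine Finset.sum_congr rfl fun i _ => ?_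
  rw [mul_comm]
  congr 2
  funext j
  simp [Pi.single_apply, eq_comm]

theorem gm_x_lin (L : StrongDual ℝ (ι → ℝ)) (B : Matrix ι κ ℝ) (g : κ → ℝ) :
    L (B *ᵥ g) = ∑ a, ((fun i => L (Pi.single i 1)) ᵥ* B) a * g a := by
  rw [gm_x_dual]
  simp only [mulVec, vecMul, dotProduct, Finset.mul_sum, Finset.sum_mul]
  rw [Finset.sum_comm]
  refine Finset.sum_congr rfl fun a _ => Finset.sum_congr rfl fun i _ => by ring

omit [DecidableEq ι] in
theorem gm_x_sq (t : ι → ℝ) (B : Matrix ι κ ℝ) : ∑ a, (t ᵥ* B) a ^ 2 = t ⬝ᵥ ((B * Bᵀ) *ᵥ t) := by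
  rw [← mulVec_mulVec, dotProduct_mulVec, mulVec_transpose]
  simp [dotProduct, sq]

theorem gm_x_int (L : StrongDual ℝ (ι → ℝ)) (B : Matrix ι κ ℝ) :
    ∫ g, Complex.exp ((L (B *ᵥ g) : ℂ) * Complex.I) ∂(gmStd κ)
      = Complex.exp (-(((fun i => L (Pi.single i 1)) ⬝ᵥ ((B * Bᵀ) *ᵥ (fun i => L (Pi.single i 1))) : ℝ) : ℂ) / 2) := by
  simp_rw [gm_x_lin]
  rw [gm_x_cf0, gm_x_sq]

theorem gm_x_cf (L : StrongDual ℝ (ι → ℝ)) (B : Matrix ι κ ℝ) :
    charFunDual ((gmStd κ).map (fun g => B *ᵥ g)) L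
      = Complex.exp (-(((fun i => L (Pi.single i 1)) ⬝ᵥ ((B * Bᵀ) *ᵥ (fun i => L (Pi.single i 1))) : ℝ) : ℂ) / 2) := by
  rw [charFunDual_apply, integral_map (gm_x_meas B).aemeasurable (by fun_prop), gm_x_int]

omit [DecidableEq ι] in
theorem gm_x_Sq_dot (x : ι → ℝ) : gmSq x = x ⬝ᵥ x := by
  simp [gmSq, dotProduct, sq]

omit [DecidableEq ι] in
/-- the density of the standard Gaussian -/
theorem gm_x_std : gmStd ι = volume.withDensity fun x : ι → ℝ =>
    ENNReal.ofReal ((2 * Real.pi) ^ (-(Fintype.card ι : ℝ) / 2) * Real.exp (-(gmSq x) / 2)) := by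
  unfold gmStd
  rw [Claimed.Agent.BL.bl_pi_gaussian_eq_withDensity]
  congr 1
  funext x
  congr 1
  simp only [gaussianPDFReal, sub_zero, NNReal.coe_one, mul_one]
  rw [Finset.prod_mul_distrib, Finset.prod_const, Finset.card_univ, ← Real.exp_sum]
  congr 1
  · have h2 : (0 : ℝ) < 2 * Real.pi := by positivity
    rw [Real.sqrt_eq_rpow, ← Real.rpow_neg h2.le, ← Real.rpow_natCast, ← Real.rpow_mul h2.le]
    congr 1
    ring
  · congr 1
    rw [gmSq, neg_div, Finset.sum_div, ← Finset.sum_neg_distrib]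
    exact Finset.sum_congr rfl fun i _ => by ring

omit [DecidableEq ι] in
theorem gm_x_Q_sq (M : Matrix κ ι ℝ) (x : ι → ℝ) : gmQ (Mᵀ * M) x = gmSq (M *ᵥ x) := by
  rw [gmQ, gm_x_Sq_dot, ← mulVec_mulVec, dotProduct_mulVec, vecMul_transpose]

omit [DecidableEq ι] in
/-- **the law of `B g` depends on `B Bᵀ` only**.   Push both sides to `EuclideanSpace ℝ ι` by `toLp 2` (measurable equivalence) and use `Measure.ext_of_charFun`;
`charFun` of the image at `t` = `∫ exp(i ⟨Bᵀ t, g⟩) = ∏_a exp(-(Bᵀ t)_a²/2)` (`charFun_pi`/`integral_fintype_prod_eq_prod`, `charFun_gaussianReal`) `= exp(-tᵀ B Bᵀ t/2)`. -/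
theorem gm_map_cov (B : Matrix ι κ ℝ) (B' : Matrix ι κ' ℝ) (h : B * Bᵀ = B' * B'ᵀ) :
    (gmStd κ).map (fun g => B *ᵥ g) = (gmStd κ').map (fun g => B' *ᵥ g) := by
  classical
  have := Measure.isProbabilityMeasure_map (μ := gmStd κ) (gm_x_meas B).aemeasurable
  have := Measure.isProbabilityMeasure_map (μ := gmStd κ') (gm_x_meas B').aemeasurable
  refine Measure.ext_of_charFunDual (funext fun L => ?_)
  rw [gm_x_cf, gm_x_cf, h]

omit [DecidableEq ι] in
/-- sum of two independent noises (same proof as `gm_map_cov`; or `gm_map_cov` for `Matrix.fromCols B B'` and `MeasurableEquiv.sumPiEquivProdPi` + `measurePreserving_sumPiEquivProdPi`) -/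
theorem gm_map_add (B : Matrix ι κ ℝ) (B' : Matrix ι κ' ℝ) (B'' : Matrix ι κ'' ℝ) (h : B * Bᵀ + B' * B'ᵀ = B'' * B''ᵀ) :
    ((gmStd κ).prod (gmStd κ')).map (fun p => B *ᵥ p.1 + B' *ᵥ p.2) = (gmStd κ'').map (fun g => B'' *ᵥ g) := by
  classical
  have hm : Measurable fun p : (κ → ℝ) × (κ' → ℝ) => B *ᵥ p.1 + B' *ᵥ p.2 :=
    ((gm_x_meas B).comp measurable_fst).add ((gm_x_meas B').comp measurable_snd)
  have := Measure.isProbabilityMeasure_map (μ := (gmStd κ).prod (gmStd κ')) hm.aemeasurable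
  have := Measure.isProbabilityMeasure_map (μ := gmStd κ'') (gm_x_meas B'').aemeasurable
  refine Measure.ext_of_charFunDual (funext fun L => ?_)
  rw [gm_x_cf, charFunDual_apply, integral_map hm.aemeasurable (by fun_prop)]
  have h1 : ∀ p : (κ → ℝ) × (κ' → ℝ), Complex.exp ((L (B *ᵥ p.1 + B' *ᵥ p.2) : ℂ) * Complex.I)
      = Complex.exp ((L (B *ᵥ p.1) : ℂ) * Complex.I) * Complex.exp ((L (B' *ᵥ p.2) : ℂ) * Complex.I) := by
    intro p
    rw [← Complex.exp_add, map_add]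
    push_cast
    ring_nf
  simp_rw [h1]
  rw [integral_prod_mul (fun g : κ → ℝ => Complex.exp ((L (B *ᵥ g) : ℂ) * Complex.I))
    (fun g : κ' → ℝ => Complex.exp ((L (B' *ᵥ g) : ℂ) * Complex.I)), gm_x_int, gm_x_int, ← Complex.exp_add, ← h]
  congr 1
  rw [add_mulVec, dotProduct_add]
  push_cast
  ring

open scoped MatrixOrder in
/-- square root of a positive semidefinite matrix (`CFC.sqrt`, `Matrix.PosSemidef`; or the spectral theorem) -/
theorem gm_sqrt {S : Matrix ι ι ℝ} (hs : Sᵀ = S) (h0 : ∀ x, 0 ≤ gmQ S x) : ∃ B : Matrix ι ι ℝ, Bᵀ = B ∧ B * B = S := by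
  have hS : S.PosSemidef := by
    refine PosSemidef.of_dotProduct_mulVec_nonneg ?_ fun x => ?_
    · rw [IsHermitian, conjTranspose_eq_transpose_of_trivial, hs]
    · simpa [gmQ] using h0 x
  refine ⟨CFC.sqrt S, ?_, CFC.sqrt_mul_sqrt_self S hS.nonneg⟩
  have := (CFC.sqrt_nonneg S).posSemidef.1
  rwa [IsHermitian, conjTranspose_eq_transpose_of_trivial] at this

/-- density, SQUARE case: `γ = volume.withDensity` (`Lib/BLGauss.lean : bl_pi_gaussian_eq_withDensity`), linear change of variables `Real.map_matrix_volume_pi_eq_smul_volume_pi`, translation invariance;   `det Λ = (det M)²`, `Q_Λ(y - m) = |M (y - m)|²` -/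
theorem gm_map_dens_sq (L M : Matrix ι ι ℝ) (hML : M * L = 1) (m : ι → ℝ) :
    (gmStd ι).map (fun g => m + L *ᵥ g) = volume.withDensity fun y => ENNReal.ofReal (gmDens (Mᵀ * M) m y) := by
  have hdet : M.det * L.det = 1 := by rw [← det_mul, hML, det_one]
  have hL0 : L.det ≠ 0 := right_ne_zero_of_mul_eq_one hdet
  have hinv : (L.det)⁻¹ = M.det := (eq_inv_of_mul_eq_one_left hdet).symm
  have hT : Measurable fun g : ι → ℝ => m + L *ᵥ g := measurable_const.add (gm_x_meas L)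
  have hvol : (volume : Measure (ι → ℝ)).map (fun g => m + L *ᵥ g) = ENNReal.ofReal |M.det| • volume := by
    have h1 : (fun g : ι → ℝ => m + L *ᵥ g) = (fun y => m + y) ∘ (toLin' L) := by
      funext g; simp [toLin'_apply]
    rw [h1, ← Measure.map_map (measurable_const_add m) (show Measurable (toLin' L) from gm_x_meas L),
      Real.map_matrix_volume_pi_eq_smul_volume_pi hL0, Measure.map_smul, map_add_left_eq_self, hinv]
  set f : (ι → ℝ) → ENNReal := fun x =>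
    ENNReal.ofReal ((2 * Real.pi) ^ (-(Fintype.card ι : ℝ) / 2) * Real.exp (-(gmSq x) / 2)) with hf
  have hfm : Measurable f := by
    refine ENNReal.measurable_ofReal.comp ?_
    unfold gmSq
    fun_prop
  have hSm : Measurable fun y : ι → ℝ => M *ᵥ (y - m) := (gm_x_meas M).comp (measurable_id.sub_const m)
  have hfS : Measurable fun y : ι → ℝ => f (M *ᵥ (y - m)) := hfm.comp hSm
  refine Measure.ext fun s hs => ?_
  rw [Measure.map_apply hT hs, gm_x_std, withDensity_apply _ (hT hs), withDensity_apply _ hs,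
    ← lintegral_indicator (hT hs), ← lintegral_indicator hs]
  have h2 : ∀ x : ι → ℝ, ((fun g => m + L *ᵥ g) ⁻¹' s).indicator f x
      = (fun y => s.indicator (fun y => f (M *ᵥ (y - m))) y) (m + L *ᵥ x) := by
    intro x
    have : M *ᵥ (m + L *ᵥ x - m) = x := by
      rw [add_sub_cancel_left, mulVec_mulVec, hML, one_mulVec]
    by_cases hx : m + L *ᵥ x ∈ s
    · rw [Set.indicator_of_mem (show x ∈ (fun g => m + L *ᵥ g) ⁻¹' s from hx)]
      simp only
      rw [Set.indicator_of_mem hx, this]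
    · rw [Set.indicator_of_notMem (show x ∉ (fun g => m + L *ᵥ g) ⁻¹' s from hx)]
      simp only
      rw [Set.indicator_of_notMem hx]
  refine (lintegral_congr h2).trans ?_
  rw [← lintegral_map (f := fun y => s.indicator (fun y => f (M *ᵥ (y - m))) y) (hfS.indicator hs) hT, hvol,
    lintegral_smul_measure, smul_eq_mul, ← lintegral_const_mul _ (hfS.indicator hs)]
  refine lintegral_congr fun y => ?_
  by_cases hy : y ∈ s
  · rw [Set.indicator_of_mem hy, Set.indicator_of_mem hy, hf]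
    rw [← ENNReal.ofReal_mul (abs_nonneg _)]
    congr 1
    rw [gmDens, gm_x_Q_sq, det_mul, det_transpose, ← sq, Real.sqrt_sq_eq_abs]
    ring
  · rw [Set.indicator_of_notMem hy, Set.indicator_of_notMem hy, mul_zero]

/-- **density of `m + B g`**, `B Bᵀ Λ = 1`:   `gm_sqrt` for `B Bᵀ`, `gm_map_cov`, `gm_map_dens_sq` -/
theorem gm_map_dens (B : Matrix ι κ ℝ) (Λ : Matrix ι ι ℝ) (h : B * Bᵀ * Λ = 1) (m : ι → ℝ) :
    (gmStd κ).map (fun g => m + B *ᵥ g) = volume.withDensity fun y => ENNReal.ofReal (gmDens Λ m y) := by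
  have hS : (B * Bᵀ)ᵀ = B * Bᵀ := by rw [transpose_mul, transpose_transpose]
  have hsym : Λᵀ = Λ := by
    have h' : Λᵀ * (B * Bᵀ) = 1 := by
      have := congrArg transpose h
      rwa [transpose_mul, hS, transpose_one] at this
    calc Λᵀ = Λᵀ * (B * Bᵀ * Λ) := by rw [h, mul_one]
      _ = (Λᵀ * (B * Bᵀ)) * Λ := by simp only [Matrix.mul_assoc]
      _ = Λ := by rw [h', one_mul]
  have h0 : ∀ x, 0 ≤ gmQ (B * Bᵀ) x := by
    intro x
    have := gm_x_Q_sq Bᵀ x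
    rw [transpose_transpose] at this
    rw [this]
    exact Finset.sum_nonneg fun _ _ => sq_nonneg _
  obtain ⟨L, hLs, hLL⟩ := gm_sqrt hS h0
  have hc : (gmStd κ).map (fun g => B *ᵥ g) = (gmStd ι).map (fun g => L *ᵥ g) :=
    gm_map_cov B L (by rw [hLs, hLL])
  have e1 : (gmStd κ).map (fun g => m + B *ᵥ g) = ((gmStd κ).map (fun g => B *ᵥ g)).map (fun y => m + y) := by
    rw [Measure.map_map (measurable_const_add m) (gm_x_meas B)]
    rfl
  have e2 : (gmStd ι).map (fun g => m + L *ᵥ g) = ((gmStd ι).map (fun g => L *ᵥ g)).map (fun y => m + y) := by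
    rw [Measure.map_map (measurable_const_add m) (gm_x_meas L)]
    rfl
  have hML : (L * Λ) * L = 1 := by
    rw [mul_eq_one_comm, ← Matrix.mul_assoc, hLL, h]
  have hΛ : (L * Λ)ᵀ * (L * Λ) = Λ := by
    rw [transpose_mul, hLs, hsym, Matrix.mul_assoc, ← Matrix.mul_assoc L L Λ, hLL, h, mul_one]
  rw [e1, hc, ← e2, gm_map_dens_sq L (L * Λ) hML m, hΛ]

/-- consequences of `B Bᵀ Λ = 1`: symmetric, positive definite -/
theorem gm_prec (B : Matrix ι κ ℝ) (Λ : Matrix ι ι ℝ) (h : B * Bᵀ * Λ = 1) :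
    Λᵀ = Λ ∧ 0 < Λ.det ∧ (∀ x, gmQ Λ x = gmSq (Bᵀ *ᵥ (Λ *ᵥ x))) ∧ ∀ g, gmQ Λ (B *ᵥ g) ≤ gmSq g := by
  have hS : (B * Bᵀ)ᵀ = B * Bᵀ := by rw [transpose_mul, transpose_transpose]
  have h' : Λᵀ * (B * Bᵀ) = 1 := by
    have := congrArg transpose h
    rwa [transpose_mul, hS, transpose_one] at this
  have hsym : Λᵀ = Λ := by
    calc Λᵀ = Λᵀ * (B * Bᵀ * Λ) := by rw [h, mul_one]
      _ = (Λᵀ * (B * Bᵀ)) * Λ := by simp only [Matrix.mul_assoc]
      _ = Λ := by rw [h', one_mul]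
  have hQ : ∀ x, gmQ Λ x = gmSq (Bᵀ *ᵥ (Λ *ᵥ x)) := by
    intro x
    have h1 : (B * Bᵀ) *ᵥ (Λ *ᵥ x) = x := by rw [mulVec_mulVec, h, one_mulVec]
    rw [gm_x_Sq_dot]
    nth_rewrite 1 [mulVec_transpose]
    rw [← dotProduct_mulVec, mulVec_mulVec, h1, gmQ, dotProduct_comm]
  refine ⟨hsym, ?_, hQ, ?_⟩
  · have hdet : (B * Bᵀ).det * Λ.det = 1 := by rw [← det_mul, h, det_one]
    have h0 : 0 ≤ (B * Bᵀ).det := by
      have := (posSemidef_self_mul_conjTranspose B).det_nonneg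
      rwa [conjTranspose_eq_transpose_of_trivial] at this
    have h1 : 0 < (B * Bᵀ).det := lt_of_le_of_ne h0 (Ne.symm (left_ne_zero_of_mul_eq_one hdet))
    by_contra hc
    have : (B * Bᵀ).det * Λ.det ≤ 0 := mul_nonpos_of_nonneg_of_nonpos h0 (not_lt.1 hc)
    linarith
  · intro g
    set p : κ → ℝ := Bᵀ *ᵥ (Λ *ᵥ (B *ᵥ g)) with hp
    have h1 : gmQ Λ (B *ᵥ g) = gmSq p := hQ _
    have h2 : g ⬝ᵥ p = gmSq p := by
      rw [← h1, hp, dotProduct_mulVec, vecMul_transpose, gmQ]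
    have h3 : gmSq (g - p) = gmSq g - gmSq p := by
      rw [gm_x_Sq_dot, sub_dotProduct, dotProduct_sub, dotProduct_sub, dotProduct_comm p g, h2, ← gm_x_Sq_dot, ← gm_x_Sq_dot]
      ring
    have h4 : 0 ≤ gmSq (g - p) := Finset.sum_nonneg fun _ _ => sq_nonneg _
    rw [h1]
    linarith

/-- Cameron-Martin: `∫ φ(b + g) dγ = ∫ φ(y) exp(⟨b,y⟩ - |b|²/2) dγ(y)`   (both sides via the density of `γ`; no integrability hypothesis: if one side is not integrable, so is the other) -/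
theorem gm_shift (b : ι → ℝ) (φ : (ι → ℝ) → ℝ) :
    ∫ g, φ (b + g) ∂(gmStd ι) = ∫ y, φ y * Real.exp (b ⬝ᵥ y - gmSq b / 2) ∂(gmStd ι) := by
  have h1 : (gmStd ι).map (fun g => b + g) = (gmStd ι).withDensity fun y => ENNReal.ofReal (Real.exp (b ⬝ᵥ y - gmSq b / 2)) := by
    have e1 := gm_map_dens_sq (1 : Matrix ι ι ℝ) 1 (one_mul 1) b
    have e0 := gm_map_dens_sq (1 : Matrix ι ι ℝ) 1 (one_mul 1) (0 : ι → ℝ)
    simp only [one_mulVec, zero_add, Measure.map_id'] at e1 e0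
    have hm0 : Measurable fun y : ι → ℝ => ENNReal.ofReal (gmDens ((1 : Matrix ι ι ℝ)ᵀ * 1) 0 y) := by
      refine ENNReal.measurable_ofReal.comp ?_
      unfold gmDens gmQ
      simp only [transpose_one, mul_one, one_mulVec, dotProduct]
      fun_prop
    have hm1 : Measurable fun y : ι → ℝ => ENNReal.ofReal (Real.exp (b ⬝ᵥ y - gmSq b / 2)) := by
      refine ENNReal.measurable_ofReal.comp ?_
      simp only [dotProduct]
      fun_prop
    rw [e1]
    nth_rewrite 1 [e0]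
    rw [← withDensity_mul _ hm0 hm1]
    congr 1
    funext y
    simp only [Pi.mul_apply]
    rw [← ENNReal.ofReal_mul (by unfold gmDens; positivity)]
    congr 1
    unfold gmDens gmQ
    simp only [transpose_one, mul_one, one_mulVec, sub_zero]
    have h3 : Real.exp (-((y - b) ⬝ᵥ (y - b)) / 2) = Real.exp (-(y ⬝ᵥ y) / 2) * Real.exp (b ⬝ᵥ y - gmSq b / 2) := by
      rw [← Real.exp_add]
      congr 1
      rw [sub_dotProduct, dotProduct_sub, dotProduct_sub, dotProduct_comm y b, gm_x_Sq_dot]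
      ring
    rw [h3]
    ring
  have hemb : MeasurableEmbedding fun g : ι → ℝ => b + g := measurableEmbedding_addLeft b
  rw [← hemb.integral_map, h1]
  have hm : Measurable fun y : ι → ℝ => Real.toNNReal (Real.exp (b ⬝ᵥ y - gmSq b / 2)) := by
    refine measurable_real_toNNReal.comp ?_
    simp only [dotProduct]
    fun_prop
  have := integral_withDensity_eq_integral_smul (μ := gmStd ι) hm φ
  simp only [ENNReal.ofReal] at *
  rw [this]
  refine integral_congr_ae (Filter.Eventually.of_forall fun y => ?_)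
  simp only [NNReal.smul_def, smul_eq_mul, Real.coe_toNNReal _ (Real.exp_pos _).le]
  ring

/-! ### SEC 3: moments, tails, integrability -/

omit [DecidableEq ι] in
/-- measurable + polynomial growth ⇒ integrable (`qf_g1_pow_integrable`, products; or Fernique `IsGaussian.memLp_id`) -/
theorem gm_int_poly {φ : (κ → ℝ) → ℝ} (hm : Measurable φ) (C : ℝ) (k : ℕ) (h : ∀ g, |φ g| ≤ C * (1 + gmSq g) ^ k) : Integrable φ (gmStd κ) := by
  have hE : Integrable (fun g : κ → ℝ => Real.exp (gmSq g / 4)) (gmStd κ) := by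
    have h1 : Integrable (fun g : κ → ℝ => ∏ i, Real.exp (1 / 4 * g i ^ 2)) (Measure.pi fun _ : κ => gaussianReal 0 1) :=
      Integrable.fintype_prod (f := fun _ x => Real.exp (1 / 4 * x ^ 2)) (fun _ => qf_g1_exp_sq_integrable (by norm_num))
    refine h1.congr (Filter.Eventually.of_forall fun g => ?_)
    simp only []
    rw [← Real.exp_sum, gmSq, Finset.sum_div]
    congr 1
    exact Finset.sum_congr rfl fun i _ => by ring
  have hb : ∀ s : ℝ, 0 ≤ s → (1 + s) ^ k ≤ 4 ^ k * k.factorial * Real.exp (1 / 4) * Real.exp (s / 4) := by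
    intro s hs
    have := Real.pow_div_factorial_le_exp ((1 + s) / 4) (by positivity) k
    rw [div_le_iff₀ (by positivity), div_pow, div_le_iff₀ (by positivity)] at this
    calc (1 + s) ^ k ≤ Real.exp ((1 + s) / 4) * k.factorial * 4 ^ k := this
      _ = _ := by rw [add_div, Real.exp_add]; ring
  refine Integrable.mono' (hE.const_mul (|C| * (4 ^ k * k.factorial * Real.exp (1 / 4)))) hm.aestronglyMeasurable (Filter.Eventually.of_forall fun g => ?_)
  rw [Real.norm_eq_abs]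
  calc |φ g| ≤ C * (1 + gmSq g) ^ k := h g
    _ ≤ |C| * (1 + gmSq g) ^ k := mul_le_mul_of_nonneg_right (le_abs_self C) (pow_nonneg (by have := gm_Sq_nonneg g; linarith) k)
    _ ≤ |C| * (4 ^ k * k.factorial * Real.exp (1 / 4) * Real.exp (gmSq g / 4)) := mul_le_mul_of_nonneg_left (hb _ (gm_Sq_nonneg g)) (abs_nonneg C)
    _ = _ := by ring

omit [DecidableEq ι] in
theorem gm_mom0 (B : Matrix ι κ ℝ) (i : ι) : ∫ g, (B *ᵥ g) i ∂(gmStd κ) = 0 := by
  classical
  have e : ∀ g : κ → ℝ, (B *ᵥ g) i = ∑ a, B i a * g a := fun g => rfl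
  simp only [e]
  rw [gm_std_eq, integral_finsetSum _ fun a _ => (qf_coord_integrable (f := fun x => x) (by simpa using qf_g1_pow_integrable 1) a).const_mul _]
  refine Finset.sum_eq_zero fun a _ => ?_
  rw [integral_const_mul, qf_coord_integral (ι := κ) (f := fun y : ℝ => y) (by fun_prop) a, integral_id_gaussianReal, mul_zero]

omit [DecidableEq ι] in
/-- covariance -/
theorem gm_mom2 (B : Matrix ι κ ℝ) (i j : ι) : ∫ g, (B *ᵥ g) i * (B *ᵥ g) j ∂(gmStd κ) = (B * Bᵀ) i j := by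
  classical
  set A : Matrix κ κ ℝ := Matrix.of fun a b => (B i a * B j b + B j a * B i b) / 2 with hA
  have hH : A.IsHermitian := by
    ext a b
    simp only [hA, Matrix.conjTranspose_apply, Matrix.of_apply, star_trivial]
    ring
  have hQ : ∀ g, qfQ A g = (B *ᵥ g) i * (B *ᵥ g) j := by
    intro g
    have h1 : ∀ (u v : κ → ℝ), ∑ a, ∑ b, g a * (u a * v b) * g b = (∑ a, u a * g a) * (∑ b, v b * g b) := by
      intro u v
      rw [Finset.sum_mul_sum]
      exact Finset.sum_congr rfl fun a _ => Finset.sum_congr rfl fun b _ => by ring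
    rw [qf_Q_eq_sum]
    simp only [hA, Matrix.of_apply, mulVec, dotProduct]
    calc ∑ a, ∑ b, g a * ((B i a * B j b + B j a * B i b) / 2) * g b
        = (∑ a, ∑ b, g a * (B i a * B j b) * g b + ∑ a, ∑ b, g a * (B j a * B i b) * g b) / 2 := by
          rw [← Finset.sum_add_distrib, Finset.sum_div]
          refine Finset.sum_congr rfl fun a _ => ?_
          rw [← Finset.sum_add_distrib, Finset.sum_div]
          exact Finset.sum_congr rfl fun b _ => by ring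
      _ = _ := by rw [h1, h1]; ring
  simp only [← hQ]
  rw [gm_std_eq, qf_mean hH, Matrix.trace, Matrix.mul_apply]
  refine Finset.sum_congr rfl fun a _ => ?_
  simp only [hA, Matrix.diag_apply, Matrix.of_apply, Matrix.transpose_apply]
  ring

omit [DecidableEq ι] in
theorem gm_Sq_qf [DecidableEq κ] (B : Matrix ι κ ℝ) (g : κ → ℝ) : gmSq (B *ᵥ g) = qfQ (Bᵀ * B) g := by
  rw [gm_Sq_eq, qfQ, ← Matrix.mulVec_mulVec, Matrix.dotProduct_mulVec g, Matrix.vecMul_transpose]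

omit [DecidableEq ι] in
theorem gm_gram_herm (B : Matrix ι κ ℝ) : (Bᵀ * B).IsHermitian := by
  have := Matrix.isHermitian_conjTranspose_mul_self B
  rwa [Matrix.conjTranspose_eq_transpose_of_trivial] at this

omit [DecidableEq ι] in
theorem gm_mom2_sq (B : Matrix ι κ ℝ) : ∫ g, gmSq (B *ᵥ g) ∂(gmStd κ) = (B * Bᵀ).trace := by
  classical
  simp only [gm_Sq_qf]
  rw [gm_std_eq, qf_mean (gm_gram_herm B), Matrix.trace_mul_comm]

omit [DecidableEq ι] in
/-- fourth moment: `E |B g|⁴ = (Tr Σ)² + 2 Tr Σ² ≤ 3 (Tr Σ)²` (`qf_mean`, `qf_var` for `A = Bᵀ B`) -/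
theorem gm_mom4 (B : Matrix ι κ ℝ) : ∫ g, gmSq (B *ᵥ g) ^ 2 ∂(gmStd κ) ≤ 3 * (B * Bᵀ).trace ^ 2 := by
  classical
  have hH := gm_gram_herm B
  set A := Bᵀ * B with hA
  have hT : (B * Bᵀ).trace = A.trace := Matrix.trace_mul_comm _ _
  have hps : A.PosSemidef := by
    have := Matrix.posSemidef_conjTranspose_mul_self B
    rwa [Matrix.conjTranspose_eq_transpose_of_trivial] at this
  have htr : (A * A).trace ≤ A.trace ^ 2 := by
    rw [qf_trace_sq hH, qf_trace A hH]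
    exact Finset.sum_sq_le_sq_sum_of_nonneg fun i _ => hps.eigenvalues_nonneg i
  have e : ∀ g, gmSq (B *ᵥ g) ^ 2 = (qfQ A g - A.trace) ^ 2 + (2 * A.trace * qfQ A g - A.trace ^ 2) := by
    intro g
    rw [gm_Sq_qf]
    ring
  simp only [e]
  have i1 : Integrable (fun g => 2 * A.trace * qfQ A g) (qfG κ) := (qf_Q_integrable hH).const_mul _
  have i2 : Integrable (fun g => 2 * A.trace * qfQ A g - A.trace ^ 2) (qfG κ) := i1.sub (integrable_const _)
  rw [gm_std_eq, integral_add (qf_sq_integrable hH) i2, integral_sub i1 (integrable_const _), integral_const_mul, qf_var hH, qf_mean hH, hT]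
  simp only [integral_const, probReal_univ, smul_eq_mul, one_mul]
  nlinarith

omit [DecidableEq ι] in
/-- the law of one coordinate of `B g` is that of `σ x`, `σ² = (B Bᵀ)_ii` -/
theorem gm_coord_law (B : Matrix ι κ ℝ) (i : ι) {S : Set ℝ} (hS : MeasurableSet S) :
    (gmStd κ).real {g | (B *ᵥ g) i ∈ S} = (gaussianReal 0 1).real {x | Real.sqrt ((B * Bᵀ) i i) * x ∈ S} := by
  set σ := Real.sqrt ((B * Bᵀ) i i) with hσ
  have h0 : 0 ≤ (B * Bᵀ) i i := by
    rw [Matrix.mul_apply]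
    exact Finset.sum_nonneg fun a _ => by rw [Matrix.transpose_apply]; exact mul_self_nonneg _
  set B₁ : Matrix Unit κ ℝ := Matrix.of fun _ a => B i a with hB₁
  set B₂ : Matrix Unit Unit ℝ := Matrix.of fun _ _ => σ with hB₂
  have hc : B₁ * B₁ᵀ = B₂ * B₂ᵀ := by
    ext u v
    simp only [Matrix.mul_apply, hB₁, hB₂, Matrix.of_apply, Matrix.transpose_apply, Finset.univ_unique, Finset.sum_const, Finset.card_singleton, one_smul]
    rw [hσ, Real.mul_self_sqrt h0, Matrix.mul_apply]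
    rfl
  have hl := gm_map_cov B₁ B₂ hc
  have hT : MeasurableSet {w : Unit → ℝ | w () ∈ S} := (measurable_pi_apply ()) hS
  have hm1 : Measurable fun g : κ → ℝ => B₁ *ᵥ g := by
    unfold mulVec dotProduct
    fun_prop
  have hm2 : Measurable fun g : Unit → ℝ => B₂ *ᵥ g := by
    unfold mulVec dotProduct
    fun_prop
  have h1 := congrArg (fun μ : Measure (Unit → ℝ) => μ {w : Unit → ℝ | w () ∈ S}) hl
  rw [Measure.map_apply hm1 hT, Measure.map_apply hm2 hT] at h1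
  have e1 : (fun g : κ → ℝ => B₁ *ᵥ g) ⁻¹' {w : Unit → ℝ | w () ∈ S} = {g | (B *ᵥ g) i ∈ S} := rfl
  have e2 : (fun g : Unit → ℝ => B₂ *ᵥ g) ⁻¹' {w : Unit → ℝ | w () ∈ S} = (fun g : Unit → ℝ => g ()) ⁻¹' {x | σ * x ∈ S} := by
    ext g
    simp [hB₂, mulVec, dotProduct]
  rw [e1, e2] at h1
  have hS' : MeasurableSet {x : ℝ | σ * x ∈ S} := (measurable_const_mul σ) hS
  have h2 := (measurePreserving_eval (fun _ : Unit => gaussianReal 0 1) ()).measure_preimage hS'.nullMeasurableSet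
  unfold Measure.real
  rw [h1]
  exact congrArg ENNReal.toReal h2

omit [DecidableEq ι] in
/-- one coordinate is a centred Gaussian of variance `(B Bᵀ)_ii`: tail (`gm_map_cov` to dimension one, `qf_g1_tail`) -/
theorem gm_tail (B : Matrix ι κ ℝ) (i : ι) {s t : ℝ} (hs : 0 < s) (h : (B * Bᵀ) i i ≤ s) (ht : 0 ≤ t) :
    (gmStd κ).real {g | t ≤ |(B *ᵥ g) i|} ≤ 2 * Real.exp (-t ^ 2 / (2 * s)) := by
  have hS : MeasurableSet {x : ℝ | t ≤ |x|} := measurableSet_le measurable_const (by fun_prop)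
  have h1 := gm_coord_law B i hS
  have e1 : {g : κ → ℝ | (B *ᵥ g) i ∈ {x : ℝ | t ≤ |x|}} = {g | t ≤ |(B *ᵥ g) i|} := rfl
  rw [e1] at h1
  rw [h1]
  have hss : 0 < Real.sqrt s := Real.sqrt_pos.2 hs
  have hsub : {x : ℝ | Real.sqrt ((B * Bᵀ) i i) * x ∈ {x : ℝ | t ≤ |x|}} ⊆ {x | t / Real.sqrt s ≤ |x|} := by
    intro x hx
    simp only [Set.mem_ofPred_eq] at hx ⊢
    rw [div_le_iff₀ hss]
    rw [abs_mul, abs_of_nonneg (Real.sqrt_nonneg _)] at hx
    calc t ≤ _ := hx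
      _ ≤ Real.sqrt s * |x| := mul_le_mul_of_nonneg_right (Real.sqrt_le_sqrt h) (abs_nonneg x)
      _ = _ := mul_comm _ _
  calc _ ≤ (gaussianReal 0 1).real {x | t / Real.sqrt s ≤ |x|} := measureReal_mono hsub
    _ ≤ 2 * Real.exp (-(t / Real.sqrt s) ^ 2 / 2) := qf_g1_tail (by positivity)
    _ = _ := by
      rw [div_pow, Real.sq_sqrt hs.le]
      congr 2
      field_simp

omit [DecidableEq ι] in
/-- anti-concentration of one coordinate: density `≤ 1/√(2π s)` -/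
theorem gm_anti (B : Matrix ι κ ℝ) (i : ι) {s δ : ℝ} (hs : 0 < s) (h : s ≤ (B * Bᵀ) i i) (hδ : 0 ≤ δ) (z : ℝ) :
    (gmStd κ).real {g | |(B *ᵥ g) i - z| ≤ δ} ≤ 2 * δ / Real.sqrt (2 * Real.pi * s) := by
  have hS : MeasurableSet {x : ℝ | |x - z| ≤ δ} := measurableSet_le (by fun_prop) measurable_const
  have h1 := gm_coord_law B i hS
  have e1 : {g : κ → ℝ | (B *ᵥ g) i ∈ {x : ℝ | |x - z| ≤ δ}} = {g | |(B *ᵥ g) i - z| ≤ δ} := rfl
  rw [e1] at h1
  rw [h1]
  set σ := Real.sqrt ((B * Bᵀ) i i) with hσ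
  have hss : 0 < Real.sqrt s := Real.sqrt_pos.2 hs
  have hσs : Real.sqrt s ≤ σ := Real.sqrt_le_sqrt h
  have hσ0 : 0 < σ := hss.trans_le hσs
  have hsub : {x : ℝ | σ * x ∈ {x : ℝ | |x - z| ≤ δ}} ⊆ Set.Icc ((z - δ) / σ) ((z + δ) / σ) := by
    intro x hx
    simp only [Set.mem_ofPred_eq, abs_le] at hx
    rw [Set.mem_Icc, div_le_iff₀ hσ0, le_div_iff₀ hσ0]
    constructor <;> nlinarith [hx.1, hx.2]
  have hpdf : ∀ x, gaussianPDF 0 1 x ≤ ENNReal.ofReal (Real.sqrt (2 * Real.pi))⁻¹ := by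
    intro x
    unfold gaussianPDF
    apply ENNReal.ofReal_le_ofReal
    unfold gaussianPDFReal
    simp only [NNReal.coe_one, mul_one]
    apply mul_le_of_le_one_right (by positivity)
    apply Real.exp_le_one_iff.2
    apply div_nonpos_of_nonpos_of_nonneg (by nlinarith [sq_nonneg (x - 0)]) (by norm_num)
  have hm : gaussianReal 0 1 (Set.Icc ((z - δ) / σ) ((z + δ) / σ)) ≤ ENNReal.ofReal ((Real.sqrt (2 * Real.pi))⁻¹ * (2 * δ / σ)) := by
    rw [gaussianReal_apply 0 one_ne_zero]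
    calc ∫⁻ x in Set.Icc ((z - δ) / σ) ((z + δ) / σ), gaussianPDF 0 1 x
        ≤ ∫⁻ _ in Set.Icc ((z - δ) / σ) ((z + δ) / σ), ENNReal.ofReal (Real.sqrt (2 * Real.pi))⁻¹ := lintegral_mono fun x => hpdf x
      _ = ENNReal.ofReal (Real.sqrt (2 * Real.pi))⁻¹ * ENNReal.ofReal ((z + δ) / σ - (z - δ) / σ) := by
        rw [setLIntegral_const, Real.volume_Icc]
      _ = _ := by
        rw [← ENNReal.ofReal_mul (by positivity)]
        congr 2
        ring
  calc _ ≤ (gaussianReal 0 1).real (Set.Icc ((z - δ) / σ) ((z + δ) / σ)) := measureReal_mono hsub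
    _ ≤ (Real.sqrt (2 * Real.pi))⁻¹ * (2 * δ / σ) := by
      unfold Measure.real
      exact ENNReal.toReal_le_of_le_ofReal (by positivity) hm
    _ ≤ (Real.sqrt (2 * Real.pi))⁻¹ * (2 * δ / Real.sqrt s) := by
      apply mul_le_mul_of_nonneg_left _ (by positivity)
      exact div_le_div_of_nonneg_left (by positivity) hss hσs
    _ = _ := by
      rw [Real.sqrt_mul (by positivity : (0 : ℝ) ≤ 2 * Real.pi) s]
      field_simp

/-! ### SEC 4: max-ratio, Gibbs -/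

/-- a mixture: `B_k B_kᵀ Λ_k = 1`; precision `≤ lam`, covariance `≤ sig`, means `≤ mu` -/
structure GmOk (B : K → Matrix ι κ ℝ) (Λ : K → Matrix ι ι ℝ) (m : K → ι → ℝ) (lam sig mu : ℝ) : Prop where
  lam0 : 0 < lam
  sig0 : 0 < sig
  inv : ∀ k, B k * (B k)ᵀ * Λ k = 1
  prec : ∀ k x, gmQ (Λ k) x ≤ lam * gmSq x
  cov : ∀ k x, gmSq x ≤ sig * gmQ (Λ k) x
  mean : ∀ k, gmN (m k) ≤ mu

/-- T1 (max ratio), raw form: termwise -/
theorem gm_ratio (Λ : K → Matrix ι ι ℝ) (m : K → ι → ℝ) (y y' : ι → ℝ) (t : ℝ)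
    (h : ∀ k, gmQ (Λ k) (y' - m k) - gmQ (Λ k) (y - m k) ≤ 2 * t) : gmMix Λ m y ≤ Real.exp t * gmMix Λ m y' := by
  unfold gmMix enAvg
  rw [mul_left_comm (Real.exp t), Finset.mul_sum (a := Real.exp t)]
  apply mul_le_mul_of_nonneg_left _ (by positivity)
  apply Finset.sum_le_sum
  intro k _
  unfold gmDens
  have h1 : Real.exp (-(gmQ (Λ k) (y - m k)) / 2) ≤ Real.exp t * Real.exp (-(gmQ (Λ k) (y' - m k)) / 2) := by
    rw [← Real.exp_add]
    apply Real.exp_le_exp.2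
    linarith [h k]
  have h2 : 0 ≤ Real.sqrt (Λ k).det * (2 * Real.pi) ^ (-(Fintype.card ι : ℝ) / 2) := by positivity
  calc _ ≤ Real.sqrt (Λ k).det * (2 * Real.pi) ^ (-(Fintype.card ι : ℝ) / 2) * (Real.exp t * Real.exp (-(gmQ (Λ k) (y' - m k)) / 2)) :=
        mul_le_mul_of_nonneg_left h1 h2
    _ = _ := by ring

/-- oscillation bound -/
def gmOsc (lam β mu : ℝ) (y : ι → ℝ) : ℝ := lam * β * (gmN y + mu + β)

omit [DecidableEq ι] in
theorem gm_N_neg (x : ι → ℝ) : gmN (-x) = gmN x := by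
  simp [gmN, gmSq]

omit [DecidableEq ι] in
theorem gm_N_sub (x y : ι → ℝ) : gmN (x - y) ≤ gmN x + gmN y := by
  rw [sub_eq_add_neg, ← gm_N_neg y]
  exact gm_N_add _ _

omit [DecidableEq ι] in
theorem gm_N_comm (x y : ι → ℝ) : gmN (x - y) = gmN (y - x) := by
  rw [← gm_N_neg, neg_sub]

theorem en_Avg_mono {f g : K → ℝ} (h : ∀ k, f k ≤ g k) : enAvg f ≤ enAvg g :=
  mul_le_mul_of_nonneg_left (Finset.sum_le_sum fun k _ => h k) (by positivity)

theorem en_Avg_const [Nonempty K] (c : ℝ) : enAvg (fun _ : K => c) = c := by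
  unfold enAvg
  rw [Finset.sum_const, Finset.card_univ, nsmul_eq_mul]
  have : (Fintype.card K : ℝ) ≠ 0 := Nat.cast_ne_zero.2 Fintype.card_ne_zero
  field_simp

theorem en_Avg_pos [Nonempty K] {f : K → ℝ} (h : ∀ k, 0 < f k) : 0 < enAvg f := by
  unfold enAvg
  have : 0 < (Fintype.card K : ℝ) := Nat.cast_pos.2 Fintype.card_pos
  exact mul_pos (inv_pos.2 this) (Finset.sum_pos (fun k _ => h k) Finset.univ_nonempty)

theorem en_Avg_nonneg {f : K → ℝ} (h : ∀ k, 0 ≤ f k) : 0 ≤ enAvg f :=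
  mul_nonneg (by positivity) (Finset.sum_nonneg fun k _ => h k)

theorem en_Avg_add (f g : K → ℝ) : enAvg (fun k => f k + g k) = enAvg f + enAvg g := by
  unfold enAvg
  rw [Finset.sum_add_distrib, mul_add]

theorem en_Avg_sub (f g : K → ℝ) : enAvg (fun k => f k - g k) = enAvg f - enAvg g := by
  unfold enAvg
  rw [Finset.sum_sub_distrib, mul_sub]

theorem en_Avg_mul (c : ℝ) (f : K → ℝ) : enAvg (fun k => c * f k) = c * enAvg f := by
  unfold enAvg
  rw [← Finset.mul_sum, mul_left_comm]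

/-! ### kit: polynomial growth, linearity of `gmE` -/

omit [DecidableEq ι] in
theorem gm_Sq_add_le (x y : ι → ℝ) : gmSq (x + y) ≤ 2 * gmSq x + 2 * gmSq y := by
  unfold gmSq
  rw [Finset.mul_sum, Finset.mul_sum, ← Finset.sum_add_distrib]
  refine Finset.sum_le_sum fun i _ => ?_
  simp only [Pi.add_apply]
  nlinarith [sq_nonneg (x i - y i)]

omit [DecidableEq ι] in
theorem gm_Sq_mulVec_le (B : Matrix ι κ ℝ) (g : κ → ℝ) : gmSq (B *ᵥ g) ≤ (B * Bᵀ).trace * gmSq g := by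
  unfold gmSq Matrix.trace
  rw [Finset.sum_mul]
  refine Finset.sum_le_sum fun i _ => ?_
  simp only [Matrix.diag_apply, Matrix.mul_apply, Matrix.transpose_apply, mulVec, dotProduct]
  have := Finset.sum_mul_sq_le_sq_mul_sq Finset.univ (fun a => B i a) g
  calc _ ≤ _ := this
    _ = _ := by
      congr 1
      exact Finset.sum_congr rfl fun a _ => by ring

omit [DecidableEq ι] in
theorem gm_trace_nonneg (B : Matrix ι κ ℝ) : 0 ≤ (B * Bᵀ).trace := by
  unfold Matrix.trace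
  refine Finset.sum_nonneg fun i _ => ?_
  simp only [Matrix.diag_apply, Matrix.mul_apply, Matrix.transpose_apply]
  exact Finset.sum_nonneg fun a _ => mul_self_nonneg _

/-- measurable, of polynomial growth -/
def GmPoly (φ : (ι → ℝ) → ℝ) : Prop := Measurable φ ∧ ∃ (C : ℝ) (k : ℕ), ∀ y, |φ y| ≤ C * (1 + gmSq y) ^ k

omit [DecidableEq ι] in
theorem gm_one_le (y : ι → ℝ) : 1 ≤ 1 + gmSq y := by linarith [gm_Sq_nonneg y]

omit [DecidableEq ι] in
theorem GmPoly.const (c : ℝ) : GmPoly (fun _ : ι → ℝ => c) := ⟨measurable_const, |c|, 0, fun y => by simp⟩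

omit [DecidableEq ι] in
theorem GmPoly.add {φ ψ : (ι → ℝ) → ℝ} (h1 : GmPoly φ) (h2 : GmPoly ψ) : GmPoly (fun y => φ y + ψ y) := by
  obtain ⟨m1, C1, k1, b1⟩ := h1
  obtain ⟨m2, C2, k2, b2⟩ := h2
  refine ⟨m1.add m2, |C1| + |C2|, max k1 k2, fun y => ?_⟩
  have h1 := gm_one_le y
  have h0 : 0 ≤ 1 + gmSq y := by linarith
  have p1 : (1 + gmSq y) ^ k1 ≤ (1 + gmSq y) ^ (max k1 k2) := pow_le_pow_right₀ h1 (le_max_left _ _)
  have p2 : (1 + gmSq y) ^ k2 ≤ (1 + gmSq y) ^ (max k1 k2) := pow_le_pow_right₀ h1 (le_max_right _ _)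
  calc |φ y + ψ y| ≤ |φ y| + |ψ y| := abs_add_le _ _
    _ ≤ C1 * (1 + gmSq y) ^ k1 + C2 * (1 + gmSq y) ^ k2 := add_le_add (b1 y) (b2 y)
    _ ≤ |C1| * (1 + gmSq y) ^ (max k1 k2) + |C2| * (1 + gmSq y) ^ (max k1 k2) :=
      add_le_add (mul_le_mul (le_abs_self _) p1 (pow_nonneg h0 _) (abs_nonneg _)) (mul_le_mul (le_abs_self _) p2 (pow_nonneg h0 _) (abs_nonneg _))
    _ = _ := by ring

omit [DecidableEq ι] in
theorem GmPoly.mul {φ ψ : (ι → ℝ) → ℝ} (h1 : GmPoly φ) (h2 : GmPoly ψ) : GmPoly (fun y => φ y * ψ y) := by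
  obtain ⟨m1, C1, k1, b1⟩ := h1
  obtain ⟨m2, C2, k2, b2⟩ := h2
  refine ⟨m1.mul m2, C1 * C2, k1 + k2, fun y => ?_⟩
  rw [abs_mul]
  calc |φ y| * |ψ y| ≤ (C1 * (1 + gmSq y) ^ k1) * (C2 * (1 + gmSq y) ^ k2) :=
        mul_le_mul (b1 y) (b2 y) (abs_nonneg _) ((abs_nonneg _).trans (b1 y))
    _ = _ := by ring

omit [DecidableEq ι] in
theorem GmPoly.neg {φ : (ι → ℝ) → ℝ} (h1 : GmPoly φ) : GmPoly (fun y => - φ y) := by
  obtain ⟨m1, C1, k1, b1⟩ := h1
  exact ⟨m1.neg, C1, k1, fun y => by rw [abs_neg]; exact b1 y⟩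

omit [DecidableEq ι] in
theorem GmPoly.sub {φ ψ : (ι → ℝ) → ℝ} (h1 : GmPoly φ) (h2 : GmPoly ψ) : GmPoly (fun y => φ y - ψ y) := by
  simpa only [sub_eq_add_neg] using h1.add h2.neg

omit [DecidableEq ι] in
/-- domination -/
theorem GmPoly.of_le {φ ψ : (ι → ℝ) → ℝ} (h1 : GmPoly ψ) (hm : Measurable φ) (h : ∀ y, |φ y| ≤ |ψ y|) : GmPoly φ := by
  obtain ⟨-, C1, k1, b1⟩ := h1
  exact ⟨hm, C1, k1, fun y => (h y).trans (b1 y)⟩

omit [DecidableEq ι] in
theorem gm_Sq_meas : Measurable (gmSq : (ι → ℝ) → ℝ) := by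
  unfold gmSq
  fun_prop

omit [DecidableEq ι] in
theorem gm_N_meas : Measurable (gmN : (ι → ℝ) → ℝ) := gm_Sq_meas.sqrt

omit [DecidableEq ι] in
theorem GmPoly.sq : GmPoly (gmSq : (ι → ℝ) → ℝ) :=
  ⟨gm_Sq_meas, 1, 1, fun y => by rw [abs_of_nonneg (gm_Sq_nonneg y)]; linarith⟩

omit [DecidableEq ι] in
theorem gm_N_le_one_add (y : ι → ℝ) : gmN y ≤ 1 + gmSq y := by
  rw [← gm_N_sq]
  nlinarith [sq_nonneg (gmN y - 1), gm_N_nonneg y]

omit [DecidableEq ι] in
theorem GmPoly.norm : GmPoly (gmN : (ι → ℝ) → ℝ) :=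
  ⟨gm_N_meas, 1, 1, fun y => by rw [abs_of_nonneg (gm_N_nonneg y)]; linarith [gm_N_le_one_add y]⟩

omit [DecidableEq ι] in
/-- integrability along every affine image of the standard Gaussian -/
theorem GmPoly.int {φ : (ι → ℝ) → ℝ} (h : GmPoly φ) (m : ι → ℝ) (B : Matrix ι κ ℝ) : Integrable (fun g => φ (m + B *ᵥ g)) (gmStd κ) := by
  obtain ⟨hm, C, k, hb⟩ := h
  set T := 1 + 2 * gmSq m + 2 * (B * Bᵀ).trace with hT
  have hm0 := gm_Sq_nonneg m
  have ht0 := gm_trace_nonneg B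
  refine gm_int_poly (hm.comp (measurable_const.add (gm_x_meas B))) (|C| * T ^ k) k fun g => ?_
  have hg0 := gm_Sq_nonneg g
  have h1 : 1 + gmSq (m + B *ᵥ g) ≤ T * (1 + gmSq g) := by
    have a1 := gm_Sq_add_le m (B *ᵥ g)
    have a2 := gm_Sq_mulVec_le B g
    rw [hT]
    nlinarith [mul_nonneg hm0 hg0, mul_nonneg ht0 hg0]
  calc |φ (m + B *ᵥ g)| ≤ C * (1 + gmSq (m + B *ᵥ g)) ^ k := hb _
    _ ≤ |C| * (T * (1 + gmSq g)) ^ k :=
      mul_le_mul (le_abs_self _) (pow_le_pow_left₀ (by linarith [gm_Sq_nonneg (m + B *ᵥ g)]) h1 k) (pow_nonneg (by linarith [gm_Sq_nonneg (m + B *ᵥ g)]) k) (abs_nonneg _)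
    _ = _ := by rw [mul_pow]; ring

omit [DecidableEq ι] in
theorem gm_E_add (B : K → Matrix ι κ ℝ) (m : K → ι → ℝ) {φ ψ : (ι → ℝ) → ℝ} (h1 : GmPoly φ) (h2 : GmPoly ψ) :
    gmE B m (fun y => φ y + ψ y) = gmE B m φ + gmE B m ψ := by
  unfold gmE
  rw [← en_Avg_add]
  congr 1
  funext k
  exact integral_add (h1.int _ _) (h2.int _ _)

omit [DecidableEq ι] in
theorem gm_E_sub (B : K → Matrix ι κ ℝ) (m : K → ι → ℝ) {φ ψ : (ι → ℝ) → ℝ} (h1 : GmPoly φ) (h2 : GmPoly ψ) :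
    gmE B m (fun y => φ y - ψ y) = gmE B m φ - gmE B m ψ := by
  unfold gmE
  rw [← en_Avg_sub]
  congr 1
  funext k
  exact integral_sub (h1.int _ _) (h2.int _ _)

omit [Fintype ι] [DecidableEq ι] in
theorem gm_E_cmul (B : K → Matrix ι κ ℝ) (m : K → ι → ℝ) (c : ℝ) (φ : (ι → ℝ) → ℝ) :
    gmE B m (fun y => c * φ y) = c * gmE B m φ := by
  unfold gmE
  rw [← en_Avg_mul]
  congr 1
  funext k
  exact integral_const_mul _ _

omit [DecidableEq ι] in
theorem gm_E_le (B : K → Matrix ι κ ℝ) (m : K → ι → ℝ) {φ ψ : (ι → ℝ) → ℝ} (h1 : GmPoly φ) (h2 : GmPoly ψ) (h : ∀ y, φ y ≤ ψ y) :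
    gmE B m φ ≤ gmE B m ψ :=
  en_Avg_mono fun _ => integral_mono (h1.int _ _) (h2.int _ _) fun _ => h _

omit [Fintype ι] [DecidableEq ι] in
theorem gm_E_const [Nonempty K] (B : K → Matrix ι κ ℝ) (m : K → ι → ℝ) (c : ℝ) : gmE B m (fun _ => c) = c := by
  unfold gmE
  simp only [integral_const, probReal_univ, smul_eq_mul, one_mul]
  exact en_Avg_const c

omit [Fintype ι] [DecidableEq ι] in
theorem gm_E_nonneg (B : K → Matrix ι κ ℝ) (m : K → ι → ℝ) {φ : (ι → ℝ) → ℝ} (h : ∀ y, 0 ≤ φ y) : 0 ≤ gmE B m φ :=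
  en_Avg_nonneg fun _ => integral_nonneg fun _ => h _

/-- T1 for a mixture with bounded precision (`gm_ratio`, `gm_Q_lip`, `gm_prec`) -/
theorem gm_ratio' {B : K → Matrix ι κ ℝ} {Λ : K → Matrix ι ι ℝ} {m : K → ι → ℝ} {lam sig mu β : ℝ} (h : GmOk B Λ m lam sig mu)
    (y y' : ι → ℝ) (hy : gmN (y - y') ≤ β) : gmMix Λ m y' ≤ Real.exp (gmOsc lam β mu y) * gmMix Λ m y ∧ gmMix Λ m y ≤ Real.exp (gmOsc lam β mu y) * gmMix Λ m y' := by
  have key : ∀ k, |gmQ (Λ k) (y - m k) - gmQ (Λ k) (y' - m k)| ≤ 2 * gmOsc lam β mu y := by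
    intro k
    obtain ⟨hs, -, hq, -⟩ := gm_prec (B k) (Λ k) (h.inv k)
    have h0 : ∀ x, 0 ≤ gmQ (Λ k) x := fun x => by rw [hq]; exact gm_Sq_nonneg _
    have h1 := gm_Q_lip hs h0 (h.prec k) (y - m k) (y' - m k)
    have e : y - m k - (y' - m k) = y - y' := by abel
    rw [e] at h1
    have hβ : 0 ≤ β := (gm_N_nonneg _).trans hy
    have a1 : gmN (y - m k) ≤ gmN y + mu := (gm_N_sub _ _).trans (by linarith [h.mean k])
    have a2 : gmN y' ≤ gmN y + β := by
      have : y' = y + (y' - y) := by abel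
      calc gmN y' = gmN (y + (y' - y)) := by rw [← this]
        _ ≤ gmN y + gmN (y' - y) := gm_N_add _ _
        _ ≤ _ := by rw [gm_N_comm]; linarith
    have a3 : gmN (y' - m k) ≤ gmN y + β + mu := (gm_N_sub _ _).trans (by linarith [h.mean k])
    have hl := h.lam0
    have b0 := gm_N_nonneg (y - y')
    have b1 := gm_N_nonneg (y - m k)
    have b2 := gm_N_nonneg (y' - m k)
    calc _ ≤ lam * gmN (y - y') * (gmN (y - m k) + gmN (y' - m k)) := h1
      _ ≤ lam * β * (gmN (y - m k) + gmN (y' - m k)) := by gcongr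
      _ ≤ lam * β * ((gmN y + mu) + (gmN y + β + mu)) := by gcongr
      _ ≤ _ := by
        unfold gmOsc
        nlinarith [mul_nonneg hl.le hβ, mul_nonneg (mul_nonneg hl.le hβ) hβ]
  constructor
  · exact gm_ratio Λ m y' y _ fun k => (le_abs_self _).trans (key k)
  · exact gm_ratio Λ m y y' _ fun k => by
      have := (neg_abs_le _).trans (le_refl (gmQ (Λ k) (y - m k) - gmQ (Λ k) (y' - m k)))
      linarith [key k]

theorem gm_x_dens_pos {B : Matrix ι κ ℝ} {Λ : Matrix ι ι ℝ} (h : B * Bᵀ * Λ = 1) (m y : ι → ℝ) : 0 < gmDens Λ m y := by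
  have := (gm_prec B Λ h).2.1
  unfold gmDens
  have h1 : 0 < Real.sqrt Λ.det := Real.sqrt_pos.2 this
  positivity

theorem gm_x_dens_meas (Λ : Matrix ι ι ℝ) (m : ι → ℝ) : Measurable (gmDens Λ m) := by
  unfold gmDens gmQ
  simp only [dotProduct, mulVec, Pi.sub_apply]
  fun_prop

theorem gm_x_dens_one {B : Matrix ι κ ℝ} {Λ : Matrix ι ι ℝ} (h : B * Bᵀ * Λ = 1) (m : ι → ℝ) :
    Integrable (gmDens Λ m) ∧ ∫ y, gmDens Λ m y = 1 := by
  have hT : Measurable fun g : κ → ℝ => m + B *ᵥ g := measurable_const.add (gm_x_meas B)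
  have h1 : ∫⁻ y, ENNReal.ofReal (gmDens Λ m y) = 1 := by
    have := congrArg (fun μ : Measure (ι → ℝ) => μ Set.univ) (gm_map_dens B Λ h m)
    simp only [withDensity_apply _ MeasurableSet.univ, Measure.restrict_univ] at this
    rw [← this, Measure.map_apply hT MeasurableSet.univ]
    simp
  have h0 : 0 ≤ᵐ[volume] gmDens Λ m := Filter.Eventually.of_forall fun y => (gm_x_dens_pos h m y).le
  have hm := (gm_x_dens_meas Λ m).aestronglyMeasurable (μ := volume)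
  refine ⟨(lintegral_ofReal_ne_top_iff_integrable hm h0).1 (by rw [h1]; simp), ?_⟩
  rw [integral_eq_lintegral_of_nonneg_ae h0 hm, h1]
  simp

theorem gm_x_nn_meas (Λ : Matrix ι ι ℝ) (m : ι → ℝ) : Measurable fun y => Real.toNNReal (gmDens Λ m y) :=
  measurable_real_toNNReal.comp (gm_x_dens_meas Λ m)

theorem gm_x_wd {B : Matrix ι κ ℝ} {Λ : Matrix ι ι ℝ} (h : B * Bᵀ * Λ = 1) (m : ι → ℝ) :
    (gmStd κ).map (fun g => m + B *ᵥ g) = volume.withDensity fun y => ((Real.toNNReal (gmDens Λ m y) : NNReal) : ENNReal) :=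
  gm_map_dens B Λ h m

theorem gm_x_int_map {B : Matrix ι κ ℝ} {Λ : Matrix ι ι ℝ} (h : B * Bᵀ * Λ = 1) (m : ι → ℝ) {φ : (ι → ℝ) → ℝ} (hφ : Measurable φ) :
    ∫ g, φ (m + B *ᵥ g) ∂(gmStd κ) = ∫ y, φ y * gmDens Λ m y := by
  have hT : Measurable fun g : κ → ℝ => m + B *ᵥ g := measurable_const.add (gm_x_meas B)
  rw [← integral_map hT.aemeasurable hφ.aestronglyMeasurable (f := φ), gm_x_wd h m,
    integral_withDensity_eq_integral_smul (gm_x_nn_meas Λ m) φ]
  refine integral_congr_ae (Filter.Eventually.of_forall fun y => ?_)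
  simp only [NNReal.smul_def, smul_eq_mul, Function.comp, Real.coe_toNNReal _ (gm_x_dens_pos h m y).le]
  ring

theorem gm_x_integrable_map {B : Matrix ι κ ℝ} {Λ : Matrix ι ι ℝ} (h : B * Bᵀ * Λ = 1) (m : ι → ℝ) {φ : (ι → ℝ) → ℝ} (hφ : Measurable φ) :
    Integrable (fun g => φ (m + B *ᵥ g)) (gmStd κ) ↔ Integrable fun y => φ y * gmDens Λ m y := by
  have hT : Measurable fun g : κ → ℝ => m + B *ᵥ g := measurable_const.add (gm_x_meas B)
  have e1 := integrable_map_measure (μ := gmStd κ) (f := fun g : κ → ℝ => m + B *ᵥ g) (g := φ) hφ.aestronglyMeasurable hT.aemeasurable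
  rw [show (fun g => φ (m + B *ᵥ g)) = φ ∘ (fun g : κ → ℝ => m + B *ᵥ g) from rfl, ← e1, gm_x_wd h m,
    integrable_withDensity_iff_integrable_smul (gm_x_nn_meas Λ m)]
  refine integrable_congr (Filter.Eventually.of_forall fun y => ?_)
  simp only [NNReal.smul_def, smul_eq_mul, Function.comp, Real.coe_toNNReal _ (gm_x_dens_pos h m y).le]
  ring

omit [DecidableEq ι] in
theorem gm_x_aff (B : Matrix ι κ ℝ) (m : ι → ℝ) (g : κ → ℝ) :
    gmSq (m + B *ᵥ g) ≤ 2 * gmSq m + 2 * (∑ i, ∑ a, B i a ^ 2) * gmSq g := by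
  have h1 : ∀ i, (m i + (B *ᵥ g) i) ^ 2 ≤ 2 * m i ^ 2 + 2 * ((∑ a, B i a ^ 2) * gmSq g) := by
    intro i
    have hc : (B *ᵥ g) i ^ 2 ≤ (∑ a, B i a ^ 2) * gmSq g := by
      simp only [mulVec, dotProduct, gmSq]
      exact Finset.sum_mul_sq_le_sq_mul_sq _ _ _
    nlinarith [sq_nonneg (m i - (B *ᵥ g) i)]
  calc gmSq (m + B *ᵥ g) = ∑ i, (m i + (B *ᵥ g) i) ^ 2 := rfl
    _ ≤ ∑ i, (2 * m i ^ 2 + 2 * ((∑ a, B i a ^ 2) * gmSq g)) := Finset.sum_le_sum fun i _ => h1 i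
    _ = _ := by
      rw [Finset.sum_add_distrib, ← Finset.mul_sum, ← Finset.mul_sum, ← Finset.sum_mul]
      simp only [gmSq]
      ring

omit [DecidableEq ι] in
/-- polynomial growth is stable under affine maps -/
theorem gm_x_int_aff (B : Matrix ι κ ℝ) (m : ι → ℝ) {φ : (ι → ℝ) → ℝ} (hφ : Measurable φ) (C : ℝ) (k : ℕ)
    (hg : ∀ y, |φ y| ≤ C * (1 + gmSq y) ^ k) : Integrable (fun g => φ (m + B *ᵥ g)) (gmStd κ) := by
  have hT : Measurable fun g : κ → ℝ => m + B *ᵥ g := measurable_const.add (gm_x_meas B)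
  set c : ℝ := 1 + 2 * gmSq m + 2 * (∑ i, ∑ a, B i a ^ 2) with hc
  have hc1 : 0 ≤ 2 * (∑ i, ∑ a, B i a ^ 2) := by positivity
  have hm0 := gm_Sq_nonneg m
  have hC : 0 ≤ C := by
    have := (abs_nonneg _).trans (hg 0)
    have h1 : (0 : ℝ) < (1 + gmSq (0 : ι → ℝ)) ^ k := by
      have := gm_Sq_nonneg (0 : ι → ℝ)
      positivity
    exact nonneg_of_mul_nonneg_left this h1
  refine gm_int_poly (hφ.comp hT) (C * c ^ k) k fun g => ?_
  have hg0 := gm_Sq_nonneg g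
  have h1 : 1 + gmSq (m + B *ᵥ g) ≤ c * (1 + gmSq g) := by
    have := gm_x_aff B m g
    have h2 : 0 ≤ (1 + 2 * gmSq m) * gmSq g := by positivity
    rw [hc]
    nlinarith
  have h0 := gm_Sq_nonneg (m + B *ᵥ g)
  calc |φ (m + B *ᵥ g)| ≤ C * (1 + gmSq (m + B *ᵥ g)) ^ k := hg _
    _ ≤ C * (c * (1 + gmSq g)) ^ k := by gcongr
    _ = C * c ^ k * (1 + gmSq g) ^ k := by rw [mul_pow]; ring

/-- the mixture density is positive, measurable, of integral one -/
theorem gm_mix_pos [Nonempty K] {B : K → Matrix ι κ ℝ} {Λ : K → Matrix ι ι ℝ} {m : K → ι → ℝ} {lam sig mu : ℝ} (h : GmOk B Λ m lam sig mu) :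
    (∀ y, 0 < gmMix Λ m y) ∧ Measurable (gmMix Λ m) ∧ ∫ y, gmMix Λ m y = 1 := by
  have hK : (0 : ℝ) < Fintype.card K := by exact_mod_cast Fintype.card_pos
  refine ⟨fun y => ?_, ?_, ?_⟩
  · unfold gmMix enAvg
    have : 0 < ∑ k, gmDens (Λ k) (m k) y := Finset.sum_pos (fun k _ => gm_x_dens_pos (h.inv k) _ _) Finset.univ_nonempty
    positivity
  · unfold gmMix enAvg
    exact (Finset.measurable_sum _ fun k _ => gm_x_dens_meas (Λ k) (m k)).const_mul _
  · unfold gmMix enAvg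
    rw [integral_const_mul, integral_finsetSum _ fun k _ => (gm_x_dens_one (h.inv k) (m k)).1]
    simp only [(gm_x_dens_one (h.inv _) (m _)).2, Finset.sum_const, Finset.card_univ, nsmul_eq_mul, mul_one]
    field_simp

/-- expectation under the mixture = integral against the density (`gm_map_dens`, `integral_map`, `integral_withDensity_eq_integral_smul`; `hint` is needed to exchange `∫` and the finite average) -/
theorem gm_E_eq [Nonempty K] {B : K → Matrix ι κ ℝ} {Λ : K → Matrix ι ι ℝ} {m : K → ι → ℝ} {lam sig mu : ℝ} (h : GmOk B Λ m lam sig mu)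
    {φ : (ι → ℝ) → ℝ} (hφ : Measurable φ) (hint : ∀ k, Integrable fun y => φ y * gmDens (Λ k) (m k) y) : gmE B m φ = ∫ y, φ y * gmMix Λ m y := by
  unfold gmE gmMix enAvg
  simp_rw [gm_x_int_map (h.inv _) (m _) hφ]
  rw [← integral_finsetSum _ fun k _ => hint k, ← integral_const_mul]
  refine integral_congr_ae (Filter.Eventually.of_forall fun y => ?_)
  simp only [Finset.mul_sum]
  refine Finset.sum_congr rfl fun k _ => by ring

/-- polynomial growth gives `hint` of `gm_E_eq` -/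
theorem gm_dens_int {B : Matrix ι κ ℝ} {Λ : Matrix ι ι ℝ} (h : B * Bᵀ * Λ = 1) (m : ι → ℝ) {φ : (ι → ℝ) → ℝ} (hφ : Measurable φ) (C : ℝ) (k : ℕ)
    (hg : ∀ y, |φ y| ≤ C * (1 + gmSq y) ^ k) : Integrable fun y => φ y * gmDens Λ m y := by
  exact (gm_x_integrable_map h m hφ).1 (gm_x_int_aff B m hφ C k hg)

theorem gm_x_det_bd {Λ : Matrix ι ι ℝ} {lam sig : ℝ} (hs : Λᵀ = Λ) (hsig : 0 < sig) (h1 : ∀ x, gmQ Λ x ≤ lam * gmSq x) (h2 : ∀ x, gmSq x ≤ sig * gmQ Λ x) :
    sig⁻¹ ^ Fintype.card ι ≤ Λ.det ∧ Λ.det ≤ lam ^ Fintype.card ι := by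
  have hH : Λ.IsHermitian := by
    rw [Matrix.IsHermitian, Matrix.conjTranspose_eq_transpose_of_trivial, hs]
  have hv : ∀ i, gmSq (hH.eigenvectorBasis i).ofLp = 1 := by
    intro i
    rw [gm_Sq_eq, qf_basis_dot]
    simp
  have he : ∀ i, hH.eigenvalues i = gmQ Λ (hH.eigenvectorBasis i).ofLp := fun i => qf_eig_eq hH i
  have hlo : ∀ i, sig⁻¹ ≤ hH.eigenvalues i := by
    intro i
    have := h2 (hH.eigenvectorBasis i).ofLp
    rw [hv, ← he] at this
    rw [inv_le_iff_one_le_mul₀ hsig]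
    linarith
  have hhi : ∀ i, hH.eigenvalues i ≤ lam := by
    intro i
    have := h1 (hH.eigenvectorBasis i).ofLp
    rw [hv, ← he] at this
    linarith
  have hd : Λ.det = ∏ i, hH.eigenvalues i := by
    simpa using hH.det_eq_prod_eigenvalues
  rw [hd]
  constructor
  · calc sig⁻¹ ^ Fintype.card ι = ∏ _i : ι, sig⁻¹ := by simp
      _ ≤ _ := Finset.prod_le_prod (fun _ _ => (inv_pos.2 hsig).le) fun i _ => hlo i
  · calc _ ≤ ∏ _i : ι, lam := Finset.prod_le_prod (fun i _ => (inv_pos.2 hsig).le.trans (hlo i)) fun i _ => hhi i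
      _ = _ := by simp

theorem gm_x_log_dens {Λ : Matrix ι ι ℝ} (hd : 0 < Λ.det) (m y : ι → ℝ) :
    Real.log (gmDens Λ m y) = Real.log Λ.det / 2 - (Fintype.card ι : ℝ) / 2 * Real.log (2 * Real.pi) - gmQ Λ (y - m) / 2 := by
  unfold gmDens
  have h1 : 0 < Real.sqrt Λ.det := Real.sqrt_pos.2 hd
  have h2 : (0 : ℝ) < (2 * Real.pi) ^ (-(Fintype.card ι : ℝ) / 2) := by positivity
  rw [Real.log_mul (by positivity) (Real.exp_pos _).ne', Real.log_mul h1.ne' h2.ne', Real.log_exp, Real.log_sqrt hd.le,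
    Real.log_rpow (by positivity)]
  ring

omit [Fintype ι] [DecidableEq ι] in
theorem gm_x_E_mono (B : K → Matrix ι κ ℝ) (m : K → ι → ℝ) {φ ψ : (ι → ℝ) → ℝ} (h1 : ∀ k, Integrable (fun g => φ (m k + B k *ᵥ g)) (gmStd κ))
    (h2 : ∀ k, Integrable (fun g => ψ (m k + B k *ᵥ g)) (gmStd κ)) (h : ∀ y, φ y ≤ ψ y) : gmE B m φ ≤ gmE B m ψ :=
  en_Avg_mono fun k => integral_mono (h1 k) (h2 k) fun _ => h _

omit [Fintype ι] [DecidableEq ι] in
theorem gm_x_E_add (B : K → Matrix ι κ ℝ) (m : K → ι → ℝ) {φ ψ : (ι → ℝ) → ℝ} (h1 : ∀ k, Integrable (fun g => φ (m k + B k *ᵥ g)) (gmStd κ))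
    (h2 : ∀ k, Integrable (fun g => ψ (m k + B k *ᵥ g)) (gmStd κ)) : gmE B m (fun y => φ y + ψ y) = gmE B m φ + gmE B m ψ := by
  unfold gmE
  rw [← en_Avg_add]
  congr 1
  funext k
  exact integral_add (h1 k) (h2 k)

omit [Fintype ι] [DecidableEq ι] in
theorem gm_x_E_sub (B : K → Matrix ι κ ℝ) (m : K → ι → ℝ) {φ ψ : (ι → ℝ) → ℝ} (h1 : ∀ k, Integrable (fun g => φ (m k + B k *ᵥ g)) (gmStd κ))
    (h2 : ∀ k, Integrable (fun g => ψ (m k + B k *ᵥ g)) (gmStd κ)) : gmE B m (fun y => φ y - ψ y) = gmE B m φ - gmE B m ψ := by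
  unfold gmE
  rw [← en_Avg_sub]
  congr 1
  funext k
  exact integral_sub (h1 k) (h2 k)

omit [Fintype ι] [DecidableEq ι] in
theorem gm_x_E_const [Nonempty K] (B : K → Matrix ι κ ℝ) (m : K → ι → ℝ) (c : ℝ) : gmE B m (fun _ => c) = c := by
  unfold gmE
  simp only [integral_const, probReal_univ, smul_eq_mul, one_mul]
  exact en_Avg_const c

/-- two sided quadratic bound of `- log f`:   `det Λ_k ∈ [sig^-D, lam^D]` -/
theorem gm_log_bd [Nonempty K] {B : K → Matrix ι κ ℝ} {Λ : K → Matrix ι ι ℝ} {m : K → ι → ℝ} {lam sig mu : ℝ} (h : GmOk B Λ m lam sig mu) (y : ι → ℝ) :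
    (Fintype.card ι : ℝ) / 2 * Real.log (2 * Real.pi / lam) ≤ - Real.log (gmMix Λ m y) ∧
      - Real.log (gmMix Λ m y) ≤ (Fintype.card ι : ℝ) / 2 * Real.log (2 * Real.pi * sig) + lam * (gmN y + mu) ^ 2 / 2 := by
  have hpi : (0 : ℝ) < 2 * Real.pi := by positivity
  have hpos := (gm_mix_pos h).1 y
  have hdp : ∀ k, 0 < (Λ k).det := fun k => (gm_prec (B k) (Λ k) (h.inv k)).2.1
  have hdb : ∀ k, sig⁻¹ ^ Fintype.card ι ≤ (Λ k).det ∧ (Λ k).det ≤ lam ^ Fintype.card ι := fun k =>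
    gm_x_det_bd (gm_prec (B k) (Λ k) (h.inv k)).1 h.sig0 (h.prec k) (h.cov k)
  have hQ0 : ∀ k x, 0 ≤ gmQ (Λ k) x := by
    intro k x
    rw [(gm_prec (B k) (Λ k) (h.inv k)).2.2.1]
    exact gm_Sq_nonneg _
  have hl1 : ∀ k, Real.log (Λ k).det ≤ (Fintype.card ι : ℝ) * Real.log lam := by
    intro k
    rw [← Real.log_pow]
    exact Real.log_le_log (hdp k) (hdb k).2
  have hl2 : ∀ k, -((Fintype.card ι : ℝ) * Real.log sig) ≤ Real.log (Λ k).det := by
    intro k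
    have := Real.log_le_log (pow_pos (inv_pos.2 h.sig0) _) (hdb k).1
    rwa [Real.log_pow, Real.log_inv, mul_neg] at this
  have hQ1 : ∀ k, gmQ (Λ k) (y - m k) ≤ lam * (gmN y + mu) ^ 2 := by
    intro k
    have h1 : gmN (y - m k) ≤ gmN y + mu := (gm_N_sub _ _).trans (by linarith [h.mean k])
    calc gmQ (Λ k) (y - m k) ≤ lam * gmSq (y - m k) := h.prec k _
      _ = lam * gmN (y - m k) ^ 2 := by rw [gm_N_sq]
      _ ≤ _ := mul_le_mul_of_nonneg_left (pow_le_pow_left₀ (gm_N_nonneg _) h1 2) h.lam0.le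
  constructor
  · have hU : gmMix Λ m y ≤ Real.exp (-((Fintype.card ι : ℝ) / 2 * Real.log (2 * Real.pi / lam))) := by
      unfold gmMix
      rw [← en_Avg_const (K := K) (Real.exp _)]
      refine en_Avg_mono fun k => ?_
      rw [← Real.exp_log (gm_x_dens_pos (h.inv k) (m k) y), gm_x_log_dens (hdp k), Real.log_div hpi.ne' h.lam0.ne']
      apply Real.exp_le_exp.2
      nlinarith [hl1 k, hQ0 k (y - m k)]
    have := Real.log_le_log hpos hU
    rw [Real.log_exp] at this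
    linarith
  · have hL : Real.exp (-((Fintype.card ι : ℝ) / 2 * Real.log (2 * Real.pi * sig) + lam * (gmN y + mu) ^ 2 / 2)) ≤ gmMix Λ m y := by
      unfold gmMix
      rw [← en_Avg_const (K := K) (Real.exp _)]
      refine en_Avg_mono fun k => ?_
      rw [← Real.exp_log (gm_x_dens_pos (h.inv k) (m k) y), gm_x_log_dens (hdp k), Real.log_mul hpi.ne' h.sig0.ne']
      apply Real.exp_le_exp.2
      nlinarith [hl2 k, hQ1 k]
    have := Real.log_le_log (Real.exp_pos _) hL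
    rw [Real.log_exp] at this
    linarith

/-- `log f` has quadratic growth -/
theorem gm_x_log_poly [Nonempty K] {B : K → Matrix ι κ ℝ} {Λ : K → Matrix ι ι ℝ} {m : K → ι → ℝ} {lam sig mu : ℝ} (h : GmOk B Λ m lam sig mu) :
    ∃ C : ℝ, ∀ y, |Real.log (gmMix Λ m y)| ≤ C * (1 + gmSq y) ^ 1 := by
  set a := (Fintype.card ι : ℝ) / 2 * Real.log (2 * Real.pi / lam) with ha
  set b := (Fintype.card ι : ℝ) / 2 * Real.log (2 * Real.pi * sig) with hb
  refine ⟨|a| + |b| + lam * mu ^ 2 + lam, fun y => ?_⟩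
  obtain ⟨h1, h2⟩ := gm_log_bd h y
  rw [← ha] at h1
  rw [← hb] at h2
  have h3 : (gmN y + mu) ^ 2 ≤ 2 * gmSq y + 2 * mu ^ 2 := by
    rw [← gm_N_sq]
    nlinarith [sq_nonneg (gmN y - mu)]
  have h4 := gm_Sq_nonneg y
  have h5 := h.lam0
  have h6 : lam * (gmN y + mu) ^ 2 / 2 ≤ lam * gmSq y + lam * mu ^ 2 := by nlinarith
  have h7 : 0 ≤ (|a| + |b| + lam * mu ^ 2) * gmSq y := by positivity
  rw [pow_one, abs_le]
  constructor
  · nlinarith [le_abs_self b, neg_abs_le b, abs_nonneg a]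
  · nlinarith [le_abs_self a, neg_abs_le a, abs_nonneg b, sq_nonneg mu]

theorem gm_x_log_int [Nonempty K] {B : K → Matrix ι κ ℝ} {Λ : K → Matrix ι ι ℝ} {m : K → ι → ℝ} {lam sig mu : ℝ} (h : GmOk B Λ m lam sig mu)
    (B₁ : Matrix ι κ' ℝ) (m₁ : ι → ℝ) : Integrable (fun g => Real.log (gmMix Λ m (m₁ + B₁ *ᵥ g))) (gmStd κ') := by
  obtain ⟨C, hC⟩ := gm_x_log_poly h
  exact gm_x_int_aff B₁ m₁ (φ := fun y => Real.log (gmMix Λ m y)) (gm_mix_pos h).2.1.log C 1 hC

/-- **T3 (Gibbs)**: `H(f) ≤ - ∫ f log h`.   `log (h/f) ≤ h/f - 1`, `E_f [h/f] = ∫ h = 1` (`gm_E_eq`, `gm_mix_pos`); integrability from `gm_log_bd` + `gm_int_poly` -/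
theorem gm_gibbs {K' : Type} [Fintype K'] [Nonempty K] [Nonempty K'] {B : K → Matrix ι κ ℝ} {Λ : K → Matrix ι ι ℝ} {m : K → ι → ℝ} {lam sig mu : ℝ}
    (h : GmOk B Λ m lam sig mu) {B' : K' → Matrix ι κ' ℝ} {Λ' : K' → Matrix ι ι ℝ} {m' : K' → ι → ℝ} {lam' sig' mu' : ℝ} (h' : GmOk B' Λ' m' lam' sig' mu') :
    gmH B Λ m ≤ gmE B m fun y => - Real.log (gmMix Λ' m' y) := by
  obtain ⟨f0, fm, f1⟩ := gm_mix_pos h
  obtain ⟨e0, em, e1⟩ := gm_mix_pos h'
  have hK : (0 : ℝ) < Fintype.card K := by exact_mod_cast Fintype.card_pos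
  have ei : Integrable (gmMix Λ' m') := integrable_of_integral_eq_one e1
  have rm : Measurable fun y => gmMix Λ' m' y / gmMix Λ m y := em.div fm
  have hint : ∀ k, Integrable fun y => gmMix Λ' m' y / gmMix Λ m y * gmDens (Λ k) (m k) y := by
    intro k
    refine Integrable.mono' (ei.const_mul (Fintype.card K : ℝ)) (rm.mul (gm_x_dens_meas _ _)).aestronglyMeasurable
      (Filter.Eventually.of_forall fun y => ?_)
    have hd := gm_x_dens_pos (h.inv k) (m k) y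
    have h1 : gmDens (Λ k) (m k) y ≤ Fintype.card K * gmMix Λ m y := by
      unfold gmMix enAvg
      rw [← mul_assoc, mul_inv_cancel₀ hK.ne', one_mul]
      exact Finset.single_le_sum (f := fun k => gmDens (Λ k) (m k) y) (fun k _ => (gm_x_dens_pos (h.inv k) (m k) y).le) (Finset.mem_univ k)
    rw [Real.norm_eq_abs, abs_of_nonneg (mul_nonneg (div_nonneg (e0 y).le (f0 y).le) hd.le), div_mul_eq_mul_div, div_le_iff₀ (f0 y)]
    calc gmMix Λ' m' y * gmDens (Λ k) (m k) y ≤ gmMix Λ' m' y * (Fintype.card K * gmMix Λ m y) := mul_le_mul_of_nonneg_left h1 (e0 y).le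
      _ = _ := by ring
  have hr : gmE B m (fun y => gmMix Λ' m' y / gmMix Λ m y) = 1 := by
    rw [gm_E_eq h rm hint, ← e1]
    refine integral_congr_ae (Filter.Eventually.of_forall fun y => ?_)
    exact div_mul_cancel₀ _ (f0 y).ne'
  have i1 : ∀ k, Integrable (fun g => -Real.log (gmMix Λ m (m k + B k *ᵥ g))) (gmStd κ) := fun k => (gm_x_log_int h _ _).neg
  have i2 : ∀ k, Integrable (fun g => -Real.log (gmMix Λ' m' (m k + B k *ᵥ g))) (gmStd κ) := fun k => (gm_x_log_int h' _ _).neg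
  have i3 : ∀ k, Integrable (fun g => gmMix Λ' m' (m k + B k *ᵥ g) / gmMix Λ m (m k + B k *ᵥ g)) (gmStd κ) := fun k =>
    (gm_x_integrable_map (h.inv k) (m k) rm).2 (hint k)
  have i4 : ∀ k, Integrable (fun g => gmMix Λ' m' (m k + B k *ᵥ g) / gmMix Λ m (m k + B k *ᵥ g) - 1) (gmStd κ) := fun k =>
    (i3 k).sub (integrable_const _)
  have key : ∀ y, -Real.log (gmMix Λ m y) ≤ -Real.log (gmMix Λ' m' y) + (gmMix Λ' m' y / gmMix Λ m y - 1) := by
    intro y
    have := Real.log_le_sub_one_of_pos (div_pos (e0 y) (f0 y))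
    rw [Real.log_div (e0 y).ne' (f0 y).ne'] at this
    linarith
  unfold gmH
  calc gmE B m (fun y => -Real.log (gmMix Λ m y))
      ≤ gmE B m (fun y => -Real.log (gmMix Λ' m' y) + (gmMix Λ' m' y / gmMix Λ m y - 1)) :=
        gm_x_E_mono B m i1 (fun k => (i2 k).add (i4 k)) key
    _ = gmE B m (fun y => -Real.log (gmMix Λ' m' y)) + (gmE B m (fun y => gmMix Λ' m' y / gmMix Λ m y) - gmE B m (fun _ => 1)) := by
        rw [gm_x_E_add B m i2 i4, gm_x_E_sub B m i3 fun k => integrable_const _]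
    _ = _ := by rw [hr, gm_x_E_const]; ring

omit [DecidableEq ι] in
/-- T1 for the ratio `enR` -/
theorem en_R_ratio (b : K → ι → ℝ) (y y' : ι → ℝ) (t : ℝ) (h : ∀ k, b k ⬝ᵥ (y - y') ≤ t) : enR b y ≤ Real.exp t * enR b y' := by
  unfold enR enAvg
  rw [mul_left_comm (Real.exp t), Finset.mul_sum (a := Real.exp t)]
  apply mul_le_mul_of_nonneg_left _ (by positivity)
  apply Finset.sum_le_sum
  intro k _
  rw [← Real.exp_add]
  apply Real.exp_le_exp.2
  have := h k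
  rw [dotProduct_sub] at this
  linarith

omit [DecidableEq ι] in
theorem en_R_pos [Nonempty K] (b : K → ι → ℝ) (y : ι → ℝ) : 0 < enR b y :=
  en_Avg_pos fun _ => Real.exp_pos _

omit [DecidableEq ι] in
/-- `log enR` is Lipschitz with the constant `max |b_k|`, and `- β |y| - β²/2 ≤ log enR b y ≤ β |y|` -/
theorem en_R_lip [Nonempty K] (b : K → ι → ℝ) {β : ℝ} (hb : ∀ k, gmN (b k) ≤ β) (y y' : ι → ℝ) :
    |Real.log (enR b y) - Real.log (enR b y')| ≤ β * gmN (y - y') ∧ |Real.log (enR b y)| ≤ β * gmN y + β ^ 2 / 2 := by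
  obtain ⟨k0⟩ := ‹Nonempty K›
  have hβ : 0 ≤ β := (gm_N_nonneg _).trans (hb k0)
  have : Nonempty K := ⟨k0⟩
  have hd : ∀ (k : K) (z : ι → ℝ), |b k ⬝ᵥ z| ≤ β * gmN z := fun k z =>
    (gm_dot_le _ _).trans (mul_le_mul_of_nonneg_right (hb k) (gm_N_nonneg z))
  have one : ∀ z z' : ι → ℝ, Real.log (enR b z) ≤ β * gmN (z - z') + Real.log (enR b z') := by
    intro z z'
    have h1 := en_R_ratio b z z' (β * gmN (z - z')) fun k => (le_abs_self _).trans (hd k _)
    have h2 := Real.log_le_log (en_R_pos b z) h1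
    rwa [Real.log_mul (Real.exp_pos _).ne' (en_R_pos b z').ne', Real.log_exp] at h2
  constructor
  · rw [abs_le]
    constructor
    · have := one y' y
      rw [gm_N_comm] at this
      linarith
    · have := one y y'
      linarith
  · rw [abs_le]
    constructor
    · have h1 : Real.exp (-(β * gmN y + β ^ 2 / 2)) ≤ enR b y := by
        calc Real.exp (-(β * gmN y + β ^ 2 / 2)) = enAvg (fun _ : K => Real.exp (-(β * gmN y + β ^ 2 / 2))) := (en_Avg_const _).symm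
          _ ≤ _ := en_Avg_mono fun k => by
            apply Real.exp_le_exp.2
            have h2 := (abs_le.1 (hd k y)).1
            have h3 : gmSq (b k) ≤ β ^ 2 := by
              rw [← gm_N_sq]
              exact pow_le_pow_left₀ (gm_N_nonneg _) (hb k) 2
            linarith
      have := Real.log_le_log (Real.exp_pos _) h1
      rwa [Real.log_exp] at this
    · have h1 : enR b y ≤ Real.exp (β * gmN y) := by
        calc enR b y ≤ enAvg (fun _ : K => Real.exp (β * gmN y)) := en_Avg_mono fun k => by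
              apply Real.exp_le_exp.2
              have h2 := (abs_le.1 (hd k y)).2
              have h3 := gm_Sq_nonneg (b k)
              linarith
          _ = _ := en_Avg_const _
      have := Real.log_le_log (en_R_pos b y) h1
      rw [Real.log_exp] at this
      nlinarith [sq_nonneg β]

theorem gm_x_Q_one (x : ι → ℝ) : gmQ (1 : Matrix ι ι ℝ) x = gmSq x := by
  rw [gmQ, one_mulVec, gm_Sq_eq]

omit [DecidableEq ι] in
theorem gm_x_Sq_sub (y b : ι → ℝ) : gmSq (y - b) = gmSq y - 2 * (b ⬝ᵥ y) + gmSq b := by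
  simp only [gmSq, dotProduct, Pi.sub_apply, Finset.mul_sum, ← Finset.sum_add_distrib, ← Finset.sum_sub_distrib]
  exact Finset.sum_congr rfl fun i _ => by ring

omit [DecidableEq ι] in
theorem gm_x_Sq_add (y b : ι → ℝ) : gmSq (b + y) = gmSq y + 2 * (b ⬝ᵥ y) + gmSq b := by
  simp only [gmSq, dotProduct, Pi.add_apply, Finset.mul_sum, ← Finset.sum_add_distrib]
  exact Finset.sum_congr rfl fun i _ => by ring

/-- the shifted standard density -/
theorem gm_x_dens_shift (b y : ι → ℝ) :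
    gmDens (1 : Matrix ι ι ℝ) b y = gmDens (1 : Matrix ι ι ℝ) 0 y * Real.exp (b ⬝ᵥ y - gmSq b / 2) := by
  unfold gmDens
  rw [mul_assoc, mul_assoc, mul_assoc, ← Real.exp_add, gm_x_Q_one, gm_x_Q_one, sub_zero, gm_x_Sq_sub]
  congr 3
  ring

/-- Cameron-Martin, integrability -/
theorem gm_x_shift_int (b : ι → ℝ) {φ : (ι → ℝ) → ℝ} (hφ : Measurable φ) :
    Integrable (fun g => φ (b + g)) (gmStd ι) ↔ Integrable (fun y => φ y * Real.exp (b ⬝ᵥ y - gmSq b / 2)) (gmStd ι) := by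
  have h1 : (1 : Matrix ι ι ℝ) * (1 : Matrix ι ι ℝ)ᵀ * 1 = 1 := by simp
  have hψ : Measurable fun y : ι → ℝ => φ y * Real.exp (b ⬝ᵥ y - gmSq b / 2) := by
    refine hφ.mul ?_
    simp only [dotProduct]
    fun_prop
  have e1 := gm_x_integrable_map h1 b hφ
  have e2 := gm_x_integrable_map h1 (0 : ι → ℝ) hψ
  simp only [one_mulVec, zero_add] at e1 e2
  rw [e1, e2]
  refine integrable_congr (Filter.Eventually.of_forall fun y => ?_)
  simp only []
  rw [gm_x_dens_shift b y]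
  ring

omit [DecidableEq ι] in
theorem en_x_R_meas (b : K → ι → ℝ) : Measurable (enR b) := by
  unfold enR enAvg
  simp only [dotProduct]
  fun_prop

omit [DecidableEq ι] in
theorem en_x_logR_poly [Nonempty K] (b : K → ι → ℝ) : ∃ C : ℝ, ∀ y, |Real.log (enR b y)| ≤ C * (1 + gmSq y) ^ 1 := by
  set β := ∑ k, gmN (b k) with hβ
  have hb : ∀ k, gmN (b k) ≤ β := fun k => Finset.single_le_sum (f := fun k => gmN (b k)) (fun k _ => gm_N_nonneg _) (Finset.mem_univ k)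
  have hβ0 : 0 ≤ β := Finset.sum_nonneg fun k _ => gm_N_nonneg _
  refine ⟨β + β ^ 2 / 2, fun y => ?_⟩
  have h1 := (en_R_lip b hb y y).2
  have h2 : gmN y ≤ 1 + gmSq y := by
    rw [← gm_N_sq]
    nlinarith [sq_nonneg (gmN y - 1), gm_N_nonneg y]
  have h3 := gm_Sq_nonneg y
  rw [pow_one]
  calc _ ≤ β * gmN y + β ^ 2 / 2 := h1
    _ ≤ β * (1 + gmSq y) + β ^ 2 / 2 * (1 + gmSq y) := by
      have : β ^ 2 / 2 ≤ β ^ 2 / 2 * (1 + gmSq y) := le_mul_of_one_le_right (by positivity) (by linarith)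
      have h4 := mul_le_mul_of_nonneg_left h2 hβ0
      linarith
    _ = _ := by ring

omit [DecidableEq ι] in
theorem en_x_logR_int [Nonempty K] (b : K → ι → ℝ) (c : ι → ℝ) : Integrable (fun g => Real.log (enR b (c + g))) (gmStd ι) := by
  classical
  obtain ⟨C, hC⟩ := en_x_logR_poly b
  have := gm_x_int_aff (1 : Matrix ι ι ℝ) c (φ := fun y => Real.log (enR b y)) (en_x_R_meas b).log C 1 hC
  simpa only [one_mulVec] using this

theorem gm_x_mix_std (b : K → ι → ℝ) (y : ι → ℝ) :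
    gmMix (fun _ : K => (1 : Matrix ι ι ℝ)) b y = gmDens (1 : Matrix ι ι ℝ) 0 y * enR b y := by
  unfold gmMix enR
  rw [← en_Avg_mul]
  congr 1
  funext k
  exact gm_x_dens_shift (b k) y

theorem gm_x_Sq_int (c : ι → ℝ) : Integrable (fun g => gmSq (c + g)) (gmStd ι) ∧ ∫ g, gmSq (c + g) ∂(gmStd ι) = gmSq c + Fintype.card ι := by
  have i1 : Integrable (fun g : ι → ℝ => gmSq g) (gmStd ι) :=
    gm_int_poly (by unfold gmSq; fun_prop) 1 1 fun g => by
      rw [abs_of_nonneg (gm_Sq_nonneg g)]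
      linarith
  have i0 : ∀ i, Integrable (fun g : ι → ℝ => g i) (gmStd ι) := fun i =>
    gm_int_poly (measurable_pi_apply i) 1 1 fun g => by
      have h1 := gm_N_coord g i
      have h2 : gmN g ≤ 1 + gmSq g := by
        rw [← gm_N_sq]
        nlinarith [sq_nonneg (gmN g - 1), gm_N_nonneg g]
      linarith
  have i2 : Integrable (fun g : ι → ℝ => 2 * (c ⬝ᵥ g)) (gmStd ι) := by
    simp only [dotProduct]
    exact (integrable_finsetSum _ fun i _ => (i0 i).const_mul _).const_mul _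
  have e0 : ∀ i, ∫ g : ι → ℝ, g i ∂(gmStd ι) = 0 := by
    intro i
    simpa only [one_mulVec] using gm_mom0 (1 : Matrix ι ι ℝ) i
  have e2 : ∫ g : ι → ℝ, 2 * (c ⬝ᵥ g) ∂(gmStd ι) = 0 := by
    simp only [dotProduct]
    rw [integral_const_mul, integral_finsetSum _ fun i _ => (i0 i).const_mul _]
    simp only [integral_const_mul, e0, mul_zero, Finset.sum_const_zero]
  have e1 : ∫ g : ι → ℝ, gmSq g ∂(gmStd ι) = Fintype.card ι := by
    have := gm_mom2_sq (1 : Matrix ι ι ℝ)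
    simpa only [one_mulVec, transpose_one, mul_one, trace_one] using this
  simp only [gm_x_Sq_add]
  have i12 : Integrable (fun g : ι → ℝ => gmSq g + 2 * (c ⬝ᵥ g)) (gmStd ι) := i1.add i2
  refine ⟨i12.add (integrable_const _), ?_⟩
  rw [integral_add i12 (integrable_const _), integral_add i1 i2, e1, e2]
  simp only [integral_const, probReal_univ, smul_eq_mul, one_mul]
  ring

/-- `enEnt b = ∫ R log R dγ` (`gm_shift`) -/
theorem en_Ent_eq [Nonempty K] (b : K → ι → ℝ) : enEnt b = ∫ y, enR b y * Real.log (enR b y) ∂(gmStd ι) := by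
  have hi : ∀ k, Integrable (fun y => Real.log (enR b y) * Real.exp (b k ⬝ᵥ y - gmSq (b k) / 2)) (gmStd ι) := fun k =>
    (gm_x_shift_int (b k) (en_x_R_meas b).log).1 (en_x_logR_int b (b k))
  unfold enEnt
  simp_rw [gm_shift (b _) fun y => Real.log (enR b y)]
  unfold enAvg
  rw [← integral_finsetSum _ fun k _ => hi k, ← integral_const_mul]
  refine integral_congr_ae (Filter.Eventually.of_forall fun y => ?_)
  simp only []
  rw [← Finset.mul_sum]
  unfold enR enAvg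
  ring

/-- entropy of a mixture of STANDARD Gaussians in ratio form:  `H = (D/2) log 2π + D/2 + avg |b_k|²/2 - Ent(b)` -/
theorem gm_H_std [Nonempty K] (b : K → ι → ℝ) :
    gmH (fun _ : K => (1 : Matrix ι ι ℝ)) (fun _ => 1) b
      = (Fintype.card ι : ℝ) / 2 * Real.log (2 * Real.pi) + (Fintype.card ι : ℝ) / 2 + enAvg (fun k => gmSq (b k)) / 2 - enEnt b := by
  have h1 : (1 : Matrix ι ι ℝ) * (1 : Matrix ι ι ℝ)ᵀ * 1 = 1 := by simp
  have hl : ∀ y, -Real.log (gmMix (fun _ : K => (1 : Matrix ι ι ℝ)) b y)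
      = (Fintype.card ι : ℝ) / 2 * Real.log (2 * Real.pi) + gmSq y / 2 - Real.log (enR b y) := by
    intro y
    rw [gm_x_mix_std, Real.log_mul (gm_x_dens_pos h1 0 y).ne' (en_R_pos b y).ne', gm_x_log_dens (by simp), det_one, Real.log_one,
      gm_x_Q_one, sub_zero]
    ring
  unfold gmH gmE enEnt
  simp only [hl, one_mulVec]
  have hk : ∀ k, ∫ g, ((Fintype.card ι : ℝ) / 2 * Real.log (2 * Real.pi) + gmSq (b k + g) / 2 - Real.log (enR b (b k + g))) ∂(gmStd ι)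
      = ((Fintype.card ι : ℝ) / 2 * Real.log (2 * Real.pi) + (Fintype.card ι : ℝ) / 2 + gmSq (b k) / 2) - ∫ g, Real.log (enR b (b k + g)) ∂(gmStd ι) := by
    intro k
    have i1 := ((gm_x_Sq_int (b k)).1).div_const 2
    have i2 : Integrable (fun g => (Fintype.card ι : ℝ) / 2 * Real.log (2 * Real.pi) + gmSq (b k + g) / 2) (gmStd ι) := (integrable_const _).add i1
    rw [integral_sub i2 (en_x_logR_int b (b k)), integral_add (integrable_const _) i1, integral_div,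
      (gm_x_Sq_int (b k)).2]
    simp only [integral_const, probReal_univ, smul_eq_mul, one_mul]
    ring
  simp only [hk]
  rw [en_Avg_sub, en_Avg_add, en_Avg_const]
  congr 2
  unfold enAvg
  rw [← Finset.sum_div]
  ring

omit [DecidableEq ι] in
/-- `enEnt` depends on the Gram matrix only (`gm_map_cov` for the matrices of rows `b_k`, `b'_k`) -/
theorem en_Ent_gram {ι' : Type} [Fintype ι'] (b : K → ι → ℝ) (b' : K → ι' → ℝ) (h : ∀ k l, b k ⬝ᵥ b l = b' k ⬝ᵥ b' l) : enEnt b = enEnt b' := by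
  classical
  set F : K → (K → ℝ) → ℝ := fun k w => Real.log (enAvg fun l => Real.exp (b l ⬝ᵥ b k + w l - b l ⬝ᵥ b l / 2)) with hF
  have hFm : ∀ k, Measurable (F k) := by
    intro k
    simp only [hF, enAvg]
    fun_prop
  have e1 : ∀ k g, Real.log (enR b (b k + g)) = F k ((Matrix.of b) *ᵥ g) := by
    intro k g
    simp only [hF, enR, dotProduct_add, gm_Sq_eq]
    rfl
  have e2 : ∀ k g, Real.log (enR b' (b' k + g)) = F k ((Matrix.of b') *ᵥ g) := by
    intro k g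
    simp only [hF, enR, dotProduct_add, gm_Sq_eq, h]
    rfl
  have hc : (Matrix.of b) * (Matrix.of b)ᵀ = (Matrix.of b') * (Matrix.of b')ᵀ := by
    ext k l
    exact h k l
  have hl := gm_map_cov (Matrix.of b) (Matrix.of b') hc
  unfold enEnt
  congr 1
  funext k
  simp only [e1, e2]
  rw [← integral_map (gm_x_meas (Matrix.of b)).aemeasurable (hFm k).aestronglyMeasurable (f := F k), hl,
    integral_map (gm_x_meas (Matrix.of b')).aemeasurable (hFm k).aestronglyMeasurable]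

/-! ### SEC 5: cells -/

/-- law of the quantised mixture -/
def gmP (B : K → Matrix ι κ ℝ) (m : K → ι → ℝ) (b : ℝ) (Kb : ℕ) [NeZero Kb] (τ : ι → Fin Kb) : ℝ :=
  enAvg fun k => (gmStd κ).real {g | (fun i => enBin b Kb ((m k + B k *ᵥ g) i)) = τ}

/-- no coordinate is clipped -/
def gmInt (b : ℝ) (Kb : ℕ) [NeZero Kb] (y : ι → ℝ) : Prop := ∀ i, 0 < (enBin b Kb (y i)).val ∧ (enBin b Kb (y i)).val + 1 < Kb

open Classical in
/-- indicator of `gmInt` -/
def gmI (b : ℝ) (Kb : ℕ) [NeZero Kb] (y : ι → ℝ) : ℝ := if gmInt b Kb y then 1 else 0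

theorem en_bin_val (b : ℝ) (Kb : ℕ) [NeZero Kb] (t : ℝ) :
    (enBin b Kb t).val = min (Kb - 1) (Int.toNat (⌊t / b⌋ + (Kb / 2 : ℕ))) := by
  unfold enBin
  rw [Fin.val_ofNat]
  apply Nat.mod_eq_of_lt
  have : 0 < Kb := Nat.pos_of_ne_zero (NeZero.ne Kb)
  omega

/-- the bins: `enBin b K t = k`, `0 < k < K - 1` iff `(k - K/2) b ≤ t < (k + 1 - K/2) b` -/
theorem en_bin_iff {b : ℝ} (hb : 0 < b) (Kb : ℕ) [NeZero Kb] (t : ℝ) (k : Fin Kb) (h0 : 0 < k.val) (h1 : k.val + 1 < Kb) :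
    enBin b Kb t = k ↔ ((k.val : ℝ) - (Kb / 2 : ℕ)) * b ≤ t ∧ t < ((k.val : ℝ) + 1 - (Kb / 2 : ℕ)) * b := by
  rw [Fin.ext_iff, en_bin_val]
  have e1 : min (Kb - 1) (Int.toNat (⌊t / b⌋ + (Kb / 2 : ℕ))) = k.val ↔ ⌊t / b⌋ = (k.val : ℤ) - (Kb / 2 : ℕ) := by
    omega
  rw [e1, Int.floor_eq_iff, le_div_iff₀ hb, div_lt_iff₀ hb]
  simp only [Int.cast_sub, Int.cast_natCast]
  constructor
  · rintro ⟨h2, h3⟩
    exact ⟨h2, by linarith⟩
  · rintro ⟨h2, h3⟩
    exact ⟨h2, by linarith⟩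

/-- unclipped range: `|t| < (K/2 - 1) b` is not clipped -/
theorem en_bin_int {b : ℝ} (hb : 0 < b) (K' : ℕ) (t : ℝ) (ht : |t| < K' * b) :
    0 < (enBin b (2 * K' + 2) t).val ∧ (enBin b (2 * K' + 2) t).val + 1 < 2 * K' + 2 := by
  rw [en_bin_val]
  rw [abs_lt] at ht
  have h1 : -(K' : ℤ) ≤ ⌊t / b⌋ := by
    rw [Int.le_floor, le_div_iff₀ hb]
    push_cast
    linarith [ht.1]
  have h2 : ⌊t / b⌋ < (K' : ℤ) := by
    rw [Int.floor_lt, div_lt_iff₀ hb]
    push_cast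
    exact ht.2
  omega

theorem en_bin_meas (b : ℝ) (Kb : ℕ) [NeZero Kb] : Measurable (enBin b Kb) := by
  have h1 : Measurable fun t : ℝ => ⌊t / b⌋ := Int.measurable_floor.comp (measurable_id.div_const b)
  have h2 : Measurable fun z : ℤ => Fin.ofNat Kb (min (Kb - 1) (Int.toNat (z + (Kb / 2 : ℕ)))) := Measurable.of_discrete
  exact h2.comp h1

omit [DecidableEq ι] in
/-- an unclipped cell is a cube of side `b` -/
theorem gm_cell {b : ℝ} (hb : 0 < b) (Kb : ℕ) [NeZero Kb] (y : ι → ℝ) (hy : gmInt b Kb y) :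
    volume {y' : ι → ℝ | (fun i => enBin b Kb (y' i)) = fun i => enBin b Kb (y i)} = ENNReal.ofReal (b ^ Fintype.card ι) ∧
      ∀ y' : ι → ℝ, ((fun i => enBin b Kb (y' i)) = fun i => enBin b Kb (y i)) → gmN (y - y') ≤ b * Real.sqrt (Fintype.card ι) := by
  have hiff : ∀ (y' : ι → ℝ) (i : ι), enBin b Kb (y' i) = enBin b Kb (y i) ↔
      (((enBin b Kb (y i)).val : ℝ) - (Kb / 2 : ℕ)) * b ≤ y' i ∧ y' i < (((enBin b Kb (y i)).val : ℝ) + 1 - (Kb / 2 : ℕ)) * b :=
    fun y' i => en_bin_iff hb Kb (y' i) (enBin b Kb (y i)) (hy i).1 (hy i).2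
  constructor
  · have e : {y' : ι → ℝ | (fun i => enBin b Kb (y' i)) = fun i => enBin b Kb (y i)}
        = Set.pi Set.univ fun i => Set.Ico ((((enBin b Kb (y i)).val : ℝ) - (Kb / 2 : ℕ)) * b) ((((enBin b Kb (y i)).val : ℝ) + 1 - (Kb / 2 : ℕ)) * b) := by
      ext y'
      simp only [Set.mem_setOf_eq, funext_iff, Set.mem_pi, Set.mem_univ, forall_true_left, Set.mem_Ico, hiff]
    rw [e, Real.volume_pi_Ico]
    have e2 : ∀ i, (((enBin b Kb (y i)).val : ℝ) + 1 - (Kb / 2 : ℕ)) * b - (((enBin b Kb (y i)).val : ℝ) - (Kb / 2 : ℕ)) * b = b := fun i => by ring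
    simp only [e2]
    rw [Finset.prod_const, ENNReal.ofReal_pow hb.le]
    rfl
  · intro y' h
    rw [mul_comm]
    refine gm_N_le_sup _ fun i => ?_
    have h1 := (hiff y' i).1 (congrFun h i)
    have h2 := (hiff y i).1 rfl
    simp only [Pi.sub_apply]
    rw [abs_le]
    constructor <;> nlinarith [h1.1, h1.2, h2.1, h2.2]

omit [DecidableEq ι] in
/-- the quantisation map is measurable -/
theorem gm_y_bin_meas (B : Matrix ι κ ℝ) (m : ι → ℝ) (b : ℝ) (Kb : ℕ) [NeZero Kb] :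
    Measurable fun g : κ → ℝ => fun i => enBin b Kb ((m + B *ᵥ g) i) := by
  refine measurable_pi_lambda _ fun i => ?_
  exact (en_bin_meas b Kb).comp ((measurable_pi_apply i).comp ((gm_x_meas B).const_add m))

/-- `gmP` is a probability vector -/
theorem gm_P_prob [Nonempty K] (B : K → Matrix ι κ ℝ) (m : K → ι → ℝ) (b : ℝ) (Kb : ℕ) [NeZero Kb] :
    (∀ τ, 0 ≤ gmP B m b Kb τ) ∧ ∑ τ, gmP B m b Kb τ = 1 := by
  have hc : (0 : ℝ) ≤ (Fintype.card K : ℝ)⁻¹ := by positivity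
  constructor
  · intro τ
    unfold gmP enAvg
    exact mul_nonneg hc (Finset.sum_nonneg fun k _ => measureReal_nonneg)
  · unfold gmP enAvg
    rw [← Finset.mul_sum, Finset.sum_comm]
    have : IsProbabilityMeasure (gmStd κ) := by unfold gmStd; infer_instance
    have h1 : ∀ k, ∑ τ : ι → Fin Kb, (gmStd κ).real {g | (fun i => enBin b Kb ((m k + B k *ᵥ g) i)) = τ} = 1 := by
      intro k
      have h2 := sum_measureReal_preimage_singleton (μ := gmStd κ) (Finset.univ : Finset (ι → Fin Kb))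
        (f := fun g : κ → ℝ => fun i => enBin b Kb ((m k + B k *ᵥ g) i))
        (fun y _ => gm_y_bin_meas (B k) (m k) b Kb (measurableSet_singleton y))
      have e : ∀ τ : ι → Fin Kb, {g : κ → ℝ | (fun i => enBin b Kb ((m k + B k *ᵥ g) i)) = τ}
          = (fun g : κ → ℝ => fun i => enBin b Kb ((m k + B k *ᵥ g) i)) ⁻¹' {τ} := fun τ => rfl
      simp only [e]
      rw [h2]
      simp
    simp only [h1]
    have hK : (Fintype.card K : ℝ) ≠ 0 := by exact_mod_cast Fintype.card_ne_zero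
    simp [hK]

omit [Fintype ι] [DecidableEq ι] in
theorem gm_bin_meas (b : ℝ) (Kb : ℕ) [NeZero Kb] : Measurable fun y : ι → ℝ => fun i => enBin b Kb (y i) :=
  measurable_pi_lambda _ fun i => (en_bin_meas b Kb).comp (measurable_pi_apply i)

/-- expectation of a function of the quantised vector -/
theorem gm_E_bin (B : K → Matrix ι κ ℝ) (m : K → ι → ℝ) (b : ℝ) (Kb : ℕ) [NeZero Kb] (c : (ι → Fin Kb) → ℝ) :
    gmE B m (fun y => c fun i => enBin b Kb (y i)) = ∑ τ, c τ * gmP B m b Kb τ := by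
  have hk : ∀ k, ∫ g, c (fun i => enBin b Kb ((m k + B k *ᵥ g) i)) ∂(gmStd κ)
      = ∑ τ, c τ * (gmStd κ).real {g | (fun i => enBin b Kb ((m k + B k *ᵥ g) i)) = τ} := by
    intro k
    set X : (κ → ℝ) → (ι → Fin Kb) := fun g i => enBin b Kb ((m k + B k *ᵥ g) i) with hXd
    have hX : Measurable X := (gm_bin_meas b Kb).comp (measurable_const.add (gm_x_meas (B k)))
    have e1 : ∫ g, c (X g) ∂(gmStd κ) = ∫ τ, c τ ∂((gmStd κ).map X) :=
      (integral_map hX.aemeasurable (Measurable.of_discrete.aestronglyMeasurable)).symm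
    have : IsProbabilityMeasure ((gmStd κ).map X) := Measure.isProbabilityMeasure_map hX.aemeasurable
    rw [e1, integral_fintype Integrable.of_finite]
    refine Finset.sum_congr rfl fun τ _ => ?_
    rw [smul_eq_mul, mul_comm, map_measureReal_apply hX (measurableSet_singleton τ)]
    rfl
  unfold gmE gmP
  simp only [hk]
  unfold enAvg
  rw [Finset.sum_comm, Finset.mul_sum]
  refine Finset.sum_congr rfl fun τ _ => ?_
  rw [← Finset.mul_sum]
  ring

/-- T2: probability of an unclipped cell, two sided (`gm_E_eq` for the indicator of the cell, `gm_cell`, `gm_ratio'`) -/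
theorem gm_P_cell [Nonempty K] {B : K → Matrix ι κ ℝ} {Λ : K → Matrix ι ι ℝ} {m : K → ι → ℝ} {lam sig mu b : ℝ} (h : GmOk B Λ m lam sig mu) (hb : 0 < b)
    (Kb : ℕ) [NeZero Kb] (y : ι → ℝ) (hy : gmInt b Kb y) :
    b ^ Fintype.card ι * gmMix Λ m y * Real.exp (-(gmOsc lam (b * Real.sqrt (Fintype.card ι)) mu y)) ≤ gmP B m b Kb (fun i => enBin b Kb (y i)) ∧
      gmP B m b Kb (fun i => enBin b Kb (y i)) ≤ b ^ Fintype.card ι * gmMix Λ m y * Real.exp (gmOsc lam (b * Real.sqrt (Fintype.card ι)) mu y) := by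
  classical
  obtain ⟨hvol, hdist⟩ := gm_cell hb Kb y hy
  obtain ⟨hpos, hmeas, -⟩ := gm_mix_pos h
  set τ : ι → Fin Kb := fun i => enBin b Kb (y i) with hτ
  set S : Set (ι → ℝ) := {y' | (fun i => enBin b Kb (y' i)) = τ} with hS
  set o := gmOsc lam (b * Real.sqrt (Fintype.card ι)) mu y with ho
  have hSm : MeasurableSet S := (gm_bin_meas b Kb) (measurableSet_singleton τ)
  set c : (ι → Fin Kb) → ℝ := fun τ' => if τ' = τ then 1 else 0 with hc
  have e1 : gmE B m (fun y' => c fun i => enBin b Kb (y' i)) = gmP B m b Kb τ := by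
    rw [gm_E_bin B m b Kb c, hc]
    simp
  have hφm : Measurable fun y' : ι → ℝ => c fun i => enBin b Kb (y' i) := (Measurable.of_discrete (f := c)).comp (gm_bin_meas b Kb)
  have hφb : ∀ y' : ι → ℝ, |c fun i => enBin b Kb (y' i)| ≤ 1 * (1 + gmSq y') ^ 0 := by
    intro y'
    rw [hc]
    simp only []
    split_ifs <;> simp
  have e2 := gm_E_eq h hφm fun k => gm_dens_int (h.inv k) (m k) hφm 1 0 hφb
  have e3 : ∫ y', (c fun i => enBin b Kb (y' i)) * gmMix Λ m y' = ∫ y' in S, gmMix Λ m y' := by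
    rw [← integral_indicator hSm]
    refine integral_congr_ae (Filter.Eventually.of_forall fun y' => ?_)
    simp only [hc, Set.indicator, hS, Set.mem_ofPred_eq]
    split_ifs <;> simp
  have hr : ∀ y' ∈ S, gmMix Λ m y' ≤ Real.exp o * gmMix Λ m y ∧ gmMix Λ m y ≤ Real.exp o * gmMix Λ m y' :=
    fun y' hy' => gm_ratio' h y y' (hdist y' hy')
  have hfin : volume S ≠ ⊤ := by rw [hvol]; exact ENNReal.ofReal_ne_top
  have hreal : volume.real S = b ^ Fintype.card ι := by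
    unfold Measure.real
    rw [hvol, ENNReal.toReal_ofReal (by positivity)]
  have hint : IntegrableOn (gmMix Λ m) S := by
    refine Measure.integrableOn_of_bounded (M := Real.exp o * gmMix Λ m y) hfin hmeas.aestronglyMeasurable ?_
    refine (ae_restrict_iff' hSm).2 (Filter.Eventually.of_forall fun y' hy' => ?_)
    rw [Real.norm_eq_abs, abs_of_pos (hpos y')]
    exact (hr y' hy').1
  rw [← e1, e2, e3]
  constructor
  · calc b ^ Fintype.card ι * gmMix Λ m y * Real.exp (-o) = ∫ _ in S, gmMix Λ m y * Real.exp (-o) := by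
          rw [setIntegral_const, hreal, smul_eq_mul]; ring
      _ ≤ _ := by
          refine setIntegral_mono_on (integrableOn_const hfin) hint hSm fun y' hy' => ?_
          have := (hr y' hy').2
          rw [Real.exp_neg, ← div_eq_mul_inv, div_le_iff₀ (Real.exp_pos o)]
          linarith
  · calc ∫ y' in S, gmMix Λ m y' ≤ ∫ _ in S, Real.exp o * gmMix Λ m y :=
          setIntegral_mono_on hint (integrableOn_const hfin) hSm fun y' hy' => (hr y' hy').1
      _ = _ := by rw [setIntegral_const, hreal, smul_eq_mul]; ring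

/-- surprisal form of the entropy, split: `H(P) = E_f[-log P(bin y); unclipped] + Σ_{τ clipped} negMulLog P(τ)` -/
theorem gm_H_split [Nonempty K] (B : K → Matrix ι κ ℝ) (m : K → ι → ℝ) (b : ℝ) (Kb : ℕ) [NeZero Kb] :
    enHd (gmP B m b Kb) = gmE B m (fun y => gmI b Kb y * - Real.log (gmP B m b Kb fun i => enBin b Kb (y i)))
      + ∑ τ : ι → Fin Kb, if (∀ i, 0 < (τ i).val ∧ (τ i).val + 1 < Kb) then 0 else Real.negMulLog (gmP B m b Kb τ) := by
  classical
  set c : (ι → Fin Kb) → ℝ := fun τ => if (∀ i, 0 < (τ i).val ∧ (τ i).val + 1 < Kb) then - Real.log (gmP B m b Kb τ) else 0 with hc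
  have e : (fun y : ι → ℝ => gmI b Kb y * - Real.log (gmP B m b Kb fun i => enBin b Kb (y i))) = fun y => c fun i => enBin b Kb (y i) := by
    funext y
    rw [hc]
    unfold gmI gmInt
    simp only []
    split_ifs <;> simp
  rw [e, gm_E_bin B m b Kb c, ← Finset.sum_add_distrib]
  unfold enHd
  refine Finset.sum_congr rfl fun τ _ => ?_
  rw [hc]
  simp only []
  split_ifs
  · rw [Real.negMulLog]
    ring
  · ring

/-- entropy of a part: `Σ_{a ∈ S} negMulLog (p a) ≤ p(S) log |S| + negMulLog p(S)` (Jensen / Gibbs with the uniform law on `S`) -/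
theorem en_Hd_part {α : Type} [Fintype α] (p : α → ℝ) (hp : ∀ a, 0 ≤ p a) (S : Finset α) :
    ∑ a ∈ S, Real.negMulLog (p a) ≤ (∑ a ∈ S, p a) * Real.log S.card + Real.negMulLog (∑ a ∈ S, p a) := by
  rcases S.eq_empty_or_nonempty with rfl | hS
  · simp
  · have hN : 0 < (S.card : ℝ) := Nat.cast_pos.2 hS.card_pos
    have hJ := Real.concaveOn_negMulLog.le_map_sum (t := S) (w := fun _ => (S.card : ℝ)⁻¹) (p := p)
      (fun _ _ => by positivity) (by rw [Finset.sum_const, nsmul_eq_mul]; field_simp) (fun a _ => hp a)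
    simp only [smul_eq_mul, ← Finset.mul_sum] at hJ
    rw [mul_comm _ (∑ a ∈ S, p a), Real.negMulLog_mul] at hJ
    have e : Real.negMulLog (S.card : ℝ)⁻¹ = (S.card : ℝ)⁻¹ * Real.log S.card := by
      rw [Real.negMulLog, Real.log_inv]
      ring
    rw [e] at hJ
    have := mul_le_mul_of_nonneg_left hJ hN.le
    have e1 : (S.card : ℝ) * ((S.card : ℝ)⁻¹ * ∑ a ∈ S, Real.negMulLog (p a)) = ∑ a ∈ S, Real.negMulLog (p a) := by
      field_simp
    have e2 : (S.card : ℝ) * ((S.card : ℝ)⁻¹ * Real.negMulLog (∑ a ∈ S, p a) + (∑ a ∈ S, p a) * ((S.card : ℝ)⁻¹ * Real.log S.card))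
        = (∑ a ∈ S, p a) * Real.log S.card + Real.negMulLog (∑ a ∈ S, p a) := by
      field_simp
      ring
    rwa [e1, e2] at this

/-- functions of the quantised vector -/
theorem GmPoly.bin (b : ℝ) (Kb : ℕ) [NeZero Kb] (c : (ι → Fin Kb) → ℝ) : GmPoly fun y : ι → ℝ => c fun i => enBin b Kb (y i) := by
  refine ⟨(Measurable.of_discrete (f := c)).comp (gm_bin_meas b Kb), ∑ τ, |c τ|, 0, fun y => ?_⟩
  rw [pow_zero, mul_one]
  exact Finset.single_le_sum (f := fun τ => |c τ|) (fun τ _ => abs_nonneg _) (Finset.mem_univ _)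

omit [DecidableEq ι] in
theorem gm_I_eq (b : ℝ) (Kb : ℕ) [NeZero Kb] : ∃ c : (ι → Fin Kb) → ℝ, ∀ y : ι → ℝ, gmI b Kb y = c fun i => enBin b Kb (y i) := by
  classical
  refine ⟨fun τ => if (∀ i, 0 < (τ i).val ∧ (τ i).val + 1 < Kb) then 1 else 0, fun y => ?_⟩
  unfold gmI gmInt
  simp only []
  split_ifs <;> rfl

theorem gm_I_poly (b : ℝ) (Kb : ℕ) [NeZero Kb] : GmPoly (gmI b Kb : (ι → ℝ) → ℝ) := by
  obtain ⟨c, hc⟩ := gm_I_eq (ι := ι) b Kb
  have : (gmI b Kb : (ι → ℝ) → ℝ) = fun y => c fun i => enBin b Kb (y i) := funext hc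
  rw [this]
  exact GmPoly.bin b Kb c

theorem gm_log_poly [Nonempty K] {B : K → Matrix ι κ ℝ} {Λ : K → Matrix ι ι ℝ} {m : K → ι → ℝ} {lam sig mu : ℝ} (h : GmOk B Λ m lam sig mu) :
    GmPoly fun y => Real.log (gmMix Λ m y) := by
  obtain ⟨-, hmeas, -⟩ := gm_mix_pos h
  have hp : GmPoly fun y : ι → ℝ => |(Fintype.card ι : ℝ) / 2 * Real.log (2 * Real.pi / lam)| + |(Fintype.card ι : ℝ) / 2 * Real.log (2 * Real.pi * sig)|
      + lam / 2 * ((gmN y + mu) * (gmN y + mu)) :=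
    ((GmPoly.const _).add (GmPoly.const _)).add ((GmPoly.const _).mul ((GmPoly.norm.add (GmPoly.const _)).mul (GmPoly.norm.add (GmPoly.const _))))
  refine hp.of_le hmeas.log fun y => ?_
  obtain ⟨h1, h2⟩ := gm_log_bd h y
  have hl := h.lam0
  have h3 : 0 ≤ lam / 2 * ((gmN y + mu) * (gmN y + mu)) := mul_nonneg (by linarith) (mul_self_nonneg _)
  rw [abs_of_nonneg (a := _ + _ + _) (by positivity)]
  rw [abs_le]
  constructor
  · have := le_abs_self ((Fintype.card ι : ℝ) / 2 * Real.log (2 * Real.pi * sig))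
    have := abs_nonneg ((Fintype.card ι : ℝ) / 2 * Real.log (2 * Real.pi / lam))
    nlinarith
  · have := neg_abs_le ((Fintype.card ι : ℝ) / 2 * Real.log (2 * Real.pi / lam))
    have := abs_nonneg ((Fintype.card ι : ℝ) / 2 * Real.log (2 * Real.pi * sig))
    nlinarith

omit [DecidableEq ι] in
theorem gm_osc_poly (lam β mu : ℝ) : GmPoly (gmOsc lam β mu : (ι → ℝ) → ℝ) := by
  unfold gmOsc
  exact (GmPoly.const _).mul ((GmPoly.norm.add (GmPoly.const _)).add (GmPoly.const _))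

/-- the clipped part -/
theorem gm_clip_part [Nonempty K] (B : K → Matrix ι κ ℝ) (m : K → ι → ℝ) (b : ℝ) (Kb : ℕ) [NeZero Kb] :
    (0 ≤ ∑ τ : ι → Fin Kb, if (∀ i, 0 < (τ i).val ∧ (τ i).val + 1 < Kb) then 0 else Real.negMulLog (gmP B m b Kb τ)) ∧
    (∑ τ : ι → Fin Kb, if (∀ i, 0 < (τ i).val ∧ (τ i).val + 1 < Kb) then 0 else Real.negMulLog (gmP B m b Kb τ))
      ≤ gmE B m (fun y => 1 - gmI b Kb y) * ((Fintype.card ι : ℝ) * Real.log Kb) + Real.negMulLog (gmE B m fun y => 1 - gmI b Kb y) := by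
  classical
  obtain ⟨hP0, hP1⟩ := gm_P_prob B m b Kb
  have hPle : ∀ τ, gmP B m b Kb τ ≤ 1 := fun τ => by
    rw [← hP1]
    exact Finset.single_le_sum (f := gmP B m b Kb) (fun τ _ => hP0 τ) (Finset.mem_univ τ)
  constructor
  · refine Finset.sum_nonneg fun τ _ => ?_
    split_ifs
    · exact le_rfl
    · exact Real.negMulLog_nonneg (hP0 τ) (hPle τ)
  · set S : Finset (ι → Fin Kb) := Finset.univ.filter fun τ => ¬ (∀ i, 0 < (τ i).val ∧ (τ i).val + 1 < Kb) with hS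
    have e1 : (∑ τ : ι → Fin Kb, if (∀ i, 0 < (τ i).val ∧ (τ i).val + 1 < Kb) then 0 else Real.negMulLog (gmP B m b Kb τ))
        = ∑ τ ∈ S, Real.negMulLog (gmP B m b Kb τ) := by
      rw [hS, Finset.sum_filter]
      refine Finset.sum_congr rfl fun τ _ => ?_
      split_ifs <;> simp_all
    have e2 : gmE B m (fun y => 1 - gmI b Kb y) = ∑ τ ∈ S, gmP B m b Kb τ := by
      set c : (ι → Fin Kb) → ℝ := fun τ => if (∀ i, 0 < (τ i).val ∧ (τ i).val + 1 < Kb) then 0 else 1 with hc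
      have e : (fun y : ι → ℝ => 1 - gmI b Kb y) = fun y => c fun i => enBin b Kb (y i) := by
        funext y
        rw [hc]
        unfold gmI gmInt
        simp only []
        split_ifs <;> simp
      rw [e, gm_E_bin B m b Kb c, hS, Finset.sum_filter]
      refine Finset.sum_congr rfl fun τ _ => ?_
      rw [hc]
      simp only []
      split_ifs <;> simp_all
    rw [e1, e2]
    have h1 := en_Hd_part (gmP B m b Kb) hP0 S
    have hq : 0 ≤ ∑ τ ∈ S, gmP B m b Kb τ := Finset.sum_nonneg fun τ _ => hP0 τ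
    have hK1 : (1 : ℝ) ≤ Kb := by exact_mod_cast Nat.one_le_iff_ne_zero.2 (NeZero.ne Kb)
    have hlog : Real.log S.card ≤ (Fintype.card ι : ℝ) * Real.log Kb := by
      rcases Nat.eq_zero_or_pos S.card with h0 | h0
      · rw [h0]
        simp only [Nat.cast_zero, Real.log_zero]
        exact mul_nonneg (Nat.cast_nonneg _) (Real.log_nonneg hK1)
      · have hc : (S.card : ℝ) ≤ (Kb : ℝ) ^ Fintype.card ι := by
          have := Finset.card_le_univ S
          rw [Fintype.card_fun, Fintype.card_fin] at this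
          exact_mod_cast this
        calc Real.log S.card ≤ Real.log ((Kb : ℝ) ^ Fintype.card ι) := Real.log_le_log (by exact_mod_cast h0) hc
          _ = _ := Real.log_pow _ _
    nlinarith [mul_le_mul_of_nonneg_left hlog hq]

/-- **binning, upper bound, explicit** -/
theorem gm_bin_up [Nonempty K] {B : K → Matrix ι κ ℝ} {Λ : K → Matrix ι ι ℝ} {m : K → ι → ℝ} {lam sig mu b : ℝ} (h : GmOk B Λ m lam sig mu) (hb : 0 < b)
    (Kb : ℕ) [NeZero Kb] :
    enHd (gmP B m b Kb) ≤ gmE B m (fun y => gmI b Kb y * (-(Fintype.card ι : ℝ) * Real.log b - Real.log (gmMix Λ m y) + gmOsc lam (b * Real.sqrt (Fintype.card ι)) mu y))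
      + gmE B m (fun y => 1 - gmI b Kb y) * ((Fintype.card ι : ℝ) * Real.log Kb) + Real.negMulLog (gmE B m fun y => 1 - gmI b Kb y) := by
  rw [gm_H_split]
  have h1 : gmE B m (fun y => gmI b Kb y * - Real.log (gmP B m b Kb fun i => enBin b Kb (y i)))
      ≤ gmE B m (fun y => gmI b Kb y * (-(Fintype.card ι : ℝ) * Real.log b - Real.log (gmMix Λ m y) + gmOsc lam (b * Real.sqrt (Fintype.card ι)) mu y)) := by
    refine gm_E_le B m ((gm_I_poly b Kb).mul (GmPoly.bin b Kb fun τ => - Real.log (gmP B m b Kb τ)))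
      ((gm_I_poly b Kb).mul (((GmPoly.const _).sub (gm_log_poly h)).add (gm_osc_poly _ _ _))) fun y => ?_
    by_cases hy : gmInt b Kb y
    · have e : gmI b Kb y = 1 := if_pos hy
      rw [e, one_mul, one_mul]
      have h2 := (gm_P_cell h hb Kb y hy).1
      have hf := (gm_mix_pos h).1 y
      have h3 := Real.log_le_log (by positivity) h2
      rw [Real.log_mul (by positivity) (Real.exp_pos _).ne', Real.log_mul (by positivity) hf.ne', Real.log_exp, Real.log_pow] at h3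
      linarith
    · have e : gmI b Kb y = 0 := if_neg hy
      rw [e, zero_mul, zero_mul]
  have h2 := (gm_clip_part B m b Kb).2
  linarith

/-- **binning, lower bound, explicit** -/
theorem gm_bin_dn [Nonempty K] {B : K → Matrix ι κ ℝ} {Λ : K → Matrix ι ι ℝ} {m : K → ι → ℝ} {lam sig mu b : ℝ} (h : GmOk B Λ m lam sig mu) (hb : 0 < b)
    (Kb : ℕ) [NeZero Kb] :
    gmE B m (fun y => gmI b Kb y * (-(Fintype.card ι : ℝ) * Real.log b - Real.log (gmMix Λ m y) - gmOsc lam (b * Real.sqrt (Fintype.card ι)) mu y))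
      ≤ enHd (gmP B m b Kb) := by
  rw [gm_H_split]
  have h1 : gmE B m (fun y => gmI b Kb y * (-(Fintype.card ι : ℝ) * Real.log b - Real.log (gmMix Λ m y) - gmOsc lam (b * Real.sqrt (Fintype.card ι)) mu y))
      ≤ gmE B m (fun y => gmI b Kb y * - Real.log (gmP B m b Kb fun i => enBin b Kb (y i))) := by
    refine gm_E_le B m ((gm_I_poly b Kb).mul (((GmPoly.const _).sub (gm_log_poly h)).sub (gm_osc_poly _ _ _)))
      ((gm_I_poly b Kb).mul (GmPoly.bin b Kb fun τ => - Real.log (gmP B m b Kb τ))) fun y => ?_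
    by_cases hy : gmInt b Kb y
    · have e : gmI b Kb y = 1 := if_pos hy
      rw [e, one_mul, one_mul]
      obtain ⟨h2', h2⟩ := gm_P_cell h hb Kb y hy
      have hf := (gm_mix_pos h).1 y
      have hP : 0 < gmP B m b Kb fun i => enBin b Kb (y i) := lt_of_lt_of_le (by positivity) h2'
      have h3 := Real.log_le_log hP h2
      rw [Real.log_mul (by positivity) (Real.exp_pos _).ne', Real.log_mul (by positivity) hf.ne', Real.log_exp, Real.log_pow] at h3
      linarith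
    · have e : gmI b Kb y = 0 := if_neg hy
      rw [e, zero_mul, zero_mul]
  have h2 := (gm_clip_part B m b Kb).1
  linarith

omit [Fintype K] in
/-- diagonal of the covariance -/
theorem gm_cov_diag {B : K → Matrix ι κ ℝ} {Λ : K → Matrix ι ι ℝ} {m : K → ι → ℝ} {lam sig mu : ℝ} (h : GmOk B Λ m lam sig mu) (k : K) (i : ι) :
    (B k * (B k)ᵀ) i i ≤ sig := by
  obtain ⟨-, -, -, hq⟩ := gm_prec (B k) (Λ k) (h.inv k)
  have h1 : ∀ g, gmSq (B k *ᵥ g) ≤ sig * gmSq g := fun g => (h.cov k _).trans (mul_le_mul_of_nonneg_left (hq g) h.sig0.le)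
  set g : κ → ℝ := fun a => B k i a with hg
  have e1 : gmSq g = (B k * (B k)ᵀ) i i := by
    simp only [gmSq, Matrix.mul_apply, Matrix.transpose_apply, hg]
    exact Finset.sum_congr rfl fun a _ => by ring
  have e2 : (B k *ᵥ g) i = (B k * (B k)ᵀ) i i := by
    simp only [mulVec, dotProduct, Matrix.mul_apply, Matrix.transpose_apply, hg]
  have h2 : ((B k *ᵥ g) i) ^ 2 ≤ gmSq (B k *ᵥ g) :=
    Finset.single_le_sum (f := fun j => ((B k *ᵥ g) j) ^ 2) (fun j _ => sq_nonneg _) (Finset.mem_univ i)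
  have h3 := h2.trans (h1 g)
  rw [e1, e2] at h3
  have hs := h.sig0
  by_contra hc
  push Not at hc
  nlinarith

/-- probability of clipping (`en_bin_int`, `gm_tail`, union bound; `(B Bᵀ)_ii ≤ sig`) -/
theorem gm_clip [Nonempty K] {B : K → Matrix ι κ ℝ} {Λ : K → Matrix ι ι ℝ} {m : K → ι → ℝ} {lam sig mu b : ℝ} (h : GmOk B Λ m lam sig mu) (hb : 0 < b)
    (hsig : 0 < sig) (K' : ℕ) (hK : mu ≤ K' * b) :
    gmE B m (fun y => 1 - gmI b (2 * K' + 2) y) ≤ (Fintype.card ι : ℝ) * (2 * Real.exp (-(K' * b - mu) ^ 2 / (2 * sig))) := by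
  set t := K' * b - mu with ht'
  have ht : 0 ≤ t := by linarith
  have hk : ∀ k, ∫ g, (1 - gmI b (2 * K' + 2) (m k + B k *ᵥ g)) ∂(gmStd κ) ≤ (Fintype.card ι : ℝ) * (2 * Real.exp (-t ^ 2 / (2 * sig))) := by
    intro k
    have hS : ∀ i, MeasurableSet {g : κ → ℝ | t ≤ |(B k *ᵥ g) i|} := fun i =>
      measurableSet_le measurable_const (((measurable_pi_apply i).comp (gm_x_meas (B k))).abs)
    have hI : ∀ y : ι → ℝ, 0 ≤ 1 - gmI b (2 * K' + 2) y ∧ 1 - gmI b (2 * K' + 2) y ≤ 1 := by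
      intro y
      unfold gmI
      split_ifs <;> norm_num
    have hpt : ∀ g, 1 - gmI b (2 * K' + 2) (m k + B k *ᵥ g) ≤ ∑ i, Set.indicator {g | t ≤ |(B k *ᵥ g) i|} (fun _ => (1 : ℝ)) g := by
      intro g
      by_cases hg : gmInt b (2 * K' + 2) (m k + B k *ᵥ g)
      · have : gmI b (2 * K' + 2) (m k + B k *ᵥ g) = 1 := if_pos hg
        rw [this, sub_self]
        exact Finset.sum_nonneg fun i _ => Set.indicator_nonneg (fun _ _ => zero_le_one) _
      · have hg' : ∃ i, ¬ (0 < (enBin b (2 * K' + 2) ((m k + B k *ᵥ g) i)).val ∧ (enBin b (2 * K' + 2) ((m k + B k *ᵥ g) i)).val + 1 < 2 * K' + 2) := by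
          by_contra hc
          push Not at hc
          exact hg fun i => hc i
        obtain ⟨i, hi⟩ := hg'
        have hti : t ≤ |(B k *ᵥ g) i| := by
          by_contra hc
          push Not at hc
          apply hi
          apply en_bin_int hb K'
          calc |(m k + B k *ᵥ g) i| ≤ |m k i| + |(B k *ᵥ g) i| := abs_add_le _ _
            _ ≤ mu + |(B k *ᵥ g) i| := by linarith [(gm_N_coord (m k) i).trans (h.mean k)]
            _ < _ := by linarith
        calc 1 - gmI b (2 * K' + 2) (m k + B k *ᵥ g) ≤ 1 := (hI _).2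
          _ = Set.indicator {g | t ≤ |(B k *ᵥ g) i|} (fun _ => (1 : ℝ)) g := (Set.indicator_of_mem (s := {g | t ≤ |(B k *ᵥ g) i|}) (a := g) hti (fun _ => (1 : ℝ))).symm
          _ ≤ _ := Finset.single_le_sum (f := fun i => Set.indicator {g | t ≤ |(B k *ᵥ g) i|} (fun _ => (1 : ℝ)) g)
            (fun j _ => Set.indicator_nonneg (fun _ _ => zero_le_one) _) (Finset.mem_univ i)
    have hint : ∀ i, Integrable (Set.indicator {g | t ≤ |(B k *ᵥ g) i|} (fun _ => (1 : ℝ))) (gmStd κ) := fun i =>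
      (integrable_const (1 : ℝ)).indicator (hS i)
    calc ∫ g, (1 - gmI b (2 * K' + 2) (m k + B k *ᵥ g)) ∂(gmStd κ)
        ≤ ∫ g, ∑ i, Set.indicator {g | t ≤ |(B k *ᵥ g) i|} (fun _ => (1 : ℝ)) g ∂(gmStd κ) :=
          integral_mono_of_nonneg (Filter.Eventually.of_forall fun g => (hI _).1) (integrable_finsetSum _ fun i _ => hint i) (Filter.Eventually.of_forall hpt)
      _ = ∑ i, (gmStd κ).real {g | t ≤ |(B k *ᵥ g) i|} := by
          rw [integral_finsetSum _ fun i _ => hint i]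
          refine Finset.sum_congr rfl fun i _ => ?_
          rw [integral_indicator (hS i), setIntegral_const, smul_eq_mul, mul_one]
      _ ≤ ∑ _i : ι, 2 * Real.exp (-t ^ 2 / (2 * sig)) := Finset.sum_le_sum fun i _ => gm_tail (B k) i hsig (gm_cov_diag h k i) ht
      _ = _ := by rw [Finset.sum_const, Finset.card_univ, nsmul_eq_mul]
  calc gmE B m (fun y => 1 - gmI b (2 * K' + 2) y) ≤ enAvg (fun _ : K => (Fintype.card ι : ℝ) * (2 * Real.exp (-t ^ 2 / (2 * sig)))) := en_Avg_mono hk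
    _ = _ := en_Avg_const _

omit [DecidableEq ι] in
/-- `|B g|² ≤ (Σ B_ia²) |g|²` -/
theorem gm_y_mulVec_le (B : Matrix ι κ ℝ) (g : κ → ℝ) : gmSq (B *ᵥ g) ≤ (∑ i, ∑ a, B i a ^ 2) * gmSq g := by
  unfold gmSq
  rw [Finset.sum_mul]
  refine Finset.sum_le_sum fun i _ => ?_
  exact Finset.sum_mul_sq_le_sq_mul_sq _ _ _

omit [DecidableEq ι] in
theorem gm_y_Sq_add (x y : ι → ℝ) : gmSq (x + y) ≤ 2 * gmSq x + 2 * gmSq y := by
  unfold gmSq
  rw [Finset.mul_sum, Finset.mul_sum, ← Finset.sum_add_distrib]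
  refine Finset.sum_le_sum fun i _ => ?_
  simp only [Pi.add_apply]
  nlinarith [sq_nonneg (x i - y i)]

omit [DecidableEq ι] in
/-- polynomial growth is stable under `g ↦ m + B g` -/
theorem gm_y_poly (B : Matrix ι κ ℝ) (m : ι → ℝ) : ∃ A : ℝ, 1 ≤ A ∧ ∀ g, 1 + gmSq (m + B *ᵥ g) ≤ A * (1 + gmSq g) := by
  refine ⟨1 + 2 * gmSq m + 2 * ∑ i, ∑ a, B i a ^ 2, ?_, fun g => ?_⟩
  · have h1 := gm_Sq_nonneg m
    have h2 : 0 ≤ ∑ i, ∑ a, B i a ^ 2 := Finset.sum_nonneg fun i _ => Finset.sum_nonneg fun a _ => sq_nonneg _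
    linarith
  · have h1 := gm_Sq_nonneg m
    have h2 : 0 ≤ ∑ i, ∑ a, B i a ^ 2 := Finset.sum_nonneg fun i _ => Finset.sum_nonneg fun a _ => sq_nonneg _
    have h3 := gm_y_Sq_add m (B *ᵥ g)
    have h4 := gm_y_mulVec_le B g
    have h5 := gm_Sq_nonneg g
    nlinarith [mul_nonneg h1 h5]

omit [DecidableEq ι] in
/-- measurable + polynomial growth ⇒ `g ↦ φ (m + B g)` is integrable -/
theorem gm_y_int (B : Matrix ι κ ℝ) (m : ι → ℝ) {φ : (ι → ℝ) → ℝ} (hm : Measurable φ) (C : ℝ) (k : ℕ) (h : ∀ y, |φ y| ≤ C * (1 + gmSq y) ^ k) :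
    Integrable (fun g => φ (m + B *ᵥ g)) (gmStd κ) := by
  obtain ⟨A, hA, hAg⟩ := gm_y_poly B m
  have hC : 0 ≤ C := by
    have := (abs_nonneg _).trans (h 0)
    simpa [gmSq] using this
  refine gm_int_poly (hm.comp ((gm_x_meas B).const_add m)) (C * A ^ k) k fun g => ?_
  refine (h _).trans ?_
  rw [mul_assoc, ← mul_pow]
  refine mul_le_mul_of_nonneg_left (pow_le_pow_left₀ ?_ (hAg g) k) hC
  have := gm_Sq_nonneg (m + B *ᵥ g)
  linarith


/-- `(B Bᵀ)_ii ≤ sig` -/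
theorem gm_y_diag {B : Matrix ι κ ℝ} {Λ : Matrix ι ι ℝ} {sig : ℝ} (hs : 0 < sig) (h : B * Bᵀ * Λ = 1) (hc : ∀ x, gmSq x ≤ sig * gmQ Λ x) (i : ι) :
    0 ≤ (B * Bᵀ) i i ∧ (B * Bᵀ) i i ≤ sig := by
  set S := B * Bᵀ with hS
  have h0 : 0 ≤ S i i := by
    rw [hS, Matrix.mul_apply]
    exact Finset.sum_nonneg fun a _ => by rw [Matrix.transpose_apply]; exact mul_self_nonneg _
  refine ⟨h0, ?_⟩
  have h' : Λ * S = 1 := mul_eq_one_comm.1 h
  have hx := hc (S *ᵥ Pi.single i 1)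
  have e1 : gmQ Λ (S *ᵥ Pi.single i 1) = S i i := by
    unfold gmQ
    rw [Matrix.mulVec_mulVec, h', Matrix.one_mulVec, dotProduct_comm, single_one_dotProduct]
    simp
  have e2 : S i i ^ 2 ≤ gmSq (S *ᵥ Pi.single i 1) := by
    have := Finset.single_le_sum (f := fun j => (S *ᵥ Pi.single i 1) j ^ 2) (fun j _ => sq_nonneg _) (Finset.mem_univ i)
    simpa [gmSq] using this
  rw [e1] at hx
  by_contra hcon
  push Not at hcon
  nlinarith

theorem gm_y_trace {B : Matrix ι κ ℝ} {Λ : Matrix ι ι ℝ} {sig : ℝ} (hs : 0 < sig) (h : B * Bᵀ * Λ = 1) (hc : ∀ x, gmSq x ≤ sig * gmQ Λ x) :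
    0 ≤ (B * Bᵀ).trace ∧ (B * Bᵀ).trace ≤ (Fintype.card ι : ℝ) * sig := by
  unfold Matrix.trace
  refine ⟨Finset.sum_nonneg fun i _ => (gm_y_diag hs h hc i).1, ?_⟩
  have := Finset.sum_le_card_nsmul (Finset.univ : Finset ι) (fun i => (B * Bᵀ).diag i) sig (fun i _ => (gm_y_diag hs h hc i).2)
  simpa using this

/-- moments of the mixture -/
theorem gm_E_mom [Nonempty K] {B : K → Matrix ι κ ℝ} {Λ : K → Matrix ι ι ℝ} {m : K → ι → ℝ} {lam sig mu : ℝ} (h : GmOk B Λ m lam sig mu) :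
    gmE B m (fun y => gmSq y) ≤ 2 * mu ^ 2 + 2 * (Fintype.card ι : ℝ) * sig ∧
      gmE B m (fun y => gmSq y ^ 2) ≤ 8 * mu ^ 4 + 24 * ((Fintype.card ι : ℝ) * sig) ^ 2 := by
  have hav : ∀ (f : K → ℝ) (c : ℝ), (∀ k, f k ≤ c) → enAvg f ≤ c := by
    intro f c hf
    unfold enAvg
    have hK : (0 : ℝ) < Fintype.card K := by exact_mod_cast Fintype.card_pos
    rw [inv_mul_le_iff₀ hK]
    have := Finset.sum_le_card_nsmul (Finset.univ : Finset K) f c (fun k _ => hf k)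
    simpa using this
  have hmS : Measurable fun y : ι → ℝ => gmSq y := by unfold gmSq; fun_prop
  have hi1 : ∀ k, Integrable (fun g => gmSq (B k *ᵥ g)) (gmStd κ) := by
    intro k
    have := gm_y_int (B k) 0 hmS 1 1 (fun y => by
      rw [abs_of_nonneg (gm_Sq_nonneg y)]
      linarith)
    simpa using this
  have hi2 : ∀ k, Integrable (fun g => gmSq (B k *ᵥ g) ^ 2) (gmStd κ) := by
    intro k
    have := gm_y_int (B k) 0 (hmS.pow_const 2) 1 2 (fun y => by
      have := gm_Sq_nonneg y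
      rw [abs_of_nonneg (sq_nonneg _), one_mul]
      exact pow_le_pow_left₀ this (by linarith) 2)
    simpa using this
  have hm : ∀ k, gmSq (m k) ≤ mu ^ 2 := by
    intro k
    rw [← gm_N_sq]
    exact pow_le_pow_left₀ (gm_N_nonneg _) (h.mean k) 2
  constructor
  · refine hav _ _ fun k => ?_
    obtain ⟨t0, t1⟩ := gm_y_trace h.sig0 (h.inv k) (h.cov k)
    calc ∫ g, gmSq (m k + B k *ᵥ g) ∂(gmStd κ) ≤ ∫ g, (2 * gmSq (m k) + 2 * gmSq (B k *ᵥ g)) ∂(gmStd κ) := by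
          refine integral_mono_of_nonneg (Filter.Eventually.of_forall fun g => gm_Sq_nonneg _) ((integrable_const _).add ((hi1 k).const_mul 2))
            (Filter.Eventually.of_forall fun g => gm_y_Sq_add _ _)
      _ = 2 * gmSq (m k) + 2 * (B k * (B k)ᵀ).trace := by
          have : IsProbabilityMeasure (gmStd κ) := by unfold gmStd; infer_instance
          rw [integral_add (integrable_const _) ((hi1 k).const_mul 2), integral_const, integral_const_mul, gm_mom2_sq]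
          simp
      _ ≤ _ := by nlinarith [hm k]
  · refine hav _ _ fun k => ?_
    obtain ⟨t0, t1⟩ := gm_y_trace h.sig0 (h.inv k) (h.cov k)
    calc ∫ g, gmSq (m k + B k *ᵥ g) ^ 2 ∂(gmStd κ) ≤ ∫ g, (8 * gmSq (m k) ^ 2 + 8 * gmSq (B k *ᵥ g) ^ 2) ∂(gmStd κ) := by
          refine integral_mono_of_nonneg (Filter.Eventually.of_forall fun g => sq_nonneg _) ((integrable_const _).add ((hi2 k).const_mul 8))
            (Filter.Eventually.of_forall fun g => ?_)
          have a1 := gm_y_Sq_add (m k) (B k *ᵥ g)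
          have a2 := gm_Sq_nonneg (m k + B k *ᵥ g)
          have a3 : gmSq (m k + B k *ᵥ g) ^ 2 ≤ (2 * gmSq (m k) + 2 * gmSq (B k *ᵥ g)) ^ 2 := pow_le_pow_left₀ a2 a1 2
          show gmSq (m k + B k *ᵥ g) ^ 2 ≤ 8 * gmSq (m k) ^ 2 + 8 * gmSq (B k *ᵥ g) ^ 2
          nlinarith [sq_nonneg (gmSq (m k) - gmSq (B k *ᵥ g))]
      _ = 8 * gmSq (m k) ^ 2 + 8 * ∫ g, gmSq (B k *ᵥ g) ^ 2 ∂(gmStd κ) := by
          have : IsProbabilityMeasure (gmStd κ) := by unfold gmStd; infer_instance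
          rw [integral_add (integrable_const _) ((hi2 k).const_mul 8), integral_const, integral_const_mul]
          simp
      _ ≤ _ := by
          have b1 := gm_mom4 (B k)
          have b2 : (B k * (B k)ᵀ).trace ^ 2 ≤ ((Fintype.card ι : ℝ) * sig) ^ 2 := pow_le_pow_left₀ t0 t1 2
          have b3 : gmSq (m k) ^ 2 ≤ (mu ^ 2) ^ 2 := pow_le_pow_left₀ (gm_Sq_nonneg _) (hm k) 2
          have b4 : (mu ^ 2) ^ 2 = mu ^ 4 := by ring
          linarith

/-- Cauchy-Schwarz for `gmE` -/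
theorem gm_E_cs [Nonempty K] (B : K → Matrix ι κ ℝ) (m : K → ι → ℝ) {φ ψ : (ι → ℝ) → ℝ} (hφ : Measurable φ) (hψ : Measurable ψ)
    (C : ℝ) (k : ℕ) (h1 : ∀ y, |φ y| ≤ C * (1 + gmSq y) ^ k) (h2 : ∀ y, |ψ y| ≤ C * (1 + gmSq y) ^ k) :
    |gmE B m fun y => φ y * ψ y| ≤ Real.sqrt (gmE B m fun y => φ y ^ 2) * Real.sqrt (gmE B m fun y => ψ y ^ 2) := by
  have hb : ∀ {f g : (ι → ℝ) → ℝ}, (∀ y, |f y| ≤ C * (1 + gmSq y) ^ k) → (∀ y, |g y| ≤ C * (1 + gmSq y) ^ k) →
      ∀ y, |f y * g y| ≤ (C * C) * (1 + gmSq y) ^ (k + k) := by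
    intro f g hf hg y
    rw [abs_mul, pow_add]
    calc |f y| * |g y| ≤ (C * (1 + gmSq y) ^ k) * (C * (1 + gmSq y) ^ k) :=
          mul_le_mul (hf y) (hg y) (abs_nonneg _) ((abs_nonneg _).trans (hf y))
      _ = _ := by ring
  have i1 : ∀ j, Integrable (fun g => φ (m j + B j *ᵥ g) * φ (m j + B j *ᵥ g)) (gmStd κ) := fun j =>
    gm_y_int (B j) (m j) (φ := fun y => φ y * φ y) (hφ.mul hφ) _ _ (hb h1 h1)
  have i2 : ∀ j, Integrable (fun g => φ (m j + B j *ᵥ g) * ψ (m j + B j *ᵥ g)) (gmStd κ) := fun j =>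
    gm_y_int (B j) (m j) (φ := fun y => φ y * ψ y) (hφ.mul hψ) _ _ (hb h1 h2)
  have i3 : ∀ j, Integrable (fun g => ψ (m j + B j *ᵥ g) * ψ (m j + B j *ᵥ g)) (gmStd κ) := fun j =>
    gm_y_int (B j) (m j) (φ := fun y => ψ y * ψ y) (hψ.mul hψ) _ _ (hb h2 h2)
  have hc : (0 : ℝ) ≤ (Fintype.card K : ℝ)⁻¹ := by positivity
  have hq : ∀ t : ℝ, 0 ≤ (gmE B m fun y => ψ y ^ 2) * (t * t) + (2 * gmE B m fun y => φ y * ψ y) * t + gmE B m fun y => φ y ^ 2 := by
    intro t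
    have e : (gmE B m fun y => ψ y ^ 2) * (t * t) + (2 * gmE B m fun y => φ y * ψ y) * t + (gmE B m fun y => φ y ^ 2)
        = gmE B m fun y => (φ y + t * ψ y) ^ 2 := by
      unfold gmE enAvg
      rw [mul_assoc, mul_left_comm 2, mul_assoc, ← mul_add, ← mul_add, Finset.sum_mul, Finset.mul_sum, Finset.sum_mul,
        ← Finset.sum_add_distrib, ← Finset.sum_add_distrib]
      congr 1
      refine Finset.sum_congr rfl fun j _ => ?_
      have e1 : ∀ g, (φ (m j + B j *ᵥ g) + t * ψ (m j + B j *ᵥ g)) ^ 2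
          = (t * t) * (ψ (m j + B j *ᵥ g) * ψ (m j + B j *ᵥ g)) + (2 * t) * (φ (m j + B j *ᵥ g) * ψ (m j + B j *ᵥ g))
            + φ (m j + B j *ᵥ g) * φ (m j + B j *ᵥ g) := fun g => by ring
      simp only [e1, sq]
      have a1 : Integrable (fun g => (t * t) * (ψ (m j + B j *ᵥ g) * ψ (m j + B j *ᵥ g))
          + (2 * t) * (φ (m j + B j *ᵥ g) * ψ (m j + B j *ᵥ g))) (gmStd κ) := ((i3 j).const_mul _).add ((i2 j).const_mul _)
      rw [integral_add a1 (i1 j),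
        integral_add ((i3 j).const_mul _) ((i2 j).const_mul _), integral_const_mul, integral_const_mul]
      ring
    rw [e]
    unfold gmE enAvg
    exact mul_nonneg hc (Finset.sum_nonneg fun j _ => integral_nonneg fun g => sq_nonneg _)
  have hd := discrim_le_zero hq
  unfold discrim at hd
  have hn : ∀ f : (ι → ℝ) → ℝ, 0 ≤ gmE B m fun y => f y ^ 2 := by
    intro f
    unfold gmE enAvg
    exact mul_nonneg hc (Finset.sum_nonneg fun j _ => integral_nonneg fun g => sq_nonneg _)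
  rw [← Real.sqrt_mul (hn φ)]
  apply Real.abs_le_sqrt
  nlinarith


/-! ### SEC 6: comparison of two noises -/

/-- Cauchy-Schwarz for integrals -/
theorem gm_cs_int {α : Type} [MeasurableSpace α] (μ : Measure α) {f g : α → ℝ} (hf : Integrable (fun x => f x ^ 2) μ) (hg : Integrable (fun x => g x ^ 2) μ)
    (hfg : Integrable (fun x => f x * g x) μ) :
    |∫ x, f x * g x ∂μ| ≤ Real.sqrt (∫ x, f x ^ 2 ∂μ) * Real.sqrt (∫ x, g x ^ 2 ∂μ) := by
  have hq : ∀ t : ℝ, 0 ≤ (∫ x, g x ^ 2 ∂μ) * (t * t) + (2 * ∫ x, f x * g x ∂μ) * t + ∫ x, f x ^ 2 ∂μ := by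
    intro t
    have e : (∫ x, g x ^ 2 ∂μ) * (t * t) + (2 * ∫ x, f x * g x ∂μ) * t + ∫ x, f x ^ 2 ∂μ = ∫ x, (f x + t * g x) ^ 2 ∂μ := by
      have e1 : ∀ x, (f x + t * g x) ^ 2 = (t * t) * g x ^ 2 + (2 * t) * (f x * g x) + f x ^ 2 := fun x => by ring
      simp only [e1]
      have a1 : Integrable (fun x => (t * t) * g x ^ 2 + (2 * t) * (f x * g x)) μ := (hg.const_mul _).add (hfg.const_mul _)
      rw [integral_add a1 hf, integral_add (hg.const_mul _) (hfg.const_mul _), integral_const_mul, integral_const_mul]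
      ring
    rw [e]
    exact integral_nonneg fun x => sq_nonneg _
  have hd := discrim_le_zero hq
  unfold discrim at hd
  rw [← Real.sqrt_mul (integral_nonneg fun x => sq_nonneg _)]
  apply Real.abs_le_sqrt
  nlinarith

omit [DecidableEq ι] in
/-- second moment of an affine image -/
theorem gm_mom2_aff (m : ι → ℝ) (C : Matrix ι κ ℝ) : ∫ g, gmSq (m + C *ᵥ g) ∂(gmStd κ) = gmSq m + (C * Cᵀ).trace := by
  have e : ∀ g, gmSq (m + C *ᵥ g) = gmSq m + ∑ i, (2 * m i) * (C *ᵥ g) i + gmSq (C *ᵥ g) := by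
    intro g
    unfold gmSq
    rw [← Finset.sum_add_distrib, ← Finset.sum_add_distrib]
    refine Finset.sum_congr rfl fun i _ => ?_
    simp only [Pi.add_apply]
    ring
  have i0 : ∀ i, Integrable (fun g => (C *ᵥ g) i) (gmStd κ) := by
    intro i
    have hp : GmPoly fun y : ι → ℝ => y i := GmPoly.norm.of_le (measurable_pi_apply i) fun y => by
      rw [abs_of_nonneg (gm_N_nonneg y)]
      exact gm_N_coord y i
    have := hp.int 0 C
    simpa using this
  have i1 : Integrable (fun g => ∑ i, (2 * m i) * (C *ᵥ g) i) (gmStd κ) := integrable_finsetSum _ fun i _ => (i0 i).const_mul _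
  have i2 : Integrable (fun g => gmSq (C *ᵥ g)) (gmStd κ) := by
    have := GmPoly.sq.int 0 C
    simpa using this
  simp only [e]
  have a1 : Integrable (fun g => gmSq m + ∑ i, (2 * m i) * (C *ᵥ g) i) (gmStd κ) := (integrable_const _).add i1
  rw [integral_add a1 i2, integral_add (integrable_const _) i1, integral_finsetSum _ fun i _ => (i0 i).const_mul _, gm_mom2_sq]
  simp only [integral_const_mul, gm_mom0, mul_zero, Finset.sum_const_zero, integral_const, probReal_univ, smul_eq_mul, one_mul, add_zero]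

omit [DecidableEq ι] in
theorem gm_N_zero : gmN (0 : ι → ℝ) = 0 := by
  simp [gmN, gmSq]

omit [DecidableEq ι] in
/-- a function with a quadratic modulus has polynomial growth -/
theorem gm_mod_poly {ψ : (ι → ℝ) → ℝ} (hψ : Measurable ψ) {A W : ℝ}
    (hmod : ∀ y y', |ψ y - ψ y'| ≤ A * gmN (y - y') * (W + gmN y + gmN y')) : GmPoly ψ := by
  have hp : GmPoly fun y : ι → ℝ => |ψ 0| + |A * gmN y * (W + gmN y)| := by
    have h1 : GmPoly fun y : ι → ℝ => A * gmN y * (W + gmN y) := ((GmPoly.const A).mul GmPoly.norm).mul ((GmPoly.const W).add GmPoly.norm)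
    exact (GmPoly.const _).add (h1.of_le h1.1.abs fun y => by rw [abs_abs])
  refine hp.of_le hψ fun y => ?_
  have h1 := hmod y 0
  rw [sub_zero, gm_N_zero, add_zero] at h1
  rw [abs_of_nonneg (a := _ + _) (by positivity)]
  calc |ψ y| = |ψ 0 + (ψ y - ψ 0)| := by ring_nf
    _ ≤ |ψ 0| + |ψ y - ψ 0| := abs_add_le _ _
    _ ≤ _ := by linarith [le_abs_self (A * gmN y * (W + gmN y))]

omit [DecidableEq ι] in
/-- comparison on the same probability space -/
theorem gm_cmp_same (C C' : Matrix ι κ ℝ) (m m' : ι → ℝ) {ψ : (ι → ℝ) → ℝ} (hψ : Measurable ψ) {A W : ℝ} (hA : 0 ≤ A)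
    (hmod : ∀ y y', |ψ y - ψ y'| ≤ A * gmN (y - y') * (W + gmN y + gmN y')) :
    |∫ g, ψ (m + C *ᵥ g) ∂(gmStd κ) - ∫ g, ψ (m' + C' *ᵥ g) ∂(gmStd κ)|
      ≤ A * (Real.sqrt (gmSq (m - m') + ((C - C') * (C - C')ᵀ).trace)
        * Real.sqrt (3 * (W ^ 2 + (gmSq m + (C * Cᵀ).trace) + (gmSq m' + (C' * C'ᵀ).trace)))) := by
  have hP := gm_mod_poly hψ hmod
  set U : (κ → ℝ) → ℝ := fun g => gmN ((m - m') + (C - C') *ᵥ g) with hU
  set V : (κ → ℝ) → ℝ := fun g => W + gmN (m + C *ᵥ g) + gmN (m' + C' *ᵥ g) with hV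
  have iN : ∀ (m₀ : ι → ℝ) (C₀ : Matrix ι κ ℝ), Integrable (fun g => gmN (m₀ + C₀ *ᵥ g)) (gmStd κ) := fun m₀ C₀ => GmPoly.norm.int m₀ C₀
  have iS : ∀ (m₀ : ι → ℝ) (C₀ : Matrix ι κ ℝ), Integrable (fun g => gmSq (m₀ + C₀ *ᵥ g)) (gmStd κ) := fun m₀ C₀ => GmPoly.sq.int m₀ C₀
  have mN : ∀ (m₀ : ι → ℝ) (C₀ : Matrix ι κ ℝ), Measurable (fun g : κ → ℝ => gmN (m₀ + C₀ *ᵥ g)) := fun m₀ C₀ =>
    gm_N_meas.comp (measurable_const.add (gm_x_meas C₀))
  have hU2 : ∀ g, U g ^ 2 = gmSq ((m - m') + (C - C') *ᵥ g) := fun g => gm_N_sq _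
  have hV2 : ∀ g, V g ^ 2 ≤ 3 * (W ^ 2 + gmSq (m + C *ᵥ g) + gmSq (m' + C' *ᵥ g)) := by
    intro g
    rw [← gm_N_sq (m + C *ᵥ g), ← gm_N_sq (m' + C' *ᵥ g)]
    simp only [hV]
    nlinarith [sq_nonneg (W - gmN (m + C *ᵥ g)), sq_nonneg (W - gmN (m' + C' *ᵥ g)), sq_nonneg (gmN (m + C *ᵥ g) - gmN (m' + C' *ᵥ g))]
  have mU : Measurable U := mN _ _
  have mV : Measurable V := (measurable_const.add (mN _ _)).add (mN _ _)
  have iU2 : Integrable (fun g => U g ^ 2) (gmStd κ) := by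
    simp only [hU2]
    exact iS _ _
  have iB : Integrable (fun g => 3 * (W ^ 2 + gmSq (m + C *ᵥ g) + gmSq (m' + C' *ᵥ g))) (gmStd κ) :=
    (((integrable_const _).add (iS _ _)).add (iS _ _)).const_mul 3
  have iV2 : Integrable (fun g => V g ^ 2) (gmStd κ) :=
    iB.mono' (mV.pow_const 2).aestronglyMeasurable (Filter.Eventually.of_forall fun g => by
      rw [Real.norm_eq_abs, abs_of_nonneg (sq_nonneg _)]
      exact hV2 g)
  have iUV : Integrable (fun g => U g * V g) (gmStd κ) :=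
    (iU2.add iV2).mono' (mU.mul mV).aestronglyMeasurable (Filter.Eventually.of_forall fun g => by
      rw [Real.norm_eq_abs, abs_le]
      simp only [Pi.add_apply]
      constructor <;> nlinarith [sq_nonneg (U g - V g), sq_nonneg (U g + V g), sq_nonneg (U g), sq_nonneg (V g)])
  have hpt : ∀ g, |ψ (m + C *ᵥ g) - ψ (m' + C' *ᵥ g)| ≤ A * (U g * V g) := by
    intro g
    have h1 := hmod (m + C *ᵥ g) (m' + C' *ᵥ g)
    have e : m + C *ᵥ g - (m' + C' *ᵥ g) = (m - m') + (C - C') *ᵥ g := by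
      rw [Matrix.sub_mulVec]
      abel
    rw [e] at h1
    calc _ ≤ _ := h1
      _ = _ := by simp only [hU, hV]; ring
  have hcs := gm_cs_int (gmStd κ) iU2 iV2 iUV
  have eU : ∫ g, U g ^ 2 ∂(gmStd κ) = gmSq (m - m') + ((C - C') * (C - C')ᵀ).trace := by
    simp only [hU2]
    exact gm_mom2_aff _ _
  have eV : ∫ g, V g ^ 2 ∂(gmStd κ) ≤ 3 * (W ^ 2 + (gmSq m + (C * Cᵀ).trace) + (gmSq m' + (C' * C'ᵀ).trace)) := by
    calc ∫ g, V g ^ 2 ∂(gmStd κ) ≤ ∫ g, 3 * (W ^ 2 + gmSq (m + C *ᵥ g) + gmSq (m' + C' *ᵥ g)) ∂(gmStd κ) := integral_mono iV2 iB hV2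
      _ = _ := by
        have a1 : Integrable (fun g => W ^ 2 + gmSq (m + C *ᵥ g)) (gmStd κ) := (integrable_const _).add (iS _ _)
        rw [integral_const_mul, integral_add a1 (iS _ _), integral_add (integrable_const _) (iS _ _), gm_mom2_aff, gm_mom2_aff]
        simp only [integral_const, probReal_univ, smul_eq_mul, one_mul]
  rw [← integral_sub (hP.int _ _) (hP.int _ _)]
  calc |∫ g, (ψ (m + C *ᵥ g) - ψ (m' + C' *ᵥ g)) ∂(gmStd κ)| ≤ ∫ g, |ψ (m + C *ᵥ g) - ψ (m' + C' *ᵥ g)| ∂(gmStd κ) := abs_integral_le_integral_abs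
    _ ≤ ∫ g, A * (U g * V g) ∂(gmStd κ) := integral_mono ((hP.int _ _).sub (hP.int _ _)).abs (iUV.const_mul A) hpt
    _ = A * ∫ g, U g * V g ∂(gmStd κ) := integral_const_mul _ _
    _ ≤ A * (Real.sqrt (∫ g, U g ^ 2 ∂(gmStd κ)) * Real.sqrt (∫ g, V g ^ 2 ∂(gmStd κ))) := mul_le_mul_of_nonneg_left ((le_abs_self _).trans hcs) hA
    _ ≤ _ := by
      rw [eU]
      exact mul_le_mul_of_nonneg_left (mul_le_mul_of_nonneg_left (Real.sqrt_le_sqrt eV) (Real.sqrt_nonneg _)) hA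

omit [DecidableEq ι] in
/-- the integral depends on the covariance only -/
theorem gm_int_cov (C : Matrix ι κ ℝ) (C' : Matrix ι κ' ℝ) (h : C * Cᵀ = C' * C'ᵀ) (m : ι → ℝ) {ψ : (ι → ℝ) → ℝ} (hψ : Measurable ψ) :
    ∫ g, ψ (m + C *ᵥ g) ∂(gmStd κ) = ∫ g, ψ (m + C' *ᵥ g) ∂(gmStd κ') := by
  have hm : Measurable fun w : ι → ℝ => ψ (m + w) := hψ.comp (measurable_const.add measurable_id)
  have h1 := integral_map (μ := gmStd κ) (gm_x_meas C).aemeasurable (f := fun w : ι → ℝ => ψ (m + w)) hm.aestronglyMeasurable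
  have h2 := integral_map (μ := gmStd κ') (gm_x_meas C').aemeasurable (f := fun w : ι → ℝ => ψ (m + w)) hm.aestronglyMeasurable
  rw [← h1, ← h2, gm_map_cov C C' h]

/-- **T4 (comparison)**.   `ψ` has the modulus `|ψ y - ψ y'| ≤ A |y - y'| (W + |y| + |y'|)`;  `|Σ - Σ'| ≤ δ` entrywise.
Proof: `T = Σ' - Σ + D δ ≥ 0`, `B₁ = √T` (`gm_sqrt`), `Σ + T = Σ' + D δ`:  `E ψ(m + B g) ≈ E ψ(m + B g + B₁ g₁) = E ψ(m + B' g' + √(Dδ) g₂) ≈ E ψ(m + B' g') ≈ E ψ(m' + B' g')` (`gm_map_add` twice);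
each `≈` by the modulus and Cauchy-Schwarz: `E|B₁ g₁|² = Tr T ≤ 2 D² δ`, `E |√(Dδ) g₂|² = D² δ`. -/
theorem gm_cmp (B : Matrix ι κ ℝ) (B' : Matrix ι κ' ℝ) (m m' : ι → ℝ) {ψ : (ι → ℝ) → ℝ} (hψ : Measurable ψ) {A W δ s μ₀ : ℝ} (hA : 0 ≤ A) (hW : 0 ≤ W)
    (hmod : ∀ y y', |ψ y - ψ y'| ≤ A * gmN (y - y') * (W + gmN y + gmN y')) (hδ : ∀ i j, |(B * Bᵀ) i j - (B' * B'ᵀ) i j| ≤ δ) (hδ1 : δ ≤ 1)
    (hs : (B * Bᵀ).trace ≤ s) (hs' : (B' * B'ᵀ).trace ≤ s) (hm : gmN m ≤ μ₀) (hm' : gmN m' ≤ μ₀) :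
    |∫ g, ψ (m + B *ᵥ g) ∂(gmStd κ) - ∫ g, ψ (m' + B' *ᵥ g) ∂(gmStd κ')|
      ≤ A * (gmN (m - m') + 3 * (Fintype.card ι : ℝ) * Real.sqrt δ) * (W + 2 * μ₀ + 4 * Real.sqrt (s + 3 * (Fintype.card ι : ℝ) ^ 2)) * 4 := by
  have hμ : 0 ≤ μ₀ := (gm_N_nonneg m).trans hm
  have ha := gm_N_nonneg (m - m')
  rcases isEmpty_or_nonempty ι with he | ⟨⟨i0⟩⟩
  · have e : ∀ y : ι → ℝ, y = 0 := fun y => Subsingleton.elim _ _
    have e1 : ∀ g : κ → ℝ, ψ (m + B *ᵥ g) = ψ 0 := fun g => by rw [e (m + B *ᵥ g)]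
    have e2 : ∀ g : κ' → ℝ, ψ (m' + B' *ᵥ g) = ψ 0 := fun g => by rw [e (m' + B' *ᵥ g)]
    simp only [e1, e2, integral_const, probReal_univ, smul_eq_mul, one_mul, sub_self, abs_zero]
    positivity
  · have : Nonempty ι := ⟨i0⟩
    set D : ℝ := (Fintype.card ι : ℝ) with hD
    have hD1 : 1 ≤ D := by
      rw [hD]
      exact_mod_cast Fintype.card_pos (α := ι)
    have hδ0 : 0 ≤ δ := (abs_nonneg _).trans (hδ i0 i0)
    set S₁ := B * Bᵀ with hS₁
    set S₂ := B' * B'ᵀ with hS₂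
    set T : Matrix ι ι ℝ := S₂ - S₁ + (D * δ) • (1 : Matrix ι ι ℝ) with hT
    have hTs : Tᵀ = T := by
      rw [hT, hS₁, hS₂]
      simp only [Matrix.transpose_add, Matrix.transpose_sub, Matrix.transpose_mul, Matrix.transpose_transpose, Matrix.transpose_smul, Matrix.transpose_one]
    have h1 : ∀ x : ι → ℝ, -(δ * (D * gmSq x)) ≤ x ⬝ᵥ ((S₂ - S₁) *ᵥ x) := by
      intro x
      have e : x ⬝ᵥ ((S₂ - S₁) *ᵥ x) = ∑ i, ∑ j, x i * (S₂ - S₁) i j * x j := by
        simp only [dotProduct, mulVec, Finset.mul_sum, mul_assoc]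
      have b : ∀ i j, -(δ * (|x i| * |x j|)) ≤ x i * (S₂ - S₁) i j * x j := by
        intro i j
        have h2 : |x i * (S₂ - S₁) i j * x j| ≤ δ * (|x i| * |x j|) := by
          rw [abs_mul, abs_mul]
          have h3 : |(S₂ - S₁) i j| ≤ δ := by
            rw [Matrix.sub_apply, abs_sub_comm]
            exact hδ i j
          calc |x i| * |(S₂ - S₁) i j| * |x j| = |(S₂ - S₁) i j| * (|x i| * |x j|) := by ring
            _ ≤ _ := mul_le_mul_of_nonneg_right h3 (by positivity)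
        exact (abs_le.1 h2).1
      have hsq : (∑ i, |x i|) ^ 2 ≤ D * gmSq x := by
        have := sq_sum_le_card_mul_sum_sq (s := Finset.univ) (f := fun i => |x i|)
        simp only [sq_abs, Finset.card_univ] at this
        exact this
      calc -(δ * (D * gmSq x)) ≤ -(δ * (∑ i, |x i|) ^ 2) := by
            have := mul_le_mul_of_nonneg_left hsq hδ0
            linarith
        _ = ∑ i, ∑ j, -(δ * (|x i| * |x j|)) := by
            rw [sq, Finset.sum_mul_sum]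
            simp only [Finset.mul_sum, Finset.sum_neg_distrib]
        _ ≤ ∑ i, ∑ j, x i * (S₂ - S₁) i j * x j := Finset.sum_le_sum fun i _ => Finset.sum_le_sum fun j _ => b i j
        _ = _ := e.symm
    have hT0 : ∀ x, 0 ≤ gmQ T x := by
      intro x
      have e : gmQ T x = x ⬝ᵥ ((S₂ - S₁) *ᵥ x) + D * δ * gmSq x := by
        unfold gmQ
        rw [hT, Matrix.add_mulVec, dotProduct_add, Matrix.smul_mulVec, Matrix.one_mulVec, dotProduct_smul, ← gm_Sq_eq, smul_eq_mul]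
      rw [e]
      linarith [h1 x]
    obtain ⟨B₁, hB₁s, hB₁⟩ := gm_sqrt hTs hT0
    have htr12 : S₂.trace - S₁.trace ≤ D * δ := by
      unfold Matrix.trace
      rw [← Finset.sum_sub_distrib]
      calc ∑ i, (S₂.diag i - S₁.diag i) ≤ ∑ _i : ι, δ := Finset.sum_le_sum fun i _ => by
            have := (abs_le.1 (hδ i i)).1
            simp only [Matrix.diag_apply]
            linarith
        _ = _ := by rw [Finset.sum_const, Finset.card_univ, nsmul_eq_mul]
    have htrI : ((D * δ) • (1 : Matrix ι ι ℝ)).trace = D ^ 2 * δ := by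
      rw [Matrix.trace_smul, Matrix.trace_one, smul_eq_mul, ← hD]
      ring
    have htrT : T.trace ≤ 2 * (D ^ 2 * δ) := by
      rw [hT, Matrix.trace_add, Matrix.trace_sub, htrI]
      have h5 : D * δ ≤ D ^ 2 * δ := mul_le_mul_of_nonneg_right (le_self_pow₀ hD1 (by norm_num)) hδ0
      linarith
    have htrT0 : 0 ≤ T.trace := by
      rw [← hB₁]
      have := gm_trace_nonneg B₁
      rwa [hB₁s] at this
    set e₀ := Real.sqrt (D * δ) with he₀
    have he₀2 : e₀ * e₀ = D * δ := Real.mul_self_sqrt (by positivity)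
    set C₀ : Matrix ι (κ ⊕ ι) ℝ := Matrix.fromCols B 0 with hC₀
    set C₁ : Matrix ι (κ ⊕ ι) ℝ := Matrix.fromCols B B₁ with hC₁
    set C₀' : Matrix ι (κ' ⊕ ι) ℝ := Matrix.fromCols B' 0 with hC₀'
    set C₁' : Matrix ι (κ' ⊕ ι) ℝ := Matrix.fromCols B' (e₀ • (1 : Matrix ι ι ℝ)) with hC₁'
    have g0 : C₀ * C₀ᵀ = S₁ := by
      rw [hC₀, Matrix.transpose_fromCols, Matrix.fromCols_mul_fromRows]
      simp [hS₁]
    have g1 : C₁ * C₁ᵀ = S₁ + T := by
      rw [hC₁, Matrix.transpose_fromCols, Matrix.fromCols_mul_fromRows, hB₁s, hB₁]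
    have d1 : (C₀ - C₁) * (C₀ - C₁)ᵀ = T := by
      have e : C₀ - C₁ = Matrix.fromCols 0 (-B₁) := by
        ext i (a | a) <;> simp [hC₀, hC₁]
      rw [e, Matrix.transpose_fromCols, Matrix.fromCols_mul_fromRows, Matrix.transpose_neg, hB₁s]
      simp [hB₁]
    have g0' : C₀' * C₀'ᵀ = S₂ := by
      rw [hC₀', Matrix.transpose_fromCols, Matrix.fromCols_mul_fromRows]
      simp [hS₂]
    have hee : (e₀ • (1 : Matrix ι ι ℝ)) * (e₀ • (1 : Matrix ι ι ℝ))ᵀ = (D * δ) • (1 : Matrix ι ι ℝ) := by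
      rw [Matrix.transpose_smul, Matrix.transpose_one, Matrix.smul_mul, Matrix.mul_smul, Matrix.one_mul, smul_smul, he₀2]
    have g1' : C₁' * C₁'ᵀ = S₂ + (D * δ) • (1 : Matrix ι ι ℝ) := by
      rw [hC₁', Matrix.transpose_fromCols, Matrix.fromCols_mul_fromRows, hee]
    have d2 : (C₁' - C₀') * (C₁' - C₀')ᵀ = (D * δ) • (1 : Matrix ι ι ℝ) := by
      have e : C₁' - C₀' = Matrix.fromCols 0 (e₀ • (1 : Matrix ι ι ℝ)) := by
        ext i (a | a) <;> simp [hC₀', hC₁']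
      rw [e, Matrix.transpose_fromCols, Matrix.fromCols_mul_fromRows, hee]
      simp
    have g11 : C₁ * C₁ᵀ = C₁' * C₁'ᵀ := by
      rw [g1, g1', hT]
      abel
    have I1 := gm_int_cov B C₀ g0.symm m hψ
    have I2 := gm_int_cov C₁ C₁' g11 m hψ
    have I3 := gm_int_cov C₀' B' g0' m' hψ
    have E1 := gm_cmp_same C₀ C₁ m m hψ hA hmod
    have E2 := gm_cmp_same C₁' C₀' m m' hψ hA hmod
    have t1 : (S₁ + T).trace = S₁.trace + T.trace := Matrix.trace_add _ _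
    have t2 : (S₂ + (D * δ) • (1 : Matrix ι ι ℝ)).trace = S₂.trace + D ^ 2 * δ := by rw [Matrix.trace_add, htrI]
    rw [d1, g0, g1, t1, sub_self] at E1
    rw [d2, g0', g1', t2, htrI] at E2
    have z0 : gmSq (0 : ι → ℝ) = 0 := by simp [gmSq]
    rw [z0, zero_add] at E1
    set a := gmN (m - m') with haa
    set q := D * Real.sqrt δ with hq
    set r := Real.sqrt (s + 3 * D ^ 2) with hr
    have hs0 : 0 ≤ s := (gm_trace_nonneg B).trans hs
    have hr2 : r ^ 2 = s + 3 * D ^ 2 := Real.sq_sqrt (by positivity)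
    have hr0 : 0 ≤ r := Real.sqrt_nonneg _
    have hq0 : 0 ≤ q := by positivity
    have hq2 : q ^ 2 = D ^ 2 * δ := by rw [hq, mul_pow, Real.sq_sqrt hδ0]
    set R := W + 2 * μ₀ + 4 * r with hR
    have hR0 : 0 ≤ R := by positivity
    have hR2 : W ^ 2 + 4 * μ₀ ^ 2 + 16 * r ^ 2 ≤ R ^ 2 := by
      have e4 : R ^ 2 = W ^ 2 + 4 * μ₀ ^ 2 + 16 * r ^ 2 + 4 * (W * μ₀) + 8 * (W * r) + 16 * (μ₀ * r) := by
        rw [hR]
        ring
      rw [e4]
      linarith [mul_nonneg hW hμ, mul_nonneg hW hr0, mul_nonneg hμ hr0]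
    have hmm : gmSq m ≤ μ₀ ^ 2 := by
      rw [← gm_N_sq]
      exact pow_le_pow_left₀ (gm_N_nonneg _) hm 2
    have hmm' : gmSq m' ≤ μ₀ ^ 2 := by
      rw [← gm_N_sq]
      exact pow_le_pow_left₀ (gm_N_nonneg _) hm' 2
    have hDδ : D ^ 2 * δ ≤ D ^ 2 := mul_le_of_le_one_right (sq_nonneg D) hδ1
    have hDδ0 : 0 ≤ D ^ 2 * δ := mul_nonneg (sq_nonneg D) hδ0
    have u1 : Real.sqrt T.trace ≤ 3 / 2 * q := by
      refine Real.sqrt_le_iff.2 ⟨by positivity, ?_⟩
      have e4 : (3 / 2 * q) ^ 2 = 9 / 4 * q ^ 2 := by ring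
      rw [e4, hq2]
      linarith
    have u2 : Real.sqrt (gmSq (m - m') + D ^ 2 * δ) ≤ a + q := by
      refine Real.sqrt_le_iff.2 ⟨by positivity, ?_⟩
      rw [← gm_N_sq, ← hq2]
      have e4 : (a + q) ^ 2 = a ^ 2 + 2 * (a * q) + q ^ 2 := by ring
      rw [e4]
      linarith [mul_nonneg ha hq0]
    have v1 : Real.sqrt (3 * (W ^ 2 + (gmSq m + S₁.trace) + (gmSq m + (S₁.trace + T.trace)))) ≤ 2 * R := by
      refine Real.sqrt_le_iff.2 ⟨by positivity, ?_⟩
      have e4 : (2 * R) ^ 2 = 4 * R ^ 2 := by ring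
      rw [e4]
      linarith [sq_nonneg W, sq_nonneg μ₀, sq_nonneg D]
    have v2 : Real.sqrt (3 * (W ^ 2 + (gmSq m + (S₂.trace + D ^ 2 * δ)) + (gmSq m' + S₂.trace))) ≤ 2 * R := by
      refine Real.sqrt_le_iff.2 ⟨by positivity, ?_⟩
      have e4 : (2 * R) ^ 2 = 4 * R ^ 2 := by ring
      rw [e4]
      linarith [sq_nonneg W, sq_nonneg μ₀, sq_nonneg D]
    have F1 := E1.trans (mul_le_mul_of_nonneg_left (mul_le_mul u1 v1 (Real.sqrt_nonneg _) (by positivity)) hA)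
    have F2 := E2.trans (mul_le_mul_of_nonneg_left (mul_le_mul u2 v2 (Real.sqrt_nonneg _) (by positivity)) hA)
    rw [I1, ← I3]
    rw [I2] at F1
    calc |∫ g, ψ (m + C₀ *ᵥ g) ∂(gmStd (κ ⊕ ι)) - ∫ g, ψ (m' + C₀' *ᵥ g) ∂(gmStd (κ' ⊕ ι))|
        ≤ |∫ g, ψ (m + C₀ *ᵥ g) ∂(gmStd (κ ⊕ ι)) - ∫ g, ψ (m + C₁' *ᵥ g) ∂(gmStd (κ' ⊕ ι))|
          + |∫ g, ψ (m + C₁' *ᵥ g) ∂(gmStd (κ' ⊕ ι)) - ∫ g, ψ (m' + C₀' *ᵥ g) ∂(gmStd (κ' ⊕ ι))| := abs_sub_le _ _ _
      _ ≤ A * (3 / 2 * q * (2 * R)) + A * ((a + q) * (2 * R)) := add_le_add F1 F2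
      _ ≤ A * (a + 3 * D * Real.sqrt δ) * R * 4 := by
        have e : 3 * D * Real.sqrt δ = 3 * q := by rw [hq]; ring
        rw [e]
        linarith [mul_nonneg hA (mul_nonneg ha hR0), mul_nonneg hA (mul_nonneg hq0 hR0)]

/-! ### SEC 7: the regime -/

/-- superpolynomial smallness -/
theorem en_superpoly {a κ₀ : ℝ} (ha : 0 < a) (hκ : 0 < κ₀) (A : ℝ) : ∃ n₀ : ℕ, ∀ n : ℕ, n₀ ≤ n → (n : ℝ) ^ A * Real.exp (-a * (n : ℝ) ^ κ₀) ≤ 1 := by
  have h1 := tendsto_rpow_mul_exp_neg_mul_atTop_nhds_zero (A / κ₀) a ha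
  have h2 : Filter.Tendsto (fun n : ℕ => (n : ℝ) ^ κ₀) Filter.atTop Filter.atTop :=
    (tendsto_rpow_atTop hκ).comp tendsto_natCast_atTop_atTop
  have h3 := (h1.comp h2).eventually_le_const (show (0 : ℝ) < 1 from one_pos)
  obtain ⟨n₀, hn₀⟩ := Filter.eventually_atTop.1 h3
  refine ⟨n₀, fun n hn => ?_⟩
  have h4 := hn₀ n hn
  simp only [Function.comp] at h4
  rw [← Real.rpow_mul (Nat.cast_nonneg n)] at h4
  have e : κ₀ * (A / κ₀) = A := by field_simp
  rwa [e] at h4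

/-- `log n ≤ n^κ / κ` -/
theorem en_log_le {κ₀ : ℝ} (hκ : 0 < κ₀) (n : ℕ) (hn : 1 ≤ n) : Real.log n ≤ (n : ℝ) ^ κ₀ / κ₀ := by
  exact Real.log_le_rpow_div (Nat.cast_nonneg n) hκ

/-- the regime: precision and covariance `≤ A n^α`, means `≤ A n^α`, `b = n^-γ`, `Kb = 2 ⌈n^{2γ}⌉ + 2` -/
structure GmReg (n : ℕ) (A α γ : ℝ) (B : K → Matrix ι κ ℝ) (Λ : K → Matrix ι ι ℝ) (m : K → ι → ℝ) (b : ℝ) (Kb : ℕ) : Prop where
  ok : GmOk B Λ m (A * (n : ℝ) ^ α) (A * (n : ℝ) ^ α) (A * (n : ℝ) ^ α)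
  b_eq : b = (n : ℝ) ^ (-γ)
  K_eq : Kb = 2 * ⌈(n : ℝ) ^ (2 * γ)⌉₊ + 2

theorem gm_negMulLog_le {p : ℝ} (hp : 0 ≤ p) : Real.negMulLog p ≤ 2 * Real.sqrt p := by
  rcases hp.eq_or_lt with rfl | hp
  · simp
  · set u := Real.sqrt p with hu
    have hu0 : 0 < u := Real.sqrt_pos.2 hp
    have hpu : p = u ^ 2 := (Real.sq_sqrt hp.le).symm
    have h1 := Real.log_le_sub_one_of_pos (inv_pos.2 hu0)
    rw [Real.log_inv] at h1
    rw [Real.negMulLog, hpu, Real.log_pow]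
    have h2 : u ^ 2 * (-Real.log u) ≤ u ^ 2 * (u⁻¹ - 1) := mul_le_mul_of_nonneg_left h1 (by positivity)
    have h3 : u ^ 2 * (u⁻¹ - 1) = u - u ^ 2 := by field_simp
    push_cast
    nlinarith [sq_nonneg u]

omit [Fintype K] in
theorem gm_mu_nonneg [Nonempty K] {B : K → Matrix ι κ ℝ} {Λ : K → Matrix ι ι ℝ} {m : K → ι → ℝ} {lam sig mu : ℝ} (h : GmOk B Λ m lam sig mu) : 0 ≤ mu := by
  obtain ⟨k⟩ := ‹Nonempty K›
  exact (gm_N_nonneg _).trans (h.mean k)

theorem gm_E_osc_le [Nonempty K] {B : K → Matrix ι κ ℝ} {Λ : K → Matrix ι ι ℝ} {m : K → ι → ℝ} {lam sig mu β : ℝ} (h : GmOk B Λ m lam sig mu) (hβ : 0 ≤ β) :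
    gmE B m (gmOsc lam β mu) ≤ lam * β * (1 + (2 * mu ^ 2 + 2 * (Fintype.card ι : ℝ) * sig) + mu + β) := by
  have hl := h.lam0
  have P : GmPoly fun y : ι → ℝ => (1 + mu + β) + gmSq y := (GmPoly.const _).add GmPoly.sq
  calc gmE B m (gmOsc lam β mu) ≤ gmE B m fun y => (lam * β) * ((1 + mu + β) + gmSq y) := by
        refine gm_E_le B m (gm_osc_poly _ _ _) ((GmPoly.const _).mul P) fun y => ?_
        unfold gmOsc
        apply mul_le_mul_of_nonneg_left _ (by positivity)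
        linarith [gm_N_le_one_add y]
    _ = (lam * β) * ((1 + mu + β) + gmE B m fun y => gmSq y) := by
        rw [gm_E_cmul, gm_E_add B m (GmPoly.const _) GmPoly.sq, gm_E_const]
    _ ≤ _ := by
        apply mul_le_mul_of_nonneg_left _ (by positivity)
        linarith [(gm_E_mom h).1]

omit [Fintype ι] [DecidableEq ι] in
theorem gm_I_01 (b : ℝ) (Kb : ℕ) [NeZero Kb] (y : ι → ℝ) : gmI b Kb y = 0 ∨ gmI b Kb y = 1 := by
  unfold gmI
  split_ifs
  · exact Or.inr rfl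
  · exact Or.inl rfl

omit [DecidableEq ι] in
theorem gm_osc_nonneg {lam β mu : ℝ} (hl : 0 ≤ lam) (hβ : 0 ≤ β) (hmu : 0 ≤ mu) (y : ι → ℝ) : 0 ≤ gmOsc lam β mu y := by
  unfold gmOsc
  have := gm_N_nonneg y
  positivity

/-- explicit upper bound -/
theorem gm_up_expl [Nonempty K] {B : K → Matrix ι κ ℝ} {Λ : K → Matrix ι ι ℝ} {m : K → ι → ℝ} {lam sig mu b : ℝ} (h : GmOk B Λ m lam sig mu) (hb : 0 < b) (hb1 : b ≤ 1)
    (Kb : ℕ) [NeZero Kb] :
    enHd (gmP B m b Kb) ≤ gmH B Λ m - (Fintype.card ι : ℝ) * Real.log b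
      + lam * (b * Real.sqrt (Fintype.card ι)) * (1 + (2 * mu ^ 2 + 2 * (Fintype.card ι : ℝ) * sig) + mu + b * Real.sqrt (Fintype.card ι))
      + gmE B m (fun y => 1 - gmI b Kb y) * (|(Fintype.card ι : ℝ) / 2 * Real.log (2 * Real.pi / lam)| + (Fintype.card ι : ℝ) * Real.log Kb)
      + 2 * Real.sqrt (gmE B m fun y => 1 - gmI b Kb y) := by
  set D : ℝ := (Fintype.card ι : ℝ) with hD
  set β := b * Real.sqrt D with hβ
  set p := gmE B m (fun y => 1 - gmI b Kb y) with hp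
  set L₀ := D / 2 * Real.log (2 * Real.pi / lam) with hL₀
  set a := -D * Real.log b with ha
  have hβ0 : 0 ≤ β := by positivity
  have ha0 : 0 ≤ a := by
    rw [ha, neg_mul, neg_nonneg]
    exact mul_nonpos_of_nonneg_of_nonpos (by positivity) (Real.log_nonpos hb.le hb1)
  have hp0 : 0 ≤ p := gm_E_nonneg B m fun y => by
    rcases gm_I_01 b Kb y with e | e <;> rw [e] <;> norm_num
  have hmu := gm_mu_nonneg h
  have h1 := gm_bin_up h hb Kb
  have P1 : GmPoly fun y => - Real.log (gmMix Λ m y) := (gm_log_poly h).neg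
  have P2 : GmPoly fun _ : ι → ℝ => a := GmPoly.const a
  have P3 : GmPoly fun y : ι → ℝ => |L₀| * (1 - gmI b Kb y) := (GmPoly.const _).mul ((GmPoly.const 1).sub (gm_I_poly b Kb))
  have P4 : GmPoly (gmOsc lam β mu : (ι → ℝ) → ℝ) := gm_osc_poly _ _ _
  have key : gmE B m (fun y => gmI b Kb y * (a - Real.log (gmMix Λ m y) + gmOsc lam β mu y))
      ≤ gmH B Λ m + a + |L₀| * p + gmE B m (gmOsc lam β mu) := by
    calc gmE B m (fun y => gmI b Kb y * (a - Real.log (gmMix Λ m y) + gmOsc lam β mu y))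
        ≤ gmE B m (fun y => ((- Real.log (gmMix Λ m y) + a) + |L₀| * (1 - gmI b Kb y)) + gmOsc lam β mu y) := by
          refine gm_E_le B m ((gm_I_poly b Kb).mul (((GmPoly.const _).sub (gm_log_poly h)).add P4)) (((P1.add P2).add P3).add P4) fun y => ?_
          have ho := gm_osc_nonneg h.lam0.le hβ0 hmu y
          have hl := (gm_log_bd h y).1
          rcases gm_I_01 b Kb y with e | e <;> rw [e]
          · have := neg_abs_le L₀
            linarith
          · linarith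
      _ = _ := by
          rw [gm_E_add B m ((P1.add P2).add P3) P4, gm_E_add B m (P1.add P2) P3, gm_E_add B m P1 P2, gm_E_const, gm_E_cmul]
          rfl
  have h2 := gm_E_osc_le h hβ0
  have h3 := gm_negMulLog_le hp0
  have e : gmH B Λ m - D * Real.log b = gmH B Λ m + a := by rw [ha]; ring
  rw [e]
  nlinarith

/-- explicit lower bound -/
theorem gm_dn_expl [Nonempty K] {B : K → Matrix ι κ ℝ} {Λ : K → Matrix ι ι ℝ} {m : K → ι → ℝ} {lam sig mu b : ℝ} (h : GmOk B Λ m lam sig mu) (hb : 0 < b)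
    (Kb : ℕ) [NeZero Kb] :
    gmH B Λ m - (Fintype.card ι : ℝ) * Real.log b ≤ enHd (gmP B m b Kb)
      + lam * (b * Real.sqrt (Fintype.card ι)) * (1 + (2 * mu ^ 2 + 2 * (Fintype.card ι : ℝ) * sig) + mu + b * Real.sqrt (Fintype.card ι))
      + gmE B m (fun y => 1 - gmI b Kb y) * (-(Fintype.card ι : ℝ) * Real.log b + |(Fintype.card ι : ℝ) / 2 * Real.log (2 * Real.pi * sig)|)
      + lam / 2 * (Real.sqrt (gmE B m fun y => 1 - gmI b Kb y) * Real.sqrt (72 * mu ^ 4 + 192 * ((Fintype.card ι : ℝ) * sig) ^ 2)) := by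
  set D : ℝ := (Fintype.card ι : ℝ) with hD
  set β := b * Real.sqrt D with hβ
  set p := gmE B m (fun y => 1 - gmI b Kb y) with hp
  set U₀ := D / 2 * Real.log (2 * Real.pi * sig) with hU₀
  set a := -D * Real.log b with ha
  have hβ0 : 0 ≤ β := by positivity
  have hmu := gm_mu_nonneg h
  have hl0 := h.lam0
  have h1 := gm_bin_dn h hb Kb
  have P0 : GmPoly fun y => gmI b Kb y * (a - Real.log (gmMix Λ m y) - gmOsc lam β mu y) :=
    (gm_I_poly b Kb).mul (((GmPoly.const _).sub (gm_log_poly h)).sub (gm_osc_poly _ _ _))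
  have P1 : GmPoly fun y => - Real.log (gmMix Λ m y) := (gm_log_poly h).neg
  have P2 : GmPoly fun _ : ι → ℝ => a := GmPoly.const a
  have PI : GmPoly fun y : ι → ℝ => 1 - gmI b Kb y := (GmPoly.const 1).sub (gm_I_poly b Kb)
  have P3 : GmPoly fun y : ι → ℝ => (a + |U₀|) * (1 - gmI b Kb y) := (GmPoly.const _).mul PI
  have P4 : GmPoly (gmOsc lam β mu : (ι → ℝ) → ℝ) := gm_osc_poly _ _ _
  have PN : GmPoly fun y : ι → ℝ => (gmN y + mu) ^ 2 := by
    have := ((GmPoly.norm (ι := ι)).add (GmPoly.const mu)).mul ((GmPoly.norm (ι := ι)).add (GmPoly.const mu))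
    simpa only [sq] using this
  have P5 : GmPoly fun y : ι → ℝ => (1 - gmI b Kb y) * (gmN y + mu) ^ 2 := PI.mul PN
  have P6 : GmPoly fun y : ι → ℝ => lam / 2 * ((1 - gmI b Kb y) * (gmN y + mu) ^ 2) := (GmPoly.const _).mul P5
  have key : gmH B Λ m + a ≤ gmE B m (fun y => gmI b Kb y * (a - Real.log (gmMix Λ m y) - gmOsc lam β mu y)) + gmE B m (gmOsc lam β mu)
      + (a + |U₀|) * p + lam / 2 * gmE B m (fun y => (1 - gmI b Kb y) * (gmN y + mu) ^ 2) := by
    calc gmH B Λ m + a = gmE B m (fun y => - Real.log (gmMix Λ m y) + a) := by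
          rw [gm_E_add B m P1 P2, gm_E_const]
          rfl
      _ ≤ gmE B m (fun y => ((gmI b Kb y * (a - Real.log (gmMix Λ m y) - gmOsc lam β mu y) + gmOsc lam β mu y) + (a + |U₀|) * (1 - gmI b Kb y))
            + lam / 2 * ((1 - gmI b Kb y) * (gmN y + mu) ^ 2)) := by
          refine gm_E_le B m (P1.add P2) (((P0.add P4).add P3).add P6) fun y => ?_
          have ho := gm_osc_nonneg h.lam0.le hβ0 hmu y
          have hl := (gm_log_bd h y).2
          rcases gm_I_01 b Kb y with e | e <;> rw [e]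
          · have := le_abs_self U₀
            linarith
          · linarith
      _ = _ := by
          rw [gm_E_add B m ((P0.add P4).add P3) P6, gm_E_add B m (P0.add P4) P3, gm_E_add B m P0 P4, gm_E_cmul, gm_E_cmul]
  have hcs : gmE B m (fun y => (1 - gmI b Kb y) * (gmN y + mu) ^ 2) ≤ Real.sqrt p * Real.sqrt (72 * mu ^ 4 + 192 * (D * sig) ^ 2) := by
    have c1 := gm_E_cs B m PI.1 PN.1 (2 + 2 * mu ^ 2) 1
      (fun y => by
        have := gm_Sq_nonneg y
        rcases gm_I_01 b Kb y with e | e <;> rw [e] <;> norm_num <;> nlinarith [sq_nonneg mu])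
      (fun y => by
        rw [abs_of_nonneg (sq_nonneg _), pow_one, ← gm_N_sq]
        nlinarith [sq_nonneg (gmN y - mu), sq_nonneg (gmN y * mu), sq_nonneg mu, sq_nonneg (gmN y)])
    have e1 : (fun y : ι → ℝ => (1 - gmI b Kb y) ^ 2) = fun y => 1 - gmI b Kb y := by
      funext y
      rcases gm_I_01 b Kb y with e | e <;> rw [e] <;> norm_num
    rw [e1] at c1
    have c2 : gmE B m (fun y => ((gmN y + mu) ^ 2) ^ 2) ≤ 72 * mu ^ 4 + 192 * (D * sig) ^ 2 := by
      have Q : GmPoly fun y : ι → ℝ => gmSq y ^ 2 := by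
        have := (GmPoly.sq (ι := ι)).mul (GmPoly.sq (ι := ι))
        simpa only [sq] using this
      calc gmE B m (fun y => ((gmN y + mu) ^ 2) ^ 2) ≤ gmE B m (fun y => 8 * gmSq y ^ 2 + 8 * mu ^ 4) := by
            refine gm_E_le B m (by simpa only [sq] using PN.mul PN) (((GmPoly.const _).mul Q).add (GmPoly.const _)) fun y => ?_
            rw [← gm_N_sq]
            nlinarith [sq_nonneg (gmN y - mu), sq_nonneg (gmN y + mu), sq_nonneg (gmN y ^ 2 - mu ^ 2), mul_nonneg (gm_N_nonneg y) hmu,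
              mul_nonneg (mul_nonneg (gm_N_nonneg y) hmu) (sq_nonneg (gmN y - mu))]
        _ = 8 * gmE B m (fun y => gmSq y ^ 2) + 8 * mu ^ 4 := by
            rw [gm_E_add B m ((GmPoly.const _).mul Q) (GmPoly.const _), gm_E_cmul, gm_E_const]
        _ ≤ _ := by linarith [(gm_E_mom h).2]
    calc _ ≤ _ := (le_abs_self _).trans c1
      _ ≤ _ := mul_le_mul_of_nonneg_left (Real.sqrt_le_sqrt c2) (Real.sqrt_nonneg _)
  have h2 := gm_E_osc_le h hβ0
  have e : gmH B Λ m - D * Real.log b = gmH B Λ m + a := by rw [ha]; ring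
  rw [e]
  have h4 := mul_le_mul_of_nonneg_left hcs (by linarith : (0 : ℝ) ≤ lam / 2)
  linarith

/-- the regime: probability of clipping -/
theorem gm_reg_clip (D₀ : ℕ) {A α γ : ℝ} (hA : 1 ≤ A) (hα : 0 < α) (hγ : 16 * α ≤ γ) (E : ℝ) : ∃ n₀ : ℕ, 1 ≤ n₀ ∧ ∀ n : ℕ, n₀ ≤ n →
    ∀ (ι κ K : Type) [Fintype ι] [DecidableEq ι] [Fintype κ] [Fintype K] [Nonempty K], Fintype.card ι = D₀ →
    ∀ (B : K → Matrix ι κ ℝ) (Λ : K → Matrix ι ι ℝ) (m : K → ι → ℝ) (b : ℝ) (Kb : ℕ) [NeZero Kb], GmReg n A α γ B Λ m b Kb →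
      gmE B m (fun y => 1 - gmI b Kb y) ≤ 2 * D₀ * (n : ℝ) ^ (-E) := by
  have hγα : 0 < γ - α := by linarith
  obtain ⟨n₁, hn₁⟩ := Filter.eventually_atTop.1 (((tendsto_rpow_atTop hγα).comp tendsto_natCast_atTop_atTop).eventually_ge_atTop (2 * A))
  obtain ⟨n₂, hn₂⟩ := en_superpoly (a := 1 / (8 * A)) (κ₀ := 2 * γ - α) (by positivity) (by linarith) E
  refine ⟨max 1 (max n₁ n₂), le_max_left _ _, fun n hn ι κ K _ _ _ _ _ hD B Λ m b Kb _ hreg => ?_⟩
  have hn1 : 1 ≤ n := (le_max_left _ _).trans hn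
  have hN1 : (1 : ℝ) ≤ n := by exact_mod_cast hn1
  have hN0 : (0 : ℝ) < n := by linarith
  have h1 := hn₁ n (((le_max_left _ _).trans (le_max_right _ _)).trans hn)
  have h2 := hn₂ n (((le_max_right _ _).trans (le_max_right _ _)).trans hn)
  simp only [Function.comp] at h1
  obtain ⟨hok, hb, hK⟩ := hreg
  subst hK
  subst hb
  set N : ℝ := (n : ℝ) with hN
  set K' := ⌈N ^ (2 * γ)⌉₊ with hK'
  set M := A * N ^ α with hM'
  have hb0 : 0 < N ^ (-γ) := Real.rpow_pos_of_pos hN0 _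
  have hx : 0 < N ^ α := Real.rpow_pos_of_pos hN0 _
  have hKb : N ^ γ ≤ K' * N ^ (-γ) := by
    calc N ^ γ = N ^ (2 * γ) * N ^ (-γ) := by
          rw [← Real.rpow_add hN0]
          congr 1
          ring
      _ ≤ K' * N ^ (-γ) := mul_le_mul_of_nonneg_right (Nat.le_ceil _) hb0.le
  have hM : M ≤ N ^ γ / 2 := by
    have e : N ^ γ = N ^ (γ - α) * N ^ α := by
      rw [← Real.rpow_add hN0]
      congr 1
      ring
    rw [e, hM']
    have := mul_le_mul_of_nonneg_right h1 hx.le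
    linarith
  have hg0 : 0 < N ^ γ := Real.rpow_pos_of_pos hN0 _
  have hc := gm_clip hok hb0 hok.sig0 K' (by linarith)
  have hM0 : 0 < M := by positivity
  have hexp : -(K' * N ^ (-γ) - M) ^ 2 / (2 * M) ≤ -(1 / (8 * A)) * N ^ (2 * γ - α) := by
    have h3 : N ^ γ / 2 ≤ K' * N ^ (-γ) - M := by linarith
    have h4 : (N ^ γ / 2) ^ 2 ≤ (K' * N ^ (-γ) - M) ^ 2 := pow_le_pow_left₀ (by positivity) h3 2
    have h5 : N ^ (2 * γ - α) * N ^ α = (N ^ γ) ^ 2 := by
      rw [← Real.rpow_add hN0, ← Real.rpow_natCast, ← Real.rpow_mul hN0.le]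
      congr 1
      push_cast
      ring
    rw [neg_div, neg_mul, neg_le_neg_iff, le_div_iff₀ (by positivity)]
    calc 1 / (8 * A) * N ^ (2 * γ - α) * (2 * M) = (N ^ (2 * γ - α) * N ^ α) / 4 := by
          rw [hM']
          field_simp
          ring
      _ = (N ^ γ / 2) ^ 2 := by rw [h5]; ring
      _ ≤ _ := h4
  have h6 : Real.exp (-(1 / (8 * A)) * N ^ (2 * γ - α)) ≤ N ^ (-E) := by
    rw [Real.rpow_neg hN0.le, ← one_div, le_div_iff₀ (Real.rpow_pos_of_pos hN0 _), mul_comm]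
    exact h2
  calc gmE B m (fun y => 1 - gmI (N ^ (-γ)) (2 * K' + 2) y) ≤ (Fintype.card ι : ℝ) * (2 * Real.exp (-(K' * N ^ (-γ) - M) ^ 2 / (2 * M))) := hc
    _ ≤ (D₀ : ℝ) * (2 * N ^ (-E)) := by
        rw [hD]
        exact mul_le_mul_of_nonneg_left (mul_le_mul_of_nonneg_left ((Real.exp_le_exp.2 hexp).trans h6) (by norm_num)) (Nat.cast_nonneg _)
    _ = _ := by ring

theorem gm_reg_T1 {A α γ N D : ℝ} (hA : 1 ≤ A) (hα : 0 < α) (hγ : 16 * α ≤ γ) (hN : 1 ≤ N) (hD : 0 ≤ D) :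
    A * N ^ α * (N ^ (-γ) * Real.sqrt D) * (1 + (2 * (A * N ^ α) ^ 2 + 2 * D * (A * N ^ α)) + A * N ^ α + N ^ (-γ) * Real.sqrt D)
      ≤ A * Real.sqrt D * (1 + 2 * A ^ 2 + 2 * D * A + A + Real.sqrt D) * N ^ (-α) := by
  have hN0 : 0 < N := by linarith
  set x := N ^ α with hx
  set b := N ^ (-γ) with hb
  set sD := Real.sqrt D with hsD
  have hx1 : 1 ≤ x := Real.one_le_rpow hN hα.le
  have hb0 : 0 < b := Real.rpow_pos_of_pos hN0 _
  have hb1 : b ≤ 1 := Real.rpow_le_one_of_one_le_of_nonpos hN (by linarith)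
  have hs0 : 0 ≤ sD := Real.sqrt_nonneg _
  have hxx : x ≤ x ^ 2 := by nlinarith
  have hx2 : 1 ≤ x ^ 2 := by nlinarith
  have h1 : 1 + (2 * (A * x) ^ 2 + 2 * D * (A * x)) + A * x + b * sD ≤ (1 + 2 * A ^ 2 + 2 * D * A + A + sD) * x ^ 2 := by
    have a1 : 2 * D * (A * x) ≤ 2 * D * A * x ^ 2 := by
      have := mul_le_mul_of_nonneg_left hxx (by positivity : 0 ≤ 2 * D * A)
      linarith
    have a2 : A * x ≤ A * x ^ 2 := mul_le_mul_of_nonneg_left hxx (by linarith)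
    have a3 : b * sD ≤ sD * x ^ 2 := by
      calc b * sD ≤ 1 * sD := mul_le_mul_of_nonneg_right hb1 hs0
        _ = sD * 1 := by ring
        _ ≤ sD * x ^ 2 := mul_le_mul_of_nonneg_left hx2 hs0
    have a4 : (A * x) ^ 2 = A ^ 2 * x ^ 2 := by ring
    rw [a4]
    linarith
  have h2 : x ^ 3 * b ≤ N ^ (-α) := by
    rw [hx, hb, ← Real.rpow_natCast, ← Real.rpow_mul hN0.le, ← Real.rpow_add hN0]
    apply Real.rpow_le_rpow_of_exponent_le hN
    push_cast
    linarith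
  calc A * x * (b * sD) * (1 + (2 * (A * x) ^ 2 + 2 * D * (A * x)) + A * x + b * sD)
      ≤ A * x * (b * sD) * ((1 + 2 * A ^ 2 + 2 * D * A + A + sD) * x ^ 2) := mul_le_mul_of_nonneg_left h1 (by positivity)
    _ = A * sD * (1 + 2 * A ^ 2 + 2 * D * A + A + sD) * (x ^ 3 * b) := by ring
    _ ≤ _ := mul_le_mul_of_nonneg_left h2 (by positivity)

theorem gm_reg_sqrt {N D E p : ℝ} (hN : 1 ≤ N) (hD : 0 ≤ D) (hp : p ≤ 2 * D * N ^ (-E)) : Real.sqrt p ≤ Real.sqrt (2 * D) * N ^ (-E / 2) := by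
  have hN0 : 0 < N := by linarith
  calc Real.sqrt p ≤ Real.sqrt (2 * D * N ^ (-E)) := Real.sqrt_le_sqrt hp
    _ = Real.sqrt (2 * D) * Real.sqrt (N ^ (-E)) := Real.sqrt_mul (by positivity) _
    _ = _ := by
      rw [Real.sqrt_eq_rpow (N ^ (-E)), ← Real.rpow_mul hN0.le]
      congr 2
      ring

/-- **binning in fixed dimension, upper bound**:  from `gm_bin_up`: `E[osc] ≤ A n^α b √D (..) ≤ C n^{3α - γ}` (`gm_E_mom`), clipping is superpolynomially small (`gm_clip`, `en_superpoly`), `- log f ≥ - C log n` on the clipped part (`gm_log_bd`) -/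
theorem gm_bin_up' (D₀ : ℕ) {A α γ : ℝ} (hA : 1 ≤ A) (hα : 0 < α) (hγ : 16 * α ≤ γ) : ∃ c C : ℝ, ∃ n₀ : ℕ, 0 < c ∧ ∀ n : ℕ, n₀ ≤ n →
    ∀ (ι κ K : Type) [Fintype ι] [DecidableEq ι] [Fintype κ] [Fintype K] [Nonempty K], Fintype.card ι = D₀ →
    ∀ (B : K → Matrix ι κ ℝ) (Λ : K → Matrix ι ι ℝ) (m : K → ι → ℝ) (b : ℝ) (Kb : ℕ) [NeZero Kb], GmReg n A α γ B Λ m b Kb →
      enHd (gmP B m b Kb) ≤ gmH B Λ m - D₀ * Real.log b + C * (n : ℝ) ^ (-c) := by
  obtain ⟨n₀, hn₀1, hclip⟩ := gm_reg_clip D₀ hA hα hγ (4 * γ + 2)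
  set D : ℝ := (D₀ : ℝ) with hDD
  have hD0 : 0 ≤ D := Nat.cast_nonneg _
  set sD := Real.sqrt D with hsD
  refine ⟨α, A * sD * (1 + 2 * A ^ 2 + 2 * D * A + A + sD) + 2 * D * (D / 2 * (2 * Real.pi + A) + 6 * D) + 2 * Real.sqrt (2 * D), n₀, hα,
    fun n hn ι κ K _ _ _ _ _ hD B Λ m b Kb _ hreg => ?_⟩
  have hp := hclip n hn ι κ K hD B Λ m b Kb hreg
  obtain ⟨hok, hb, hK⟩ := hreg
  have hN1 : (1 : ℝ) ≤ n := by exact_mod_cast hn₀1.trans hn
  set N : ℝ := (n : ℝ) with hN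
  have hN0 : 0 < N := by linarith
  have hb0 : 0 < b := by rw [hb]; exact Real.rpow_pos_of_pos hN0 _
  have hb1 : b ≤ 1 := by rw [hb]; exact Real.rpow_le_one_of_one_le_of_nonpos hN1 (by linarith)
  have h := gm_up_expl hok hb0 hb1 Kb
  rw [hD] at h
  set p := gmE B m (fun y => 1 - gmI b Kb y) with hpp
  have hp0 : 0 ≤ p := gm_E_nonneg B m fun y => by
    rcases gm_I_01 b Kb y with e | e <;> rw [e] <;> norm_num
  set x := N ^ α with hx
  have hx1 : 1 ≤ x := Real.one_le_rpow hN1 hα.le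
  set y := N ^ (2 * γ) with hy
  have hy1 : 1 ≤ y := Real.one_le_rpow hN1 (by linarith)
  have hxy : x ≤ y := Real.rpow_le_rpow_of_exponent_le hN1 (by linarith)
  have T1 := gm_reg_T1 hA hα hγ hN1 hD0
  rw [← hb] at T1
  have hpi : 3 < Real.pi := Real.pi_gt_three
  have T2 : p * (|D / 2 * Real.log (2 * Real.pi / (A * x))| + D * Real.log Kb) ≤ 2 * D * (D / 2 * (2 * Real.pi + A) + 6 * D) * N ^ (-α) := by
    have hAx : 1 ≤ A * x := by nlinarith
    have l1 : |D / 2 * Real.log (2 * Real.pi / (A * x))| ≤ D / 2 * (2 * Real.pi + A * x) := by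
      rw [abs_mul, abs_of_nonneg (by positivity : 0 ≤ D / 2)]
      apply mul_le_mul_of_nonneg_left _ (by positivity)
      rw [Real.log_div (by positivity) (by positivity)]
      have a1 := Real.log_nonneg (by linarith : (1 : ℝ) ≤ 2 * Real.pi)
      have a2 := Real.log_nonneg hAx
      have a3 := Real.log_le_self (by positivity : (0 : ℝ) ≤ 2 * Real.pi)
      have a4 := Real.log_le_self (by positivity : (0 : ℝ) ≤ A * x)
      rw [abs_le]
      constructor <;> linarith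
    have l2 : Real.log Kb ≤ 6 * y := by
      have a1 := Real.log_le_self (Nat.cast_nonneg Kb : (0 : ℝ) ≤ Kb)
      have a2 : (Kb : ℝ) = 2 * (⌈y⌉₊ : ℝ) + 2 := by rw [hK]; push_cast; ring
      have a3 := (Nat.ceil_lt_add_one (by positivity : 0 ≤ y)).le
      linarith
    have l3 : |D / 2 * Real.log (2 * Real.pi / (A * x))| + D * Real.log Kb ≤ (D / 2 * (2 * Real.pi + A) + 6 * D) * y := by
      have b1 : D / 2 * (2 * Real.pi + A * x) ≤ D / 2 * (2 * Real.pi + A) * y := by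
        have c1 : 2 * Real.pi + A * x ≤ (2 * Real.pi + A) * y := by
          have := mul_le_mul_of_nonneg_left hxy (by linarith : 0 ≤ A)
          have := mul_le_mul_of_nonneg_left hy1 (by positivity : 0 ≤ 2 * Real.pi)
          linarith
        have := mul_le_mul_of_nonneg_left c1 (by positivity : 0 ≤ D / 2)
        linarith
      have b2 := mul_le_mul_of_nonneg_left l2 hD0
      linarith
    have l4 : N ^ (-(4 * γ + 2)) * y ≤ N ^ (-α) := by
      rw [hy, ← Real.rpow_add hN0]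
      exact Real.rpow_le_rpow_of_exponent_le hN1 (by linarith)
    have l5 : 0 ≤ D / 2 * (2 * Real.pi + A) + 6 * D := by positivity
    calc p * (|D / 2 * Real.log (2 * Real.pi / (A * x))| + D * Real.log Kb)
        ≤ (2 * D * N ^ (-(4 * γ + 2))) * ((D / 2 * (2 * Real.pi + A) + 6 * D) * y) :=
          mul_le_mul hp l3 (by
            have := Real.log_nonneg (by exact_mod_cast Nat.one_le_iff_ne_zero.2 (NeZero.ne Kb) : (1 : ℝ) ≤ Kb)
            positivity) (by positivity)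
      _ = 2 * D * (D / 2 * (2 * Real.pi + A) + 6 * D) * (N ^ (-(4 * γ + 2)) * y) := by ring
      _ ≤ _ := mul_le_mul_of_nonneg_left l4 (by positivity)
  have T3 : 2 * Real.sqrt p ≤ 2 * Real.sqrt (2 * D) * N ^ (-α) := by
    have a1 := gm_reg_sqrt hN1 hD0 hp
    have a2 : N ^ (-(4 * γ + 2) / 2) ≤ N ^ (-α) := Real.rpow_le_rpow_of_exponent_le hN1 (by linarith)
    have a3 := mul_le_mul_of_nonneg_left a2 (Real.sqrt_nonneg (2 * D))
    linarith
  linarith

/-- **binning in fixed dimension, lower bound**:  from `gm_bin_dn`; on the clipped part `- log f ≤ C log n + A n^α (|y| + ..)²` (`gm_log_bd`), Cauchy-Schwarz `gm_E_cs` with `gm_clip`, `gm_E_mom` -/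
theorem gm_bin_dn' (D₀ : ℕ) {A α γ : ℝ} (hA : 1 ≤ A) (hα : 0 < α) (hγ : 16 * α ≤ γ) : ∃ c C : ℝ, ∃ n₀ : ℕ, 0 < c ∧ ∀ n : ℕ, n₀ ≤ n →
    ∀ (ι κ K : Type) [Fintype ι] [DecidableEq ι] [Fintype κ] [Fintype K] [Nonempty K], Fintype.card ι = D₀ →
    ∀ (B : K → Matrix ι κ ℝ) (Λ : K → Matrix ι ι ℝ) (m : K → ι → ℝ) (b : ℝ) (Kb : ℕ) [NeZero Kb], GmReg n A α γ B Λ m b Kb →
      gmH B Λ m - D₀ * Real.log b ≤ enHd (gmP B m b Kb) + C * (n : ℝ) ^ (-c) := by
  obtain ⟨n₀, hn₀1, hclip⟩ := gm_reg_clip D₀ hA hα hγ (4 * γ + 2)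
  set D : ℝ := (D₀ : ℝ) with hDD
  have hD0 : 0 ≤ D := Nat.cast_nonneg _
  set sD := Real.sqrt D with hsD
  refine ⟨α, A * sD * (1 + 2 * A ^ 2 + 2 * D * A + A + sD) + 2 * D * (D * γ + D * Real.pi * A)
      + A / 2 * (Real.sqrt (2 * D) * Real.sqrt (72 * A ^ 4 + 192 * (D * A) ^ 2)), n₀, hα,
    fun n hn ι κ K _ _ _ _ _ hD B Λ m b Kb _ hreg => ?_⟩
  have hp := hclip n hn ι κ K hD B Λ m b Kb hreg
  obtain ⟨hok, hb, hK⟩ := hreg
  have hN1 : (1 : ℝ) ≤ n := by exact_mod_cast hn₀1.trans hn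
  set N : ℝ := (n : ℝ) with hN
  have hN0 : 0 < N := by linarith
  have hb0 : 0 < b := by rw [hb]; exact Real.rpow_pos_of_pos hN0 _
  have h := gm_dn_expl hok hb0 Kb
  rw [hD] at h
  set p := gmE B m (fun y => 1 - gmI b Kb y) with hpp
  have hp0 : 0 ≤ p := gm_E_nonneg B m fun y => by
    rcases gm_I_01 b Kb y with e | e <;> rw [e] <;> norm_num
  set x := N ^ α with hx
  have hx1 : 1 ≤ x := Real.one_le_rpow hN1 hα.le
  set z := N ^ (1 + 2 * γ) with hz
  have hz0 : 0 < z := Real.rpow_pos_of_pos hN0 _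
  have hxz : x ≤ z := Real.rpow_le_rpow_of_exponent_le hN1 (by linarith)
  have hNz : N ≤ z := by
    calc N = N ^ (1 : ℝ) := (Real.rpow_one N).symm
      _ ≤ z := Real.rpow_le_rpow_of_exponent_le hN1 (by linarith)
  have T1 := gm_reg_T1 hA hα hγ hN1 hD0
  rw [← hb] at T1
  have hpi : 3 < Real.pi := Real.pi_gt_three
  have hγ0 : 0 < γ := by linarith
  have T2 : p * (-D * Real.log b + |D / 2 * Real.log (2 * Real.pi * (A * x))|) ≤ 2 * D * (D * γ + D * Real.pi * A) * N ^ (-α) := by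
    have hAx : 1 ≤ A * x := by nlinarith
    have l0 : -D * Real.log b = D * γ * Real.log N := by
      rw [hb, Real.log_rpow hN0]
      ring
    have l0' : 0 ≤ Real.log N := Real.log_nonneg hN1
    have l1 : |D / 2 * Real.log (2 * Real.pi * (A * x))| ≤ D * Real.pi * A * x := by
      rw [abs_mul, abs_of_nonneg (by positivity : 0 ≤ D / 2)]
      have a1 := Real.log_nonneg (by nlinarith : (1 : ℝ) ≤ 2 * Real.pi * (A * x))
      have a3 := Real.log_le_self (by positivity : (0 : ℝ) ≤ 2 * Real.pi * (A * x))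
      rw [abs_of_nonneg a1]
      have := mul_le_mul_of_nonneg_left a3 (by positivity : 0 ≤ D / 2)
      linarith
    have l3 : -D * Real.log b + |D / 2 * Real.log (2 * Real.pi * (A * x))| ≤ (D * γ + D * Real.pi * A) * z := by
      rw [l0]
      have b1 : D * γ * Real.log N ≤ D * γ * z := mul_le_mul_of_nonneg_left ((Real.log_le_self hN0.le).trans hNz) (by positivity)
      have b2 : D * Real.pi * A * x ≤ D * Real.pi * A * z := mul_le_mul_of_nonneg_left hxz (by positivity)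
      linarith
    have l4 : N ^ (-(4 * γ + 2)) * z ≤ N ^ (-α) := by
      rw [hz, ← Real.rpow_add hN0]
      exact Real.rpow_le_rpow_of_exponent_le hN1 (by linarith)
    calc p * (-D * Real.log b + |D / 2 * Real.log (2 * Real.pi * (A * x))|)
        ≤ (2 * D * N ^ (-(4 * γ + 2))) * ((D * γ + D * Real.pi * A) * z) :=
          mul_le_mul hp l3 (by rw [l0]; positivity) (by positivity)
      _ = 2 * D * (D * γ + D * Real.pi * A) * (N ^ (-(4 * γ + 2)) * z) := by ring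
      _ ≤ _ := mul_le_mul_of_nonneg_left l4 (by positivity)
  have T3 : A * x / 2 * (Real.sqrt p * Real.sqrt (72 * (A * x) ^ 4 + 192 * (D * (A * x)) ^ 2))
      ≤ A / 2 * (Real.sqrt (2 * D) * Real.sqrt (72 * A ^ 4 + 192 * (D * A) ^ 2)) * N ^ (-α) := by
    have a1 := gm_reg_sqrt hN1 hD0 hp
    have a2 : Real.sqrt (72 * (A * x) ^ 4 + 192 * (D * (A * x)) ^ 2) ≤ Real.sqrt (72 * A ^ 4 + 192 * (D * A) ^ 2) * x ^ 2 := by
      have e : Real.sqrt (72 * A ^ 4 + 192 * (D * A) ^ 2) * x ^ 2 = Real.sqrt ((72 * A ^ 4 + 192 * (D * A) ^ 2) * (x ^ 2) ^ 2) := by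
        rw [Real.sqrt_mul (by positivity), Real.sqrt_sq (by positivity)]
      rw [e]
      apply Real.sqrt_le_sqrt
      have hx24 : x ^ 2 ≤ x ^ 4 := pow_le_pow_right₀ hx1 (by norm_num)
      have := mul_le_mul_of_nonneg_left hx24 (by positivity : 0 ≤ 192 * (D * A) ^ 2)
      nlinarith
    have a3 : x ^ 3 * N ^ (-(4 * γ + 2) / 2) ≤ N ^ (-α) := by
      rw [hx, ← Real.rpow_natCast, ← Real.rpow_mul hN0.le, ← Real.rpow_add hN0]
      apply Real.rpow_le_rpow_of_exponent_le hN1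
      push_cast
      linarith
    calc A * x / 2 * (Real.sqrt p * Real.sqrt (72 * (A * x) ^ 4 + 192 * (D * (A * x)) ^ 2))
        ≤ A * x / 2 * ((Real.sqrt (2 * D) * N ^ (-(4 * γ + 2) / 2)) * (Real.sqrt (72 * A ^ 4 + 192 * (D * A) ^ 2) * x ^ 2)) :=
          mul_le_mul_of_nonneg_left (mul_le_mul a1 a2 (Real.sqrt_nonneg _) (by positivity)) (by positivity)
      _ = A / 2 * (Real.sqrt (2 * D) * Real.sqrt (72 * A ^ 4 + 192 * (D * A) ^ 2)) * (x ^ 3 * N ^ (-(4 * γ + 2) / 2)) := by ring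
      _ ≤ _ := mul_le_mul_of_nonneg_left a3 (by positivity)
  linarith

theorem gm_eqns_cite : True := by
  have := @gmN.eq_1
  have := @gmOsc.eq_1
  have := @gmP.eq_1
  have := @gmInt.eq_1
  have := @gmI.eq_1
  trivial

end

end Claimed.Agent.R287
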