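-- KEEP
import Claimed.Agent.R287.Ent.Mix

/-!
# Row 287 (S0534), unit ENT, kit LOC: ordered stars, eigenvectors on stars, the noise at a few vertices      HEAD helper277.   Prefix `en_`.
SEC 1  averages over the ordered stars `EnLoc G d` of a `d`-regular graph (no fibre counting: permutation of the enumeration + `Σ_i f(x_i) = Σ_{w ~ v} f(w)`).
SEC 2  exact first and second moments of eigenvectors on stars.
SEC 3  LEAVES of the chain: `en_mean`, `en_cov`, `en_rev`, `en_mom`.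
SEC 4  spectral bounds of `Γ`; the observation of `F = ε V + L g` at the vertices `x k : P → Fin n` is a mixture `GmOk`, in the regime `GmReg`.
SEC 5  the histograms `Tb`, `Qb` and the law `pL` are quantised mixtures `gmP`.
-/

set_option autoImplicit false

namespace Claimed.Agent.R287

open MeasureTheory ProbabilityTheory Matrix

noncomputable section

/-! ### SEC 1: averages over ordered stars -/

section loc

variable {n d : ℕ} {G : SimpleGraph (Fin n)}

/-- the enumeration can be permuted (`s ↦ (s.centre, s.enum ∘ σ)` is a bijection of `EnLoc G d`) -/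
theorem en_loc_perm (σ : Equiv.Perm (Fin d)) (f : Fin n → (Fin d → Fin n) → ℝ) :
    enAvg (fun s : EnLoc G d => f s.1.1 (s.1.2 ∘ σ)) = enAvg (fun s : EnLoc G d => f s.1.1 s.1.2) := by
  unfold enAvg
  congr 1
  let e : EnLoc G d → EnLoc G d := fun s => ⟨(s.1.1, s.1.2 ∘ σ), s.2.1.comp σ.injective, fun i => s.2.2 (σ i)⟩
  let e' : EnLoc G d → EnLoc G d := fun s => ⟨(s.1.1, s.1.2 ∘ σ.symm), s.2.1.comp σ.symm.injective, fun i => s.2.2 (σ.symm i)⟩
  have hb : Function.Bijective e := by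
    refine Function.bijective_iff_has_inverse.2 ⟨e', fun s => ?_, fun s => ?_⟩
    · apply Subtype.ext
      refine Prod.ext rfl ?_
      funext i
      simp [e, e']
    · apply Subtype.ext
      refine Prod.ext rfl ?_
      funext i
      simp [e, e']
  exact Fintype.sum_bijective e hb (fun s : EnLoc G d => f s.1.1 (s.1.2 ∘ σ)) (fun s : EnLoc G d => f s.1.1 s.1.2) (fun s => rfl)

variable (hG : G ∈ Claims.C0462.regularGraphs n d)

include hG

open Classical in
/-- the degree, as the cardinality of a filter -/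
theorem en_loc_deg (v : Fin n) : (Finset.univ.filter fun w => G.Adj v w).card = d := by
  have h := (Finset.mem_filter.1 hG).2 v
  rw [← h, ← SimpleGraph.card_neighborFinset_eq_degree, SimpleGraph.neighborFinset_eq_filter]

open Classical in
/-- the number of ordered stars at a vertex -/
theorem en_loc_fib_card (v : Fin n) : (Finset.univ.filter fun s : EnLoc G d => s.1.1 = v).card = d.factorial := by
  have e : {s : EnLoc G d // s.1.1 = v} ≃ (Fin d ↪ {w // w ∈ Finset.univ.filter fun w => G.Adj v w}) :=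
    { toFun := fun s => ⟨fun i => ⟨s.1.1.2 i, by
          rw [Finset.mem_filter]
          exact ⟨Finset.mem_univ _, by have := s.1.2.2 i; rwa [s.2] at this⟩⟩, fun i k h => s.1.2.1 (congrArg Subtype.val h)⟩
      invFun := fun e => ⟨⟨(v, fun i => (e i).1), fun i k h => e.injective (Subtype.ext h), fun i => (Finset.mem_filter.1 (e i).2).2⟩, rfl⟩
      left_inv := fun s => by
        apply Subtype.ext
        apply Subtype.ext
        exact Prod.ext s.2.symm rfl
      right_inv := fun e => by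
        ext i
        rfl }
  rw [← Fintype.card_subtype, Fintype.card_congr e, Fintype.card_embedding_eq, Fintype.card_fin, Fintype.card_coe, en_loc_deg hG,
    Nat.descFactorial_self]

/-- sums of functions of the centre -/
theorem en_loc_fib (f : Fin n → ℝ) : ∑ s : EnLoc G d, f s.1.1 = (d.factorial : ℝ) * ∑ v, f v := by
  classical
  rw [← Finset.sum_fiberwise Finset.univ (fun s : EnLoc G d => s.1.1), Finset.mul_sum]
  refine Finset.sum_congr rfl fun v _ => ?_
  rw [Finset.sum_congr rfl (g := fun _ => f v) (fun s hs => by rw [(Finset.mem_filter.1 hs).2]), Finset.sum_const, en_loc_fib_card hG,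
    nsmul_eq_mul]

/-- `n d!` ordered stars (`Fintype.card_sigma`-like; injective maps `Fin d → N(v)`, `|N(v)| = d`: `Fintype.card_embedding_eq`) -/
theorem en_loc_card : Fintype.card (EnLoc G d) = n * d.factorial := by
  have h := en_loc_fib hG (fun _ => 1)
  simp only [Finset.sum_const, Finset.card_univ, Fintype.card_fin, nsmul_eq_mul, mul_one] at h
  have h2 : ((Fintype.card (EnLoc G d) : ℕ) : ℝ) = ((n * d.factorial : ℕ) : ℝ) := by
    rw [h]; push_cast; ring
  exact_mod_cast h2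

open Classical in
/-- the enumeration is ONTO the neighbours (injective, `|N(v)| = d`) -/
theorem en_loc_sum (s : EnLoc G d) (f : Fin n → ℝ) : ∑ i, f (s.vx (some i)) = ∑ w, if G.Adj (s.vx none) w then f w else 0 := by
  rw [← Finset.sum_filter]
  have himg : Finset.univ.image s.1.2 = Finset.univ.filter fun w => G.Adj (s.vx none) w := by
    refine Finset.eq_of_subset_of_card_le (fun w hw => ?_) ?_
    · obtain ⟨i, -, rfl⟩ := Finset.mem_image.1 hw
      exact Finset.mem_filter.2 ⟨Finset.mem_univ _, s.2.2 i⟩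
    · rw [en_loc_deg hG, Finset.card_image_of_injective _ s.2.1, Finset.card_univ, Fintype.card_fin]
  rw [← himg, Finset.sum_image fun i _ k _ h => s.2.1 h]
  rfl

open Classical in
/-- ordered pairs of distinct neighbours -/
theorem en_loc_sum2 (s : EnLoc G d) (f : Fin n → Fin n → ℝ) :
    ∑ i, ∑ k, (if i ≠ k then f (s.vx (some i)) (s.vx (some k)) else 0) = ∑ w, ∑ w', if G.Adj (s.vx none) w ∧ G.Adj (s.vx none) w' ∧ w ≠ w' then f w w' else 0 := by
  have h1 : ∀ i, ∑ k, (if i ≠ k then f (s.vx (some i)) (s.vx (some k)) else 0)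
      = ∑ w', if G.Adj (s.vx none) w' then (if s.vx (some i) ≠ w' then f (s.vx (some i)) w' else 0) else 0 := by
    intro i
    rw [← en_loc_sum hG s (fun w' => if s.vx (some i) ≠ w' then f (s.vx (some i)) w' else 0)]
    refine Finset.sum_congr rfl fun k _ => ?_
    have e : i ≠ k ↔ s.vx (some i) ≠ s.vx (some k) := not_congr ⟨fun h => by rw [h], fun h => s.2.1 h⟩
    simp only [e]
  rw [Finset.sum_congr rfl fun i _ => h1 i,
    en_loc_sum hG s (fun w => ∑ w', if G.Adj (s.vx none) w' then (if w ≠ w' then f w w' else 0) else 0)]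
  refine Finset.sum_congr rfl fun w _ => ?_
  by_cases hw : G.Adj (s.vx none) w
  · rw [if_pos hw]
    refine Finset.sum_congr rfl fun w' _ => ?_
    by_cases hw' : G.Adj (s.vx none) w' <;> by_cases hne : w = w' <;> simp [hw, hw', hne]
  · rw [if_neg hw]
    symm
    refine Finset.sum_eq_zero fun w' _ => ?_
    simp [hw]

/-- the centre is a uniform vertex (every vertex has `d!` ordered stars) -/
theorem en_avg_vx (f : Fin n → ℝ) : enAvg (fun s : EnLoc G d => f (s.vx none)) = (n : ℝ)⁻¹ * ∑ v, f v := by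
  unfold enAvg
  have h : ∑ s : EnLoc G d, f (s.vx none) = (d.factorial : ℝ) * ∑ v, f v := en_loc_fib hG f
  rw [h, en_loc_card hG]
  have hd : (d.factorial : ℝ) ≠ 0 := Nat.cast_ne_zero.2 (Nat.factorial_ne_zero d)
  push_cast
  rw [mul_inv, mul_assoc, ← mul_assoc ((d.factorial : ℝ)⁻¹), inv_mul_cancel₀ hd, one_mul]

omit hG in
theorem en_avg_sum {K ι : Type} [Fintype K] (t : Finset ι) (F : ι → K → ℝ) : enAvg (fun s => ∑ i ∈ t, F i s) = ∑ i ∈ t, enAvg (F i) := by
  unfold enAvg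
  rw [Finset.sum_comm, Finset.mul_sum]

open Classical in
/-- the `i`-th oriented edge is a uniform oriented edge (`en_loc_perm` with `swap i k`: independent of `i`; sum over `i`: `en_loc_sum`; then `en_avg_vx`) -/
theorem en_avg_ed (i : Fin d) (f : Fin n → Fin n → ℝ) :
    enAvg (fun s : EnLoc G d => f (s.vx none) (s.vx (some i))) = ((n : ℝ) * d)⁻¹ * ∑ v, ∑ w, if G.Adj v w then f v w else 0 := by
  have hind : ∀ k : Fin d, enAvg (fun s : EnLoc G d => f (s.vx none) (s.vx (some k))) = enAvg (fun s : EnLoc G d => f (s.vx none) (s.vx (some i))) := by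
    intro k
    have := en_loc_perm (G := G) (Equiv.swap i k) (fun c e => f c (e i))
    simp only [Function.comp_apply, Equiv.swap_apply_left] at this
    exact this
  have hsum : ∑ k : Fin d, enAvg (fun s : EnLoc G d => f (s.vx none) (s.vx (some k))) = (n : ℝ)⁻¹ * ∑ v, ∑ w, if G.Adj v w then f v w else 0 := by
    rw [← en_avg_sum, ← en_avg_vx hG (fun v => ∑ w, if G.Adj v w then f v w else 0)]
    congr 1
    funext s
    exact en_loc_sum hG s (fun w => f (s.vx none) w)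
  rw [Finset.sum_congr rfl fun k _ => hind k, Finset.sum_const, Finset.card_univ, Fintype.card_fin, nsmul_eq_mul] at hsum
  have hd : (d : ℝ) ≠ 0 := Nat.cast_ne_zero.2 (by have := i.2; omega)
  rw [mul_inv, mul_assoc, mul_comm ((n : ℝ)⁻¹), mul_assoc, mul_comm _ ((n : ℝ)⁻¹), ← hsum, ← mul_assoc, inv_mul_cancel₀ hd, one_mul]

open Classical in
/-- two distinct neighbours (`en_loc_perm`, `en_loc_sum2`, `en_avg_vx`) -/
theorem en_avg_pr {i k : Fin d} (hik : i ≠ k) (f : Fin n → Fin n → Fin n → ℝ) :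
    enAvg (fun s : EnLoc G d => f (s.vx none) (s.vx (some i)) (s.vx (some k)))
      = ((n : ℝ) * d * ((d : ℝ) - 1))⁻¹ * ∑ v, ∑ w, ∑ w', if G.Adj v w ∧ G.Adj v w' ∧ w ≠ w' then f v w w' else 0 := by
  set a := enAvg (fun s : EnLoc G d => f (s.vx none) (s.vx (some i)) (s.vx (some k))) with ha
  have hind : ∀ i' k' : Fin d, i' ≠ k' → enAvg (fun s : EnLoc G d => f (s.vx none) (s.vx (some i')) (s.vx (some k'))) = a := by
    intro i' k' hne
    have := en_loc_perm (G := G) (Equiv.swap (Equiv.swap i i' k) k' * Equiv.swap i i') (fun c e => f c (e i) (e k))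
    have e1 : (Equiv.swap (Equiv.swap i i' k) k' * Equiv.swap i i') i = i' := by
      rw [Equiv.Perm.mul_apply, Equiv.swap_apply_left]
      refine Equiv.swap_apply_of_ne_of_ne ?_ hne
      intro h
      have : Equiv.swap i i' i = Equiv.swap i i' k := by rw [Equiv.swap_apply_left]; exact h
      exact hik ((Equiv.swap i i').injective this)
    have e2 : (Equiv.swap (Equiv.swap i i' k) k' * Equiv.swap i i') k = k' := by
      rw [Equiv.Perm.mul_apply, Equiv.swap_apply_left]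
    simp only [Function.comp_apply, e1, e2] at this
    exact this
  have hsum : ∑ i' : Fin d, ∑ k' : Fin d, (if i' ≠ k' then a else 0)
      = (n : ℝ)⁻¹ * ∑ v, ∑ w, ∑ w', if G.Adj v w ∧ G.Adj v w' ∧ w ≠ w' then f v w w' else 0 := by
    rw [← en_avg_vx hG (fun v => ∑ w, ∑ w', if G.Adj v w ∧ G.Adj v w' ∧ w ≠ w' then f v w w' else 0)]
    have h2 : (fun s : EnLoc G d => ∑ w, ∑ w', if G.Adj (s.vx none) w ∧ G.Adj (s.vx none) w' ∧ w ≠ w' then f (s.vx none) w w' else 0)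
        = fun s : EnLoc G d => ∑ i' : Fin d, ∑ k' : Fin d, (if i' ≠ k' then f (s.vx none) (s.vx (some i')) (s.vx (some k')) else 0) := by
      funext s
      exact (en_loc_sum2 hG s (fun w w' => f (s.vx none) w w')).symm
    rw [h2, en_avg_sum]
    refine Finset.sum_congr rfl fun i' _ => ?_
    rw [en_avg_sum]
    refine Finset.sum_congr rfl fun k' _ => ?_
    by_cases hne : i' = k'
    · simp [hne, enAvg]
    · simp only [ne_eq, hne, not_false_eq_true, if_true]
      exact (hind i' k' hne).symm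
  have hcount : ∑ i' : Fin d, ∑ k' : Fin d, (if i' ≠ k' then a else 0) = (d : ℝ) * ((d : ℝ) - 1) * a := by
    have h1 : ∀ i' : Fin d, ∑ k' : Fin d, (if i' ≠ k' then a else 0) = ((d : ℝ) - 1) * a := by
      intro i'
      have : ∑ k' : Fin d, (if i' ≠ k' then a else 0) = ∑ k' : Fin d, (a - if i' = k' then a else 0) := by
        refine Finset.sum_congr rfl fun k' _ => ?_
        by_cases h : i' = k' <;> simp [h]
      rw [this, Finset.sum_sub_distrib, Finset.sum_const, Finset.card_univ, Fintype.card_fin, Finset.sum_ite_eq, if_pos (Finset.mem_univ _),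
        nsmul_eq_mul]
      ring
    rw [Finset.sum_congr rfl fun i' _ => h1 i', Finset.sum_const, Finset.card_univ, Fintype.card_fin, nsmul_eq_mul]
    ring
  rw [hcount] at hsum
  have hd2 : 2 ≤ d := by
    have h1 := i.2
    have h2 := k.2
    have h3 : (i : ℕ) ≠ k := fun h => hik (Fin.ext h)
    omega
  have hd : (d : ℝ) ≠ 0 := Nat.cast_ne_zero.2 (by omega)
  have hd1 : (d : ℝ) - 1 ≠ 0 := by
    have : (2 : ℝ) ≤ d := by exact_mod_cast hd2
    intro h; linarith
  have e3 : ((n : ℝ) * d * ((d : ℝ) - 1))⁻¹ * ∑ v, ∑ w, ∑ w', (if G.Adj v w ∧ G.Adj v w' ∧ w ≠ w' then f v w w' else 0)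
      = ((d : ℝ) * ((d : ℝ) - 1))⁻¹ * ((n : ℝ)⁻¹ * ∑ v, ∑ w, ∑ w', if G.Adj v w ∧ G.Adj v w' ∧ w ≠ w' then f v w w' else 0) := by
    rw [mul_assoc (n : ℝ), mul_inv (n : ℝ)]
    ring
  rw [e3, ← hsum, ← mul_assoc, inv_mul_cancel₀ (mul_ne_zero hd hd1), one_mul]

/-- reversal (`en_avg_ed`, symmetry of `Adj`, `Finset.sum_comm`) -/
theorem en_avg_rev (i : Fin d) (f : Fin n → Fin n → ℝ) :
    enAvg (fun s : EnLoc G d => f (s.vx none) (s.vx (some i))) = enAvg (fun s : EnLoc G d => f (s.vx (some i)) (s.vx none)) := by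
  classical
  rw [en_avg_ed hG i f, en_avg_ed hG i (fun a b => f b a), Finset.sum_comm]
  congr 1
  refine Finset.sum_congr rfl fun v _ => Finset.sum_congr rfl fun w _ => ?_
  simp only [G.adj_comm w v]

/-- the `i`-th neighbour is a uniform vertex (`en_avg_rev`, `en_avg_vx`) -/
theorem en_avg_nb (i : Fin d) (f : Fin n → ℝ) : enAvg (fun s : EnLoc G d => f (s.vx (some i))) = (n : ℝ)⁻¹ * ∑ v, f v := by
  rw [← en_avg_vx hG f]
  exact en_avg_rev hG i (fun _ b => f b)

end loc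

/-! ### SEC 2: eigenvectors on stars -/

section eig

variable {n d ℓ : ℕ} {γ α c₂ : ℝ} {D : EnData n d ℓ} (hD : D.Ok γ α c₂)

include hD

open Classical in
theorem en_eig_sum (v : Fin n) (j : Fin ℓ) : (∑ w, if D.G.Adj v w then D.V w j else 0) = D.lam j * D.V v j := by
  have h := congrFun (hD.eig j) v
  simp only [Matrix.mulVec, dotProduct, enA, SimpleGraph.adjMatrix_apply, Pi.smul_apply, smul_eq_mul] at h
  rw [← h]
  refine Finset.sum_congr rfl fun w _ => ?_
  by_cases hw : D.G.Adj v w <;> simp [hw]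

omit hD in
open Classical in
theorem en_deg_sum {G : SimpleGraph (Fin n)} (hG : G ∈ Claims.C0462.regularGraphs n d) (w : Fin n) :
    ∑ v, (if G.Adj v w then (1 : ℝ) else 0) = d := by
  have hreg : G.IsRegularOfDegree d := by
    unfold Claims.C0462.regularGraphs at hG
    exact (Finset.mem_filter.1 hG).2
  rw [Finset.sum_boole]
  have h1 := hreg w
  rw [← SimpleGraph.card_neighborFinset_eq_degree, SimpleGraph.neighborFinset_eq_filter] at h1
  have e : (Finset.univ.filter fun v => G.Adj v w) = Finset.univ.filter (G.Adj w) := by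
    ext v; simp [G.adj_comm]
  rw [e]
  exact_mod_cast h1

/-- `A 1 = d 1`, `A` symmetric: `(d - λ_j) Σ_v V_vj = 0` -/
theorem en_V_sum {j : Fin ℓ} (hl : D.lam j ≠ d) : ∑ v, D.V v j = 0 := by
  classical
  have h1 : ∑ v, ∑ w, (if D.G.Adj v w then D.V w j else 0) = D.lam j * ∑ v, D.V v j := by
    rw [Finset.mul_sum]
    exact Finset.sum_congr rfl fun v _ => en_eig_sum hD v j
  have h2 : ∑ v, ∑ w, (if D.G.Adj v w then D.V w j else 0) = d * ∑ w, D.V w j := by
    rw [Finset.sum_comm, Finset.mul_sum]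
    refine Finset.sum_congr rfl fun w _ => ?_
    rw [← en_deg_sum hD.reg w, Finset.sum_mul]
    refine Finset.sum_congr rfl fun v _ => ?_
    by_cases hw : D.G.Adj v w <;> simp [hw]
  have h3 : ((d : ℝ) - D.lam j) * ∑ v, D.V v j = 0 := by
    rw [sub_mul, ← h1, ← h2, sub_self]
  rcases mul_eq_zero.1 h3 with h | h
  · exact absurd (sub_eq_zero.1 h).symm hl
  · exact h

theorem en_m2_zz (hn : 0 < n) (j j' : Fin ℓ) : enAvg (fun s : EnLoc D.G d => D.V (s.vx none) j * D.V (s.vx none) j') = if j = j' then 1 else 0 := by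
  have hn' : (n : ℝ) ≠ 0 := by positivity
  rw [en_avg_vx hD.reg (fun v => D.V v j * D.V v j'), hD.orth]
  split_ifs
  · field_simp
  · simp

theorem en_m2_xx (hn : 0 < n) (k : Fin d) (j j' : Fin ℓ) :
    enAvg (fun s : EnLoc D.G d => D.V (s.vx (some k)) j * D.V (s.vx (some k)) j') = if j = j' then 1 else 0 := by
  have hn' : (n : ℝ) ≠ 0 := by positivity
  rw [en_avg_nb hD.reg k (fun v => D.V v j * D.V v j'), hD.orth]
  split_ifs
  · field_simp
  · simp

theorem en_m2_zx (hn : 0 < n) (k : Fin d) (j j' : Fin ℓ) :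
    enAvg (fun s : EnLoc D.G d => D.V (s.vx none) j * D.V (s.vx (some k)) j') = if j = j' then D.lam j / d else 0 := by
  classical
  have hn' : (n : ℝ) ≠ 0 := by positivity
  have hd' : (d : ℝ) ≠ 0 := by
    have : 0 < d := lt_of_le_of_lt (Nat.zero_le _) k.2
    positivity
  rw [en_avg_ed hD.reg k (fun v w => D.V v j * D.V w j')]
  have e : ∑ v, ∑ w, (if D.G.Adj v w then D.V v j * D.V w j' else 0) = D.lam j' * ∑ v, D.V v j * D.V v j' := by
    rw [Finset.mul_sum]
    refine Finset.sum_congr rfl fun v _ => ?_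
    have := en_eig_sum hD v j'
    calc ∑ w, (if D.G.Adj v w then D.V v j * D.V w j' else 0) = D.V v j * ∑ w, (if D.G.Adj v w then D.V w j' else 0) := by
          rw [Finset.mul_sum]
          refine Finset.sum_congr rfl fun w _ => ?_
          by_cases hw : D.G.Adj v w <;> simp [hw]
      _ = _ := by rw [this]; ring
  rw [e, hD.orth]
  split_ifs with h
  · subst h; field_simp
  · simp

/-- `Σ_{w ≠ w' ~ v} V_w V'_w' = (A V)_v (A V')_v - Σ_{w ~ v} V_w V'_w` -/
theorem en_m2_xy (hn : 0 < n) {k k' : Fin d} (hk : k ≠ k') (j j' : Fin ℓ) :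
    enAvg (fun s : EnLoc D.G d => D.V (s.vx (some k)) j * D.V (s.vx (some k')) j') = if j = j' then (D.lam j ^ 2 - d) / (d * ((d : ℝ) - 1)) else 0 := by
  classical
  have hn' : (n : ℝ) ≠ 0 := by positivity
  have hd2 : 2 ≤ d := by
    have h1 := k.2; have h2 := k'.2
    have h3 : (k : ℕ) ≠ k' := fun h => hk (Fin.ext h)
    omega
  have hd2' : (2 : ℝ) ≤ d := by exact_mod_cast hd2
  have hd' : (d : ℝ) ≠ 0 := by linarith
  have hd1 : (d : ℝ) - 1 ≠ 0 := by linarith
  rw [en_avg_pr hD.reg hk (fun _ w w' => D.V w j * D.V w' j')]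
  have e1 : ∀ v, ∑ w, ∑ w', (if D.G.Adj v w ∧ D.G.Adj v w' ∧ w ≠ w' then D.V w j * D.V w' j' else 0)
      = D.lam j * D.lam j' * (D.V v j * D.V v j') - ∑ w, (if D.G.Adj v w then D.V w j * D.V w j' else 0) := by
    intro v
    have a1 : (∑ w, (if D.G.Adj v w then D.V w j else 0)) * (∑ w', (if D.G.Adj v w' then D.V w' j' else 0))
        = D.lam j * D.lam j' * (D.V v j * D.V v j') := by
      rw [en_eig_sum hD, en_eig_sum hD]; ring
    rw [← a1, Finset.sum_mul_sum, ← Finset.sum_sub_distrib]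
    refine Finset.sum_congr rfl fun w _ => ?_
    have a2 : (if D.G.Adj v w then D.V w j * D.V w j' else 0)
        = ∑ w', (if w' = w then (if D.G.Adj v w then D.V w j else 0) * (if D.G.Adj v w' then D.V w' j' else 0) else 0) := by
      rw [Finset.sum_ite_eq' Finset.univ w]
      by_cases hw : D.G.Adj v w <;> simp [hw]
    rw [a2, ← Finset.sum_sub_distrib]
    refine Finset.sum_congr rfl fun w' _ => ?_
    by_cases h3 : w' = w
    · subst h3
      by_cases h1 : D.G.Adj v w' <;> simp [h1]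
    · have h3' : w ≠ w' := fun h => h3 h.symm
      by_cases h1 : D.G.Adj v w <;> by_cases h2 : D.G.Adj v w' <;> simp [h1, h2, h3, h3']
  have e2 : ∑ v, ∑ w, (if D.G.Adj v w then D.V w j * D.V w j' else 0) = d * ∑ w, D.V w j * D.V w j' := by
    rw [Finset.sum_comm, Finset.mul_sum]
    refine Finset.sum_congr rfl fun w _ => ?_
    rw [← en_deg_sum hD.reg w, Finset.sum_mul]
    refine Finset.sum_congr rfl fun v _ => ?_
    by_cases hw : D.G.Adj v w <;> simp [hw]
  simp only [e1]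
  rw [Finset.sum_sub_distrib, e2, ← Finset.mul_sum, hD.orth]
  split_ifs with h
  · subst h; field_simp
  · simp

omit hD in
theorem en_sum_dev (hd : 0 < d) (x : Fin d → ℝ) : ∑ k, (x k - (d : ℝ)⁻¹ * ∑ k', x k') = 0 := by
  have hd' : (d : ℝ) ≠ 0 := by positivity
  rw [Finset.sum_sub_distrib, Finset.sum_const, Finset.card_univ, Fintype.card_fin, nsmul_eq_mul]
  field_simp
  ring

omit hD in
theorem en_p_lt {E : ℝ} (hd : 3 ≤ d) (hE : |E| < 2 * Real.sqrt ((d : ℝ) - 1)) : 0 < 1 - enP d E ^ 2 := by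
  have hd' : (3 : ℝ) ≤ d := by exact_mod_cast hd
  have h1 : E ^ 2 < 4 * ((d : ℝ) - 1) := by
    have := pow_lt_pow_left₀ hE (abs_nonneg E) two_ne_zero
    rw [sq_abs, mul_pow, Real.sq_sqrt (by linarith)] at this
    linarith
  unfold enP
  rw [div_pow, sub_pos, div_lt_one (by positivity)]
  nlinarith

omit hD in
theorem en_aa_pos {E : ℝ} (hd : 3 ≤ d) (hE : |E| < 2 * Real.sqrt ((d : ℝ) - 1)) : 0 < enAa d E := by
  have hd' : (3 : ℝ) ≤ d := by exact_mod_cast hd
  unfold enAa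
  exact mul_pos (div_pos (by linarith) (by linarith)) (en_p_lt hd hE)

omit hD in
theorem en_ip_om (hd : 0 < d) (z sa : ℝ) (x : Fin d → ℝ) :
    ∑ k, etOm d k * (z / Real.sqrt d + (x k - (d : ℝ)⁻¹ * ∑ k', x k') / sa) = z := by
  have hd' : (0 : ℝ) < d := by positivity
  have hs : Real.sqrt d * Real.sqrt d = d := Real.mul_self_sqrt hd'.le
  have hs0 : Real.sqrt d ≠ 0 := (Real.sqrt_pos.2 hd').ne'
  have e : ∀ k, etOm d k * (z / Real.sqrt d + (x k - (d : ℝ)⁻¹ * ∑ k', x k') / sa)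
      = z / d + (Real.sqrt d)⁻¹ / sa * (x k - (d : ℝ)⁻¹ * ∑ k', x k') := by
    intro k
    unfold etOm
    have : (Real.sqrt d)⁻¹ * (z / Real.sqrt d) = z / (Real.sqrt d * Real.sqrt d) := by field_simp
    rw [hs] at this
    rw [mul_add, this]; ring
  simp only [e]
  rw [Finset.sum_add_distrib, ← Finset.mul_sum, en_sum_dev hd, Finset.sum_const, Finset.card_univ, Fintype.card_fin, nsmul_eq_mul]
  field_simp
  ring

omit hD in
theorem en_ip_av (hd : 0 < d) (i : Fin d) (z sa : ℝ) (x : Fin d → ℝ) :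
    ∑ k, etAv d i k * (z / Real.sqrt d + (x k - (d : ℝ)⁻¹ * ∑ k', x k') / sa)
      = Real.sqrt ((d : ℝ) / ((d : ℝ) - 1)) * ((x i - (d : ℝ)⁻¹ * ∑ k', x k') / sa) := by
  have hd' : (d : ℝ) ≠ 0 := by positivity
  set m : ℝ := (d : ℝ)⁻¹ * ∑ k', x k' with hm
  have e : ∀ k, etAv d i k * (z / Real.sqrt d + (x k - m) / sa)
      = Real.sqrt ((d : ℝ) / ((d : ℝ) - 1)) * ((if k = i then (z / Real.sqrt d + (x k - m) / sa) else 0)
          - (1 / (d : ℝ)) * (z / Real.sqrt d) - 1 / (d : ℝ) / sa * (x k - m)) := by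
    intro k
    unfold etAv
    by_cases h : k = i <;> simp [h] <;> ring
  simp only [e]
  have S1 : ∑ k, (if k = i then (z / Real.sqrt d + (x k - m) / sa) else 0) = z / Real.sqrt d + (x i - m) / sa := by
    rw [Finset.sum_ite_eq' Finset.univ i]; simp
  have S2 : ∑ _k : Fin d, (1 / (d : ℝ)) * (z / Real.sqrt d) = z / Real.sqrt d := by
    rw [Finset.sum_const, Finset.card_univ, Fintype.card_fin, nsmul_eq_mul]
    field_simp
  have S3 : ∑ k, 1 / (d : ℝ) / sa * (x k - m) = 0 := by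
    rw [← Finset.mul_sum, hm, en_sum_dev hd, mul_zero]
  rw [← Finset.mul_sum, Finset.sum_sub_distrib, Finset.sum_sub_distrib, S1, S2, S3]
  congr 1
  ring

/-- `⟨ω, B_V⟩ = Z` -/
theorem en_obs_om (hd : 0 < d) (i : Fin d) (s : EnLoc D.G d) (c : Fin ℓ) : enObs d D.E i (D.BV s) false c = D.V (s.vx none) c := by
  unfold enObs EnData.BV
  simp only [Bool.false_eq_true, if_false]
  exact en_ip_om hd _ _ (fun k => D.V (s.vx (some k)) c)

/-- `⟨v_i, B_V⟩ = X_i - (λ - E) Z / d`   (`√(1-p²) √(d/(d-1)) = √a`, `Σ_k X_k = λ Z`) -/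
theorem en_obs_vi (hd : 3 ≤ d) (hE : |D.E| < 2 * Real.sqrt ((d : ℝ) - 1)) (i : Fin d) (s : EnLoc D.G d) (c : Fin ℓ) :
    enObs d D.E i (D.BV s) true c = D.V (s.vx (some i)) c - (D.lam c - D.E) / d * D.V (s.vx none) c := by
  classical
  have hd0 : 0 < d := by omega
  have hd' : (3 : ℝ) ≤ d := by exact_mod_cast hd
  have hp := en_p_lt hd hE
  have ha := en_aa_pos hd hE
  have hsum : ∑ k, D.V (s.vx (some k)) c = D.lam c * D.V (s.vx none) c := by
    rw [en_loc_sum hD.reg s (fun w => D.V w c), en_eig_sum hD]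
  have hsq : Real.sqrt (enAa d D.E) = Real.sqrt ((d : ℝ) / ((d : ℝ) - 1)) * Real.sqrt (1 - enP d D.E ^ 2) := by
    unfold enAa
    rw [Real.sqrt_mul (div_nonneg (by linarith) (by linarith))]
  have h1 : 0 < Real.sqrt ((d : ℝ) / ((d : ℝ) - 1)) := Real.sqrt_pos.2 (div_pos (by linarith) (by linarith))
  have h2 : 0 < Real.sqrt (1 - enP d D.E ^ 2) := Real.sqrt_pos.2 hp
  unfold enObs EnData.BV
  simp only [if_true]
  unfold enVi
  simp only [add_mul, mul_assoc, Finset.sum_add_distrib, ← Finset.mul_sum]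
  rw [en_ip_om hd0 _ _ (fun k => D.V (s.vx (some k)) c), en_ip_av hd0 i _ _ (fun k => D.V (s.vx (some k)) c), hsum, hsq]
  generalize Real.sqrt (1 - enP d D.E ^ 2) = t at h2 ⊢
  generalize Real.sqrt ((d : ℝ) / ((d : ℝ) - 1)) = u at h1 ⊢
  unfold enP
  have hd0' : (d : ℝ) ≠ 0 := by linarith
  field_simp
  ring

omit hD in
/-- `|B_V|² = Σ_c (Z_c² + Σ_k (X_kc - mean)²/a)` -/
theorem en_bv_sq (hd : 3 ≤ d) (hE : |D.E| < 2 * Real.sqrt ((d : ℝ) - 1)) (s : EnLoc D.G d) :
    gmSq (D.BV s) = ∑ c, (D.V (s.vx none) c ^ 2 + (∑ k, (D.V (s.vx (some k)) c - (d : ℝ)⁻¹ * ∑ k', D.V (s.vx (some k')) c) ^ 2) / enAa d D.E) := by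
  have hd0 : 0 < d := by omega
  have hd' : (0 : ℝ) < d := by positivity
  have ha := en_aa_pos hd hE
  have hs : Real.sqrt d ^ 2 = d := Real.sq_sqrt hd'.le
  have hsa : Real.sqrt (enAa d D.E) ^ 2 = enAa d D.E := Real.sq_sqrt ha.le
  unfold gmSq EnData.BV
  rw [Fintype.sum_prod_type, Finset.sum_comm]
  refine Finset.sum_congr rfl fun c _ => ?_
  have e : ∀ k : Fin d, (D.V (s.vx none) c / Real.sqrt d + (D.V (s.vx (some k)) c - (d : ℝ)⁻¹ * ∑ k', D.V (s.vx (some k')) c) / Real.sqrt (enAa d D.E)) ^ 2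
      = D.V (s.vx none) c ^ 2 / d + 2 * (D.V (s.vx none) c / Real.sqrt d) / Real.sqrt (enAa d D.E) * (D.V (s.vx (some k)) c - (d : ℝ)⁻¹ * ∑ k', D.V (s.vx (some k')) c)
        + (D.V (s.vx (some k)) c - (d : ℝ)⁻¹ * ∑ k', D.V (s.vx (some k')) c) ^ 2 / enAa d D.E := by
    intro k
    rw [add_sq, div_pow, div_pow, hs, hsa]
    ring
  simp only [e]
  rw [Finset.sum_add_distrib, Finset.sum_add_distrib, ← Finset.mul_sum, en_sum_dev hd0 (fun k => D.V (s.vx (some k)) c), Finset.sum_const,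
    Finset.card_univ, Fintype.card_fin, nsmul_eq_mul, ← Finset.sum_div]
  field_simp
  ring

omit hD in
/-- `|P_i B_V|² = Σ_c (Z_c² + (X_ic - mean)²/(1 - p²))` -/
theorem en_pi_sq (hd : 3 ≤ d) (hE : |D.E| < 2 * Real.sqrt ((d : ℝ) - 1)) (i : Fin d) (s : EnLoc D.G d) :
    gmSq (enPi i (D.BV s)) = ∑ c, (D.V (s.vx none) c ^ 2 + (D.V (s.vx (some i)) c - (d : ℝ)⁻¹ * ∑ k', D.V (s.vx (some k')) c) ^ 2 / (1 - enP d D.E ^ 2)) := by
  have hd0 : 0 < d := by omega
  have hd1 : 1 < d := by omega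
  have hd' : (3 : ℝ) ≤ d := by exact_mod_cast hd
  have hp := en_p_lt hd hE
  have ha := en_aa_pos hd hE
  have hsq : Real.sqrt (enAa d D.E) = Real.sqrt ((d : ℝ) / ((d : ℝ) - 1)) * Real.sqrt (1 - enP d D.E ^ 2) := by
    unfold enAa
    rw [Real.sqrt_mul (div_nonneg (by linarith) (by linarith))]
  have h1 : 0 < Real.sqrt ((d : ℝ) / ((d : ℝ) - 1)) := Real.sqrt_pos.2 (div_pos (by linarith) (by linarith))
  have h2 : 0 < Real.sqrt (1 - enP d D.E ^ 2) := Real.sqrt_pos.2 hp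
  have h2sq : Real.sqrt (1 - enP d D.E ^ 2) ^ 2 = 1 - enP d D.E ^ 2 := Real.sq_sqrt hp.le
  unfold gmSq
  rw [Fintype.sum_prod_type, Finset.sum_comm]
  refine Finset.sum_congr rfl fun c _ => ?_
  set Z := D.V (s.vx none) c with hZ
  set W := (D.V (s.vx (some i)) c - (d : ℝ)⁻¹ * ∑ k', D.V (s.vx (some k')) c) / Real.sqrt (1 - enP d D.E ^ 2) with hW
  have e : ∀ q : Fin d, enPi i (D.BV s) (q, c) = etOm d q * Z + etAv d i q * W := by
    intro q
    unfold enPi
    simp only [etP_expand, etW, Matrix.add_apply, Matrix.vecMulVec_apply, add_mul, mul_assoc, Finset.sum_add_distrib, ← Finset.mul_sum]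
    have a1 : ∑ k, etOm d k * D.BV s (k, c) = Z :=
      en_ip_om hd0 (D.V (s.vx none) c) (Real.sqrt (enAa d D.E)) (fun k => D.V (s.vx (some k)) c)
    have a2 : ∑ k, etAv d i k * D.BV s (k, c) = W := by
      have := en_ip_av hd0 i (D.V (s.vx none) c) (Real.sqrt (enAa d D.E)) (fun k => D.V (s.vx (some k)) c)
      rw [hW]
      refine this.trans ?_
      rw [hsq]
      field_simp
    rw [a1, a2]
  simp only [e]
  have o1 : ∑ q, etOm d q * etOm d q = 1 := et_om_om hd0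
  have o2 : ∑ q, etOm d q * etAv d i q = 0 := et_om_av hd0 i
  have o3 : ∑ q, etAv d i q * etAv d i q = 1 := by
    have := et_av_av hd1 i i
    simpa [dotProduct] using this
  have e2 : ∀ q : Fin d, (etOm d q * Z + etAv d i q * W) ^ 2
      = Z ^ 2 * (etOm d q * etOm d q) + 2 * Z * W * (etOm d q * etAv d i q) + W ^ 2 * (etAv d i q * etAv d i q) := by
    intro q; ring
  simp only [e2]
  rw [Finset.sum_add_distrib, Finset.sum_add_distrib, ← Finset.mul_sum, ← Finset.mul_sum, ← Finset.mul_sum, o1, o2, o3, hW, div_pow, h2sq]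
  ring

end eig

/-! ### SEC 2b: linear combinations of `Z`, `X_k`; telescoping      (helper106) -/

section eig2

variable {n d ℓ : ℕ} {γ α c₂ : ℝ} {D : EnData n d ℓ} (hD : D.Ok γ α c₂)

include hD

/-- `Σ_k X_k = λ Z`, pointwise -/
theorem en_star_eig (s : EnLoc D.G d) (c : Fin ℓ) : ∑ k, D.V (s.vx (some k)) c = D.lam c * D.V (s.vx none) c := by
  classical
  rw [en_loc_sum hD.reg s (fun w => D.V w c), en_eig_sum hD]

/-- `B_V` is a linear combination of `Z` and `X_k` -/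
theorem en_BV_lin (s : EnLoc D.G d) (k : Fin d) (c : Fin ℓ) :
    D.BV s (k, c) = ((Real.sqrt d)⁻¹ - D.lam c / d * (Real.sqrt (enAa d D.E))⁻¹) * D.V (s.vx none) c + (Real.sqrt (enAa d D.E))⁻¹ * D.V (s.vx (some k)) c := by
  unfold EnData.BV
  simp only
  rw [en_star_eig hD]
  ring

/-- all second moments of linear combinations of `Z` and `X_k` -/
theorem en_m2_gen (hn : 0 < n) (k k' : Fin d) (c c' : Fin ℓ) (a b a' b' : ℝ) :
    enAvg (fun s : EnLoc D.G d => (a * D.V (s.vx none) c + b * D.V (s.vx (some k)) c) * (a' * D.V (s.vx none) c' + b' * D.V (s.vx (some k')) c'))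
      = if c = c' then a * a' + (a * b' + b * a') * (D.lam c / d) + b * b' * (if k = k' then 1 else (D.lam c ^ 2 - d) / (d * ((d : ℝ) - 1))) else 0 := by
  have e : (fun s : EnLoc D.G d => (a * D.V (s.vx none) c + b * D.V (s.vx (some k)) c) * (a' * D.V (s.vx none) c' + b' * D.V (s.vx (some k')) c'))
      = fun s : EnLoc D.G d => ((a * a') * (D.V (s.vx none) c * D.V (s.vx none) c') + (a * b') * (D.V (s.vx none) c * D.V (s.vx (some k')) c'))
        + ((b * a') * (D.V (s.vx none) c' * D.V (s.vx (some k)) c) + (b * b') * (D.V (s.vx (some k)) c * D.V (s.vx (some k')) c')) := by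
    funext s; ring
  rw [e, en_Avg_add, en_Avg_add, en_Avg_add, en_Avg_mul, en_Avg_mul, en_Avg_mul, en_Avg_mul, en_m2_zz hD hn, en_m2_zx hD hn, en_m2_zx hD hn]
  have hxx : enAvg (fun s : EnLoc D.G d => D.V (s.vx (some k)) c * D.V (s.vx (some k')) c')
      = if c = c' then (if k = k' then 1 else (D.lam c ^ 2 - d) / (d * ((d : ℝ) - 1))) else 0 := by
    by_cases hk : k = k'
    · subst hk
      rw [en_m2_xx hD hn]
      simp
    · rw [en_m2_xy hD hn hk]
      simp [hk]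
  rw [hxx]
  by_cases hc : c = c'
  · subst hc
    simp only [if_true]
    ring
  · have hc' : ¬ c' = c := fun h => hc h.symm
    simp [hc, hc']

end eig2

theorem en_Avg_abs_le {K : Type} [Fintype K] {f : K → ℝ} {b : ℝ} (hb : 0 ≤ b) (h : ∀ k, |f k| ≤ b) : |enAvg f| ≤ b := by
  unfold enAvg
  rw [abs_mul, abs_of_nonneg (by positivity : (0 : ℝ) ≤ (Fintype.card K : ℝ)⁻¹)]
  have h1 : |∑ k, f k| ≤ Fintype.card K * b := by
    refine (Finset.abs_sum_le_sum_abs _ _).trans ((Finset.sum_le_sum fun k _ => h k).trans ?_)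
    simp
  rcases Nat.eq_zero_or_pos (Fintype.card K) with h0 | h0
  · rw [h0]; simpa using hb
  · have hc : (0 : ℝ) < Fintype.card K := by exact_mod_cast h0
    calc (Fintype.card K : ℝ)⁻¹ * |∑ k, f k| ≤ (Fintype.card K : ℝ)⁻¹ * (Fintype.card K * b) := mul_le_mul_of_nonneg_left h1 (by positivity)
      _ = b := by field_simp

/-- telescoping -/
theorem en_prod_sub {m : ℕ} (x y : Fin m → ℝ) {S η : ℝ} (hx : ∀ a, |x a| ≤ S) (hy : ∀ a, |y a| ≤ S) (h : ∀ a, |x a - y a| ≤ η) (hS : 0 ≤ S) (hη : 0 ≤ η) :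
    |∏ a, x a - ∏ a, y a| ≤ m * S ^ (m - 1) * η := by
  induction m with
  | zero => simp
  | succ m ih =>
    have ih' := ih (fun a => x a.succ) (fun a => y a.succ) (fun a => hx _) (fun a => hy _) (fun a => h _)
    rw [Fin.prod_univ_succ, Fin.prod_univ_succ]
    have e : x 0 * ∏ a : Fin m, x a.succ - y 0 * ∏ a : Fin m, y a.succ
        = (x 0 - y 0) * ∏ a : Fin m, x a.succ + y 0 * (∏ a : Fin m, x a.succ - ∏ a : Fin m, y a.succ) := by ring
    have hp : |∏ a : Fin m, x a.succ| ≤ S ^ m := by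
      rw [Finset.abs_prod]
      calc ∏ a : Fin m, |x a.succ| ≤ ∏ _a : Fin m, S := Finset.prod_le_prod (fun _ _ => abs_nonneg _) fun a _ => hx _
        _ = S ^ m := by simp
    rw [e]
    refine (abs_add_le _ _).trans ?_
    rw [abs_mul, abs_mul]
    have t1 : |x 0 - y 0| * |∏ a : Fin m, x a.succ| ≤ η * S ^ m := mul_le_mul (h 0) hp (abs_nonneg _) hη
    have t2 : |y 0| * |∏ a : Fin m, x a.succ - ∏ a : Fin m, y a.succ| ≤ S * (m * S ^ (m - 1) * η) :=
      mul_le_mul (hy 0) ih' (abs_nonneg _) hS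
    have t3 : S * (m * S ^ (m - 1) * η) ≤ m * S ^ m * η := by
      rcases Nat.eq_zero_or_pos m with h0 | h0
      · subst h0; simp
      · have : S * S ^ (m - 1) = S ^ m := by rw [← pow_succ']; congr 1; omega
        refine le_of_eq ?_
        calc S * (m * S ^ (m - 1) * η) = m * (S * S ^ (m - 1)) * η := by ring
          _ = m * S ^ m * η := by rw [this]
    simp only [Nat.add_sub_cancel]
    push_cast
    nlinarith

/-! ### SEC 3: leaves of the chain -/

section leaves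

variable {d ℓ : ℕ} {E r γ α c₂ : ℝ} (hF : EnFix d E r) (hP : EnPar d ℓ γ α c₂)

include hF hP

omit hP in
/-- the bulk lies strictly inside `(-d, d)` -/
theorem en_bulk_lt : |E| < d := by
  have hd : (3 : ℝ) ≤ d := by exact_mod_cast hF.d3
  refine lt_of_lt_of_le hF.bulk ?_
  have : Real.sqrt ((d : ℝ) - 1) ≤ d / 2 := by
    rw [Real.sqrt_le_iff]
    exact ⟨by linarith, by nlinarith [sq_nonneg ((d : ℝ) - 2)]⟩
  linarith

/-- band + bulk: `|λ_j| ≤ |E| + n^{-1/2} < d` for large `n` (`2 √(d-1) ≤ d`) -/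
theorem en_lam_ne : ∃ n₀ : ℕ, ∀ n : ℕ, n₀ ≤ n → ∀ D : EnData n d ℓ, D.E = E → D.Ok γ α c₂ → ∀ j, D.lam j ≠ d ∧ |D.lam j| ≤ d := by
  have hg : 0 < (d : ℝ) - |E| := by have := en_bulk_lt hF; linarith
  have ht : Filter.Tendsto (fun n : ℕ => (n : ℝ) ^ (-(1 / 2 : ℝ))) Filter.atTop (nhds 0) :=
    (tendsto_rpow_neg_atTop (by norm_num : (0 : ℝ) < 1 / 2)).comp tendsto_natCast_atTop_atTop
  obtain ⟨n₀, hn₀⟩ := Filter.eventually_atTop.1 (ht.eventually (gt_mem_nhds hg))
  refine ⟨n₀, fun n hn D hE hD j => ?_⟩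
  have h1 := hn₀ n hn
  have h2 := hD.band j
  rw [hE] at h2
  have h3 : |D.lam j| < d := by
    have := abs_sub_abs_le_abs_sub (D.lam j) E
    linarith
  exact ⟨fun h => by rw [h, abs_of_nonneg (Nat.cast_nonneg d)] at h3; exact lt_irrefl _ h3, h3.le⟩

/-- LEAF (mean): `λ_j ≠ d` for large `n` (band + bulk), so `V_j ⊥ 1`; the centre and the `k`-th neighbour of a uniform ordered star are uniform vertices (`en_avg_vx`) -/
theorem en_mean : ∃ n₀ : ℕ, ∀ n : ℕ, n₀ ≤ n → ∀ D : EnData n d ℓ, D.E = E → D.r = r → D.Ok γ α c₂ → ∀ x, enAvg (fun s => D.BV s x) = 0 := by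
  obtain ⟨n₀, h0⟩ := en_lam_ne hF hP
  refine ⟨n₀, fun n hn D hE _ hD x => ?_⟩
  obtain ⟨k, c⟩ := x
  have hs := en_V_sum hD (h0 n hn D hE hD c).1
  simp only [en_BV_lin hD]
  rw [en_Avg_add, en_Avg_mul, en_Avg_mul, en_avg_vx hD.reg (fun v => D.V v c), en_avg_nb hD.reg k (fun v => D.V v c), hs]
  simp

/-- the relative error `e = (E² - λ²)/(d² - E²)` -/
theorem en_err_bd : ∃ n₀ : ℕ, ∀ n : ℕ, n₀ ≤ n → ∀ D : EnData n d ℓ, D.E = E → D.Ok γ α c₂ → ∀ j,
    |(E ^ 2 - D.lam j ^ 2) / ((d : ℝ) ^ 2 - E ^ 2)| ≤ 2 * d / ((d : ℝ) ^ 2 - E ^ 2) * (n : ℝ) ^ (-(1 / 2 : ℝ)) := by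
  obtain ⟨n₀, h0⟩ := en_lam_ne hF hP
  refine ⟨n₀, fun n hn D hE hD j => ?_⟩
  have hb := en_bulk_lt hF
  have hpos : 0 < (d : ℝ) ^ 2 - E ^ 2 := by
    have := sq_lt_sq' (by linarith [neg_abs_le E] : -(d : ℝ) < E) (lt_of_le_of_lt (le_abs_self E) hb)
    linarith
  have h1 := (h0 n hn D hE hD j).2
  have h2 := hD.band j
  rw [hE] at h2
  rw [abs_div, abs_of_pos hpos, div_mul_eq_mul_div]
  refine div_le_div_of_nonneg_right ?_ hpos.le
  have e : E ^ 2 - D.lam j ^ 2 = -((D.lam j - E) * (D.lam j + E)) := by ring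
  rw [e, abs_neg, abs_mul, mul_comm]
  refine mul_le_mul ?_ h2 (abs_nonneg _) (by positivity)
  have := abs_add_le (D.lam j) E
  linarith

/-- LEAF (cov): exact second moments on stars: `avg Z Z' = avg X_k X_k' = 1`, `avg Z X_k' = Λ/d`, `avg X_k X_k'' = (Λ² - d)/(d(d-1))`;   `avg B Bᵀ = 1 + ((E² - λ²)/(d(d-1)a)) (..)` -/
theorem en_cov : ∃ C : ℝ, ∃ n₀ : ℕ, ∀ n : ℕ, n₀ ≤ n → ∀ D : EnData n d ℓ, D.E = E → D.r = r → D.Ok γ α c₂ →
    ∀ x y, |enAvg (fun s => D.BV s x * D.BV s y) - (if x = y then 1 else 0)| ≤ C * (n : ℝ) ^ (-(1 / 2 : ℝ)) := by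
  obtain ⟨n₀, h0⟩ := en_err_bd hF hP
  refine ⟨2 * d / ((d : ℝ) ^ 2 - E ^ 2), max n₀ 1, fun n hn D hE _ hD x y => ?_⟩
  have hn0 : 0 < n := lt_of_lt_of_le one_pos ((le_max_right _ _).trans hn)
  obtain ⟨k, c⟩ := x
  obtain ⟨k', c'⟩ := y
  have hb := en_bulk_lt hF
  have hd3 : (3 : ℝ) ≤ d := by exact_mod_cast hF.d3
  have hpos : 0 < (d : ℝ) ^ 2 - E ^ 2 := by
    have := sq_lt_sq' (by linarith [neg_abs_le E] : -(d : ℝ) < E) (lt_of_le_of_lt (le_abs_self E) hb)
    linarith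
  have hrhs : 0 ≤ 2 * d / ((d : ℝ) ^ 2 - E ^ 2) * (n : ℝ) ^ (-(1 / 2 : ℝ)) := by positivity
  simp only [en_BV_lin hD]
  rw [en_m2_gen hD hn0]
  by_cases hc : c = c'
  swap
  · have : ¬ ((k, c) = (k', c')) := fun h => hc (congrArg Prod.snd h)
    simp only [hc, this, if_false, sub_zero, abs_zero]
    exact hrhs
  subst hc
  simp only [if_true]
  have ha : 0 < enAa d E := by
    unfold enAa enP
    have : 0 < 1 - (E / d) ^ 2 := by
      rw [div_pow, sub_pos, div_lt_one (by positivity)]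
      linarith
    have h1 : 0 < (d : ℝ) / ((d : ℝ) - 1) := div_pos (by linarith) (by linarith)
    positivity
  have hu : ((Real.sqrt d)⁻¹) ^ 2 = 1 / (d : ℝ) := by rw [inv_pow, Real.sq_sqrt (by linarith), one_div]
  have hw : ((Real.sqrt (enAa d E))⁻¹) ^ 2 = 1 / enAa d E := by rw [inv_pow, Real.sq_sqrt ha.le, one_div]
  rw [hE]
  set u := (Real.sqrt d)⁻¹ with hud
  set w := (Real.sqrt (enAa d E))⁻¹ with hwd
  set lam := D.lam c with hlam
  set ξ : ℝ := if k = k' then 1 else (lam ^ 2 - d) / (d * ((d : ℝ) - 1)) with hξ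
  have e1 : (u - lam / d * w) * (u - lam / d * w) + ((u - lam / d * w) * w + w * (u - lam / d * w)) * (lam / d) + w * w * ξ
      = 1 / (d : ℝ) + 1 / enAa d E * (ξ - lam ^ 2 / (d : ℝ) ^ 2) := by
    rw [← hu, ← hw]; ring
  rw [e1]
  have herr := h0 n ((le_max_left _ _).trans hn) D hE hD c
  rw [← hlam] at herr
  set e := (E ^ 2 - lam ^ 2) / ((d : ℝ) ^ 2 - E ^ 2) with he
  have hd0 : (d : ℝ) ≠ 0 := by linarith
  have hd1 : (d : ℝ) - 1 ≠ 0 := by intro h; linarith
  have hinv : 1 / enAa d E = d * ((d : ℝ) - 1) / ((d : ℝ) ^ 2 - E ^ 2) := by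
    unfold enAa enP
    field_simp
  rw [hinv]
  by_cases hk : k = k'
  · subst hk
    simp only [hξ, if_true]
    have e2 : 1 / (d : ℝ) + d * ((d : ℝ) - 1) / ((d : ℝ) ^ 2 - E ^ 2) * (1 - lam ^ 2 / (d : ℝ) ^ 2) - 1 = ((d : ℝ) - 1) / d * e := by
      rw [he]; field_simp; ring
    rw [e2, abs_mul]
    have h3 : |((d : ℝ) - 1) / d| ≤ 1 := by
      rw [abs_of_nonneg (div_nonneg (by linarith) (by linarith)), div_le_one (by linarith)]
      linarith
    calc |((d : ℝ) - 1) / d| * |e| ≤ 1 * |e| := mul_le_mul_of_nonneg_right h3 (abs_nonneg _)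
      _ = |e| := one_mul _
      _ ≤ _ := herr
  · have hne : ¬ ((k, c) = (k', c)) := fun h => hk (congrArg Prod.fst h)
    simp only [hξ, hk, hne, if_false, sub_zero]
    have e2 : 1 / (d : ℝ) + d * ((d : ℝ) - 1) / ((d : ℝ) ^ 2 - E ^ 2) * ((lam ^ 2 - d) / (d * ((d : ℝ) - 1)) - lam ^ 2 / (d : ℝ) ^ 2) = -(1 / (d : ℝ)) * e := by
      rw [he]; field_simp; ring
    rw [e2, abs_mul]
    have h3 : |-(1 / (d : ℝ))| ≤ 1 := by
      rw [abs_neg, abs_of_nonneg (by positivity), div_le_one (by linarith)]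
      linarith
    calc |-(1 / (d : ℝ))| * |e| ≤ 1 * |e| := mul_le_mul_of_nonneg_right h3 (abs_nonneg _)
      _ = |e| := one_mul _
      _ ≤ _ := herr

/-- LEAF (rev): `⟨ω, B_V⟩ = Z`, `⟨v_i, B_V⟩ = X_i - (λ - E) Z / d`; the `i`-th oriented edge of a uniform ordered star is a uniform oriented edge (`en_avg_ed`), whose law is invariant under reversal -/
theorem en_rev (q : ℕ) : ∃ C : ℝ, ∃ n₀ : ℕ, ∀ n : ℕ, n₀ ≤ n → ∀ D : EnData n d ℓ, D.E = E → D.r = r → D.Ok γ α c₂ →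
    ∀ S : ℝ, 1 ≤ S → (∀ v j, |D.V v j| ≤ S) → ∀ (i : Fin d) (m : ℕ), m ≤ q → ∀ (t : Fin m → Bool) (c : Fin m → Fin ℓ),
      |enAvg (fun s => ∏ a, enObs d E i (D.BV s) (t a) (c a)) - enAvg (fun s => ∏ a, enObs d E i (D.BV s) (!(t a)) (c a))|
        ≤ C * (n : ℝ) ^ (-(1 / 2 : ℝ)) * S ^ q := by
  refine ⟨2 * (q * 2 ^ q), 1, fun n hn D hE _ hD S hS hV i m hm t c => ?_⟩
  have hn1 : (1 : ℝ) ≤ n := by exact_mod_cast hn
  have hd3 : (3 : ℝ) ≤ d := by exact_mod_cast hF.d3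
  set δ := (n : ℝ) ^ (-(1 / 2 : ℝ)) with hδ
  have hδ0 : 0 ≤ δ := by positivity
  have hδ1 : δ ≤ 1 := Real.rpow_le_one_of_one_le_of_nonpos hn1 (by norm_num)
  have hbulk : |D.E| < 2 * Real.sqrt ((d : ℝ) - 1) := by rw [hE]; exact hF.bulk
  -- the unperturbed products
  have key : ∀ t : Fin m → Bool, |enAvg (fun s : EnLoc D.G d => ∏ a, enObs d E i (D.BV s) (t a) (c a))
      - enAvg (fun s : EnLoc D.G d => ∏ a, if t a then D.V (s.vx (some i)) (c a) else D.V (s.vx none) (c a))| ≤ q * 2 ^ q * δ * S ^ q := by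
    intro t
    rw [← en_Avg_sub]
    refine en_Avg_abs_le (by positivity) fun s => ?_
    have hθ : ∀ a, |(D.lam (c a) - D.E) / d| ≤ δ := by
      intro a
      rw [abs_div, abs_of_pos (by linarith : (0 : ℝ) < d), div_le_iff₀ (by linarith)]
      refine (hD.band (c a)).trans ?_
      nlinarith
    have hobs : ∀ a, enObs d E i (D.BV s) (t a) (c a)
        = if t a then D.V (s.vx (some i)) (c a) - (D.lam (c a) - D.E) / d * D.V (s.vx none) (c a) else D.V (s.vx none) (c a) := by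
      intro a
      rw [← hE]
      cases t a
      · simpa using en_obs_om hD (by have := hF.d3; omega) i s (c a)
      · simpa using en_obs_vi hD hF.d3 hbulk i s (c a)
    have h1 := en_prod_sub (S := 2 * S) (η := δ * S) (fun a => enObs d E i (D.BV s) (t a) (c a))
      (fun a => if t a then D.V (s.vx (some i)) (c a) else D.V (s.vx none) (c a))
      (fun a => by
        simp only [hobs]
        cases t a
        · simpa using (hV _ _).trans (by linarith)
        · simp only [if_true]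
          refine (abs_sub _ _).trans ?_
          rw [abs_mul]
          have := mul_le_mul (hθ a) (hV (s.vx none) (c a)) (abs_nonneg _) hδ0
          have := hV (s.vx (some i)) (c a)
          nlinarith)
      (fun a => by
        cases t a
        · simpa using (hV _ _).trans (by linarith)
        · simpa using (hV _ _).trans (by linarith))
      (fun a => by
        simp only [hobs]
        cases t a
        · simpa using mul_nonneg hδ0 (by linarith : (0 : ℝ) ≤ S)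
        · simp only [if_true, sub_sub_cancel_left, abs_neg, abs_mul]
          exact mul_le_mul (hθ a) (hV _ _) (abs_nonneg _) hδ0)
      (by linarith) (by positivity)
    refine h1.trans ?_
    rcases Nat.eq_zero_or_pos m with hm0 | hm0
    · rw [hm0]
      simp only [Nat.cast_zero, zero_mul]
      positivity
    have h2 : (2 * S) ^ (m - 1) * S ≤ 2 ^ q * S ^ q := by
      rw [mul_pow, mul_assoc]
      have a1 : (2 : ℝ) ^ (m - 1) ≤ 2 ^ q := pow_le_pow_right₀ (by norm_num) (by omega)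
      have a2 : S ^ (m - 1) * S ≤ S ^ q := by
        rw [← pow_succ]
        exact pow_le_pow_right₀ hS (by omega)
      exact mul_le_mul a1 a2 (by positivity) (by positivity)
    have h3 : (m : ℝ) ≤ q := by exact_mod_cast hm
    calc (m : ℝ) * (2 * S) ^ (m - 1) * (δ * S) = m * δ * ((2 * S) ^ (m - 1) * S) := by ring
      _ ≤ q * δ * (2 ^ q * S ^ q) := mul_le_mul (mul_le_mul_of_nonneg_right h3 hδ0) h2 (by positivity) (by positivity)
      _ = _ := by ring
  have hrev : enAvg (fun s : EnLoc D.G d => ∏ a, if t a then D.V (s.vx (some i)) (c a) else D.V (s.vx none) (c a))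
      = enAvg (fun s : EnLoc D.G d => ∏ a, if (!(t a)) then D.V (s.vx (some i)) (c a) else D.V (s.vx none) (c a)) := by
    have := en_avg_rev hD.reg i (fun v w => ∏ a, if t a then D.V w (c a) else D.V v (c a))
    rw [this]
    congr 1
    funext s
    refine Finset.prod_congr rfl fun a _ => ?_
    cases t a <;> simp
  have k1 := key t
  have k2 := key (fun a => !(t a))
  rw [hrev] at k1
  have k3 := abs_sub_le (enAvg (fun s : EnLoc D.G d => ∏ a, enObs d E i (D.BV s) (t a) (c a)))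
    (enAvg (fun s : EnLoc D.G d => ∏ a, if (!(t a)) then D.V (s.vx (some i)) (c a) else D.V (s.vx none) (c a)))
    (enAvg (fun s : EnLoc D.G d => ∏ a, enObs d E i (D.BV s) (!(t a)) (c a)))
  rw [abs_sub_comm (enAvg (fun s : EnLoc D.G d => ∏ a, if (!(t a)) then D.V (s.vx (some i)) (c a) else D.V (s.vx none) (c a)))] at k3
  refine k3.trans ?_
  calc _ ≤ q * 2 ^ q * δ * S ^ q + q * 2 ^ q * δ * S ^ q := add_le_add k1 k2
    _ = _ := by ring

/-- LEAF (mom): exact second moments of eigenvectors on stars -/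
theorem en_mom : EnLeaf d ℓ E r γ α c₂
    (fun _ D _ i => enAvg (fun s => gmSq (D.BV s)) - (d : ℝ) / 2 * enAvg (fun s => gmSq (enPi i (D.BV s))))
    (fun _ _ _ _ => 0) := by
  obtain ⟨n₀, h0⟩ := en_err_bd hF hP
  refine ⟨1 / 2, ℓ * (((d : ℝ) / 2 - 1) * (2 * d / ((d : ℝ) ^ 2 - E ^ 2))), max n₀ 1, by norm_num, fun n hn D hE _ hD ε _ i => ?_⟩
  have hn0 : 0 < n := lt_of_lt_of_le one_pos ((le_max_right _ _).trans hn)
  have hb := en_bulk_lt hF
  have hd3 : (3 : ℝ) ≤ d := by exact_mod_cast hF.d3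
  have hpos : 0 < (d : ℝ) ^ 2 - E ^ 2 := by
    have := sq_lt_sq' (by linarith [neg_abs_le E] : -(d : ℝ) < E) (lt_of_le_of_lt (le_abs_self E) hb)
    linarith
  have hbulk : |D.E| < 2 * Real.sqrt ((d : ℝ) - 1) := by rw [hE]; exact hF.bulk
  have hd0 : (d : ℝ) ≠ 0 := by linarith
  have hd1 : (d : ℝ) - 1 ≠ 0 := by intro h; linarith
  -- the centred second moment
  have hW : ∀ (k : Fin d) (c : Fin ℓ), enAvg (fun s : EnLoc D.G d => (D.V (s.vx (some k)) c - (d : ℝ)⁻¹ * ∑ k', D.V (s.vx (some k')) c) ^ 2)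
      = 1 - D.lam c ^ 2 / (d : ℝ) ^ 2 := by
    intro k c
    have e : (fun s : EnLoc D.G d => (D.V (s.vx (some k)) c - (d : ℝ)⁻¹ * ∑ k', D.V (s.vx (some k')) c) ^ 2)
        = fun s : EnLoc D.G d => ((-(D.lam c / d)) * D.V (s.vx none) c + 1 * D.V (s.vx (some k)) c) * ((-(D.lam c / d)) * D.V (s.vx none) c + 1 * D.V (s.vx (some k)) c) := by
      funext s
      rw [en_star_eig hD]
      ring
    rw [e, en_m2_gen hD hn0]
    simp only [if_true]
    ring
  have hZ : ∀ c : Fin ℓ, enAvg (fun s : EnLoc D.G d => D.V (s.vx none) c ^ 2) = 1 := by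
    intro c
    have := en_m2_zz hD hn0 c c
    simp only [if_true] at this
    rw [← this]
    congr 1
    funext s
    ring
  have h1 : enAvg (fun s : EnLoc D.G d => gmSq (D.BV s)) = ∑ c, (1 + d * (1 - D.lam c ^ 2 / (d : ℝ) ^ 2) / enAa d E) := by
    simp only [en_bv_sq hF.d3 hbulk]
    rw [en_avg_sum]
    refine Finset.sum_congr rfl fun c _ => ?_
    rw [en_Avg_add, hZ, hE]
    congr 1
    have e : (fun s : EnLoc D.G d => (∑ k, (D.V (s.vx (some k)) c - (d : ℝ)⁻¹ * ∑ k', D.V (s.vx (some k')) c) ^ 2) / enAa d E)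
        = fun s : EnLoc D.G d => (enAa d E)⁻¹ * ∑ k, (D.V (s.vx (some k)) c - (d : ℝ)⁻¹ * ∑ k', D.V (s.vx (some k')) c) ^ 2 := by
      funext s; rw [div_eq_inv_mul]
    rw [e, en_Avg_mul, en_avg_sum, Finset.sum_congr rfl fun k _ => hW k c, Finset.sum_const, Finset.card_univ, Fintype.card_fin, nsmul_eq_mul]
    ring
  have h2 : enAvg (fun s : EnLoc D.G d => gmSq (enPi i (D.BV s))) = ∑ c, (1 + (1 - D.lam c ^ 2 / (d : ℝ) ^ 2) / (1 - enP d E ^ 2)) := by
    simp only [en_pi_sq hF.d3 hbulk]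
    rw [en_avg_sum]
    refine Finset.sum_congr rfl fun c _ => ?_
    rw [en_Avg_add, hZ, hE]
    congr 1
    have e : (fun s : EnLoc D.G d => (D.V (s.vx (some i)) c - (d : ℝ)⁻¹ * ∑ k', D.V (s.vx (some k')) c) ^ 2 / (1 - enP d E ^ 2))
        = fun s : EnLoc D.G d => (1 - enP d E ^ 2)⁻¹ * (D.V (s.vx (some i)) c - (d : ℝ)⁻¹ * ∑ k', D.V (s.vx (some k')) c) ^ 2 := by
      funext s; rw [div_eq_inv_mul]
    rw [e, en_Avg_mul, hW]
    ring
  simp only
  rw [h1, h2, Finset.mul_sum, ← Finset.sum_sub_distrib, zero_add]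
  have hterm : ∀ c : Fin ℓ, (1 + d * (1 - D.lam c ^ 2 / (d : ℝ) ^ 2) / enAa d E) - (d : ℝ) / 2 * (1 + (1 - D.lam c ^ 2 / (d : ℝ) ^ 2) / (1 - enP d E ^ 2))
      ≤ ((d : ℝ) / 2 - 1) * (2 * d / ((d : ℝ) ^ 2 - E ^ 2)) * (n : ℝ) ^ (-(1 / 2 : ℝ)) := by
    intro c
    have e : (1 + d * (1 - D.lam c ^ 2 / (d : ℝ) ^ 2) / enAa d E) - (d : ℝ) / 2 * (1 + (1 - D.lam c ^ 2 / (d : ℝ) ^ 2) / (1 - enP d E ^ 2))
        = ((d : ℝ) / 2 - 1) * ((E ^ 2 - D.lam c ^ 2) / ((d : ℝ) ^ 2 - E ^ 2)) := by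
      have hp : 1 - enP d E ^ 2 = ((d : ℝ) ^ 2 - E ^ 2) / (d : ℝ) ^ 2 := by
        unfold enP; field_simp
      have ha : enAa d E = ((d : ℝ) ^ 2 - E ^ 2) / (d * ((d : ℝ) - 1)) := by
        unfold enAa; rw [hp]; field_simp
      rw [hp, ha]
      field_simp
      ring
    rw [e, mul_assoc]
    refine mul_le_mul_of_nonneg_left ((le_abs_self _).trans (h0 n ((le_max_left _ _).trans hn) D hE hD c)) (by linarith)
  refine (Finset.sum_le_sum fun c _ => hterm c).trans (le_of_eq ?_)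
  rw [Finset.sum_const, Finset.card_univ, Fintype.card_fin, nsmul_eq_mul]
  ring

end leaves

/-! ### SEC 4: spectral bounds, observations -/

section spec

variable {n d ℓ : ℕ}

variable {ι κ : Type} [Fintype ι] [Fintype κ]

theorem en_Q_add (M N : Matrix ι ι ℝ) (x : ι → ℝ) : gmQ (M + N) x = gmQ M x + gmQ N x := by
  unfold gmQ
  rw [Matrix.add_mulVec, dotProduct_add]

theorem en_Q_smul (c : ℝ) (M : Matrix ι ι ℝ) (x : ι → ℝ) : gmQ (c • M) x = c * gmQ M x := by
  unfold gmQ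
  rw [Matrix.smul_mulVec, dotProduct_smul, smul_eq_mul]

theorem en_Q_one [DecidableEq ι] (x : ι → ℝ) : gmQ (1 : Matrix ι ι ℝ) x = gmSq x := by
  unfold gmQ
  rw [Matrix.one_mulVec, gm_Sq_eq]

theorem en_Sq_smul (c : ℝ) (x : ι → ℝ) : gmSq (c • x) = c ^ 2 * gmSq x := by
  unfold gmSq
  rw [Finset.mul_sum]
  exact Finset.sum_congr rfl fun i _ => by simp only [Pi.smul_apply, smul_eq_mul]; ring

theorem en_N_smul (c : ℝ) (x : ι → ℝ) : gmN (c • x) = |c| * gmN x := by
  unfold gmN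
  rw [en_Sq_smul, Real.sqrt_mul (sq_nonneg _), Real.sqrt_sq_eq_abs]

/-- from `t² ≤ b t`, `t ≥ 0`, `b ≥ 0` -/
theorem en_le_of_sq_le {t b : ℝ} (ht : 0 ≤ t) (hb : 0 ≤ b) (h : t ^ 2 ≤ b * t) : t ≤ b := by
  rcases eq_or_lt_of_le ht with h0 | h0
  · rw [← h0]; exact hb
  · by_contra hlt
    rw [not_le] at hlt
    nlinarith

/-- `|T y|² ≤ c yᵀ T y` for `T = Nᵀ N ≤ c` -/
theorem en_gram_sq {T : Matrix ι ι ℝ} {N : Matrix κ ι ℝ} (hT : T = Nᵀ * N) {c : ℝ} (hhi : ∀ y, gmQ T y ≤ c * gmSq y) (y : ι → ℝ) :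
    gmSq (T *ᵥ y) ≤ c * gmQ T y := by
  set x := T *ᵥ y with hx
  have hQ : ∀ u, gmQ T u = gmSq (N *ᵥ u) := fun u => by rw [hT, gm_x_Q_sq]
  have hQ0 : 0 ≤ gmQ T y := by rw [hQ]; exact gm_Sq_nonneg _
  have hc : 0 ≤ c * gmQ T y := by
    rcases eq_or_lt_of_le hQ0 with h0 | h0
    · rw [← h0, mul_zero]
    · have h1 := hhi y
      have h2 : 0 < c * gmSq y := lt_of_lt_of_le h0 h1
      have h3 : 0 ≤ c := by
        by_contra hneg
        rw [not_le] at hneg
        have := mul_nonpos_of_nonpos_of_nonneg hneg.le (gm_Sq_nonneg y)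
        linarith
      positivity
  have e1 : gmSq x = (N *ᵥ x) ⬝ᵥ (N *ᵥ y) := by
    rw [gm_Sq_eq]
    conv_lhs => rhs; rw [hx, hT, ← mulVec_mulVec]
    rw [dotProduct_mulVec, vecMul_transpose]
  have e2 := gm_dot_le (N *ᵥ x) (N *ᵥ y)
  rw [← e1, abs_of_nonneg (gm_Sq_nonneg x)] at e2
  have e3 : gmSq x ^ 2 ≤ gmQ T x * gmQ T y := by
    rw [hQ x, hQ y, ← gm_N_sq (N *ᵥ x), ← gm_N_sq (N *ᵥ y), ← mul_pow]
    exact pow_le_pow_left₀ (gm_Sq_nonneg x) e2 2
  refine en_le_of_sq_le (gm_Sq_nonneg x) hc ?_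
  calc gmSq x ^ 2 ≤ gmQ T x * gmQ T y := e3
    _ ≤ c * gmSq x * gmQ T y := mul_le_mul_of_nonneg_right (hhi x) hQ0
    _ = c * gmQ T y * gmSq x := by ring

/-- **bounds of the inverse** of `T = Nᵀ N`, `a ≤ T ≤ c` -/
theorem en_inv_bd [DecidableEq ι] {T Λ : Matrix ι ι ℝ} {N : Matrix κ ι ℝ} (hT : T = Nᵀ * N) (hinv : T * Λ = 1) {a c : ℝ} (ha : 0 < a)
    (hlo : ∀ y, a * gmSq y ≤ gmQ T y) (hhi : ∀ y, gmQ T y ≤ c * gmSq y) (x : ι → ℝ) :
    gmSq x ≤ c * gmQ Λ x ∧ gmQ Λ x ≤ a⁻¹ * gmSq x := by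
  set y := Λ *ᵥ x with hy
  have hTy : T *ᵥ y = x := by rw [hy, mulVec_mulVec, hinv, one_mulVec]
  have hQ : gmQ Λ x = gmQ T y := by
    unfold gmQ
    rw [hTy, ← hy, dotProduct_comm]
  have hQ0 : 0 ≤ gmQ T y := (mul_nonneg ha.le (gm_Sq_nonneg y)).trans (hlo y)
  rw [hQ]
  constructor
  · have := en_gram_sq hT hhi y
    rwa [hTy] at this
  · have e1 : gmQ T y = y ⬝ᵥ x := by unfold gmQ; rw [hTy]
    have e2 := gm_dot_le y x
    rw [← e1, abs_of_nonneg hQ0] at e2
    have e3 : gmQ T y ^ 2 ≤ gmSq y * gmSq x := by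
      rw [← gm_N_sq y, ← gm_N_sq x, ← mul_pow]
      exact pow_le_pow_left₀ hQ0 e2 2
    refine en_le_of_sq_le hQ0 (mul_nonneg (inv_nonneg.2 ha.le) (gm_Sq_nonneg x)) ?_
    have e4 : gmSq y ≤ a⁻¹ * gmQ T y := by
      rw [inv_mul_eq_div, le_div_iff₀ ha, mul_comm]
      exact hlo y
    calc gmQ T y ^ 2 ≤ gmSq y * gmSq x := e3
      _ ≤ a⁻¹ * gmQ T y * gmSq x := mul_le_mul_of_nonneg_right e4 (gm_Sq_nonneg x)
      _ = a⁻¹ * gmSq x * gmQ T y := by ring

theorem en_Sq_single [DecidableEq ι] (v : ι) : gmSq (Pi.single v (1 : ℝ)) = 1 := by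
  unfold gmSq
  rw [Finset.sum_eq_single v]
  · simp
  · intro w _ hw
    simp [Pi.single_eq_of_ne hw]
  · intro h; exact absurd (Finset.mem_univ v) h

open Classical in
theorem en_A_apply (G : SimpleGraph (Fin n)) (x : Fin n → ℝ) (v : Fin n) : (enA G *ᵥ x) v = ∑ w, if G.Adj v w then x w else 0 := by
  unfold enA
  simp only [Matrix.mulVec, dotProduct, SimpleGraph.adjMatrix_apply, ite_mul, one_mul, zero_mul]

theorem en_A_symm (G : SimpleGraph (Fin n)) : (enA G)ᵀ = enA G := by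
  classical
  unfold enA
  exact SimpleGraph.transpose_adjMatrix _

theorem en_S_symm (G : SimpleGraph (Fin n)) (E : ℝ) : (enA G - E • (1 : Matrix (Fin n) (Fin n) ℝ))ᵀ = enA G - E • 1 := by
  rw [transpose_sub, en_A_symm, transpose_smul, transpose_one]

/-- `|A x| ≤ d |x|` (Cauchy-Schwarz on each row, `d` neighbours; double counting) -/
theorem en_A_le {G : SimpleGraph (Fin n)} (hG : G ∈ Claims.C0462.regularGraphs n d) (x : Fin n → ℝ) : gmSq (enA G *ᵥ x) ≤ (d : ℝ) ^ 2 * gmSq x := by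
  classical
  unfold gmSq
  have h1 : ∀ v, (enA G *ᵥ x) v ^ 2 ≤ (d : ℝ) * ∑ w, if G.Adj v w then x w ^ 2 else 0 := by
    intro v
    rw [en_A_apply, ← Finset.sum_filter, ← Finset.sum_filter]
    have := sq_sum_le_card_mul_sum_sq (s := Finset.univ.filter fun w => G.Adj v w) (f := x)
    rwa [en_loc_deg hG] at this
  refine (Finset.sum_le_sum fun v _ => h1 v).trans ?_
  rw [← Finset.mul_sum, Finset.sum_comm, sq, mul_assoc]
  refine mul_le_mul_of_nonneg_left (le_of_eq ?_) (Nat.cast_nonneg d)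
  rw [Finset.mul_sum]
  refine Finset.sum_congr rfl fun w _ => ?_
  rw [← Finset.sum_filter, Finset.sum_const, nsmul_eq_mul]
  have : (Finset.univ.filter fun v => G.Adj v w) = Finset.univ.filter fun v => G.Adj w v := by
    ext v; simp [G.adj_comm]
  rw [this, en_loc_deg hG]

theorem en_T_eq (G : SimpleGraph (Fin n)) (E η : ℝ) (x : Fin n → ℝ) :
    gmQ ((enA G - E • 1) * (enA G - E • 1) + η ^ 2 • 1) x = gmSq ((enA G - E • 1) *ᵥ x) + η ^ 2 * gmSq x := by
  rw [en_Q_add, en_Q_smul, en_Q_one]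
  congr 1
  conv_lhs => rw [← en_S_symm G E]
  rw [en_S_symm G E]
  have := gm_x_Q_sq (enA G - E • (1 : Matrix (Fin n) (Fin n) ℝ)) x
  rwa [en_S_symm] at this

/-- `η² ≤ (A - E)² + η² ≤ (d + |E|)² + η²` -/
theorem en_T_bd {G : SimpleGraph (Fin n)} (hG : G ∈ Claims.C0462.regularGraphs n d) (E η : ℝ) (x : Fin n → ℝ) :
    η ^ 2 * gmSq x ≤ gmQ ((enA G - E • 1) * (enA G - E • 1) + η ^ 2 • 1) x ∧
      gmQ ((enA G - E • 1) * (enA G - E • 1) + η ^ 2 • 1) x ≤ (((d : ℝ) + |E|) ^ 2 + η ^ 2) * gmSq x := by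
  rw [en_T_eq]
  refine ⟨by have := gm_Sq_nonneg ((enA G - E • 1) *ᵥ x); linarith, ?_⟩
  have h1 : gmN (enA G *ᵥ x) ≤ d * gmN x := by
    unfold gmN
    calc Real.sqrt (gmSq (enA G *ᵥ x)) ≤ Real.sqrt ((d : ℝ) ^ 2 * gmSq x) := Real.sqrt_le_sqrt (en_A_le hG x)
      _ = d * Real.sqrt (gmSq x) := by rw [Real.sqrt_mul (sq_nonneg _), Real.sqrt_sq (Nat.cast_nonneg d)]
  have e : (enA G - E • (1 : Matrix (Fin n) (Fin n) ℝ)) *ᵥ x = enA G *ᵥ x + (-E) • x := by
    rw [Matrix.sub_mulVec, Matrix.smul_mulVec, Matrix.one_mulVec, neg_smul, sub_eq_add_neg]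
  have h2 : gmN ((enA G - E • (1 : Matrix (Fin n) (Fin n) ℝ)) *ᵥ x) ≤ ((d : ℝ) + |E|) * gmN x := by
    rw [e]
    refine (gm_N_add _ _).trans ?_
    rw [en_N_smul, abs_neg]
    linarith
  have h3 : gmSq ((enA G - E • (1 : Matrix (Fin n) (Fin n) ℝ)) *ᵥ x) ≤ ((d : ℝ) + |E|) ^ 2 * gmSq x := by
    rw [← gm_N_sq, ← gm_N_sq x, ← mul_pow]
    exact pow_le_pow_left₀ (gm_N_nonneg _) h2 2
  linarith

variable {γ α c₂ : ℝ} {D : EnData n d ℓ} (hD : D.Ok γ α c₂) (hr : 0 < D.r) (hn : 0 < n)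

include hD hr hn

omit hr in
theorem en_eta_pos : 0 < D.η := by
  rw [hD.η_eq]
  have : (0 : ℝ) < n := by exact_mod_cast hn
  positivity

/-- `Γ = ((r/η) T)⁻¹` (`en_gam`): symmetric, `η/(r((d+|E|)²+η²)) ≤ Γ ≤ 1/(r η)`   (substitute `x = T' y`) -/
theorem en_gam_bd : (D.Γ)ᵀ = D.Γ ∧ ∀ x, D.η / (D.r * (((d : ℝ) + |D.E|) ^ 2 + D.η ^ 2)) * gmSq x ≤ gmQ D.Γ x ∧ gmQ D.Γ x ≤ (D.r * D.η)⁻¹ * gmSq x := by
  have hη := en_eta_pos hD hn
  refine ⟨by unfold EnData.Γ; rw [transpose_mul, transpose_transpose], fun x => ?_⟩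
  have hinv := mul_eq_one_comm.1 (en_gam D hD.ML hD.cov)
  have hq : 0 < D.r / D.η := by positivity
  have hb := en_inv_bd (a := D.r * D.η) (c := D.r / D.η * (((d : ℝ) + |D.E|) ^ 2 + D.η ^ 2)) hD.cov.symm hinv (by positivity)
    (fun y => by
      rw [en_Q_smul]
      have := mul_le_mul_of_nonneg_left (en_T_bd hD.reg D.E D.η y).1 hq.le
      refine le_trans (le_of_eq ?_) this
      field_simp)
    (fun y => by
      rw [en_Q_smul]
      have := mul_le_mul_of_nonneg_left (en_T_bd hD.reg D.E D.η y).2 hq.le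
      refine le_trans this (le_of_eq ?_)
      ring) x
  refine ⟨?_, hb.2⟩
  have hpos : 0 < D.r * (((d : ℝ) + |D.E|) ^ 2 + D.η ^ 2) := by positivity
  rw [div_mul_eq_mul_div, div_le_iff₀ hpos]
  have := mul_le_mul_of_nonneg_left hb.1 hη.le
  refine this.trans (le_of_eq ?_)
  field_simp

/-- `Tr Γ² ≤ n/(r η)²` -/
theorem en_gam_tr : ∑ v, ∑ w, D.Γ v w ^ 2 ≤ n * ((D.r * D.η)⁻¹) ^ 2 := by
  obtain ⟨hs, hb⟩ := en_gam_bd hD hr hn
  have hη := en_eta_pos hD hn
  have hc : 0 ≤ (D.r * D.η)⁻¹ := by positivity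
  have hT : D.Γ = ((D.L)ᵀ)ᵀ * (D.L)ᵀ := by rw [transpose_transpose]; rfl
  have h1 : ∀ v, ∑ w, D.Γ v w ^ 2 ≤ ((D.r * D.η)⁻¹) ^ 2 := by
    intro v
    have e : ∑ w, D.Γ v w ^ 2 = gmSq (D.Γ *ᵥ Pi.single v 1) := by
      unfold gmSq
      refine Finset.sum_congr rfl fun w _ => ?_
      rw [Matrix.mulVec_single_one]
      have : D.Γ v w = D.Γ w v := by
        conv_lhs => rw [← hs]
        rfl
      rw [this]
      rfl
    rw [e]
    have h2 := en_gram_sq hT (fun y => (hb y).2) (Pi.single v 1)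
    have h3 := (hb (Pi.single v 1)).2
    rw [en_Sq_single, mul_one] at h3
    calc _ ≤ (D.r * D.η)⁻¹ * gmQ D.Γ (Pi.single v 1) := h2
      _ ≤ (D.r * D.η)⁻¹ * (D.r * D.η)⁻¹ := mul_le_mul_of_nonneg_left h3 hc
      _ = _ := by ring
  refine (Finset.sum_le_sum fun v _ => h1 v).trans ?_
  simp

/-- `(A - E) Γ (A - E) ≤ η/r`: the residual `Σ_k Y(x_k) - E Y(o)` has variance `≤ η/r` -/
theorem en_gam_res (v : Fin n) : ((enA D.G - D.E • 1) * D.Γ * (enA D.G - D.E • 1)) v v ≤ D.η / D.r := by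
  have hη := en_eta_pos hD hn
  set S := enA D.G - D.E • (1 : Matrix (Fin n) (Fin n) ℝ) with hS
  have hSs : Sᵀ = S := en_S_symm D.G D.E
  set x : Fin n → ℝ := Pi.single v 1 with hx
  set T := (D.r / D.η) • (S * S + D.η ^ 2 • (1 : Matrix (Fin n) (Fin n) ℝ)) with hT
  have hinv : T * D.Γ = 1 := mul_eq_one_comm.1 (en_gam D hD.ML hD.cov)
  set y := D.Γ *ᵥ (S *ᵥ x) with hy
  have hTy : T *ᵥ y = S *ᵥ x := by rw [hy, mulVec_mulVec, hinv, one_mulVec]
  have e0 : (S * D.Γ * S) v v = x ⬝ᵥ ((S * D.Γ * S) *ᵥ x) := by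
    rw [hx, Matrix.mulVec_single_one, single_one_dotProduct]
    rfl
  have e1 : x ⬝ᵥ ((S * D.Γ * S) *ᵥ x) = (S *ᵥ x) ⬝ᵥ y := by
    rw [hy, Matrix.mul_assoc, ← mulVec_mulVec, ← mulVec_mulVec, dotProduct_mulVec]
    congr 1
    conv_lhs => rw [← hSs]
    rw [vecMul_transpose]
  have e2 : (S *ᵥ x) ⬝ᵥ y = gmQ T y := by
    unfold gmQ
    rw [hTy, dotProduct_comm]
  have e3 : (S *ᵥ x) ⬝ᵥ y = x ⬝ᵥ (S *ᵥ y) := by
    have hv : x ᵥ* S = S *ᵥ x := by rw [← vecMul_transpose, hSs]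
    rw [dotProduct_mulVec x S y, hv]
  have hq : 0 < D.r / D.η := by positivity
  have e4 : gmQ T y = D.r / D.η * (gmSq (S *ᵥ y) + D.η ^ 2 * gmSq y) := by
    rw [hT, en_Q_smul, hS, en_T_eq]
  have hQ0 : 0 ≤ gmQ T y := by
    rw [e4]
    have := gm_Sq_nonneg (S *ᵥ y)
    have := gm_Sq_nonneg y
    positivity
  have e5 : gmSq (S *ᵥ y) ≤ D.η / D.r * gmQ T y := by
    rw [e4]
    have h1 : D.η / D.r * (D.r / D.η * (gmSq (S *ᵥ y) + D.η ^ 2 * gmSq y)) = gmSq (S *ᵥ y) + D.η ^ 2 * gmSq y := by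
      field_simp
    rw [h1]
    have := gm_Sq_nonneg y
    nlinarith [sq_nonneg D.η]
  have e6 := gm_dot_le x (S *ᵥ y)
  rw [← e3, e2, abs_of_nonneg hQ0] at e6
  have e7 : gmN x = 1 := by unfold gmN; rw [hx, en_Sq_single, Real.sqrt_one]
  rw [e7, one_mul] at e6
  rw [e0, e1, e2]
  refine en_le_of_sq_le hQ0 (by positivity) ?_
  calc gmQ T y ^ 2 ≤ gmN (S *ᵥ y) ^ 2 := pow_le_pow_left₀ hQ0 e6 2
    _ = gmSq (S *ᵥ y) := gm_N_sq _
    _ ≤ _ := e5

omit hD hr hn in
/-- sums against the extension by zero of `y` along `x` -/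
theorem en_ext_sum {P : Type} [Fintype P] (x : P → Fin n) (y : P → ℝ) (g : Fin n → ℝ) :
    ∑ v, (∑ p, if x p = v then y p else 0) * g v = ∑ p, y p * g (x p) := by
  simp only [Finset.sum_mul]
  rw [Finset.sum_comm]
  refine Finset.sum_congr rfl fun p _ => ?_
  simp only [ite_mul, zero_mul]
  rw [Finset.sum_ite_eq, if_pos (Finset.mem_univ _)]

omit hD hr hn in
theorem en_sub_Q {P : Type} [Fintype P] (Γ : Matrix (Fin n) (Fin n) ℝ) (x : P → Fin n) (y : P → ℝ) :
    gmQ (Γ.submatrix x x) y = gmQ Γ (fun v => ∑ p, if x p = v then y p else 0) := by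
  unfold gmQ
  simp only [dotProduct, mulVec, submatrix_apply]
  rw [en_ext_sum x y (fun v => ∑ w, Γ v w * ∑ q, if x q = w then y q else 0)]
  refine Finset.sum_congr rfl fun p _ => ?_
  congr 1
  have := en_ext_sum x y (fun w => Γ (x p) w)
  rw [Finset.sum_congr rfl (fun w _ => mul_comm (Γ (x p) w) _), this]
  exact Finset.sum_congr rfl fun q _ => mul_comm _ _

omit hD hr hn in
theorem en_sub_Sq {P : Type} [Fintype P] [DecidableEq P] {x : P → Fin n} (hx : Function.Injective x) (y : P → ℝ) :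
    gmSq (fun v => ∑ p, if x p = v then y p else 0) = gmSq y := by
  unfold gmSq
  simp only [sq]
  rw [en_ext_sum x y (fun v => ∑ p, if x p = v then y p else 0)]
  refine Finset.sum_congr rfl fun p _ => ?_
  congr 1
  have : ∀ q, (if x q = x p then y q else 0) = if q = p then y q else 0 := fun q => by
    simp only [hx.eq_iff]
  rw [Finset.sum_congr rfl fun q _ => this q, Finset.sum_ite_eq', if_pos (Finset.mem_univ _)]

omit hD hr hn in
theorem en_kron_Q {P : Type} [Fintype P] (Λ : Matrix P P ℝ) (z : P × Fin ℓ → ℝ) :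
    gmQ (Matrix.kroneckerMap (· * ·) Λ (1 : Matrix (Fin ℓ) (Fin ℓ) ℝ)) z = ∑ c, gmQ Λ (fun p => z (p, c)) := by
  unfold gmQ
  simp only [dotProduct, mulVec, kroneckerMap_apply, Fintype.sum_prod_type]
  rw [Finset.sum_comm]
  refine Finset.sum_congr rfl fun c _ => Finset.sum_congr rfl fun p _ => ?_
  congr 1
  refine Finset.sum_congr rfl fun q _ => ?_
  simp only [Matrix.one_apply, mul_ite, mul_one, mul_zero, ite_mul, zero_mul]
  rw [Finset.sum_ite_eq, if_pos (Finset.mem_univ _)]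

omit hD hr hn in
theorem en_kron_Sq {P : Type} [Fintype P] (z : P × Fin ℓ → ℝ) : gmSq z = ∑ c, gmSq (fun p => z (p, c)) := by
  unfold gmSq
  rw [Fintype.sum_prod_type, Finset.sum_comm]

omit hD hr hn in
theorem en_sub_gram {P : Type} (L : Matrix (Fin n) (Fin n) ℝ) (x : P → Fin n) :
    (L * Lᵀ).submatrix x x = (L.submatrix x id) * (L.submatrix x id)ᵀ := by
  rw [transpose_submatrix]
  exact submatrix_mul L Lᵀ x id x Function.bijective_id

/-- covariance of the observation -/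
theorem en_obs_cov {P : Type} [Fintype P] [DecidableEq P] (x : P → Fin n) :
    D.obsB x * (D.obsB x)ᵀ = Matrix.kroneckerMap (· * ·) (D.Γ.submatrix x x) (1 : Matrix (Fin ℓ) (Fin ℓ) ℝ) := by
  unfold EnData.obsB EnData.Γ
  rw [← kroneckerMap_transpose, transpose_one, en_sub_gram]
  have := (mul_kronecker_mul (D.L.submatrix x id) ((D.L.submatrix x id)ᵀ) (1 : Matrix (Fin ℓ) (Fin ℓ) ℝ) (1 : Matrix (Fin ℓ) (Fin ℓ) ℝ)).symm
  rw [Matrix.one_mul] at this
  exact this

/-- bounds of a principal submatrix of `Γ` -/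
theorem en_sub_bd {P : Type} [Fintype P] [DecidableEq P] {x : P → Fin n} (hx : Function.Injective x) (y : P → ℝ) :
    D.η / (D.r * (((d : ℝ) + |D.E|) ^ 2 + D.η ^ 2)) * gmSq y ≤ gmQ (D.Γ.submatrix x x) y ∧ gmQ (D.Γ.submatrix x x) y ≤ (D.r * D.η)⁻¹ * gmSq y := by
  have := (en_gam_bd hD hr hn).2 (fun v => ∑ p, if x p = v then y p else 0)
  rwa [en_sub_Sq hx, ← en_sub_Q] at this

/-- a principal submatrix of `Γ` is invertible -/
theorem en_sub_inv {P : Type} [Fintype P] [DecidableEq P] {x : P → Fin n} (hx : Function.Injective x) :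
    D.Γ.submatrix x x * (D.Γ.submatrix x x)⁻¹ = 1 := by
  have hη := en_eta_pos hD hn
  refine mul_nonsing_inv _ ((isUnit_iff_isUnit_det _).1 (mulVec_injective_iff_isUnit.1 ?_))
  intro y y' hyy
  have h0 : D.Γ.submatrix x x *ᵥ (y - y') = 0 := by rw [mulVec_sub]; exact sub_eq_zero.2 hyy
  have h1 := (en_sub_bd hD hr hn hx (y - y')).1
  have h2 : gmQ (D.Γ.submatrix x x) (y - y') = 0 := by unfold gmQ; rw [h0, dotProduct_zero]
  rw [h2] at h1
  have hpos : 0 < D.η / (D.r * (((d : ℝ) + |D.E|) ^ 2 + D.η ^ 2)) := by positivity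
  have h3 : gmSq (y - y') = 0 := le_antisymm (by
    by_contra hlt
    rw [not_le] at hlt
    have := mul_pos hpos hlt
    linarith) (gm_Sq_nonneg _)
  funext p
  have h4 := gm_N_coord (y - y') p
  unfold gmN at h4
  rw [h3, Real.sqrt_zero] at h4
  have h5 : (y - y') p = 0 := abs_nonpos_iff.1 h4
  exact sub_eq_zero.1 h5

/-- **the observations form a mixture**: principal submatrices inherit the bounds of `Γ` (extend `y` by zero), so `Γ_x` is invertible; Kronecker with `1_ℓ` -/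
theorem en_obs_ok (hα : 0 ≤ α) {P K : Type} [Fintype P] [DecidableEq P] [Fintype K] (x : K → P → Fin n) (hx : ∀ k, Function.Injective (x k)) {ε : ℝ} (hε : ε ∈ Set.Icc (0 : ℝ) 1) :
    GmOk (fun k => D.obsB (x k)) (fun k => D.obsΛ (x k)) (fun k => D.obsM ε (x k))
      (D.r * (((d : ℝ) + |D.E|) ^ 2 + D.η ^ 2) / D.η) ((D.r * D.η)⁻¹) (Real.sqrt (Fintype.card P * ℓ) * (n : ℝ) ^ α) := by
  have hη := en_eta_pos hD hn
  have hpos : 0 < D.η / (D.r * (((d : ℝ) + |D.E|) ^ 2 + D.η ^ 2)) := by positivity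
  have hb : ∀ k (y : P → ℝ), gmSq y ≤ (D.r * D.η)⁻¹ * gmQ ((D.Γ.submatrix (x k) (x k))⁻¹) y ∧
      gmQ ((D.Γ.submatrix (x k) (x k))⁻¹) y ≤ D.r * (((d : ℝ) + |D.E|) ^ 2 + D.η ^ 2) / D.η * gmSq y := by
    intro k y
    have hT : D.Γ.submatrix (x k) (x k) = (((D.L.submatrix (x k) id)ᵀ)ᵀ) * (D.L.submatrix (x k) id)ᵀ := by
      rw [transpose_transpose]; exact en_sub_gram D.L (x k)
    have := en_inv_bd hT (en_sub_inv hD hr hn (hx k)) hpos (fun y => (en_sub_bd hD hr hn (hx k) y).1) (fun y => (en_sub_bd hD hr hn (hx k) y).2) y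
    rwa [inv_div] at this
  refine ⟨by positivity, by positivity, fun k => ?_, fun k z => ?_, fun k z => ?_, fun k => ?_⟩
  · rw [en_obs_cov hD hr hn]
    unfold EnData.obsΛ
    have := (mul_kronecker_mul (D.Γ.submatrix (x k) (x k)) ((D.Γ.submatrix (x k) (x k))⁻¹) (1 : Matrix (Fin ℓ) (Fin ℓ) ℝ) (1 : Matrix (Fin ℓ) (Fin ℓ) ℝ)).symm
    rw [Matrix.one_mul, en_sub_inv hD hr hn (hx k)] at this
    refine this.trans ?_
    exact one_kronecker_one
  · unfold EnData.obsΛ
    rw [en_kron_Q, en_kron_Sq, Finset.mul_sum]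
    exact Finset.sum_le_sum fun c _ => (hb k _).2
  · unfold EnData.obsΛ
    rw [en_kron_Q, en_kron_Sq, Finset.mul_sum]
    exact Finset.sum_le_sum fun c _ => (hb k _).1
  · have h1 : ∀ q, |D.obsM ε (x k) q| ≤ (n : ℝ) ^ α := by
      intro q
      unfold EnData.obsM
      rw [abs_mul, abs_of_nonneg hε.1]
      have hn1 : (1 : ℝ) ≤ n := by exact_mod_cast hn
      have hs : |D.V (x k q.1) q.2| ≤ (n : ℝ) ^ α :=
        (hD.sup _ _).trans (Real.rpow_le_rpow_of_exponent_le hn1 (by linarith))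
      calc ε * |D.V (x k q.1) q.2| ≤ 1 * (n : ℝ) ^ α := mul_le_mul hε.2 hs (abs_nonneg _) zero_le_one
        _ = _ := one_mul _
    have := gm_N_le_sup (D.obsM ε (x k)) h1
    rwa [Fintype.card_prod, Fintype.card_fin, Nat.cast_mul] at this

end spec

/-- monotonicity of `GmOk` in the bounds -/
theorem GmOk.mono {ι κ K : Type} [Fintype ι] [DecidableEq ι] [Fintype κ] [Fintype K] {B : K → Matrix ι κ ℝ} {Λ : K → Matrix ι ι ℝ} {m : K → ι → ℝ}
    {lam sig mu lam' sig' mu' : ℝ} (h : GmOk B Λ m lam sig mu) (h1 : lam ≤ lam') (h2 : sig ≤ sig') (h3 : mu ≤ mu') : GmOk B Λ m lam' sig' mu' := by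
  refine ⟨h.lam0.trans_le h1, h.sig0.trans_le h2, h.inv, fun k x => (h.prec k x).trans (mul_le_mul_of_nonneg_right h1 (gm_Sq_nonneg x)),
    fun k x => ?_, fun k => (h.mean k).trans h3⟩
  have hq : 0 ≤ gmQ (Λ k) x := by
    have := (gm_Sq_nonneg x).trans (h.cov k x)
    exact nonneg_of_mul_nonneg_right this h.sig0
  exact (h.cov k x).trans (mul_le_mul_of_nonneg_right h2 hq)

/-- **the observations are in the regime** (`en_obs_ok`, `GmOk.mono`; `A = max (1, r((d+|E|)²+1), 1/r, √(|P| ℓ))`, `η = n^-α ≤ 1`) -/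
theorem en_obs_reg {d ℓ : ℕ} {E r γ α c₂ : ℝ} (hF : EnFix d E r) (hP : EnPar d ℓ γ α c₂) (p : ℕ) : ∃ A : ℝ, 1 ≤ A ∧ ∀ n : ℕ, 1 ≤ n → ∀ D : EnData n d ℓ,
    D.E = E → D.r = r → D.Ok γ α c₂ → ∀ (P K : Type) [Fintype P] [DecidableEq P] [Fintype K], Fintype.card P = p → ∀ x : K → P → Fin n, (∀ k, Function.Injective (x k)) →
    ∀ ε ∈ Set.Icc (0 : ℝ) 1, GmReg n A α γ (fun k => D.obsB (x k)) (fun k => D.obsΛ (x k)) (fun k => D.obsM ε (x k)) D.b D.K := by
  refine ⟨max (max 1 (r * (((d : ℝ) + |E|) ^ 2 + 1))) (max (1 / r) (Real.sqrt (p * ℓ))), (le_max_left _ _).trans (le_max_left _ _),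
    fun n hn D hE hr hD P K _ _ _ hp x hx ε hε => ⟨?_, hD.b_eq, hD.K_eq⟩⟩
  set A := max (max 1 (r * (((d : ℝ) + |E|) ^ 2 + 1))) (max (1 / r) (Real.sqrt (p * ℓ))) with hA
  have hr0 : 0 < D.r := hr ▸ hF.r0
  have hn1 : (1 : ℝ) ≤ n := by exact_mod_cast hn
  have hn0 : (0 : ℝ) < n := by linarith
  have hna : 0 < (n : ℝ) ^ α := by positivity
  have hη : D.η = ((n : ℝ) ^ α)⁻¹ := by rw [hD.η_eq, Real.rpow_neg hn0.le]
  have hη1 : D.η ≤ 1 := by
    rw [hη]
    exact inv_le_one_of_one_le₀ (Real.one_le_rpow hn1 hP.α0.le)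
  have hη0 : 0 < D.η := by rw [hη]; positivity
  refine (en_obs_ok hD hr0 (by omega) hP.α0.le x hx hε).mono ?_ ?_ ?_
  · rw [hE, hr, hη, div_inv_eq_mul]
    refine mul_le_mul_of_nonneg_right (le_trans ?_ ((le_max_right _ _).trans (le_max_left _ _))) hna.le
    refine mul_le_mul_of_nonneg_left ?_ hF.r0.le
    have : ((n : ℝ) ^ α)⁻¹ ^ 2 ≤ 1 := by
      rw [← hη]
      exact pow_le_one₀ hη0.le hη1
    linarith
  · rw [hr, hη, mul_inv, inv_inv, ← one_div]
    exact mul_le_mul_of_nonneg_right ((le_max_left _ _).trans (le_max_right _ _)) hna.le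
  · rw [hp]
    exact mul_le_mul_of_nonneg_right ((le_max_right _ _).trans (le_max_right _ _)) hna.le

/-! ### SEC 5: histograms -/

section hist

variable {n d ℓ : ℕ} (D : EnData n d ℓ)

/-- the field at the vertices `x` is the observation -/
theorem en_F_obs {P : Type} (x : P → Fin n) (ε : ℝ) (g : Fin n × Fin ℓ → ℝ) (q : P × Fin ℓ) : D.F ε g (x q.1, q.2) = (D.obsM ε x + D.obsB x *ᵥ g) q := by
  rfl

theorem en_lab_meas (ε : ℝ) : Measurable (D.lab ε) := by
  haveI := D.K0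
  refine measurable_pi_lambda _ fun v => measurable_pi_lambda _ fun j => ?_
  exact (en_bin_meas D.b D.K).comp ((measurable_pi_apply (v, j)).comp ((gm_x_meas (D.obsB id)).const_add (D.obsM ε id)))

theorem en_pL_prob (ε : ℝ) : (∀ c, 0 ≤ D.pL ε c) ∧ ∑ c, D.pL ε c = 1 := by
  have : IsProbabilityMeasure (gmStd (Fin n × Fin ℓ)) := by unfold gmStd; infer_instance
  refine ⟨fun c => measureReal_nonneg, ?_⟩
  have h2 := sum_measureReal_preimage_singleton (μ := gmStd (Fin n × Fin ℓ)) (Finset.univ : Finset (Fin n → Fin ℓ → Fin D.K))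
    (f := D.lab ε) (fun y _ => en_lab_meas D ε (measurableSet_singleton y))
  have e : ∀ c, D.pL ε c = (gmStd (Fin n × Fin ℓ)).real (D.lab ε ⁻¹' {c}) := fun c => rfl
  simp only [e]
  rw [h2]
  simp

open Classical in
theorem en_hist_pt {P : Type} (x : P → Fin n) (ε : ℝ) (τ : P → Fin ℓ → Fin D.K) :
    ∑ c, D.pL ε c * (if (fun p => c (x p)) = τ then 1 else 0) = (gmStd (Fin n × Fin ℓ)).real {g | (fun p => D.lab ε g (x p)) = τ} := by
  have h2 := sum_measureReal_preimage_singleton (μ := gmStd (Fin n × Fin ℓ))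
    ((Finset.univ : Finset (Fin n → Fin ℓ → Fin D.K)).filter fun c => (fun p => c (x p)) = τ)
    (f := D.lab ε) (fun y _ => en_lab_meas D ε (measurableSet_singleton y))
  have e : {g | (fun p => D.lab ε g (x p)) = τ}
      = D.lab ε ⁻¹' (((Finset.univ : Finset (Fin n → Fin ℓ → Fin D.K)).filter fun c => (fun p => c (x p)) = τ) : Set (Fin n → Fin ℓ → Fin D.K)) := by
    ext g; simp
  rw [e, ← h2, Finset.sum_filter]
  refine Finset.sum_congr rfl fun c _ => ?_
  by_cases h : (fun p => c (x p)) = τ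
  · simp only [h, if_true, mul_one]; rfl
  · simp only [h, if_false, mul_zero]

/-- the labels at the vertices `x` are the quantised observation -/
theorem en_lab_obs {P : Type} (x : P → Fin n) (ε : ℝ) (τ : P → Fin ℓ → Fin D.K) : haveI := D.K0
    {g | (fun p => D.lab ε g (x p)) = τ} = {g | (fun q : P × Fin ℓ => enBin D.b D.K ((D.obsM ε x + D.obsB x *ᵥ g) q)) = Function.uncurry τ} := by
  haveI := D.K0
  ext g
  simp only [Set.mem_setOf_eq]
  constructor
  · intro h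
    funext q
    have := congrFun (congrFun h q.1) q.2
    exact this
  · intro h
    funext p j
    exact congrFun h (p, j)

theorem en_Hd_curry {P A B : Type} [Fintype P] [Fintype A] [Fintype B] [DecidableEq P] [DecidableEq A] (f : (P × A → B) → ℝ) :
    enHd (fun τ : P → A → B => f (Function.uncurry τ)) = enHd f := by
  unfold enHd
  exact Equiv.sum_comp (Equiv.curry P A B).symm fun τ => Real.negMulLog (f τ)

/-- `Tb τ = avg_s P(lab on the star s = τ)` (Fubini for finite sums), `en_F_obs`, and the bijection `curry` of the index sets -/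
theorem en_Tb_eq (ε : ℝ) : haveI := D.K0
    enHd (D.Tb ε) = enHd (gmP (fun s : EnLoc D.G d => D.obsB s.vx) (fun s => D.obsM ε s.vx) D.b D.K) := by
  classical
  haveI := D.K0
  rw [← en_Hd_curry]
  congr 1
  funext τ
  unfold EnData.Tb enT gmP enAvg
  simp only [Finset.mul_sum]
  rw [Finset.sum_comm]
  refine Finset.sum_congr rfl fun s _ => ?_
  rw [← en_lab_obs D s.vx ε τ, ← en_hist_pt D s.vx ε τ, Finset.mul_sum]
  refine Finset.sum_congr rfl fun c _ => ?_
  ring_nf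

theorem en_Qb_eq (ε : ℝ) (i : Fin d) : haveI := D.K0
    enHd (D.Qb ε i) = enHd (gmP (fun s : EnLoc D.G d => D.obsB (s.ed i)) (fun s => D.obsM ε (s.ed i)) D.b D.K) := by
  classical
  haveI := D.K0
  rw [← en_Hd_curry]
  congr 1
  funext τ
  unfold EnData.Qb enQ gmP enAvg
  simp only [Finset.mul_sum]
  rw [Finset.sum_comm]
  refine Finset.sum_congr rfl fun s _ => ?_
  rw [← en_lab_obs D (s.ed i) ε τ, ← en_hist_pt D (s.ed i) ε τ, Finset.mul_sum]
  refine Finset.sum_congr rfl fun c _ => ?_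
  ring_nf

theorem en_pL_eq (ε : ℝ) : haveI := D.K0
    enHd (D.pL ε) = enHd (gmP (fun _ : Unit => D.obsB id) (fun _ => D.obsM ε id) D.b D.K) := by
  classical
  haveI := D.K0
  rw [← en_Hd_curry]
  congr 1
  funext τ
  unfold gmP enAvg EnData.pL
  simp only [Finset.univ_unique, Finset.sum_singleton, Fintype.card_unit, Nat.cast_one, inv_one, one_mul]
  rw [← en_lab_obs D id ε τ]
  rfl

/-- the vertices of an ordered star are distinct -/
theorem en_vx_inj (s : EnLoc D.G d) : Function.Injective s.vx ∧ ∀ i, Function.Injective (s.ed i) := by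
  obtain ⟨⟨v, e⟩, hinj, hadj⟩ := s
  constructor
  · intro x y hxy
    cases x with
    | none =>
      cases y with
      | none => rfl
      | some k => exact absurd hxy (D.G.ne_of_adj (hadj k))
    | some i =>
      cases y with
      | none => exact absurd hxy.symm (D.G.ne_of_adj (hadj i))
      | some k => exact congrArg some (hinj hxy)
  · intro i x y hxy
    cases x <;> cases y
    · rfl
    · exact absurd hxy (D.G.ne_of_adj (hadj i))
    · exact absurd hxy.symm (D.G.ne_of_adj (hadj i))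
    · rfl

end hist

end

end Claimed.Agent.R287
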