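-- KEEP
import Claimed.Agent.R287.Ent.Loc

/-!
# Row 287 (S0534), unit ENT, sub-unit CELL: the three binning leaves `en_i`, `en_iv`, `en_v` of the chain      HEAD helper277.   Prefix `en_`.
`en_iv`, `en_v`: GLUE PROVED from `gm_bin_up'`, `gm_bin_dn'` (kit MIX, fixed dimension), `en_obs_reg`, `en_Tb_eq`, `en_Qb_eq` (kit LOC).
`en_i`: the same lower bound `gm_bin_dn` for the SINGLE Gaussian `F = ε V + L g` in dimension `N = n ℓ`; all errors are `O(n^{1-c})`.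
-/

set_option autoImplicit false

namespace Claimed.Agent.R287

open MeasureTheory ProbabilityTheory Matrix

noncomputable section

theorem en_loc_nonempty {n d : ℕ} {G : SimpleGraph (Fin n)} (hG : G ∈ Claims.C0462.regularGraphs n d) (hn : 1 ≤ n) : Nonempty (EnLoc G d) := by
  rw [← Fintype.card_pos_iff, en_loc_card hG]
  exact Nat.mul_pos hn (Nat.factorial_pos d)

section leaves

variable {d ℓ : ℕ} {E r γ α c₂ : ℝ} (hF : EnFix d E r) (hP : EnPar d ℓ γ α c₂)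

include hF hP

/-- LEAF (iv): `P_cell ≥ b^D inf_cell f`, max-ratio bound of `log f` -/
theorem en_iv : EnLeaf d ℓ E r γ α c₂
    (fun _ D ε _ => enHd (D.Tb ε))
    (fun _ D ε _ => D.HS ε - ((d : ℝ) + 1) * ℓ * Real.log D.b) := by
  obtain ⟨A, hA, HA⟩ := en_obs_reg hF hP (d + 1)
  obtain ⟨c, C, n₀, hc, H⟩ := gm_bin_up' ((d + 1) * ℓ) hA hP.α0 hP.αγ
  refine ⟨c, C, max n₀ 1, hc, fun n hn D hE hr hD ε hε i => ?_⟩
  have := D.K0
  have hn1 : 1 ≤ n := (le_max_right _ _).trans hn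
  have : Nonempty (EnLoc D.G d) := en_loc_nonempty hD.reg hn1
  have hreg := HA n hn1 D hE hr hD (Option (Fin d)) (EnLoc D.G d) (by simp) (fun s => s.vx) (fun s => (en_vx_inj D s).1) ε hε
  have h := H n ((le_max_left _ _).trans hn) (Option (Fin d) × Fin ℓ) (Fin n × Fin ℓ) (EnLoc D.G d) (by simp) _ _ _ D.b D.K hreg
  simp only
  rw [en_Tb_eq]
  unfold EnData.HS
  push_cast at h
  linarith

/-- LEAF (v): `P_cell ≤ b^D sup_cell f` -/
theorem en_v : EnLeaf d ℓ E r γ α c₂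
    (fun _ D ε i => D.HE ε i - 2 * ℓ * Real.log D.b)
    (fun _ D ε i => enHd (D.Qb ε i)) := by
  obtain ⟨A, hA, HA⟩ := en_obs_reg hF hP 2
  obtain ⟨c, C, n₀, hc, H⟩ := gm_bin_dn' (2 * ℓ) hA hP.α0 hP.αγ
  refine ⟨c, C, max n₀ 1, hc, fun n hn D hE hr hD ε hε i => ?_⟩
  have := D.K0
  have hn1 : 1 ≤ n := (le_max_right _ _).trans hn
  have : Nonempty (EnLoc D.G d) := en_loc_nonempty hD.reg hn1
  have hreg := HA n hn1 D hE hr hD Bool (EnLoc D.G d) (by simp) (fun s => s.ed i) (fun s => (en_vx_inj D s).2 i) ε hε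
  have h := H n ((le_max_left _ _).trans hn) (Bool × Fin ℓ) (Fin n × Fin ℓ) (EnLoc D.G d) (by simp) _ _ _ D.b D.K hreg
  simp only
  rw [en_Qb_eq]
  unfold EnData.HE
  push_cast at h
  linarith

/-! ### the leaf (i) -/

omit hF hP in
/-- `L M = 1`, `det M det L = 1`, `Γ⁻¹ = Mᵀ M` -/
theorem en_i_inv {n : ℕ} {D : EnData n d ℓ} (hD : D.Ok γ α c₂) :
    D.L * D.M = 1 ∧ D.M.det * D.L.det = 1 ∧ (D.Γ)⁻¹ = (D.M)ᵀ * D.M := by
  have hLM : D.L * D.M = 1 := mul_eq_one_comm.1 hD.ML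
  refine ⟨hLM, by rw [← Matrix.det_mul, hD.ML, Matrix.det_one], ?_⟩
  apply Matrix.inv_eq_right_inv
  unfold EnData.Γ
  calc D.L * (D.L)ᵀ * ((D.M)ᵀ * D.M) = D.L * ((D.M * D.L)ᵀ) * D.M := by
        rw [Matrix.transpose_mul]; simp only [Matrix.mul_assoc]
    _ = 1 := by rw [hD.ML, Matrix.transpose_one, Matrix.mul_one, hLM]

omit hF hP in
/-- the precision matrix of the whole field is `M̃ᵀ M̃`, `M̃ = M ⊗ 1` -/
theorem en_i_prec {n : ℕ} {D : EnData n d ℓ} (hD : D.Ok γ α c₂) :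
    D.obsΛ id = (Matrix.kroneckerMap (· * ·) D.M (1 : Matrix (Fin ℓ) (Fin ℓ) ℝ))ᵀ * Matrix.kroneckerMap (· * ·) D.M (1 : Matrix (Fin ℓ) (Fin ℓ) ℝ) := by
  unfold EnData.obsΛ
  rw [Matrix.submatrix_id_id, (en_i_inv hD).2.2, ← Matrix.kroneckerMap_transpose, Matrix.transpose_one]
  have := Matrix.mul_kronecker_mul (D.M)ᵀ D.M (1 : Matrix (Fin ℓ) (Fin ℓ) ℝ) (1 : Matrix (Fin ℓ) (Fin ℓ) ℝ)
  rw [Matrix.mul_one] at this
  exact this

omit hF hP in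
theorem en_i_ML {n : ℕ} {D : EnData n d ℓ} (hD : D.Ok γ α c₂) (g : Fin n × Fin ℓ → ℝ) :
    Matrix.kroneckerMap (· * ·) D.M (1 : Matrix (Fin ℓ) (Fin ℓ) ℝ) *ᵥ (D.obsB id *ᵥ g) = g := by
  unfold EnData.obsB
  rw [Matrix.submatrix_id_id, Matrix.mulVec_mulVec]
  have := Matrix.mul_kronecker_mul D.M D.L (1 : Matrix (Fin ℓ) (Fin ℓ) ℝ) (1 : Matrix (Fin ℓ) (Fin ℓ) ℝ)
  rw [Matrix.mul_one, hD.ML, Matrix.one_kronecker_one] at this
  have e : Matrix.kroneckerMap (· * ·) D.M (1 : Matrix (Fin ℓ) (Fin ℓ) ℝ) * Matrix.kroneckerMap (· * ·) D.L (1 : Matrix (Fin ℓ) (Fin ℓ) ℝ) = 1 := this.symm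
  rw [e, Matrix.one_mulVec]

omit hF hP in
theorem en_i_det {n : ℕ} {D : EnData n d ℓ} (hD : D.Ok γ α c₂) : (D.obsΛ id).det = (D.M.det ^ 2) ^ ℓ := by
  unfold EnData.obsΛ
  rw [Matrix.submatrix_id_id, (en_i_inv hD).2.2]
  have := Matrix.det_kronecker ((D.M)ᵀ * D.M) (1 : Matrix (Fin ℓ) (Fin ℓ) ℝ)
  rw [Matrix.det_one, one_pow, mul_one, Fintype.card_fin, Matrix.det_mul, Matrix.det_transpose] at this
  rw [sq]
  exact this

omit hF hP in
/-- the density of `F` along `F`:  `Λ = Γ⁻¹ ⊗ 1`, `det Λ = (det L)^{-2ℓ}` (`Matrix.det_kronecker`), `Q_Λ(L̃ g) = |g|²` (`L̃` square invertible) -/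
theorem en_i_dens {n : ℕ} {D : EnData n d ℓ} (hD : D.Ok γ α c₂) (ε : ℝ) (g : Fin n × Fin ℓ → ℝ) :
    - Real.log (gmMix (fun _ : Unit => D.obsΛ id) (fun _ => D.obsM ε id) (D.F ε g))
      = ℓ * Real.log |D.L.det| + (n * ℓ : ℝ) / 2 * Real.log (2 * Real.pi) + gmSq g / 2 := by
  have e1 : gmMix (fun _ : Unit => D.obsΛ id) (fun _ => D.obsM ε id) (D.F ε g) = gmDens (D.obsΛ id) (D.obsM ε id) (D.F ε g) := by
    simp [gmMix, enAvg]
  have e2 : D.F ε g - D.obsM ε id = D.obsB id *ᵥ g := by unfold EnData.F; simp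
  have e3 : gmQ (D.obsΛ id) (D.obsB id *ᵥ g) = gmSq g := by
    rw [en_i_prec hD, gm_x_Q_sq, en_i_ML hD]
  obtain ⟨_, hdet, _⟩ := en_i_inv hD
  have hM0 : D.M.det ≠ 0 := left_ne_zero_of_mul_eq_one hdet
  have hL0 : D.L.det ≠ 0 := right_ne_zero_of_mul_eq_one hdet
  have hMe : D.M.det = (D.L.det)⁻¹ := eq_inv_of_mul_eq_one_left hdet
  have e4 : Real.sqrt ((D.M.det ^ 2) ^ ℓ) = |D.M.det| ^ ℓ := by
    rw [← pow_mul, mul_comm, pow_mul, Real.sqrt_sq_eq_abs, abs_pow]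
  rw [e1]
  unfold gmDens
  rw [e2, e3, en_i_det hD, e4]
  have hpi : (0 : ℝ) < 2 * Real.pi := by positivity
  rw [Real.log_mul (by positivity) (Real.exp_pos _).ne', Real.log_mul (by positivity) (by positivity), Real.log_exp, Real.log_pow,
    Real.log_rpow hpi, hMe, abs_inv, Real.log_inv]
  simp only [Fintype.card_prod, Fintype.card_fin]
  push_cast
  ring

omit hF hP in
/-- two sided bound of the determinant of a symmetric matrix from the bounds of its quadratic form -/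
theorem en_i_det_bd {ι : Type} [Fintype ι] [DecidableEq ι] {S : Matrix ι ι ℝ} (hs : Sᵀ = S) {a b : ℝ} (ha : 0 ≤ a)
    (h1 : ∀ x, a * gmSq x ≤ gmQ S x) (h2 : ∀ x, gmQ S x ≤ b * gmSq x) : a ^ Fintype.card ι ≤ S.det ∧ S.det ≤ b ^ Fintype.card ι := by
  have hH : S.IsHermitian := by rw [Matrix.IsHermitian, Matrix.conjTranspose_eq_transpose_of_trivial]; exact hs
  have hdet : S.det = ∏ i, hH.eigenvalues i := by
    have := hH.det_eq_prod_eigenvalues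
    simpa using this
  have hev : ∀ i, a ≤ hH.eigenvalues i ∧ hH.eigenvalues i ≤ b := by
    intro i
    have e1 : hH.eigenvalues i = gmQ S (hH.eigenvectorBasis i).ofLp := qf_eig_eq hH i
    have e2 : gmSq (hH.eigenvectorBasis i).ofLp = 1 := by
      rw [gm_Sq_eq, qf_basis_dot]; simp
    have q1 := h1 (hH.eigenvectorBasis i).ofLp
    have q2 := h2 (hH.eigenvectorBasis i).ofLp
    rw [e2, mul_one] at q1 q2
    rw [e1]
    exact ⟨q1, q2⟩
  rw [hdet]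
  constructor
  · calc a ^ Fintype.card ι = ∏ _i : ι, a := by simp
      _ ≤ _ := Finset.prod_le_prod (fun _ _ => ha) fun i _ => (hev i).1
  · calc ∏ i, hH.eigenvalues i ≤ ∏ _i : ι, b := Finset.prod_le_prod (fun i _ => ha.trans (hev i).1) fun i _ => (hev i).2
      _ = _ := by simp

omit hF hP in
theorem en_i_A_symm {n : ℕ} (G : SimpleGraph (Fin n)) : (enA G)ᵀ = enA G := by
  classical
  unfold enA
  exact SimpleGraph.transpose_adjMatrix _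

omit hF hP in
theorem en_i_T_symm {n : ℕ} (G : SimpleGraph (Fin n)) (E η : ℝ) :
    ((enA G - E • 1) * (enA G - E • 1) + η ^ 2 • (1 : Matrix (Fin n) (Fin n) ℝ))ᵀ = (enA G - E • 1) * (enA G - E • 1) + η ^ 2 • 1 := by
  rw [Matrix.transpose_add, Matrix.transpose_mul, Matrix.transpose_sub, Matrix.transpose_smul, Matrix.transpose_smul, Matrix.transpose_one, en_i_A_symm]

/-- `(det L)² = det Γ ∈ [(c₁ η)^n, (r η)^-n]` (`en_gam_bd`, eigenvalues; or `en_det`-like computation with `en_T_bd`) -/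
theorem en_i_logdet : ∃ C : ℝ, ∀ n : ℕ, 2 ≤ n → ∀ D : EnData n d ℓ, D.E = E → D.r = r → D.Ok γ α c₂ → abs (Real.log |D.L.det|) ≤ C * n * Real.log n := by
  have hα := hP.α0
  have hr := hF.r0
  obtain ⟨B1, hB1⟩ : ∃ B1 : ℝ, B1 = ((d : ℝ) + |E|) ^ 2 + 1 := ⟨_, rfl⟩
  have hB1' : 1 ≤ B1 := by rw [hB1]; nlinarith [sq_nonneg ((d : ℝ) + |E|)]
  have hlB : 0 ≤ Real.log B1 := Real.log_nonneg hB1'
  have hl2 : 0 < Real.log 2 := Real.log_pos (by norm_num)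
  refine ⟨(|Real.log r| + Real.log B1) / (2 * Real.log 2) + 2 * α, fun n hn D hE hr' hD => ?_⟩
  have hn0 : (0 : ℝ) < n := by have : 0 < n := by omega
                               exact_mod_cast this
  have hn1 : (1 : ℝ) ≤ n := by have : 1 ≤ n := by omega
                               exact_mod_cast this
  have hn2 : (2 : ℝ) ≤ n := by exact_mod_cast hn
  have hLn : Real.log 2 ≤ Real.log n := Real.log_le_log (by norm_num) hn2
  have hη0 : 0 < D.η := by rw [hD.η_eq]; positivity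
  have hη1 : D.η ≤ 1 := by
    rw [hD.η_eq]
    exact Real.rpow_le_one_of_one_le_of_nonpos hn1 (by linarith)
  have hlη : Real.log D.η = -α * Real.log n := by rw [hD.η_eq, Real.log_rpow hn0]
  obtain ⟨_, hdet, _⟩ := en_i_inv hD
  have hM0 : D.M.det ≠ 0 := left_ne_zero_of_mul_eq_one hdet
  have hMe : D.L.det = (D.M.det)⁻¹ := eq_inv_of_mul_eq_one_right hdet
  obtain ⟨T, hT⟩ : ∃ T : Matrix (Fin n) (Fin n) ℝ, T = (enA D.G - D.E • 1) * (enA D.G - D.E • 1) + D.η ^ 2 • 1 := ⟨_, rfl⟩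
  have hTb := en_i_det_bd (S := T) (by rw [hT]; exact en_i_T_symm _ _ _) (a := D.η ^ 2) (b := ((d : ℝ) + |D.E|) ^ 2 + D.η ^ 2) (by positivity)
    (fun x => by rw [hT]; exact (en_T_bd hD.reg D.E D.η x).1) (fun x => by rw [hT]; exact (en_T_bd hD.reg D.E D.η x).2)
  rw [Fintype.card_fin] at hTb
  have hT0 : 0 < T.det := lt_of_lt_of_le (by positivity) hTb.1
  have hcov : D.M.det ^ 2 = (D.r / D.η) ^ n * T.det := by
    have := congrArg Matrix.det hD.cov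
    rw [Matrix.det_mul, Matrix.det_transpose, Matrix.det_smul, Fintype.card_fin, ← hT] at this
    rw [sq]; exact this
  have hlog : 2 * Real.log |D.M.det| = n * (Real.log r + α * Real.log n) + Real.log T.det := by
    have h1 := congrArg Real.log hcov
    rw [← sq_abs, Real.log_pow, Real.log_mul (by rw [hr']; positivity) hT0.ne', Real.log_pow, Real.log_div (by rw [hr']; exact hr.ne') hη0.ne', hlη, hr'] at h1
    push_cast at h1
    linarith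
  have hlo : -(2 * α * n * Real.log n) ≤ Real.log T.det := by
    have := Real.log_le_log (by positivity) hTb.1
    rw [← pow_mul, Real.log_pow, hlη] at this
    push_cast at this
    linarith
  have hhi : Real.log T.det ≤ n * Real.log B1 := by
    have h1 := Real.log_le_log hT0 hTb.2
    rw [Real.log_pow] at h1
    have h2 : Real.log (((d : ℝ) + |D.E|) ^ 2 + D.η ^ 2) ≤ Real.log B1 := by
      refine Real.log_le_log (by positivity) ?_
      rw [hB1, hE]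
      have : D.η ^ 2 ≤ 1 := pow_le_one₀ hη0.le hη1
      linarith
    exact h1.trans (mul_le_mul_of_nonneg_left h2 hn0.le)
  rw [hMe, abs_inv, Real.log_inv, abs_neg]
  have hLn0 : 0 < Real.log n := lt_of_lt_of_le hl2 hLn
  have hnL : 0 ≤ (n : ℝ) * Real.log n := by positivity
  have hX : (n : ℝ) * (|Real.log r| + Real.log B1) / 2 ≤ (|Real.log r| + Real.log B1) / (2 * Real.log 2) * n * Real.log n := by
    have hX0 : 0 ≤ |Real.log r| + Real.log B1 := by positivity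
    rw [div_mul_eq_mul_div, div_mul_eq_mul_div, div_le_div_iff₀ (by norm_num) (by positivity)]
    have : (n : ℝ) * (|Real.log r| + Real.log B1) * Real.log 2 ≤ (n : ℝ) * (|Real.log r| + Real.log B1) * Real.log n :=
      mul_le_mul_of_nonneg_left hLn (by positivity)
    nlinarith
  have a1 := le_abs_self (Real.log r)
  have a2 := neg_abs_le (Real.log r)
  have b1 : (n : ℝ) * Real.log r ≤ n * |Real.log r| := mul_le_mul_of_nonneg_left a1 hn0.le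
  have b2 : -((n : ℝ) * |Real.log r|) ≤ n * Real.log r := by
    have := mul_le_mul_of_nonneg_left a2 hn0.le
    linarith
  have hαn : 0 ≤ α * (n * Real.log n) := by positivity
  have hnB : 0 ≤ (n : ℝ) * Real.log B1 := by positivity
  rw [add_mul, add_mul]
  rw [abs_le]
  constructor <;> nlinarith

omit hF hP in
/-- the expectation under the one-component mixture is the expectation along the field -/
theorem en_i_E {n : ℕ} (D : EnData n d ℓ) (ε : ℝ) (φ : (Fin n × Fin ℓ → ℝ) → ℝ) :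
    gmE (fun _ : Unit => D.obsB id) (fun _ => D.obsM ε id) φ = ∫ g, φ (D.F ε g) ∂(gmStd (Fin n × Fin ℓ)) := by
  simp [gmE, enAvg, EnData.F]

omit hF hP in
/-- the whole field is a one-component mixture -/
theorem en_i_ok {n : ℕ} {D : EnData n d ℓ} (hD : D.Ok γ α c₂) (hα : 0 ≤ α) (hr : 0 < D.r) (hn : 0 < n) {ε : ℝ} (hε : ε ∈ Set.Icc (0 : ℝ) 1) :
    GmOk (fun _ : Unit => D.obsB id) (fun _ => D.obsΛ id) (fun _ => D.obsM ε id)
      (D.r * (((d : ℝ) + |D.E|) ^ 2 + D.η ^ 2) / D.η) ((D.r * D.η)⁻¹) (Real.sqrt (n * ℓ) * (n : ℝ) ^ α) := by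
  have := en_obs_ok hD hr hn hα (P := Fin n) (K := Unit) (fun _ => id) (fun _ => Function.injective_id) hε
  rwa [Fintype.card_fin] at this

omit hF hP in
/-- `gm_bin_dn` for `K = Unit` (`en_pL_eq`, `en_obs_ok` with `x = id`, `en_i_dens`) -/
theorem en_i_lower {n : ℕ} {D : EnData n d ℓ} (hD : D.Ok γ α c₂) (hα : 0 ≤ α) (hr : 0 < D.r) (hn : 0 < n) {ε : ℝ} (hε : ε ∈ Set.Icc (0 : ℝ) 1) : haveI := D.K0
    ∫ g, gmI D.b D.K (D.F ε g) * (-(n * ℓ : ℝ) * Real.log D.b + ℓ * Real.log |D.L.det| + (n * ℓ : ℝ) / 2 * Real.log (2 * Real.pi) + gmSq g / 2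
        - gmOsc (D.r * (((d : ℝ) + |D.E|) ^ 2 + D.η ^ 2) / D.η) (D.b * Real.sqrt (n * ℓ)) (Real.sqrt (n * ℓ) * (n : ℝ) ^ α) (D.F ε g)) ∂(gmStd (Fin n × Fin ℓ))
      ≤ enHd (D.pL ε) := by
  have := D.K0
  have hn' : (0 : ℝ) < n := by exact_mod_cast hn
  have hb : 0 < D.b := by rw [hD.b_eq]; positivity
  have h := gm_bin_dn (en_i_ok hD hα hr hn hε) hb D.K
  rw [en_pL_eq]
  refine le_trans (le_of_eq ?_) h
  rw [en_i_E]
  have hc : (Fintype.card (Fin n × Fin ℓ) : ℝ) = n * ℓ := by simp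
  refine integral_congr_ae (Filter.Eventually.of_forall fun g => ?_)
  simp only [hc]
  have := en_i_dens hD ε g
  congr 1
  linarith

omit hF hP in
theorem en_i_Sq_meas {κ : Type} [Fintype κ] : Measurable fun g : κ → ℝ => gmSq g := by
  unfold gmSq
  exact Finset.measurable_sum _ fun i _ => (measurable_pi_apply i).pow_const 2

omit hF hP in
theorem en_i_Sq_int {κ : Type} [Fintype κ] : Integrable (fun g : κ → ℝ => gmSq g) (gmStd κ) :=
  gm_int_poly en_i_Sq_meas 1 1 fun g => by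
    rw [abs_of_nonneg (gm_Sq_nonneg g)]; linarith

omit hF hP in
theorem en_i_Sq2_int {κ : Type} [Fintype κ] : Integrable (fun g : κ → ℝ => gmSq g ^ 2) (gmStd κ) :=
  gm_int_poly (en_i_Sq_meas.pow_const 2) 1 2 fun g => by
    have := gm_Sq_nonneg g
    rw [abs_of_nonneg (by positivity), one_mul]
    exact pow_le_pow_left₀ this (by linarith) 2

omit hF hP in
theorem en_i_Sq_mean {κ : Type} [Fintype κ] : ∫ g : κ → ℝ, gmSq g ∂(gmStd κ) = Fintype.card κ := by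
  classical
  have := gm_mom2_sq (1 : Matrix κ κ ℝ)
  simpa using this

omit hF hP in
theorem en_i_aff_mean {κ : Type} [Fintype κ] (c0 c1 : ℝ) : ∫ g : κ → ℝ, (c0 + c1 * gmSq g) ∂(gmStd κ) = c0 + c1 * Fintype.card κ := by
  have h : ∫ g : κ → ℝ, (c0 + c1 * gmSq g) ∂(gmStd κ) = ∫ _g : κ → ℝ, c0 ∂(gmStd κ) + ∫ g : κ → ℝ, c1 * gmSq g ∂(gmStd κ) :=
    integral_add (integrable_const _) (en_i_Sq_int.const_mul _)
  rw [h, integral_const_mul, en_i_Sq_mean]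
  simp

omit hF hP in
theorem en_i_Sq2_mean {κ : Type} [Fintype κ] : ∫ g : κ → ℝ, gmSq g ^ 2 ∂(gmStd κ) ≤ 3 * (Fintype.card κ : ℝ) ^ 2 := by
  classical
  have := gm_mom4 (1 : Matrix κ κ ℝ)
  simpa using this

omit hF hP in
theorem en_i_Q {n : ℕ} {D : EnData n d ℓ} (hD : D.Ok γ α c₂) (g : Fin n × Fin ℓ → ℝ) : gmQ (D.obsΛ id) (D.obsB id *ᵥ g) = gmSq g := by
  rw [en_i_prec hD, gm_x_Q_sq, en_i_ML hD]

omit hF hP in
/-- the field is at most `mu + √sig |g|` -/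
theorem en_i_F_le {n : ℕ} {D : EnData n d ℓ} (hD : D.Ok γ α c₂) (hα : 0 ≤ α) (hr : 0 < D.r) (hn : 0 < n) {ε : ℝ} (hε : ε ∈ Set.Icc (0 : ℝ) 1)
    (g : Fin n × Fin ℓ → ℝ) : gmN (D.F ε g) ≤ Real.sqrt (n * ℓ) * (n : ℝ) ^ α + Real.sqrt ((D.r * D.η)⁻¹) * gmN g := by
  have hok := en_i_ok hD hα hr hn hε
  have h1 := hok.mean ()
  have h2 := hok.cov () (D.obsB id *ᵥ g)
  rw [en_i_Q hD] at h2
  have h3 : gmN (D.obsB id *ᵥ g) ≤ Real.sqrt ((D.r * D.η)⁻¹) * gmN g := by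
    unfold gmN
    rw [← Real.sqrt_mul hok.sig0.le]
    exact Real.sqrt_le_sqrt h2
  exact (gm_N_add _ _).trans (add_le_add h1 h3)

omit hF hP in
/-- AM-GM for the Euclidean norm -/
theorem en_i_N_le {κ : Type} [Fintype κ] (g : κ → ℝ) {t : ℝ} (ht : 0 < t) : gmN g ≤ (t + gmSq g / t) / 2 := by
  have h := gm_N_sq g
  rw [← h]
  have : 0 ≤ (gmN g - t) ^ 2 / t := by positivity
  have e : (gmN g - t) ^ 2 / t = gmN g ^ 2 / t - 2 * gmN g + t := by field_simp; ring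
  linarith

omit hF hP in
/-- arithmetic of `en_i_osc` -/
theorem en_i_osc_ar {N a s bg r B1 sl l lam β mu sg : ℝ} (ha : 1 ≤ a) (hs : 0 ≤ s) (hss : s * s = N) (hbg0 : 0 ≤ bg) (hbg : bg ≤ 1) (hr : 0 < r)
    (hB1 : 0 ≤ B1) (hsl : 0 ≤ sl) (hl : 0 ≤ l) (hlam0 : 0 ≤ lam) (hlam : lam ≤ r * B1 * a) (hβ : β = bg * (s * sl)) (hmu : mu = s * sl * a)
    (hsg0 : 0 ≤ sg) (hsg : sg ≤ a / Real.sqrt r) :
    lam * β * (mu + sg * ((s + s * l) / 2) + mu + β) ≤ r * B1 * sl * (3 * sl + (1 + l) / (2 * Real.sqrt r)) * (N * a * a * bg) := by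
  have hsr : 0 < Real.sqrt r := Real.sqrt_pos.2 hr
  have ha0 : 0 ≤ a := by linarith
  have hX : 0 ≤ s * a := mul_nonneg hs ha0
  have hβ0 : 0 ≤ β := by rw [hβ]; positivity
  have h1 : β ≤ sl * (s * a) := by
    rw [hβ]
    calc bg * (s * sl) ≤ 1 * (s * sl) := mul_le_mul_of_nonneg_right hbg (by positivity)
      _ = sl * (s * 1) := by ring
      _ ≤ sl * (s * a) := by gcongr
  have h2 : sg * ((s + s * l) / 2) ≤ (s * a) * ((1 + l) / (2 * Real.sqrt r)) := by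
    calc sg * ((s + s * l) / 2) ≤ a / Real.sqrt r * ((s + s * l) / 2) := mul_le_mul_of_nonneg_right hsg (by positivity)
      _ = _ := by field_simp
  have h3 : mu + sg * ((s + s * l) / 2) + mu + β ≤ (s * a) * (3 * sl + (1 + l) / (2 * Real.sqrt r)) := by
    rw [hmu]; nlinarith
  have h30 : 0 ≤ mu + sg * ((s + s * l) / 2) + mu + β := by rw [hmu]; positivity
  have h4 : lam * β ≤ r * B1 * a * (bg * (s * sl)) := by
    rw [hβ]; exact mul_le_mul_of_nonneg_right hlam (by positivity)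
  calc lam * β * (mu + sg * ((s + s * l) / 2) + mu + β)
      ≤ r * B1 * a * (bg * (s * sl)) * ((s * a) * (3 * sl + (1 + l) / (2 * Real.sqrt r))) :=
        mul_le_mul h4 h3 h30 (by positivity)
    _ = r * B1 * sl * (3 * sl + (1 + l) / (2 * Real.sqrt r)) * ((s * s) * a * a * bg) := by ring
    _ = _ := by rw [hss]

/-- `E osc ≤ lam β (E|F| + mu + β) ≤ C n^{1 + 2α - γ}`:  `lam ≤ A n^α`, `β = n^{-γ} √(nℓ)`, `mu = √(nℓ) n^α`, `E|F|² ≤ 2 mu² + 2 nℓ/(rη)` (`gm_E_mom`) -/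
theorem en_i_osc : ∃ C : ℝ, ∀ n : ℕ, 1 ≤ n → ∀ D : EnData n d ℓ, D.E = E → D.r = r → D.Ok γ α c₂ → ∀ ε ∈ Set.Icc (0 : ℝ) 1,
    ∫ g, gmOsc (D.r * (((d : ℝ) + |D.E|) ^ 2 + D.η ^ 2) / D.η) (D.b * Real.sqrt (n * ℓ)) (Real.sqrt (n * ℓ) * (n : ℝ) ^ α) (D.F ε g) ∂(gmStd (Fin n × Fin ℓ))
      ≤ C * (n : ℝ) ^ (1 + 2 * α - γ) := by
  have hα := hP.α0
  have hr := hF.r0
  have hγ : 0 ≤ γ := by have := hP.αγ; linarith
  refine ⟨r * (((d : ℝ) + |E|) ^ 2 + 1) * Real.sqrt ℓ * (3 * Real.sqrt ℓ + (1 + ℓ) / (2 * Real.sqrt r)), fun n hn D hE hr' hD ε hε => ?_⟩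
  have hn0 : (0 : ℝ) < n := by have : 0 < n := by omega
                               exact_mod_cast this
  have hn1 : (1 : ℝ) ≤ n := by exact_mod_cast hn
  have ha : 1 ≤ (n : ℝ) ^ α := Real.one_le_rpow hn1 hα.le
  have ha0 : 0 < (n : ℝ) ^ α := by positivity
  have hηe : D.η = ((n : ℝ) ^ α)⁻¹ := by rw [hD.η_eq, Real.rpow_neg hn0.le]
  have hη0 : 0 < D.η := by rw [hηe]; positivity
  have hη1 : D.η ≤ 1 := by rw [hηe]; exact inv_le_one_of_one_le₀ ha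
  have hs0 : 0 < Real.sqrt n := Real.sqrt_pos.2 hn0
  have hDr : 0 < D.r := by rw [hr']; exact hr
  obtain ⟨lam, hlam⟩ : ∃ lam : ℝ, lam = D.r * (((d : ℝ) + |D.E|) ^ 2 + D.η ^ 2) / D.η := ⟨_, rfl⟩
  obtain ⟨β, hβ⟩ : ∃ β : ℝ, β = D.b * Real.sqrt (n * ℓ) := ⟨_, rfl⟩
  obtain ⟨mu, hmu⟩ : ∃ mu : ℝ, mu = Real.sqrt (n * ℓ) * (n : ℝ) ^ α := ⟨_, rfl⟩
  obtain ⟨sg, hsg⟩ : ∃ sg : ℝ, sg = Real.sqrt ((D.r * D.η)⁻¹) := ⟨_, rfl⟩
  rw [← hlam, ← hβ, ← hmu]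
  have hlam0 : 0 ≤ lam := by rw [hlam]; positivity
  have hb0 : 0 < D.b := by rw [hD.b_eq]; positivity
  have hβ0 : 0 ≤ β := by rw [hβ]; positivity
  have hmu0 : 0 ≤ mu := by rw [hmu]; positivity
  have hsg0 : 0 ≤ sg := by rw [hsg]; positivity
  -- pointwise majorant
  have hpt : ∀ g : Fin n × Fin ℓ → ℝ, gmOsc lam β mu (D.F ε g)
      ≤ lam * β * (mu + sg * (Real.sqrt n / 2) + mu + β) + lam * β * (sg / (2 * Real.sqrt n)) * gmSq g := by
    intro g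
    have h1 := en_i_F_le hD hα.le hDr (by omega) hε g
    rw [← hmu, ← hsg] at h1
    have h2 := en_i_N_le g hs0
    have h3 : gmN (D.F ε g) ≤ mu + sg * ((Real.sqrt n + gmSq g / Real.sqrt n) / 2) := h1.trans (by gcongr)
    unfold gmOsc
    have h4 : lam * β * (gmN (D.F ε g) + mu + β) ≤ lam * β * (mu + sg * ((Real.sqrt n + gmSq g / Real.sqrt n) / 2) + mu + β) := by gcongr
    refine h4.trans (le_of_eq ?_)
    field_simp
    ring
  have hint : Integrable (fun g : Fin n × Fin ℓ → ℝ => lam * β * (mu + sg * (Real.sqrt n / 2) + mu + β) + lam * β * (sg / (2 * Real.sqrt n)) * gmSq g)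
      (gmStd (Fin n × Fin ℓ)) := (integrable_const _).add (en_i_Sq_int.const_mul _)
  have h5 := integral_mono_of_nonneg (μ := gmStd (Fin n × Fin ℓ)) (f := fun g => gmOsc lam β mu (D.F ε g))
    (Filter.Eventually.of_forall fun g => by
      show 0 ≤ gmOsc lam β mu (D.F ε g)
      unfold gmOsc
      have := gm_N_nonneg (D.F ε g)
      positivity) hint (Filter.Eventually.of_forall hpt)
  refine h5.trans ?_
  rw [en_i_aff_mean]
  simp only [Fintype.card_prod, Fintype.card_fin]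
  push_cast
  have hss : Real.sqrt n * Real.sqrt n = n := Real.mul_self_sqrt hn0.le
  have e1 : lam * β * (mu + sg * (Real.sqrt n / 2) + mu + β) + lam * β * (sg / (2 * Real.sqrt n)) * ((n : ℝ) * ℓ)
      = lam * β * (mu + sg * ((Real.sqrt n + Real.sqrt n * ℓ) / 2) + mu + β) := by
    have : (n : ℝ) / Real.sqrt n = Real.sqrt n := by rw [div_eq_iff hs0.ne']; exact hss.symm
    have e2 : sg / (2 * Real.sqrt n) * ((n : ℝ) * ℓ) = sg * (Real.sqrt n * ℓ / 2) := by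
      calc sg / (2 * Real.sqrt n) * ((n : ℝ) * ℓ) = sg * ((n : ℝ) / Real.sqrt n * ℓ / 2) := by field_simp
        _ = _ := by rw [this]
    rw [mul_assoc (lam * β), e2]
    ring
  rw [e1]
  have hpow : (n : ℝ) ^ (1 + 2 * α - γ) = n * (n : ℝ) ^ α * (n : ℝ) ^ α * (n : ℝ) ^ (-γ) := by
    rw [show 1 + 2 * α - γ = 1 + α + α + -γ by ring, Real.rpow_add hn0, Real.rpow_add hn0, Real.rpow_add hn0, Real.rpow_one]
  rw [hpow]
  have hsq : Real.sqrt ((n : ℝ) * ℓ) = Real.sqrt n * Real.sqrt ℓ := Real.sqrt_mul hn0.le _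
  refine en_i_osc_ar ha hs0.le hss (by positivity) (Real.rpow_le_one_of_one_le_of_nonpos hn1 (by linarith)) hr (by positivity) (Real.sqrt_nonneg _)
    (Nat.cast_nonneg ℓ) hlam0 ?_ (by rw [hβ, hD.b_eq, hsq]) (by rw [hmu, hsq]) hsg0 ?_
  · rw [hlam, hr', hE, hηe, div_inv_eq_mul]
    have : ((n : ℝ) ^ α)⁻¹ ^ 2 ≤ 1 := pow_le_one₀ (by positivity) (inv_le_one_of_one_le₀ ha)
    gcongr
  · rw [hsg, hr', hηe, mul_inv, inv_inv, mul_comm, ← div_eq_mul_inv, Real.sqrt_div ha0.le]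
    gcongr
    rw [Real.sqrt_le_left ha0.le]
    nlinarith

omit hF hP in
/-- unclipped range, for a number of bins given by an equation -/
theorem en_i_bin {b : ℝ} (hb : 0 < b) (Kb : ℕ) [NeZero Kb] (K' : ℕ) (hK : Kb = 2 * K' + 2) (t : ℝ) (ht : |t| < K' * b) :
    0 < (enBin b Kb t).val ∧ (enBin b Kb t).val + 1 < Kb := by
  subst hK
  exact en_bin_int hb K' t ht

omit hF hP in
/-- the variance of one coordinate of the noise -/
theorem en_i_var {n : ℕ} {D : EnData n d ℓ} (hD : D.Ok γ α c₂) (hr : 0 < D.r) (hn : 0 < n) (q : Fin n × Fin ℓ) :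
    (D.obsB id * (D.obsB id)ᵀ) q q ≤ (D.r * D.η)⁻¹ := by
  rw [en_obs_cov hD hr hn (x := id)]
  have h := ((en_gam_bd hD hr hn).2 (Pi.single q.1 1)).2
  have e1 : gmQ D.Γ (Pi.single q.1 1) = D.Γ q.1 q.1 := by simp [gmQ]
  have e2 : gmSq (Pi.single q.1 (1 : ℝ) : Fin n → ℝ) = 1 := by
    simp [gmSq, Pi.single_apply]
  rw [e1, e2, mul_one] at h
  simpa [Matrix.kroneckerMap_apply] using h

omit hF hP in
/-- a clipped field has a large coordinate of the noise -/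
theorem en_i_clip_pt {n : ℕ} {D : EnData n d ℓ} (hD : D.Ok γ α c₂) (hn : 0 < n) (hsm : (n : ℝ) ^ (α / 16) ≤ (n : ℝ) ^ γ / 2) {ε : ℝ} (hε : ε ∈ Set.Icc (0 : ℝ) 1)
    (g : Fin n × Fin ℓ → ℝ) : haveI := D.K0
    1 - gmI D.b D.K (D.F ε g) ≤ ∑ q, Set.indicator {g : Fin n × Fin ℓ → ℝ | (n : ℝ) ^ γ / 2 ≤ |(D.obsB id *ᵥ g) q|} (fun _ => (1 : ℝ)) g := by
  have := D.K0
  have hn0 : (0 : ℝ) < n := by exact_mod_cast hn
  have hb : 0 < D.b := by rw [hD.b_eq]; positivity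
  have hnn : ∀ q ∈ (Finset.univ : Finset (Fin n × Fin ℓ)),
      0 ≤ Set.indicator {g : Fin n × Fin ℓ → ℝ | (n : ℝ) ^ γ / 2 ≤ |(D.obsB id *ᵥ g) q|} (fun _ => (1 : ℝ)) g :=
    fun q _ => Set.indicator_nonneg (fun _ _ => zero_le_one) _
  unfold gmI
  split_ifs with hI
  · rw [sub_self]
    exact Finset.sum_nonneg hnn
  · unfold gmInt at hI
    push Not at hI
    obtain ⟨q, hq⟩ := hI
    have h1 : ¬ (|D.F ε g q| < (⌈(n : ℝ) ^ (2 * γ)⌉₊ : ℝ) * D.b) := by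
      intro hlt
      obtain ⟨a1, a2⟩ := en_i_bin hb D.K _ hD.K_eq _ hlt
      have := hq a1
      omega
    rw [not_lt] at h1
    have h2 : (n : ℝ) ^ γ ≤ (⌈(n : ℝ) ^ (2 * γ)⌉₊ : ℝ) * D.b := by
      have e : (n : ℝ) ^ γ = (n : ℝ) ^ (2 * γ) * (n : ℝ) ^ (-γ) := by
        rw [← Real.rpow_add hn0]; congr 1; ring
      rw [e, hD.b_eq]
      exact mul_le_mul_of_nonneg_right (Nat.le_ceil _) (by positivity)
    have h3 : |D.F ε g q| ≤ (n : ℝ) ^ (α / 16) + |(D.obsB id *ᵥ g) q| := by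
      have e : D.F ε g q = ε * D.V q.1 q.2 + (D.obsB id *ᵥ g) q := rfl
      rw [e]
      refine (abs_add_le _ _).trans (add_le_add ?_ le_rfl)
      rw [abs_mul, abs_of_nonneg hε.1]
      calc ε * |D.V q.1 q.2| ≤ 1 * (n : ℝ) ^ (α / 16) := mul_le_mul hε.2 (hD.sup _ _) (abs_nonneg _) zero_le_one
        _ = _ := one_mul _
    have h4 : (n : ℝ) ^ γ / 2 ≤ |(D.obsB id *ᵥ g) q| := by linarith
    have h5 : Set.indicator {g : Fin n × Fin ℓ → ℝ | (n : ℝ) ^ γ / 2 ≤ |(D.obsB id *ᵥ g) q|} (fun _ => (1 : ℝ)) g = 1 :=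
      Set.indicator_of_mem (show g ∈ {g : Fin n × Fin ℓ → ℝ | (n : ℝ) ^ γ / 2 ≤ |(D.obsB id *ᵥ g) q|} from h4) _
    rw [sub_zero]
    exact (le_of_eq h5.symm).trans (Finset.single_le_sum hnn (Finset.mem_univ q))

omit hF hP in
theorem en_i_set_meas {ι κ : Type} [Fintype ι] [Fintype κ] (B : Matrix ι κ ℝ) (q : ι) (t : ℝ) : MeasurableSet {g : κ → ℝ | t ≤ |(B *ᵥ g) q|} :=
  measurableSet_le measurable_const ((measurable_pi_apply q).comp (gm_x_meas B)).abs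

omit hF hP in
/-- the expected number of large coordinates -/
theorem en_i_clip_P {n : ℕ} {D : EnData n d ℓ} (hD : D.Ok γ α c₂) (hr : 0 < D.r) (hn : 0 < n) :
    Integrable (fun g => ∑ q, Set.indicator {g : Fin n × Fin ℓ → ℝ | (n : ℝ) ^ γ / 2 ≤ |(D.obsB id *ᵥ g) q|} (fun _ => (1 : ℝ)) g) (gmStd (Fin n × Fin ℓ)) ∧
    ∫ g, ∑ q, Set.indicator {g : Fin n × Fin ℓ → ℝ | (n : ℝ) ^ γ / 2 ≤ |(D.obsB id *ᵥ g) q|} (fun _ => (1 : ℝ)) g ∂(gmStd (Fin n × Fin ℓ))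
      ≤ (n * ℓ : ℝ) * (2 * Real.exp (-(D.r / 8) * (n : ℝ) ^ (2 * γ - α))) := by
  have hn0 : (0 : ℝ) < n := by exact_mod_cast hn
  have hη0 : 0 < D.η := by rw [hD.η_eq]; positivity
  have hi : ∀ q ∈ (Finset.univ : Finset (Fin n × Fin ℓ)),
      Integrable (Set.indicator {g : Fin n × Fin ℓ → ℝ | (n : ℝ) ^ γ / 2 ≤ |(D.obsB id *ᵥ g) q|} (fun _ => (1 : ℝ))) (gmStd (Fin n × Fin ℓ)) :=
    fun q _ => (integrable_const _).indicator (en_i_set_meas _ _ _)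
  refine ⟨integrable_finsetSum _ hi, ?_⟩
  rw [integral_finsetSum _ hi]
  have hq : ∀ q ∈ (Finset.univ : Finset (Fin n × Fin ℓ)),
      ∫ g, Set.indicator {g : Fin n × Fin ℓ → ℝ | (n : ℝ) ^ γ / 2 ≤ |(D.obsB id *ᵥ g) q|} (fun _ => (1 : ℝ)) g ∂(gmStd (Fin n × Fin ℓ))
        ≤ 2 * Real.exp (-(D.r / 8) * (n : ℝ) ^ (2 * γ - α)) := by
    intro q _
    rw [integral_indicator (en_i_set_meas _ _ _)]
    simp only [integral_const, smul_eq_mul, mul_one, measureReal_restrict_apply MeasurableSet.univ, Set.univ_inter]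
    refine (gm_tail (D.obsB id) q (s := (D.r * D.η)⁻¹) (by positivity) (en_i_var hD hr hn q) (by positivity)).trans (le_of_eq ?_)
    congr 2
    have e : (n : ℝ) ^ (2 * γ - α) = ((n : ℝ) ^ γ) ^ 2 * D.η := by
      rw [hD.η_eq, ← Real.rpow_natCast, ← Real.rpow_mul hn0.le, ← Real.rpow_add hn0]
      congr 1
      push_cast
      ring
    rw [e]
    field_simp
    ring
  refine (Finset.sum_le_card_nsmul _ _ _ hq).trans (le_of_eq ?_)
  simp

omit hF hP in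
theorem en_i_I_mem {ι : Type} (b : ℝ) (Kb : ℕ) [NeZero Kb] (y : ι → ℝ) : 0 ≤ 1 - gmI b Kb y ∧ 1 - gmI b Kb y ≤ 1 := by
  unfold gmI
  split_ifs <;> norm_num

omit hF hP in
/-- pointwise bound of the clipped part -/
theorem en_i_clip_ar1 {u U X0 q τ : ℝ} (hu0 : 0 ≤ u) (hu1 : u ≤ 1) (huU : u ≤ U) (hq : 0 ≤ q) (hτ : 0 < τ) :
    u * |X0 + q / 2| ≤ (|X0| + τ / 4) * U + 1 / (4 * τ) * q ^ 2 := by
  have h1 : |X0 + q / 2| ≤ |X0| + q / 2 := (abs_add_le _ _).trans (by rw [abs_of_nonneg (by positivity : 0 ≤ q / 2)])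
  have h2 : 2 * (u * q) ≤ τ * u + q ^ 2 / τ := by
    have h3 : 0 ≤ (τ * u - q) ^ 2 / τ := by positivity
    have e : (τ * u - q) ^ 2 / τ = τ * u ^ 2 - 2 * (u * q) + q ^ 2 / τ := by field_simp; ring
    have h4 : τ * u ^ 2 ≤ τ * u := mul_le_mul_of_nonneg_left (by nlinarith) hτ.le
    linarith
  have e2 : 1 / (4 * τ) * q ^ 2 = q ^ 2 / τ / 4 := by field_simp
  have h5 : (|X0| + τ / 4) * u ≤ (|X0| + τ / 4) * U := mul_le_mul_of_nonneg_left huU (by positivity)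
  calc u * |X0 + q / 2| ≤ u * (|X0| + q / 2) := mul_le_mul_of_nonneg_left h1 hu0
    _ = |X0| * u + (2 * (u * q)) / 4 := by ring
    _ ≤ |X0| * u + (τ * u + q ^ 2 / τ) / 4 := by linarith
    _ = (|X0| + τ / 4) * u + q ^ 2 / τ / 4 := by ring
    _ ≤ _ := by rw [e2]; linarith

omit hF hP in
/-- numerics of the clipped part -/
theorem en_i_clip_ar2 {N l A1 A2 X0 e : ℝ} (hN : 1 ≤ N) (hl : 0 ≤ l) (hA1 : 0 ≤ A1) (hA2 : A2 = A1 + l ^ 2 + 1) (hX0 : |X0| ≤ A1 * N ^ 2) (he0 : 0 ≤ e)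
    (he : N ^ 4 * e ≤ 1) (hNA : 4 * l * A2 ≤ N) :
    (|X0| + (3 * (N * l) ^ 2 + 1) / 4) * (N * l * (2 * e)) + 1 / (4 * (3 * (N * l) ^ 2 + 1)) * (3 * (N * l) ^ 2) ≤ 1 := by
  have hN0 : 0 < N := by linarith
  have hA20 : 0 ≤ A2 := by rw [hA2]; positivity
  have h1 : |X0| + (3 * (N * l) ^ 2 + 1) / 4 ≤ A2 * N ^ 2 := by
    have : (1 : ℝ) ≤ N ^ 2 := one_le_pow₀ hN
    have h2 : 0 ≤ l ^ 2 * N ^ 2 := by positivity
    rw [hA2]
    nlinarith
  have h2 : N ^ 3 * e ≤ 1 / N := by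
    rw [le_div_iff₀ hN0]
    calc N ^ 3 * e * N = N ^ 4 * e := by ring
      _ ≤ 1 := he
  have h3 : (|X0| + (3 * (N * l) ^ 2 + 1) / 4) * (N * l * (2 * e)) ≤ 1 / 2 := by
    calc (|X0| + (3 * (N * l) ^ 2 + 1) / 4) * (N * l * (2 * e)) ≤ A2 * N ^ 2 * (N * l * (2 * e)) :=
          mul_le_mul_of_nonneg_right h1 (by positivity)
      _ = 2 * l * A2 * (N ^ 3 * e) := by ring
      _ ≤ 2 * l * A2 * (1 / N) := mul_le_mul_of_nonneg_left h2 (by positivity)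
      _ ≤ 1 / 2 := by
        rw [mul_one_div, div_le_iff₀ hN0]
        linarith
  have h4 : 1 / (4 * (3 * (N * l) ^ 2 + 1)) * (3 * (N * l) ^ 2) ≤ 1 / 4 := by
    rw [div_mul_eq_mul_div, one_mul, div_le_iff₀ (by positivity)]
    nlinarith [sq_nonneg (N * l)]
  linarith

/-- the clipped part: Cauchy-Schwarz, `P(clip) ≤ 2 nℓ exp(-r n^{2γ-α}/8)` (coordinatewise: `gm_tail`, `|ε V| ≤ n^α ≤ n^γ/2`; NOT `gm_clip`, whose `mu` is the Euclidean norm), `E (X₀ + |g|²/2)² ≤ poly(n)` (`en_i_logdet`, `gm_mom4`), `en_superpoly` -/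
theorem en_i_clip : ∃ n₀ : ℕ, ∀ n : ℕ, n₀ ≤ n → ∀ D : EnData n d ℓ, D.E = E → D.r = r → D.Ok γ α c₂ → ∀ ε ∈ Set.Icc (0 : ℝ) 1, haveI := D.K0
    ∫ g, (1 - gmI D.b D.K (D.F ε g)) * abs (-(n * ℓ : ℝ) * Real.log D.b + ℓ * Real.log |D.L.det| + (n * ℓ : ℝ) / 2 * Real.log (2 * Real.pi) + gmSq g / 2) ∂(gmStd (Fin n × Fin ℓ)) ≤ 1 := by
  have hα := hP.α0
  have hr := hF.r0
  have hγα := hP.αγ
  have hγ0 : 0 ≤ γ := by linarith
  obtain ⟨C, hC⟩ := en_i_logdet hF hP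
  obtain ⟨A1, hA1⟩ : ∃ A1 : ℝ, A1 = ℓ * γ + ℓ * |C| + 3 * ℓ := ⟨_, rfl⟩
  have hA10 : 0 ≤ A1 := by rw [hA1]; positivity
  obtain ⟨n1, hn1⟩ := en_superpoly (a := r / 8) (κ₀ := 2 * γ - α) (by positivity) (by linarith) 4
  have hδ : 0 < γ - α / 16 := by linarith
  refine ⟨max (max n1 ⌈4 * (ℓ : ℝ) * (A1 + (ℓ : ℝ) ^ 2 + 1)⌉₊) (max ⌈(2 : ℝ) ^ (1 / (γ - α / 16))⌉₊ 2), fun n hn D hE hr' hD ε hε => ?_⟩
  have := D.K0
  have g1 : n1 ≤ n := (le_max_left _ _).trans ((le_max_left _ _).trans hn)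
  have g2 : ⌈4 * (ℓ : ℝ) * (A1 + (ℓ : ℝ) ^ 2 + 1)⌉₊ ≤ n := (le_max_right _ _).trans ((le_max_left _ _).trans hn)
  have g3 : ⌈(2 : ℝ) ^ (1 / (γ - α / 16))⌉₊ ≤ n := (le_max_left _ _).trans ((le_max_right _ _).trans hn)
  have g4 : 2 ≤ n := (le_max_right _ _).trans ((le_max_right _ _).trans hn)
  have hnpos : 0 < n := by omega
  have hn0 : (0 : ℝ) < n := by exact_mod_cast hnpos
  have hN1 : (1 : ℝ) ≤ n := by have : 1 ≤ n := by omega
                               exact_mod_cast this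
  have hDr : 0 < D.r := by rw [hr']; exact hr
  -- smallness of the signal
  have hsm : (n : ℝ) ^ (α / 16) ≤ (n : ℝ) ^ γ / 2 := by
    have h1 : (2 : ℝ) ^ (1 / (γ - α / 16)) ≤ n := (Nat.le_ceil _).trans (by exact_mod_cast g3)
    have h2 : (2 : ℝ) ≤ (n : ℝ) ^ (γ - α / 16) := by
      have := Real.rpow_le_rpow (by positivity) h1 hδ.le
      rwa [← Real.rpow_mul (by norm_num), one_div_mul_cancel hδ.ne', Real.rpow_one] at this
    have e : (n : ℝ) ^ γ = (n : ℝ) ^ (γ - α / 16) * (n : ℝ) ^ (α / 16) := by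
      rw [← Real.rpow_add hn0]; congr 1; ring
    rw [e]
    have : 0 < (n : ℝ) ^ (α / 16) := by positivity
    nlinarith
  obtain ⟨X0, hX0⟩ : ∃ X0 : ℝ, X0 = -(n * ℓ : ℝ) * Real.log D.b + ℓ * Real.log |D.L.det| + (n * ℓ : ℝ) / 2 * Real.log (2 * Real.pi) := ⟨_, rfl⟩
  rw [← hX0]
  obtain ⟨τ, hτ⟩ : ∃ τ : ℝ, τ = 3 * ((n : ℝ) * ℓ) ^ 2 + 1 := ⟨_, rfl⟩
  have hτ0 : 0 < τ := by rw [hτ]; positivity
  obtain ⟨iU, hU⟩ := en_i_clip_P hD hDr hnpos
  have hpt : ∀ g : Fin n × Fin ℓ → ℝ, (1 - gmI D.b D.K (D.F ε g)) * |X0 + gmSq g / 2|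
      ≤ (|X0| + τ / 4) * (∑ q, Set.indicator {g : Fin n × Fin ℓ → ℝ | (n : ℝ) ^ γ / 2 ≤ |(D.obsB id *ᵥ g) q|} (fun _ => (1 : ℝ)) g) + 1 / (4 * τ) * gmSq g ^ 2 :=
    fun g => en_i_clip_ar1 (en_i_I_mem _ _ _).1 (en_i_I_mem _ _ _).2 (en_i_clip_pt hD hnpos hsm hε g) (gm_Sq_nonneg g) hτ0
  have h5 := integral_mono_of_nonneg (μ := gmStd (Fin n × Fin ℓ)) (f := fun g => (1 - gmI D.b D.K (D.F ε g)) * |X0 + gmSq g / 2|)
    (g := fun g => (|X0| + τ / 4) * (∑ q, Set.indicator {g : Fin n × Fin ℓ → ℝ | (n : ℝ) ^ γ / 2 ≤ |(D.obsB id *ᵥ g) q|} (fun _ => (1 : ℝ)) g) + 1 / (4 * τ) * gmSq g ^ 2)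
    (Filter.Eventually.of_forall fun g => mul_nonneg (en_i_I_mem _ _ _).1 (abs_nonneg _))
    ((iU.const_mul _).add (en_i_Sq2_int.const_mul _)) (Filter.Eventually.of_forall hpt)
  have e1 : ∫ g, ((|X0| + τ / 4) * (∑ q, Set.indicator {g : Fin n × Fin ℓ → ℝ | (n : ℝ) ^ γ / 2 ≤ |(D.obsB id *ᵥ g) q|} (fun _ => (1 : ℝ)) g) + 1 / (4 * τ) * gmSq g ^ 2) ∂(gmStd (Fin n × Fin ℓ))
      = (|X0| + τ / 4) * (∫ g, ∑ q, Set.indicator {g : Fin n × Fin ℓ → ℝ | (n : ℝ) ^ γ / 2 ≤ |(D.obsB id *ᵥ g) q|} (fun _ => (1 : ℝ)) g ∂(gmStd (Fin n × Fin ℓ)))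
        + 1 / (4 * τ) * ∫ g, gmSq g ^ 2 ∂(gmStd (Fin n × Fin ℓ)) := by
    rw [← integral_const_mul, ← integral_const_mul]
    exact integral_add (iU.const_mul _) (en_i_Sq2_int.const_mul _)
  have hq2 : ∫ g : Fin n × Fin ℓ → ℝ, gmSq g ^ 2 ∂(gmStd (Fin n × Fin ℓ)) ≤ 3 * ((n : ℝ) * ℓ) ^ 2 := by
    have := en_i_Sq2_mean (κ := Fin n × Fin ℓ)
    simpa using this
  have h6 : (|X0| + τ / 4) * (∫ g, ∑ q, Set.indicator {g : Fin n × Fin ℓ → ℝ | (n : ℝ) ^ γ / 2 ≤ |(D.obsB id *ᵥ g) q|} (fun _ => (1 : ℝ)) g ∂(gmStd (Fin n × Fin ℓ)))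
        + 1 / (4 * τ) * ∫ g, gmSq g ^ 2 ∂(gmStd (Fin n × Fin ℓ))
      ≤ (|X0| + τ / 4) * ((n : ℝ) * ℓ * (2 * Real.exp (-(r / 8) * (n : ℝ) ^ (2 * γ - α)))) + 1 / (4 * τ) * (3 * ((n : ℝ) * ℓ) ^ 2) := by
    rw [hr'] at hU
    exact add_le_add (mul_le_mul_of_nonneg_left hU (by positivity)) (mul_le_mul_of_nonneg_left hq2 (by positivity))
  refine h5.trans ((le_of_eq e1).trans (h6.trans ?_))
  rw [hτ]
  -- the bound of `X0`
  have hlogn0 : 0 ≤ Real.log n := Real.log_nonneg hN1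
  have hlogn : Real.log n ≤ n := (Real.log_le_sub_one_of_pos hn0).trans (by linarith)
  have hlb : Real.log D.b = -γ * Real.log n := by rw [hD.b_eq, Real.log_rpow hn0]
  have hpi0 : 0 ≤ Real.log (2 * Real.pi) := Real.log_nonneg (by have := Real.pi_gt_three; linarith)
  have hpi : Real.log (2 * Real.pi) ≤ 6 := by
    have h1 := Real.log_le_sub_one_of_pos (show 0 < 2 * Real.pi by positivity)
    have := Real.pi_lt_d2
    linarith
  have hdet := hC n g4 D hE hr' hD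
  have hl0 : (0 : ℝ) ≤ ℓ := Nat.cast_nonneg _
  have hX : |X0| ≤ A1 * (n : ℝ) ^ 2 := by
    have t1 : |(-(n * ℓ : ℝ)) * Real.log D.b| ≤ ℓ * γ * (n : ℝ) ^ 2 := by
      rw [hlb, show (-(n * ℓ : ℝ)) * (-γ * Real.log n) = ℓ * γ * (n * Real.log n) by ring, abs_of_nonneg (by positivity)]
      refine mul_le_mul_of_nonneg_left ?_ (by positivity)
      rw [sq]
      exact mul_le_mul_of_nonneg_left hlogn hn0.le
    have t2 : abs ((ℓ : ℝ) * Real.log |D.L.det|) ≤ ℓ * |C| * (n : ℝ) ^ 2 := by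
      rw [abs_mul, abs_of_nonneg hl0, mul_assoc]
      refine mul_le_mul_of_nonneg_left (hdet.trans ?_) hl0
      calc C * n * Real.log n ≤ |C| * n * Real.log n := by
            have := le_abs_self C
            gcongr
        _ ≤ |C| * n * n := by gcongr
        _ = _ := by ring
    have t3 : |(n * ℓ : ℝ) / 2 * Real.log (2 * Real.pi)| ≤ 3 * ℓ * (n : ℝ) ^ 2 := by
      rw [abs_of_nonneg (by positivity)]
      calc (n * ℓ : ℝ) / 2 * Real.log (2 * Real.pi) ≤ (n * ℓ : ℝ) / 2 * 6 := by gcongr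
        _ = 3 * ℓ * (n * 1) := by ring
        _ ≤ 3 * ℓ * (n * n) := by gcongr
        _ = _ := by ring
    rw [hX0, hA1]
    refine (abs_add_le _ _).trans ?_
    have := abs_add_le ((-(n * ℓ : ℝ)) * Real.log D.b) ((ℓ : ℝ) * Real.log |D.L.det|)
    nlinarith
  have hexp := hn1 n g1
  rw [show ((4 : ℝ)) = ((4 : ℕ) : ℝ) by norm_num, Real.rpow_natCast] at hexp
  exact en_i_clip_ar2 hN1 hl0 hA10 rfl hX (Real.exp_pos _).le hexp ((Nat.le_ceil _).trans (by exact_mod_cast g2))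

omit hF hP in
/-- arithmetic of `en_i` -/
theorem en_i_ar {N l lb ld X0 H C c a1 : ℝ} (hN : 1 ≤ N) (hX0 : X0 = -(N * l) * lb + l * ld + N * l / 2 * Real.log (2 * Real.pi))
    (h : X0 + 1 / 2 * (N * l) - C * N ^ (1 + a1) - 1 ≤ H) (h1 : N ^ a1 ≤ N ^ (-c)) (h2 : N ^ (-1 : ℝ) ≤ N ^ (-c)) :
    l * (- lb + Real.log (2 * Real.pi * Real.exp 1) / 2) + l / N * ld ≤ N⁻¹ * H + (|C| + 1) * N ^ (-c) := by
  have hN0 : 0 < N := by linarith
  have e1 : Real.log (2 * Real.pi * Real.exp 1) = Real.log (2 * Real.pi) + 1 := by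
    rw [Real.log_mul (by positivity) (Real.exp_pos 1).ne', Real.log_exp]
  have e2 : N ^ (1 + a1) = N * N ^ a1 := by rw [Real.rpow_add hN0, Real.rpow_one]
  have e3 : N ^ (-1 : ℝ) = N⁻¹ := Real.rpow_neg_one N
  rw [e1]
  rw [e2] at h
  rw [e3] at h2
  have h3 : l * (- lb + (Real.log (2 * Real.pi) + 1) / 2) + l / N * ld = N⁻¹ * (X0 + 1 / 2 * (N * l)) := by
    rw [hX0]; field_simp; ring
  rw [h3]
  have h4 : N⁻¹ * (X0 + 1 / 2 * (N * l)) ≤ N⁻¹ * (H + C * (N * N ^ a1) + 1) :=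
    mul_le_mul_of_nonneg_left (by linarith) (by positivity)
  have h5 : N⁻¹ * (H + C * (N * N ^ a1) + 1) = N⁻¹ * H + C * N ^ a1 + N⁻¹ := by field_simp
  have h6 : C * N ^ a1 ≤ |C| * N ^ (-c) :=
    (mul_le_mul_of_nonneg_right (le_abs_self C) (by positivity)).trans (mul_le_mul_of_nonneg_left h1 (abs_nonneg C))
  linarith

/-- LEAF (i) = ASSEMBLY:  `I (Y - osc) ≥ Y - osc - (1 - I) |Y|`, `∫ Y = X₀ + nℓ/2` (`gm_mom2_sq` with `B = 1`), `en_i_lower`, `en_i_osc`, `en_i_clip`; divide by `n`; `log(2πe) = log 2π + 1`.      Original plan: surprisal of the cell of `F = ε V + L g`: on unclipped cells `p_c ≤ b^N |det M|^ℓ (2π)^{-N/2} sup_cell exp(-|M(y - εV)|²/2)`, `M (F - ε V) = g`, `|M x|² ≤ |x|²/(c₁ η)` -/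
theorem en_i : EnLeaf d ℓ E r γ α c₂
    (fun n D _ _ => ℓ * (- Real.log D.b + Real.log (2 * Real.pi * Real.exp 1) / 2) + (ℓ : ℝ) / n * Real.log |D.L.det|)
    (fun n D ε _ => (n : ℝ)⁻¹ * enHd (D.pL ε)) := by
  have hα := hP.α0
  have hr := hF.r0
  have hγα := hP.αγ
  obtain ⟨C, hC⟩ := en_i_osc hF hP
  obtain ⟨n0, hn0⟩ := en_i_clip hF hP
  refine ⟨min (γ - 2 * α) 1, |C| + 1, max n0 1, lt_min (by linarith) one_pos, fun n hn D hE hr' hD ε hε _ => ?_⟩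
  have := D.K0
  have hn1 : 1 ≤ n := (le_max_right _ _).trans hn
  have hnn : n0 ≤ n := (le_max_left _ _).trans hn
  have hnpos : 0 < n := hn1
  have hnR : (0 : ℝ) < n := by exact_mod_cast hnpos
  have hnR1 : (1 : ℝ) ≤ n := by exact_mod_cast hn1
  have hrD : 0 < D.r := hr' ▸ hr
  have hη0 : 0 < D.η := by rw [hD.η_eq]; positivity
  have hb0 : 0 < D.b := by rw [hD.b_eq]; positivity
  have h1 := en_i_lower hD hα.le hrD hnpos hε
  have h2 := hC n hn1 D hE hr' hD ε hε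
  have h3 := hn0 n hnn D hE hr' hD ε hε
  obtain ⟨X0, hX0⟩ : ∃ X0 : ℝ, X0 = -(n * ℓ : ℝ) * Real.log D.b + ℓ * Real.log |D.L.det| + (n * ℓ : ℝ) / 2 * Real.log (2 * Real.pi) := ⟨_, rfl⟩
  obtain ⟨lam, hlam⟩ : ∃ lam : ℝ, lam = D.r * (((d : ℝ) + |D.E|) ^ 2 + D.η ^ 2) / D.η := ⟨_, rfl⟩
  obtain ⟨β, hβ⟩ : ∃ β : ℝ, β = D.b * Real.sqrt (n * ℓ) := ⟨_, rfl⟩
  obtain ⟨mu, hmu⟩ : ∃ mu : ℝ, mu = Real.sqrt (n * ℓ) * (n : ℝ) ^ α := ⟨_, rfl⟩
  rw [← hX0, ← hlam, ← hβ, ← hmu] at h1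
  rw [← hlam, ← hβ, ← hmu] at h2
  rw [← hX0] at h3
  have hlam0 : 0 ≤ lam := by rw [hlam]; positivity
  have hβ0 : 0 ≤ β := by rw [hβ]; positivity
  have hmu0 : 0 ≤ mu := by rw [hmu]; positivity
  have iY : Integrable (fun g : Fin n × Fin ℓ → ℝ => X0 + 1 / 2 * gmSq g) (gmStd (Fin n × Fin ℓ)) :=
    (integrable_const _).add (en_i_Sq_int.const_mul _)
  have iO : Integrable (fun g => gmOsc lam β mu (D.F ε g)) (gmStd (Fin n × Fin ℓ)) := (gm_osc_poly lam β mu).int _ _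
  have mF : Measurable (D.F ε) := measurable_const.add (gm_x_meas _)
  have mI : Measurable (fun g => gmI D.b D.K (D.F ε g)) := (gm_I_poly D.b D.K).1.comp mF
  have bI : ∀ g, ‖gmI D.b D.K (D.F ε g)‖ ≤ 1 := fun g => by
    rcases gm_I_01 D.b D.K (D.F ε g) with h | h <;> rw [h] <;> norm_num
  have bI' : ∀ g, ‖1 - gmI D.b D.K (D.F ε g)‖ ≤ 1 := fun g => by
    rcases gm_I_01 D.b D.K (D.F ε g) with h | h <;> rw [h] <;> norm_num
  have iA : Integrable (fun g => gmI D.b D.K (D.F ε g) * (X0 + gmSq g / 2 - gmOsc lam β mu (D.F ε g))) (gmStd (Fin n × Fin ℓ)) := by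
    have h0 : Integrable (fun g => X0 + gmSq g / 2 - gmOsc lam β mu (D.F ε g)) (gmStd (Fin n × Fin ℓ)) := by
      refine Integrable.sub (iY.congr (Filter.Eventually.of_forall fun g => ?_)) iO
      simp only []; ring
    exact h0.bdd_mul (c := 1) mI.aestronglyMeasurable (Filter.Eventually.of_forall bI)
  have iB : Integrable (fun g => (1 - gmI D.b D.K (D.F ε g)) * |X0 + gmSq g / 2|) (gmStd (Fin n × Fin ℓ)) := by
    have h0 : Integrable (fun g : Fin n × Fin ℓ → ℝ => |X0 + gmSq g / 2|) (gmStd (Fin n × Fin ℓ)) := by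
      refine Integrable.abs (iY.congr (Filter.Eventually.of_forall fun g => ?_))
      simp only []; ring
    exact h0.bdd_mul (c := 1) (measurable_const.sub mI).aestronglyMeasurable (Filter.Eventually.of_forall bI')
  have key : ∫ g, ((X0 + 1 / 2 * gmSq g) - gmOsc lam β mu (D.F ε g) - (1 - gmI D.b D.K (D.F ε g)) * |X0 + gmSq g / 2|) ∂(gmStd (Fin n × Fin ℓ))
      ≤ ∫ g, gmI D.b D.K (D.F ε g) * (X0 + gmSq g / 2 - gmOsc lam β mu (D.F ε g)) ∂(gmStd (Fin n × Fin ℓ)) := by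
    refine integral_mono ((iY.sub iO).sub iB) iA fun g => ?_
    have ho := gm_osc_nonneg hlam0 hβ0 hmu0 (D.F ε g)
    simp only []
    rcases gm_I_01 D.b D.K (D.F ε g) with h | h <;> rw [h]
    · have := le_abs_self (X0 + gmSq g / 2)
      linarith
    · linarith
  have iYO : Integrable (fun g => (X0 + 1 / 2 * gmSq g) - gmOsc lam β mu (D.F ε g)) (gmStd (Fin n × Fin ℓ)) := iY.sub iO
  rw [integral_sub iYO iB, integral_sub iY iO, en_i_aff_mean] at key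
  have hc : (Fintype.card (Fin n × Fin ℓ) : ℝ) = n * ℓ := by simp
  rw [hc] at key
  simp only []
  refine en_i_ar (a1 := 2 * α - γ) hnR1 hX0 ?_ ?_ ?_
  · have e : (1 : ℝ) + (2 * α - γ) = 1 + 2 * α - γ := by ring
    rw [e]
    linarith
  · have := en_rpow_le hn1 (min_le_left (γ - 2 * α) 1)
    rwa [neg_sub] at this
  · exact en_rpow_le hn1 (min_le_right (γ - 2 * α) 1)

end leaves

end

end Claimed.Agent.R287
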