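-- KEEP
import Claimed.Agent.R287.Ent

/-!
# Row 287 (S0534), unit ENT, sub-unit CNT = P1 Lemma 3.2 (type count) on the frozen model      HEAD helper277.   Prefix `cn`, `Cn`.
NO pairing model as a probability space, NO P(simple).   Everything is a finite count.   `N = n d`, `M = |𝒜|`.
  (A) `cn_lower`   : `√((nd)!) ≤ n^C #G(n,d) (d!)^n`.   Insertion of two new vertices on `d` disjoint oriented edges: `#G(V) (|V| d - 4 d²)^d ≤ #G(V ⊕ Bool) (d!)²` (`cn_insert`); base = disjoint copies of `K_{d+1}`.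
  (B) `cn_mat_card`: matchings of the half edges respecting a colouring: `#² ≤ ∏_c m_c!`  (induction: remove a pair).
  (C) `cn_encode`  : `(G, neighbour enumerations, labelling) ↪ (array, matching)`:  `Σ_G N_G(T) (d!)^n ≤ Σ_{a : type a = T} #matchings(χ_a)`.
  (D) `cn_arr_card`: `#{a : type a = T} ≤ e^{n H(T)}` (the product measure `T^{⊗n}` gives the mass `e^{-nH(T)}` to each such array: `T` is symmetric).
  (E) `cn_multinomial`: `∏ m_c! e^{N H(m/N)} ≤ N! (N+1)^k`.
  (F) `cn_first`   : first moment;   `cn_types`: number of types;   `en_type'` = Lemma 3.2 (Markov + union + asymptotics).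
-/

set_option autoImplicit false

namespace Claimed.Agent.R287

open Matrix

noncomputable section

/-! ### (A) lower bound of the number of regular graphs -/

open Classical in
/-- `d`-regular graphs on `V` -/
def cnReg (V : Type) [Fintype V] (d : ℕ) : Finset (SimpleGraph V) := Finset.univ.filter fun G => G.IsRegularOfDegree d

theorem cn_reg_fin (n d : ℕ) : cnReg (Fin n) d = Claims.C0462.regularGraphs n d := by
  ext G
  simp only [cnReg, Claims.C0462.regularGraphs, Finset.mem_filter, Finset.mem_univ, true_and]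

open Classical in
/-- membership in `cnReg` by counting -/
theorem cn_mem_reg {V : Type} [Fintype V] {d : ℕ} {G : SimpleGraph V} :
    G ∈ cnReg V d ↔ ∀ v, (Finset.univ.filter fun w => G.Adj v w).card = d := by
  rw [cnReg, Finset.mem_filter]
  simp only [Finset.mem_univ, true_and]
  unfold SimpleGraph.IsRegularOfDegree
  refine forall_congr' fun v => ?_
  rw [← SimpleGraph.card_neighborFinset_eq_degree]
  have : G.neighborFinset v = Finset.univ.filter fun w => G.Adj v w := by ext w; simp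
  rw [this]

theorem cn_card_congr {V W : Type} [Fintype V] [Fintype W] (e : V ≃ W) (d : ℕ) : (cnReg V d).card = (cnReg W d).card := by
  classical
  refine Finset.card_equiv (Equiv.simpleGraph e) fun G => ?_
  rw [cn_mem_reg, cn_mem_reg]
  constructor
  · intro h w
    rw [← h (e.symm w)]
    refine Finset.card_equiv e.symm fun x => ?_
    simp [Equiv.simpleGraph]
  · intro h v
    rw [← h (e v)]
    refine Finset.card_equiv e fun x => ?_
    simp [Equiv.simpleGraph]


/-- the `2d` endpoints of a tuple of oriented edges -/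
def cnEnd {V : Type} {d : ℕ} (t : Fin d → V × V) (q : Fin d × Bool) : V := if q.2 then (t q.1).2 else (t q.1).1

/-- `d` oriented edges of `G` with `2d` distinct endpoints -/
def CnTup {V : Type} (G : SimpleGraph V) {d : ℕ} (t : Fin d → V × V) : Prop := (∀ i, G.Adj (t i).1 (t i).2) ∧ Function.Injective (cnEnd t)

/-- remove the edges `x_i y_i`, join the new vertex `false` to all `x_i` and the new vertex `true` to all `y_i` -/
def cnIns {V : Type} (G : SimpleGraph V) {d : ℕ} (t : Fin d → V × V) : SimpleGraph (V ⊕ Bool) where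
  Adj a b := match a, b with
    | Sum.inl u, Sum.inl v => G.Adj u v ∧ ¬ ∃ i, t i = (u, v) ∨ t i = (v, u)
    | Sum.inl u, Sum.inr c => ∃ i, cnEnd t (i, c) = u
    | Sum.inr c, Sum.inl u => ∃ i, cnEnd t (i, c) = u
    | Sum.inr _, Sum.inr _ => False
  symm := ⟨by
    rintro (u | c) (v | c') h
    · exact ⟨h.1.symm, fun ⟨i, hi⟩ => h.2 ⟨i, hi.symm⟩⟩
    · exact h
    · exact h
    · exact h⟩
  loopless := ⟨by
    rintro (u | c) h
    · exact G.loopless.irrefl u h.1
    · exact h⟩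

open Classical in
/-- number of oriented edges -/
theorem cn_card_or {V : Type} [Fintype V] {d : ℕ} {G : SimpleGraph V} (hG : G ∈ cnReg V d) :
    (Finset.univ.filter fun p : V × V => G.Adj p.1 p.2).card = Fintype.card V * d := by
  rw [cn_mem_reg] at hG
  have h1 : (Finset.univ.filter fun p : V × V => G.Adj p.1 p.2)
      = (Finset.univ : Finset V).biUnion fun v => (Finset.univ.filter fun w => G.Adj v w).image fun w => (v, w) := by
    ext ⟨a, b⟩
    simp
  rw [h1, Finset.card_biUnion]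
  · have : ∀ v ∈ (Finset.univ : Finset V), ((Finset.univ.filter fun w => G.Adj v w).image fun w => (v, w)).card = d := by
      intro v _
      rw [Finset.card_image_of_injective _ (fun a b h => (Prod.ext_iff.1 h).2), hG v]
    rw [Finset.sum_congr rfl this]
    simp
  · intro v _ w _ hvw
    show Disjoint _ _
    rw [Finset.disjoint_left]
    intro p hp hp'
    simp only [Finset.mem_image, Finset.mem_filter, Finset.mem_univ, true_and] at hp hp'
    obtain ⟨a, _, rfl⟩ := hp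
    obtain ⟨b, _, hb⟩ := hp'
    exact hvw (Prod.ext_iff.1 hb).1.symm

open Classical in
/-- the oriented edges which avoid a set `U` of vertices -/
theorem cn_card_avoid {V : Type} [Fintype V] {d : ℕ} {G : SimpleGraph V} (hG : G ∈ cnReg V d) (U : Finset V) :
    Fintype.card V * d - 2 * (U.card * d) ≤ (Finset.univ.filter fun p : V × V => G.Adj p.1 p.2 ∧ p.1 ∉ U ∧ p.2 ∉ U).card := by
  have h0 := cn_card_or hG
  rw [cn_mem_reg] at hG
  set B1 : Finset (V × V) := U.biUnion fun v => (Finset.univ.filter fun w => G.Adj v w).image fun w => (v, w) with hB1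
  set B2 : Finset (V × V) := U.biUnion fun v => (Finset.univ.filter fun w => G.Adj v w).image fun w => (w, v) with hB2
  have c1 : B1.card ≤ U.card * d := by
    refine Finset.card_biUnion_le.trans ?_
    have : ∀ v ∈ U, ((Finset.univ.filter fun w => G.Adj v w).image fun w => (v, w)).card ≤ d := fun v _ =>
      Finset.card_image_le.trans (hG v).le
    refine (Finset.sum_le_sum this).trans ?_
    simp
  have c2 : B2.card ≤ U.card * d := by
    refine Finset.card_biUnion_le.trans ?_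
    have : ∀ v ∈ U, ((Finset.univ.filter fun w => G.Adj v w).image fun w => (w, v)).card ≤ d := fun v _ =>
      Finset.card_image_le.trans (hG v).le
    refine (Finset.sum_le_sum this).trans ?_
    simp
  have hsub : (Finset.univ.filter fun p : V × V => G.Adj p.1 p.2)
      ⊆ (Finset.univ.filter fun p : V × V => G.Adj p.1 p.2 ∧ p.1 ∉ U ∧ p.2 ∉ U) ∪ (B1 ∪ B2) := by
    rintro ⟨a, b⟩ hp
    simp only [Finset.mem_filter, Finset.mem_univ, true_and] at hp
    simp only [Finset.mem_union, Finset.mem_filter, Finset.mem_univ, true_and, hB1, hB2, Finset.mem_biUnion, Finset.mem_image, Prod.mk.injEq]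
    by_cases ha : a ∈ U
    · exact Or.inr (Or.inl ⟨a, ha, b, hp, rfl, rfl⟩)
    · by_cases hb : b ∈ U
      · exact Or.inr (Or.inr ⟨b, hb, a, hp.symm, rfl, rfl⟩)
      · exact Or.inl ⟨hp, ha, hb⟩
  have h3 := Finset.card_le_card hsub
  have h4 := Finset.card_union_le (Finset.univ.filter fun p : V × V => G.Adj p.1 p.2 ∧ p.1 ∉ U ∧ p.2 ∉ U) (B1 ∪ B2)
  have h5 := Finset.card_union_le B1 B2
  omega

/-- extension of a tuple by one oriented edge -/
theorem cn_tup_cons {V : Type} {G : SimpleGraph V} {k : ℕ} {t : Fin k → V × V} (ht : CnTup G t) {p : V × V} (hp : G.Adj p.1 p.2)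
    (h1 : ∀ q, cnEnd t q ≠ p.1) (h2 : ∀ q, cnEnd t q ≠ p.2) : CnTup G (Fin.cons p t : Fin (k + 1) → V × V) := by
  refine ⟨fun i => ?_, ?_⟩
  · refine Fin.cases ?_ (fun j => ?_) i
    · simpa using hp
    · simpa using ht.1 j
  · have e0 : ∀ b, cnEnd (Fin.cons p t : Fin (k + 1) → V × V) (0, b) = if b then p.2 else p.1 := fun b => by simp [cnEnd]
    have e1 : ∀ (j : Fin k) b, cnEnd (Fin.cons p t : Fin (k + 1) → V × V) (j.succ, b) = cnEnd t (j, b) := fun j b => by simp [cnEnd]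
    have hne : p.1 ≠ p.2 := hp.ne
    rintro ⟨i, b⟩ ⟨i', b'⟩ h
    induction i using Fin.cases with
    | zero =>
      induction i' using Fin.cases with
      | zero =>
        rw [e0, e0] at h
        cases b <;> cases b' <;> simp_all
      | succ j' =>
        rw [e0, e1] at h
        cases b
        · exact absurd h.symm (h1 _)
        · exact absurd h.symm (h2 _)
    | succ j =>
      induction i' using Fin.cases with
      | zero =>
        rw [e0, e1] at h
        cases b'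
        · exact absurd h (h1 _)
        · exact absurd h (h2 _)
      | succ j' =>
        rw [e1, e1] at h
        have := ht.2 h
        simp only [Prod.mk.injEq] at this
        rw [this.1, this.2]

open Classical in
theorem cn_tup_card_aux {V : Type} [Fintype V] {d : ℕ} {G : SimpleGraph V} (hG : G ∈ cnReg V d) (k : ℕ) (hk : k ≤ d) :
    (Fintype.card V * d - 4 * d ^ 2) ^ k ≤ (Finset.univ.filter fun t : Fin k → V × V => CnTup G t).card := by
  induction k with
  | zero =>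
    have : (Finset.univ.filter fun t : Fin 0 → V × V => CnTup G t) = Finset.univ := by
      refine Finset.filter_true_of_mem fun t _ => ⟨fun i => i.elim0, fun q => q.1.elim0⟩
    rw [this]
    simp
  | succ k ih =>
    have ih' := ih (by omega)
    set A := Finset.univ.filter fun t : Fin k → V × V => CnTup G t with hA
    set U : (Fin k → V × V) → Finset V := fun t => Finset.univ.image (cnEnd t) with hU
    set good : (Fin k → V × V) → Finset (V × V) := fun t =>
      Finset.univ.filter fun p : V × V => G.Adj p.1 p.2 ∧ p.1 ∉ U t ∧ p.2 ∉ U t with hgood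
    have hg : ∀ t, Fintype.card V * d - 4 * d ^ 2 ≤ (good t).card := by
      intro t
      have h1 := cn_card_avoid hG (U t)
      have h2 : (U t).card ≤ 2 * k := by
        refine Finset.card_image_le.trans ?_
        simp [mul_comm]
      have h3 : (U t).card * d ≤ 2 * d * d := Nat.mul_le_mul_right d (by omega)
      have h4 : 4 * d ^ 2 = 2 * (2 * d * d) := by ring
      refine le_trans ?_ h1
      omega
    have hcard : (A.sigma good).card ≤ (Finset.univ.filter fun t : Fin (k + 1) → V × V => CnTup G t).card := by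
      refine Finset.card_le_card_of_injOn (fun x => (Fin.cons x.2 x.1 : Fin (k + 1) → V × V)) ?_ ?_
      · rintro ⟨t, p⟩ hx
        simp only [Finset.coe_sigma, Set.mem_sigma_iff, Finset.mem_coe, hA, hgood, hU, Finset.mem_filter, Finset.mem_univ, true_and,
          Finset.mem_image, not_exists] at hx
        simp only [Finset.coe_filter, Finset.mem_univ, true_and, Set.mem_ofPred_eq]
        exact cn_tup_cons hx.1 hx.2.1 hx.2.2.1 hx.2.2.2
      · rintro ⟨t, p⟩ _ ⟨t', p'⟩ _ h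
        simp only at h
        have h1 := (Fin.cons_inj.1 h)
        rw [h1.1, h1.2]
    refine le_trans ?_ hcard
    rw [Finset.card_sigma, pow_succ]
    calc (Fintype.card V * d - 4 * d ^ 2) ^ k * (Fintype.card V * d - 4 * d ^ 2)
        ≤ A.card * (Fintype.card V * d - 4 * d ^ 2) := Nat.mul_le_mul_right _ ih'
      _ = ∑ _t ∈ A, (Fintype.card V * d - 4 * d ^ 2) := by simp
      _ ≤ ∑ t ∈ A, (good t).card := Finset.sum_le_sum fun t _ => hg t

open Classical in
theorem cn_tup_card {V : Type} [Fintype V] {d : ℕ} {G : SimpleGraph V} (hG : G ∈ cnReg V d) :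
    (Fintype.card V * d - 4 * d ^ 2) ^ d ≤ (Finset.univ.filter fun t : Fin d → V × V => CnTup G t).card :=
  cn_tup_card_aux hG d le_rfl

theorem cn_end_false {V : Type} {d : ℕ} (t : Fin d → V × V) (i : Fin d) : cnEnd t (i, false) = (t i).1 := by simp [cnEnd]
theorem cn_end_true {V : Type} {d : ℕ} (t : Fin d → V × V) (i : Fin d) : cnEnd t (i, true) = (t i).2 := by simp [cnEnd]

theorem cn_ins_ll {V : Type} (G : SimpleGraph V) {d : ℕ} (t : Fin d → V × V) (u v : V) :
    (cnIns G t).Adj (Sum.inl u) (Sum.inl v) ↔ G.Adj u v ∧ ¬ ∃ i, t i = (u, v) ∨ t i = (v, u) := Iff.rfl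
theorem cn_ins_lr {V : Type} (G : SimpleGraph V) {d : ℕ} (t : Fin d → V × V) (u : V) (c : Bool) :
    (cnIns G t).Adj (Sum.inl u) (Sum.inr c) ↔ ∃ i, cnEnd t (i, c) = u := Iff.rfl
theorem cn_ins_rl {V : Type} (G : SimpleGraph V) {d : ℕ} (t : Fin d → V × V) (u : V) (c : Bool) :
    (cnIns G t).Adj (Sum.inr c) (Sum.inl u) ↔ ∃ i, cnEnd t (i, c) = u := Iff.rfl
theorem cn_ins_rr {V : Type} (G : SimpleGraph V) {d : ℕ} (t : Fin d → V × V) (c c' : Bool) :
    ¬ (cnIns G t).Adj (Sum.inr c) (Sum.inr c') := fun h => h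

theorem cn_ins_reg {V : Type} [Fintype V] {d : ℕ} {G : SimpleGraph V} (hG : G ∈ cnReg V d) {t : Fin d → V × V} (ht : CnTup G t) :
    cnIns G t ∈ cnReg (V ⊕ Bool) d := by
  classical
  rw [cn_mem_reg] at hG ⊢
  have inj : ∀ i c i' c', cnEnd t (i, c) = cnEnd t (i', c') → i = i' ∧ c = c' := fun i c i' c' h => by
    have := ht.2 h
    simpa using this
  rintro (u | c)
  · refine Eq.trans (Eq.symm ?_) (hG u)
    refine Finset.card_bij (fun v _ => if ∃ i, t i = (u, v) then Sum.inr false else if ∃ i, t i = (v, u) then Sum.inr true else Sum.inl v) ?_ ?_ ?_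
    · intro v hv
      simp only [Finset.mem_filter, Finset.mem_univ, true_and] at hv ⊢
      split_ifs with h1 h2
      · obtain ⟨i, hi⟩ := h1
        exact (cn_ins_lr G t u false).2 ⟨i, by rw [cn_end_false, hi]⟩
      · obtain ⟨i, hi⟩ := h2
        exact (cn_ins_lr G t u true).2 ⟨i, by rw [cn_end_true, hi]⟩
      · refine (cn_ins_ll G t u v).2 ⟨hv, ?_⟩
        rintro ⟨i, hi | hi⟩
        · exact h1 ⟨i, hi⟩
        · exact h2 ⟨i, hi⟩
    · intro v _ v' _ h
      split_ifs at h with h1 h2 h3 h4 h5 h6 h7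
      · obtain ⟨i, hi⟩ := h1
        obtain ⟨i', hi'⟩ := h2
        have := (inj i false i' false (by rw [cn_end_false, cn_end_false, hi, hi'])).1
        subst this
        rw [hi] at hi'
        exact (Prod.ext_iff.1 hi').2
      · simp at h
      · simp at h
      · obtain ⟨i, hi⟩ := h4
        obtain ⟨i', hi'⟩ := h6
        have := (inj i true i' true (by rw [cn_end_true, cn_end_true, hi, hi'])).1
        subst this
        rw [hi] at hi'
        exact (Prod.ext_iff.1 hi').1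
      · exact Sum.inl_injective h
    · rintro (v | c) hb
      · simp only [Finset.mem_filter, Finset.mem_univ, true_and] at hb
        obtain ⟨h1, h2⟩ := (cn_ins_ll G t u v).1 hb
        refine ⟨v, by simpa using h1, ?_⟩
        rw [if_neg (fun ⟨i, hi⟩ => h2 ⟨i, Or.inl hi⟩), if_neg (fun ⟨i, hi⟩ => h2 ⟨i, Or.inr hi⟩)]
      · simp only [Finset.mem_filter, Finset.mem_univ, true_and] at hb
        obtain ⟨i, hi⟩ := (cn_ins_lr G t u c).1 hb
        cases c
        · rw [cn_end_false] at hi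
          have e : t i = (u, (t i).2) := Prod.ext hi rfl
          refine ⟨(t i).2, by simpa [← hi] using ht.1 i, ?_⟩
          rw [if_pos ⟨i, e⟩]
        · rw [cn_end_true] at hi
          have e : t i = ((t i).1, u) := Prod.ext rfl hi
          refine ⟨(t i).1, by simpa [← hi] using (ht.1 i).symm, ?_⟩
          rw [if_neg, if_pos ⟨i, e⟩]
          rintro ⟨i', hi'⟩
          have := (inj i' false i true (by rw [cn_end_false, cn_end_true, hi', hi])).2
          simp at this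
  · have : (Finset.univ.filter fun b => (cnIns G t).Adj (Sum.inr c) b) = Finset.univ.image fun i : Fin d => (Sum.inl (cnEnd t (i, c)) : V ⊕ Bool) := by
      ext b
      simp only [Finset.mem_filter, Finset.mem_univ, true_and, Finset.mem_image]
      rcases b with v | c'
      · rw [cn_ins_rl]
        simp
      · simp [cn_ins_rr]
    rw [this, Finset.card_image_of_injective]
    · simp
    · intro i i' h
      exact (inj i c i' c (Sum.inl_injective h)).1

theorem cn_ins_inj {V : Type} {d : ℕ} {G G' : SimpleGraph V} {t : Fin d → V × V} (ht : CnTup G t) (ht' : CnTup G' t) (h : cnIns G t = cnIns G' t) : G = G' := by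
  have key : ∀ {H : SimpleGraph V}, CnTup H t → ∀ u v, H.Adj u v ↔ ((cnIns H t).Adj (Sum.inl u) (Sum.inl v) ∨ ∃ i, t i = (u, v) ∨ t i = (v, u)) := by
    intro H hH u v
    rw [cn_ins_ll]
    constructor
    · intro h1
      by_cases h2 : ∃ i, t i = (u, v) ∨ t i = (v, u)
      · exact Or.inr h2
      · exact Or.inl ⟨h1, h2⟩
    · rintro (h1 | ⟨i, hi | hi⟩)
      · exact h1.1
      · have := hH.1 i; rw [hi] at this; exact this
      · have := hH.1 i; rw [hi] at this; exact this.symm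
  ext u v
  rw [key ht, key ht', h]

open Classical in
/-- injective maps into a finite set -/
theorem cn_card_inj {V : Type} [Fintype V] (N : Finset V) (d : ℕ) :
    (Finset.univ.filter fun f : Fin d → V => Function.Injective f ∧ ∀ i, f i ∈ N).card = N.card.descFactorial d := by
  rw [← Fintype.card_subtype]
  have e : {f : Fin d → V // Function.Injective f ∧ ∀ i, f i ∈ N} ≃ (Fin d ↪ N) :=
    { toFun := fun f => ⟨fun i => ⟨f.1 i, f.2.2 i⟩, fun i j h => f.2.1 (Subtype.ext_iff.1 h)⟩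
      invFun := fun g => ⟨fun i => (g i : V), fun i j h => g.injective (Subtype.ext h), fun i => (g i).2⟩
      left_inv := fun f => rfl
      right_inv := fun g => rfl }
  rw [Fintype.card_congr e, Fintype.card_embedding_eq, Fintype.card_coe, Fintype.card_fin]

open Classical in
theorem cn_ins_fib {V : Type} [Fintype V] {d : ℕ} {H : SimpleGraph (V ⊕ Bool)} (hH : H ∈ cnReg (V ⊕ Bool) d) :
    (Finset.univ.filter fun t : Fin d → V × V => ∃ G : SimpleGraph V, CnTup G t ∧ cnIns G t = H).card ≤ d.factorial ^ 2 := by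
  rw [cn_mem_reg] at hH
  set N : Bool → Finset V := fun c => Finset.univ.filter fun v => H.Adj (Sum.inr c) (Sum.inl v) with hN
  have hNc : ∀ c, (N c).card ≤ d := by
    intro c
    rw [← hH (Sum.inr c), ← Finset.card_image_of_injective (N c) (Sum.inl_injective (β := Bool))]
    refine Finset.card_le_card fun b hb => ?_
    simp only [hN, Finset.mem_image, Finset.mem_filter, Finset.mem_univ, true_and] at hb ⊢
    obtain ⟨v, hv, rfl⟩ := hb
    exact hv
  set I : Bool → Finset (Fin d → V) := fun c => Finset.univ.filter fun f : Fin d → V => Function.Injective f ∧ ∀ i, f i ∈ N c with hI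
  have hIc : ∀ c, (I c).card ≤ d.factorial := by
    intro c
    rw [hI]
    simp only
    rw [cn_card_inj, ← Nat.descFactorial_self d]
    exact Nat.descFactorial_le d (hNc c)
  have h1 : (Finset.univ.filter fun t : Fin d → V × V => ∃ G : SimpleGraph V, CnTup G t ∧ cnIns G t = H).card ≤ (I false ×ˢ I true).card := by
    refine Finset.card_le_card_of_injOn (fun t => (fun i => (t i).1, fun i => (t i).2)) ?_ ?_
    · intro t ht
      simp only [Finset.coe_filter, Finset.mem_univ, true_and, Set.mem_ofPred_eq] at ht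
      obtain ⟨G, hG, rfl⟩ := ht
      have inj : ∀ i c i' c', cnEnd t (i, c) = cnEnd t (i', c') → i = i' ∧ c = c' := fun i c i' c' h => by
        have := hG.2 h
        simpa using this
      simp only [Finset.coe_product, Set.mem_prod, Finset.mem_coe, hI, hN, Finset.mem_filter, Finset.mem_univ, true_and]
      refine ⟨⟨fun i j h => (inj i false j false (by rw [cn_end_false, cn_end_false]; exact h)).1, fun i => (cn_ins_rl G t _ false).2 ⟨i, cn_end_false t i⟩⟩,
        ⟨fun i j h => (inj i true j true (by rw [cn_end_true, cn_end_true]; exact h)).1, fun i => (cn_ins_rl G t _ true).2 ⟨i, cn_end_true t i⟩⟩⟩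
    · intro t _ t' _ h
      simp only [Prod.mk.injEq] at h
      funext i
      exact Prod.ext (congrFun h.1 i) (congrFun h.2 i)
  refine h1.trans ?_
  rw [Finset.card_product, sq]
  exact Nat.mul_le_mul (hIc false) (hIc true)

theorem cn_insert (V : Type) [Fintype V] (d : ℕ) :
    (cnReg V d).card * (Fintype.card V * d - 4 * d ^ 2) ^ d ≤ (cnReg (V ⊕ Bool) d).card * d.factorial ^ 2 := by
  classical
  set P := (cnReg V d).sigma fun G => Finset.univ.filter fun t : Fin d → V × V => CnTup G t with hP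
  set Q := (cnReg (V ⊕ Bool) d).sigma fun H => Finset.univ.filter fun t : Fin d → V × V => ∃ G : SimpleGraph V, CnTup G t ∧ cnIns G t = H with hQ
  have h1 : (cnReg V d).card * (Fintype.card V * d - 4 * d ^ 2) ^ d ≤ P.card := by
    rw [hP, Finset.card_sigma]
    calc (cnReg V d).card * (Fintype.card V * d - 4 * d ^ 2) ^ d = ∑ _G ∈ cnReg V d, (Fintype.card V * d - 4 * d ^ 2) ^ d := by simp
      _ ≤ _ := Finset.sum_le_sum fun G hG => cn_tup_card hG
  have h2 : Q.card ≤ (cnReg (V ⊕ Bool) d).card * d.factorial ^ 2 := by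
    rw [hQ, Finset.card_sigma]
    calc _ ≤ ∑ _H ∈ cnReg (V ⊕ Bool) d, d.factorial ^ 2 := Finset.sum_le_sum fun H hH => cn_ins_fib hH
      _ = _ := by simp
  have h3 : P.card ≤ Q.card := by
    refine Finset.card_le_card_of_injOn (fun x => ⟨cnIns x.1 x.2, x.2⟩) ?_ ?_
    · rintro ⟨G, t⟩ hx
      simp only [hP, Finset.coe_sigma, Set.mem_sigma_iff, Finset.mem_coe, Finset.mem_filter, Finset.mem_univ, true_and] at hx
      simp only [hQ, Finset.coe_sigma, Set.mem_sigma_iff, Finset.mem_coe, Finset.mem_filter, Finset.mem_univ, true_and]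
      exact ⟨cn_ins_reg hx.1 hx.2, G, hx.2, rfl⟩
    · rintro ⟨G, t⟩ hx ⟨G', t'⟩ hx' h
      simp only [hP, Finset.coe_sigma, Set.mem_sigma_iff, Finset.mem_coe, Finset.mem_filter, Finset.mem_univ, true_and] at hx hx'
      simp only [Sigma.mk.injEq, heq_eq_eq] at h
      obtain ⟨h4, rfl⟩ := h
      rw [cn_ins_inj hx.2 hx'.2 h4]
  exact h1.trans (h3.trans h2)

theorem cn_base (k d : ℕ) : 0 < (cnReg (Fin k × Fin (d + 1)) d).card := by
  classical
  rw [Finset.card_pos]
  obtain ⟨Gk, hGk⟩ : ∃ Gk : SimpleGraph (Fin k × Fin (d + 1)), ∀ a b, Gk.Adj a b ↔ a.1 = b.1 ∧ a.2 ≠ b.2 :=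
    ⟨{ Adj := fun a b => a.1 = b.1 ∧ a.2 ≠ b.2, symm := ⟨fun a b h => ⟨h.1.symm, h.2.symm⟩⟩, loopless := ⟨fun a h => h.2 rfl⟩ }, fun _ _ => Iff.rfl⟩
  refine ⟨Gk, ?_⟩
  rw [cn_mem_reg]
  rintro ⟨a, b⟩
  have : (Finset.univ.filter fun w : Fin k × Fin (d + 1) => Gk.Adj (a, b) w) = (Finset.univ.erase b).image fun c => (a, c) := by
    ext ⟨x, y⟩
    simp only [Finset.mem_filter, Finset.mem_univ, true_and, Finset.mem_image, Finset.mem_erase, and_true, Prod.mk.injEq, hGk]
    constructor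
    · rintro ⟨rfl, h⟩
      exact ⟨y, h.symm, rfl, rfl⟩
    · rintro ⟨c, hc, rfl, rfl⟩
      exact ⟨rfl, hc.symm⟩
  rw [this, Finset.card_image_of_injective _ (fun x y h => (Prod.ext_iff.1 h).2), Finset.card_erase_of_mem (Finset.mem_univ _)]
  simp

theorem cn_even {n d : ℕ} (h : (Claims.C0462.regularGraphs n d).Nonempty) : Even (n * d) := by
  classical
  obtain ⟨G, hG⟩ := h
  rw [Claims.C0462.regularGraphs, Finset.mem_filter] at hG
  have h1 := G.sum_degrees_eq_twice_card_edges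
  have h2 : ∑ v, G.degree v = n * d := by
    rw [Finset.sum_congr rfl fun v _ => hG.2 v]
    simp
  rw [← h2, h1]
  exact even_two_mul _

/-- the scalar inequality behind `cn_step` -/
theorem cn_step_aux {x δ : ℝ} (K : ℕ) (hK : (K : ℝ) = 4 * δ + 2) (_hδ : 0 ≤ δ) (hx : 8 * δ ≤ x) (hx0 : 0 < x) :
    x ^ K * (x + 2) ≤ (x - 4 * δ) * (x + 2) ^ K := by
  have h1 : (x + 2) ^ K = x ^ K * (1 + 2 / x) ^ K := by
    rw [← mul_pow]; congr 1; field_simp
  have h2 : 1 + (K : ℝ) * (2 / x) ≤ (1 + 2 / x) ^ K := one_add_mul_le_pow (by have : 0 ≤ 2 / x := by positivity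
                                                                              linarith) K
  have h3 : x + 2 ≤ (x - 4 * δ) * (1 + (K : ℝ) * (2 / x)) := by
    have e : (x - 4 * δ) * (1 + (K : ℝ) * (2 / x)) = (x - 4 * δ) * (x + 2 * K) / x := by field_simp
    rw [e, le_div_iff₀ hx0, hK]
    nlinarith
  have h4 : 0 ≤ x - 4 * δ := by linarith
  calc x ^ K * (x + 2) ≤ x ^ K * ((x - 4 * δ) * (1 + (K : ℝ) * (2 / x))) := mul_le_mul_of_nonneg_left h3 (by positivity)
    _ ≤ x ^ K * ((x - 4 * δ) * (1 + 2 / x) ^ K) := mul_le_mul_of_nonneg_left (mul_le_mul_of_nonneg_left h2 h4) (by positivity)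
    _ = (x - 4 * δ) * (x + 2) ^ K := by rw [h1]; ring

theorem cn_step {n d : ℕ} (hd : 1 ≤ d) (hn : 8 * d ≤ n) {g g' : ℝ} (hg : 0 ≤ g) (h : g * ((n * d - 4 * d ^ 2 : ℕ) : ℝ) ^ d ≤ g' * (d.factorial : ℝ) ^ 2)
    {c₀ : ℝ} (h0 : c₀ * Real.sqrt ((n * d).factorial) ≤ g * (d.factorial : ℝ) ^ n * (n : ℝ) ^ (d * (4 * d + 2))) (hc : 0 ≤ c₀) :
    c₀ * Real.sqrt (((n + 2) * d).factorial) ≤ g' * (d.factorial : ℝ) ^ (n + 2) * ((n + 2 : ℕ) : ℝ) ^ (d * (4 * d + 2)) := by
  have hn0 : (0 : ℝ) < n := by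
    have : 0 < n := by omega
    exact_mod_cast this
  -- factorials
  have f1 : (((n + 2) * d).factorial : ℝ) ≤ ((n * d).factorial : ℝ) * ((((n + 2) * d : ℕ) : ℝ) ^ d) ^ 2 := by
    have a1 := Nat.factorial_mul_descFactorial (n := (n + 2) * d) (k := 2 * d) (by nlinarith)
    have a2 := Nat.descFactorial_le_pow ((n + 2) * d) (2 * d)
    have a3 : (n + 2) * d - 2 * d = n * d := by
      have : (n + 2) * d = n * d + 2 * d := by ring
      omega
    rw [a3] at a1
    have a4 : ((n + 2) * d).factorial ≤ (n * d).factorial * ((n + 2) * d) ^ (2 * d) := by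
      rw [← a1]; exact Nat.mul_le_mul_left _ a2
    have a5 : (((n + 2) * d) ^ d) ^ 2 = ((n + 2) * d) ^ (2 * d) := by rw [← pow_mul, mul_comm d 2]
    rw [← a5] at a4
    exact_mod_cast a4
  have f2 : Real.sqrt (((n + 2) * d).factorial) ≤ Real.sqrt ((n * d).factorial) * (((n + 2) * d : ℕ) : ℝ) ^ d := by
    refine (Real.sqrt_le_sqrt f1).trans (le_of_eq ?_)
    rw [Real.sqrt_mul (by positivity), Real.sqrt_sq (by positivity)]
  -- the scalar inequality
  have s1 := cn_step_aux (x := n) (δ := d) (4 * d + 2) (by push_cast; ring) (by positivity) (by exact_mod_cast hn) hn0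
  have s2 : ((n : ℝ) ^ (4 * d + 2) * ((n : ℝ) + 2)) ^ d ≤ (((n : ℝ) - 4 * d) * ((n : ℝ) + 2) ^ (4 * d + 2)) ^ d :=
    pow_le_pow_left₀ (by positivity) s1 d
  have s3 : (n : ℝ) ^ (d * (4 * d + 2)) * ((n : ℝ) + 2) ^ d ≤ ((n : ℝ) - 4 * d) ^ d * ((n : ℝ) + 2) ^ (d * (4 * d + 2)) := by
    rw [mul_pow, mul_pow, ← pow_mul, ← pow_mul, mul_comm (4 * d + 2) d] at s2
    exact s2
  have c1 : ((n * d - 4 * d ^ 2 : ℕ) : ℝ) = d * ((n : ℝ) - 4 * d) := by
    have : 4 * d ^ 2 ≤ n * d := by nlinarith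
    rw [Nat.cast_sub this]; push_cast; ring
  rw [c1, mul_pow] at h
  have c2 : (((n + 2) * d : ℕ) : ℝ) = d * ((n : ℝ) + 2) := by push_cast; ring
  have c3 : ((n + 2 : ℕ) : ℝ) = (n : ℝ) + 2 := by push_cast; ring
  rw [c2, mul_pow] at f2
  rw [c3]
  have hF : (0 : ℝ) ≤ (d.factorial : ℝ) ^ n := by positivity
  have hD : (0 : ℝ) ≤ (d : ℝ) ^ d := by positivity
  have hN : (0 : ℝ) ≤ ((n : ℝ) + 2) ^ d := by positivity
  calc c₀ * Real.sqrt (((n + 2) * d).factorial)
      ≤ c₀ * (Real.sqrt ((n * d).factorial) * ((d : ℝ) ^ d * ((n : ℝ) + 2) ^ d)) := mul_le_mul_of_nonneg_left f2 hc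
    _ = (c₀ * Real.sqrt ((n * d).factorial)) * ((d : ℝ) ^ d * ((n : ℝ) + 2) ^ d) := by ring
    _ ≤ (g * (d.factorial : ℝ) ^ n * (n : ℝ) ^ (d * (4 * d + 2))) * ((d : ℝ) ^ d * ((n : ℝ) + 2) ^ d) :=
        mul_le_mul_of_nonneg_right h0 (by positivity)
    _ = (g * (d.factorial : ℝ) ^ n * (d : ℝ) ^ d) * ((n : ℝ) ^ (d * (4 * d + 2)) * ((n : ℝ) + 2) ^ d) := by ring
    _ ≤ (g * (d.factorial : ℝ) ^ n * (d : ℝ) ^ d) * (((n : ℝ) - 4 * d) ^ d * ((n : ℝ) + 2) ^ (d * (4 * d + 2))) :=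
        mul_le_mul_of_nonneg_left s3 (by positivity)
    _ = (g * ((d : ℝ) ^ d * ((n : ℝ) - 4 * d) ^ d)) * ((d.factorial : ℝ) ^ n * ((n : ℝ) + 2) ^ (d * (4 * d + 2))) := by ring
    _ ≤ (g' * (d.factorial : ℝ) ^ 2) * ((d.factorial : ℝ) ^ n * ((n : ℝ) + 2) ^ (d * (4 * d + 2))) :=
        mul_le_mul_of_nonneg_right h (by positivity)
    _ = g' * (d.factorial : ℝ) ^ (n + 2) * ((n : ℝ) + 2) ^ (d * (4 * d + 2)) := by ring

/-- the insertion inequality on `Fin n` -/
theorem cn_insert_fin (n d : ℕ) :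
    (Claims.C0462.regularGraphs n d).card * (n * d - 4 * d ^ 2) ^ d ≤ (Claims.C0462.regularGraphs (n + 2) d).card * d.factorial ^ 2 := by
  have h := cn_insert (Fin n) d
  have e : Fin n ⊕ Bool ≃ Fin (n + 2) := Fintype.equivFinOfCardEq (by simp)
  rw [cn_card_congr e d, cn_reg_fin, cn_reg_fin, Fintype.card_fin] at h
  exact h

theorem cn_base_fin (k d : ℕ) : 0 < (Claims.C0462.regularGraphs (k * (d + 1)) d).card := by
  have h := cn_base k d
  rw [cn_card_congr finProdFinEquiv d, cn_reg_fin] at h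
  exact h

theorem cn_lower_aux {d : ℕ} (hd : 1 ≤ d) (m : ℕ) (hm : 8 * d ≤ m) (hg : 0 < (Claims.C0462.regularGraphs m d).card) :
    ∃ c₀ : ℝ, 0 < c₀ ∧ ∀ j : ℕ, c₀ * Real.sqrt (((m + 2 * j) * d).factorial)
      ≤ ((Claims.C0462.regularGraphs (m + 2 * j) d).card : ℝ) * (d.factorial : ℝ) ^ (m + 2 * j) * ((m + 2 * j : ℕ) : ℝ) ^ (d * (4 * d + 2)) := by
  have hm0 : 0 < m := by omega
  have hs : 0 < Real.sqrt ((m * d).factorial) := Real.sqrt_pos.2 (by positivity)
  have hg' : (0 : ℝ) < ((Claims.C0462.regularGraphs m d).card : ℝ) := by exact_mod_cast hg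
  have hm' : (0 : ℝ) < (m : ℝ) := by exact_mod_cast hm0
  refine ⟨((Claims.C0462.regularGraphs m d).card : ℝ) * (d.factorial : ℝ) ^ m * (m : ℝ) ^ (d * (4 * d + 2)) / Real.sqrt ((m * d).factorial),
    by positivity, fun j => ?_⟩
  induction j with
  | zero =>
    simp only [Nat.mul_zero, Nat.add_zero]
    rw [div_mul_cancel₀ _ hs.ne']
  | succ j ih =>
    have e : m + 2 * (j + 1) = (m + 2 * j) + 2 := by ring
    rw [e]
    refine cn_step hd (by omega) (Nat.cast_nonneg _) ?_ ih (by positivity)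
    exact_mod_cast cn_insert_fin (m + 2 * j) d

theorem cn_lower {d : ℕ} (hd : 1 ≤ d) : ∃ (C : ℕ) (n₀ : ℕ), ∀ n : ℕ, n₀ ≤ n → (Claims.C0462.regularGraphs n d).Nonempty →
    Real.sqrt ((n * d).factorial) ≤ (n : ℝ) ^ C * (Claims.C0462.regularGraphs n d).card * (d.factorial : ℝ) ^ n := by
  obtain ⟨c1, hc1, H1⟩ := cn_lower_aux hd (8 * (d + 1)) (by omega) (cn_base_fin 8 d)
  obtain ⟨c2, hc2, H2⟩ := cn_lower_aux hd (9 * (d + 1)) (by omega) (cn_base_fin 9 d)
  refine ⟨d * (4 * d + 2) + 1, max (9 * (d + 1)) (max ⌈c1⁻¹⌉₊ ⌈c2⁻¹⌉₊), fun n hn hne => ?_⟩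
  have hn1 : 9 * (d + 1) ≤ n := (le_max_left _ _).trans hn
  have hn2 : c1⁻¹ ≤ n := (Nat.le_ceil _).trans (by exact_mod_cast ((le_max_left _ _).trans (le_max_right _ _)).trans hn)
  have hn3 : c2⁻¹ ≤ n := (Nat.le_ceil _).trans (by exact_mod_cast ((le_max_right _ _).trans (le_max_right _ _)).trans hn)
  have hev := cn_even hne
  -- common end
  have fin : ∀ c : ℝ, 0 < c → c⁻¹ ≤ n → c * Real.sqrt ((n * d).factorial)
      ≤ ((Claims.C0462.regularGraphs n d).card : ℝ) * (d.factorial : ℝ) ^ n * (n : ℝ) ^ (d * (4 * d + 2)) →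
      Real.sqrt ((n * d).factorial) ≤ (n : ℝ) ^ (d * (4 * d + 2) + 1) * (Claims.C0462.regularGraphs n d).card * (d.factorial : ℝ) ^ n := by
    intro c hc hcn h
    have h1 : Real.sqrt ((n * d).factorial) = c⁻¹ * (c * Real.sqrt ((n * d).factorial)) := by
      rw [← mul_assoc, inv_mul_cancel₀ hc.ne', one_mul]
    rw [h1]
    calc c⁻¹ * (c * Real.sqrt ((n * d).factorial))
        ≤ c⁻¹ * (((Claims.C0462.regularGraphs n d).card : ℝ) * (d.factorial : ℝ) ^ n * (n : ℝ) ^ (d * (4 * d + 2))) :=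
          mul_le_mul_of_nonneg_left h (by positivity)
      _ ≤ (n : ℝ) * (((Claims.C0462.regularGraphs n d).card : ℝ) * (d.factorial : ℝ) ^ n * (n : ℝ) ^ (d * (4 * d + 2))) :=
          mul_le_mul_of_nonneg_right hcn (mul_nonneg (mul_nonneg (Nat.cast_nonneg _) (pow_nonneg (Nat.cast_nonneg _) _)) (pow_nonneg (Nat.cast_nonneg _) _))
      _ = _ := by ring
  rcases Nat.even_or_odd n with he | ho
  · obtain ⟨j, hj⟩ : ∃ j, n = 8 * (d + 1) + 2 * j := by
      obtain ⟨a, ha⟩ := he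
      exact ⟨a - 4 * (d + 1), by omega⟩
    have := H1 j
    rw [← hj] at this
    exact fin c1 hc1 hn2 this
  · have hde : Even d := by
      rcases Nat.even_mul.1 hev with h | h
      · exact absurd h (Nat.not_even_iff_odd.2 ho)
      · exact h
    obtain ⟨j, hj⟩ : ∃ j, n = 9 * (d + 1) + 2 * j := by
      obtain ⟨a, ha⟩ := ho
      obtain ⟨b, hb⟩ := hde
      exact ⟨a - 9 * b - 4, by omega⟩
    have := H2 j
    rw [← hj] at this
    exact fin c2 hc2 hn3 this

/-! ### (B) matchings respecting a colouring -/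

open Classical in
/-- involutions of `X` with support `S` which exchange the colour classes `(j,k)`, `(k,j)` -/
def cnMat {X 𝒜 : Type} [Fintype X] (S : Finset X) (χ : X → 𝒜 × 𝒜) : Finset (Equiv.Perm X) :=
  Finset.univ.filter fun μ => (∀ x, μ (μ x) = x) ∧ (∀ x, μ x ≠ x ↔ x ∈ S) ∧ ∀ x ∈ S, χ (μ x) = (χ x).swap

open Classical in
theorem cn_mat_mem {X 𝒜 : Type} [Fintype X] {S : Finset X} {χ : X → 𝒜 × 𝒜} {μ : Equiv.Perm X} :
    μ ∈ cnMat S χ ↔ (∀ x, μ (μ x) = x) ∧ (∀ x, μ x ≠ x ↔ x ∈ S) ∧ ∀ x ∈ S, χ (μ x) = (χ x).swap := by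
  simp [cnMat]

open Classical in
theorem cn_mat_rec {X 𝒜 : Type} [Fintype X] (S : Finset X) (χ : X → 𝒜 × 𝒜) {x₀ : X} (hx : x₀ ∈ S) :
    (cnMat S χ).card ≤ ∑ y ∈ S.filter (fun y => y ≠ x₀ ∧ χ y = (χ x₀).swap), (cnMat ((S.erase x₀).erase y) χ).card := by
  rw [← Finset.card_sigma]
  refine Finset.card_le_card_of_injOn (fun μ => ⟨μ x₀, μ * Equiv.swap x₀ (μ x₀)⟩) ?_ ?_
  · intro μ hμ
    rw [Finset.mem_coe, cn_mat_mem] at hμ
    obtain ⟨h1, h2, h3⟩ := hμ
    have hy0 : μ x₀ ≠ x₀ := (h2 x₀).2 hx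
    have hyS : μ x₀ ∈ S := (h2 _).1 (by rw [h1]; exact hy0.symm)
    simp only [Finset.coe_sigma, Set.mem_sigma_iff, Finset.mem_coe, Finset.mem_filter]
    refine ⟨⟨hyS, hy0, h3 x₀ hx⟩, ?_⟩
    rw [cn_mat_mem]
    have ev : ∀ z, (μ * Equiv.swap x₀ (μ x₀)) z = if z = x₀ then x₀ else if z = μ x₀ then μ x₀ else μ z := by
      intro z
      rw [Equiv.Perm.mul_apply]
      split_ifs with a b
      · rw [a, Equiv.swap_apply_left]; exact h1 x₀
      · rw [b, Equiv.swap_apply_right]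
      · rw [Equiv.swap_apply_of_ne_of_ne a b]
    refine ⟨fun z => ?_, fun z => ?_, fun z hz => ?_⟩
    · by_cases a : z = x₀
      · rw [ev z, if_pos a, ev x₀, if_pos rfl, a]
      · by_cases b : z = μ x₀
        · rw [ev z, if_neg a, if_pos b, ev (μ x₀), if_neg hy0, if_pos rfl, b]
        · have c1 : μ z ≠ x₀ := fun h => b (by rw [← h, h1])
          have c2 : μ z ≠ μ x₀ := fun h => a (μ.injective h)
          rw [ev z, if_neg a, if_neg b, ev (μ z), if_neg c1, if_neg c2, h1]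
    · by_cases a : z = x₀
      · rw [ev z, if_pos a]
        simp [a]
      · by_cases b : z = μ x₀
        · rw [ev z, if_neg a, if_pos b]
          simp [b]
        · rw [ev z, if_neg a, if_neg b, h2 z]
          simp [a, b]
    · simp only [Finset.mem_erase] at hz
      rw [ev z, if_neg hz.2.1, if_neg hz.1]
      exact h3 z hz.2.2
  · intro μ _ μ' _ h
    simp only [Sigma.mk.injEq, heq_eq_eq] at h
    obtain ⟨h1, h2⟩ := h
    rw [h1] at h2
    exact mul_right_cancel h2

open Classical in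
theorem cn_mat_sym {X 𝒜 : Type} [Fintype X] (S : Finset X) (χ : X → 𝒜 × 𝒜) (h : (cnMat S χ).Nonempty) (c : 𝒜 × 𝒜) :
    (S.filter fun x => χ x = c).card = (S.filter fun x => χ x = c.swap).card := by
  obtain ⟨μ, hμ⟩ := h
  rw [cn_mat_mem] at hμ
  obtain ⟨h1, h2, h3⟩ := hμ
  have hS : ∀ x ∈ S, μ x ∈ S := fun x hx => (h2 _).1 (by rw [h1]; exact ((h2 x).2 hx).symm)
  refine Finset.card_bij (fun x _ => μ x) ?_ ?_ ?_
  · intro x hx
    rw [Finset.mem_filter] at hx ⊢
    exact ⟨hS x hx.1, by rw [h3 x hx.1, hx.2]⟩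
  · intro x _ y _ hxy
    exact μ.injective hxy
  · intro y hy
    rw [Finset.mem_filter] at hy
    refine ⟨μ y, ?_, h1 y⟩
    rw [Finset.mem_filter]
    exact ⟨hS y hy.1, by rw [h3 y hy.1, hy.2, Prod.swap_swap]⟩

open Classical in
/-- removal of one point from the product of the factorials of the class sizes -/
theorem cn_P_erase {X 𝒜 : Type} [Fintype 𝒜] (S : Finset X) (χ : X → 𝒜 × 𝒜) {x : X} (hx : x ∈ S) :
    ∏ c : 𝒜 × 𝒜, ((S.filter fun z => χ z = c).card).factorial
      = (S.filter fun z => χ z = χ x).card * ∏ c : 𝒜 × 𝒜, (((S.erase x).filter fun z => χ z = c).card).factorial := by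
  rw [← Finset.mul_prod_erase Finset.univ _ (Finset.mem_univ (χ x)),
    ← Finset.mul_prod_erase Finset.univ (fun c => (((S.erase x).filter fun z => χ z = c).card).factorial) (Finset.mem_univ (χ x))]
  have e1 : ∏ c ∈ Finset.univ.erase (χ x), ((S.filter fun z => χ z = c).card).factorial
      = ∏ c ∈ Finset.univ.erase (χ x), (((S.erase x).filter fun z => χ z = c).card).factorial := by
    refine Finset.prod_congr rfl fun c hc => ?_
    have hc' : c ≠ χ x := (Finset.mem_erase.1 hc).1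
    congr 2
    ext z
    simp only [Finset.mem_filter, Finset.mem_erase]
    constructor
    · rintro ⟨h1, h2⟩
      exact ⟨⟨fun h => hc' (by rw [← h2, h]), h1⟩, h2⟩
    · rintro ⟨⟨_, h1⟩, h2⟩
      exact ⟨h1, h2⟩
  have e2 : (S.filter fun z => χ z = χ x) = insert x ((S.erase x).filter fun z => χ z = χ x) := by
    ext z
    simp only [Finset.mem_filter, Finset.mem_erase, Finset.mem_insert]
    constructor
    · rintro ⟨h1, h2⟩
      by_cases hz : z = x
      · exact Or.inl hz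
      · exact Or.inr ⟨⟨hz, h1⟩, h2⟩
    · rintro (rfl | ⟨⟨_, h1⟩, h2⟩)
      · exact ⟨hx, rfl⟩
      · exact ⟨h1, h2⟩
  have e3 : (S.filter fun z => χ z = χ x).card = ((S.erase x).filter fun z => χ z = χ x).card + 1 := by
    rw [e2, Finset.card_insert_of_notMem]
    simp
  rw [e1, e3, Nat.factorial_succ]
  ring

open Classical in
theorem cn_mat_card {X 𝒜 : Type} [Fintype X] [Fintype 𝒜] (S : Finset X) (χ : X → 𝒜 × 𝒜) :
    (cnMat S χ).card ^ 2 ≤ ∏ c : 𝒜 × 𝒜, ((S.filter fun x => χ x = c).card).factorial := by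
  induction S using Finset.strongInduction with
  | H S ih =>
    by_cases hne : (cnMat S χ).Nonempty
    swap
    · rw [Finset.not_nonempty_iff_eq_empty] at hne
      rw [hne]
      simp
    rcases S.eq_empty_or_nonempty with rfl | ⟨x₀, hx⟩
    · have : (cnMat (∅ : Finset X) χ).card ≤ 1 := by
        rw [Finset.card_le_one]
        intro μ hμ ν hν
        rw [cn_mat_mem] at hμ hν
        ext z
        have a := (hμ.2.1 z).not.2 (by simp)
        have b := (hν.2.1 z).not.2 (by simp)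
        rw [not_not] at a b
        rw [a, b]
      have h2 : (cnMat (∅ : Finset X) χ).card ^ 2 ≤ 1 := by nlinarith
      simpa using h2
    · set Y := S.filter (fun y => y ≠ x₀ ∧ χ y = (χ x₀).swap) with hY
      set P := ∏ c : 𝒜 × 𝒜, ((S.filter fun x => χ x = c).card).factorial with hP
      have hrec := cn_mat_rec S χ hx
      rw [← hY] at hrec
      have hYeq : Y = (S.erase x₀).filter fun z => χ z = (χ x₀).swap := by
        ext z
        simp only [hY, Finset.mem_filter, Finset.mem_erase]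
        tauto
      have hYle : Y.card ≤ (S.filter fun z => χ z = χ x₀).card := by
        rw [cn_mat_sym S χ hne (χ x₀), hYeq]
        exact Finset.card_le_card (Finset.filter_subset_filter _ (Finset.erase_subset _ _))
      have hstep : ∀ y ∈ Y, Y.card * (Y.card * (cnMat ((S.erase x₀).erase y) χ).card ^ 2) ≤ P := by
        intro y hy
        have hy' : y ∈ S.erase x₀ := by
          rw [hYeq] at hy
          exact (Finset.mem_filter.1 hy).1
        have hχ : χ y = (χ x₀).swap := (Finset.mem_filter.1 hy).2.2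
        have hss : (S.erase x₀).erase y ⊂ S :=
          lt_of_le_of_lt (Finset.erase_subset _ _) (Finset.erase_ssubset hx)
        have i1 := ih _ hss
        have p1 := cn_P_erase S χ hx
        have p2 := cn_P_erase (S.erase x₀) χ hy'
        rw [hχ, ← hYeq] at p2
        rw [hP, p1, p2]
        calc Y.card * (Y.card * (cnMat ((S.erase x₀).erase y) χ).card ^ 2)
            ≤ (S.filter fun z => χ z = χ x₀).card * (Y.card * (cnMat ((S.erase x₀).erase y) χ).card ^ 2) := Nat.mul_le_mul_right _ hYle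
          _ ≤ _ := Nat.mul_le_mul_left _ (Nat.mul_le_mul_left _ i1)
      rcases Nat.eq_zero_or_pos Y.card with h0 | hpos
      · rw [Finset.card_eq_zero] at h0
        rw [h0] at hrec
        simp only [Finset.sum_empty, Nat.le_zero_eq] at hrec
        rw [hrec]
        simp
      · have c1 : (cnMat S χ).card ^ 2 ≤ (∑ y ∈ Y, (cnMat ((S.erase x₀).erase y) χ).card) ^ 2 := Nat.pow_le_pow_left hrec 2
        have c2 := sq_sum_le_card_mul_sum_sq (s := Y) (f := fun y => (cnMat ((S.erase x₀).erase y) χ).card)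
        have c3 : Y.card * (Y.card * ∑ y ∈ Y, (cnMat ((S.erase x₀).erase y) χ).card ^ 2) ≤ Y.card * P := by
          rw [Finset.mul_sum, Finset.mul_sum]
          calc _ ≤ ∑ _y ∈ Y, P := Finset.sum_le_sum hstep
            _ = Y.card * P := by simp
        exact c1.trans (c2.trans (Nat.le_of_mul_le_mul_left c3 hpos))

/-! ### (C) the encoding -/

/-- colour of the half edge `(v,i)` in the array `a` -/
def cnChi {n d : ℕ} {𝒜 : Type} (a : Fin n → Option (Fin d) → 𝒜) (x : Fin n × Fin d) : 𝒜 × 𝒜 := (a x.1 none, a x.1 (some x.2))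

open Classical in
/-- symmetrised type of an array -/
def cnTy {n d : ℕ} {𝒜 : Type} (a : Fin n → Option (Fin d) → 𝒜) (τ : Option (Fin d) → 𝒜) : ℝ :=
  enAvg fun q : Fin n × Equiv.Perm (Fin d) => if (fun x : Option (Fin d) => a q.1 (x.map q.2)) = τ then 1 else 0

/-- neighbour enumerations -/
def CnEnum {n d : ℕ} (G : SimpleGraph (Fin n)) (e : Fin n → Fin d → Fin n) : Prop := ∀ v, Function.Injective (e v) ∧ ∀ i, G.Adj v (e v i)

/-- the array of `(e, c)` -/
def cnArr {n d : ℕ} {𝒜 : Type} (e : Fin n → Fin d → Fin n) (c : Fin n → 𝒜) (v : Fin n) : Option (Fin d) → 𝒜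
  | none => c v
  | some i => c (e v i)

open Classical in
theorem cn_mem_rg {n d : ℕ} {G : SimpleGraph (Fin n)} :
    G ∈ Claims.C0462.regularGraphs n d ↔ ∀ v, (Finset.univ.filter fun w => G.Adj v w).card = d := by
  rw [← cn_reg_fin, cn_mem_reg]

open Classical in
theorem cn_enum_card {n d : ℕ} {G : SimpleGraph (Fin n)} (hG : G ∈ Claims.C0462.regularGraphs n d) :
    (Finset.univ.filter fun e : Fin n → Fin d → Fin n => CnEnum G e).card = d.factorial ^ n := by
  rw [cn_mem_rg] at hG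
  have h1 : (Finset.univ.filter fun e : Fin n → Fin d → Fin n => CnEnum G e)
      = Fintype.piFinset fun v => Finset.univ.filter fun f : Fin d → Fin n => Function.Injective f ∧ ∀ i, f i ∈ Finset.univ.filter fun w => G.Adj v w := by
    ext e
    rw [Finset.mem_filter, Fintype.mem_piFinset]
    simp [CnEnum]
  rw [h1, Fintype.card_piFinset]
  have h2 : ∀ v : Fin n, (Finset.univ.filter fun f : Fin d → Fin n => Function.Injective f ∧ ∀ i, f i ∈ Finset.univ.filter fun w => G.Adj v w).card = d.factorial := by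
    intro v
    have := cn_card_inj (Finset.univ.filter fun w => G.Adj v w) d
    rw [hG v, Nat.descFactorial_self] at this
    rw [← this]
    congr 1
    ext f
    simp only [Finset.mem_filter, Finset.mem_univ, true_and]
  rw [Finset.prod_congr rfl fun v _ => h2 v]
  simp

/-- an enumeration of the neighbours is onto -/
theorem cn_enum_surj {n d : ℕ} {G : SimpleGraph (Fin n)} (hG : G ∈ Claims.C0462.regularGraphs n d) {e : Fin n → Fin d → Fin n} (he : CnEnum G e)
    {v w : Fin n} (h : G.Adj v w) : ∃ i, e v i = w := by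
  classical
  rw [cn_mem_rg] at hG
  have h1 : Finset.univ.image (e v) ⊆ Finset.univ.filter fun w => G.Adj v w := by
    intro x hx
    simp only [Finset.mem_image, Finset.mem_univ, true_and] at hx
    obtain ⟨i, rfl⟩ := hx
    simpa using (he v).2 i
  have h2 : (Finset.univ.filter fun w => G.Adj v w).card ≤ (Finset.univ.image (e v)).card := by
    rw [hG v, Finset.card_image_of_injective _ (he v).1]
    simp
  have h3 := Finset.eq_of_subset_of_card_le h1 h2
  have h4 : w ∈ Finset.univ.image (e v) := by rw [h3]; simpa using h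
  simpa using h4

/-- any involution of the half edges which follows `e` is a matching respecting the colours -/
theorem cn_mu_mem {n d : ℕ} {𝒜 : Type} {G : SimpleGraph (Fin n)} {e : Fin n → Fin d → Fin n} (he : CnEnum G e) (c : Fin n → 𝒜)
    {μ : Equiv.Perm (Fin n × Fin d)} (h1 : ∀ x, μ (μ x) = x) (h2 : ∀ x, (μ x).1 = e x.1 x.2) :
    μ ∈ cnMat (Finset.univ : Finset (Fin n × Fin d)) (cnChi (cnArr e c)) := by
  rw [cn_mat_mem]
  refine ⟨h1, fun x => ?_, fun x _ => ?_⟩
  · simp only [Finset.mem_univ, iff_true]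
    intro h
    have := h2 x
    rw [h] at this
    exact ((he x.1).2 x.2).ne this
  · have a1 : e (e x.1 x.2) (μ x).2 = x.1 := by rw [← h2 x, ← h2 (μ x), h1]
    simp only [cnChi, cnArr, Prod.swap_prod_mk, h2 x, a1]

theorem cn_mu {n d : ℕ} {𝒜 : Type} {G : SimpleGraph (Fin n)} (hG : G ∈ Claims.C0462.regularGraphs n d) {e : Fin n → Fin d → Fin n} (he : CnEnum G e) (c : Fin n → 𝒜) :
    ∃ μ ∈ cnMat (Finset.univ : Finset (Fin n × Fin d)) (cnChi (cnArr e c)), ∀ x, (μ x).1 = e x.1 x.2 := by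
  have hex : ∀ x : Fin n × Fin d, ∃ j, e (e x.1 x.2) j = x.1 := fun x => cn_enum_surj hG he ((he x.1).2 x.2).symm
  choose J hJ using hex
  set f : Fin n × Fin d → Fin n × Fin d := fun x => (e x.1 x.2, J x) with hf
  have hinv : Function.Involutive f := by
    intro x
    have a1 : (f (f x)).1 = x.1 := hJ x
    have a2 : e x.1 (f (f x)).2 = e x.1 x.2 := by
      have := hJ (f x)
      simp only [hf] at this ⊢
      rw [hJ x] at this
      exact this
    exact Prod.ext a1 ((he x.1).1 a2)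
  refine ⟨hinv.toPerm, cn_mu_mem he c (fun x => hinv x) (fun x => rfl), fun x => rfl⟩

theorem cn_avg_equiv {K K' : Type} [Fintype K] [Fintype K'] (φ : K ≃ K') (f : K' → ℝ) : enAvg (fun k => f (φ k)) = enAvg f := by
  unfold enAvg
  rw [Fintype.card_congr φ, Equiv.sum_comp φ f]

/-- the ordered star `(v, e v ∘ σ)` -/
def cnStar {n d : ℕ} {G : SimpleGraph (Fin n)} {e : Fin n → Fin d → Fin n} (he : CnEnum G e) (q : Fin n × Equiv.Perm (Fin d)) : EnLoc G d :=
  ⟨(q.1, fun i => e q.1 (q.2 i)), (he q.1).1.comp q.2.injective, fun i => (he q.1).2 (q.2 i)⟩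

theorem cn_star_bij {n d : ℕ} {G : SimpleGraph (Fin n)} (hG : G ∈ Claims.C0462.regularGraphs n d) {e : Fin n → Fin d → Fin n} (he : CnEnum G e) :
    Function.Bijective (cnStar he) := by
  constructor
  · rintro ⟨v, σ⟩ ⟨v', σ'⟩ h
    have h1 := Subtype.ext_iff.1 h
    simp only [cnStar, Prod.mk.injEq] at h1
    obtain ⟨rfl, h2⟩ := h1
    congr 1
    ext i
    exact congrArg Fin.val ((he v).1 (congrFun h2 i))
  · rintro ⟨⟨v, f⟩, hinj, hadj⟩
    have hex : ∀ i, ∃ j, e v j = f i := fun i => cn_enum_surj hG he (hadj i)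
    choose σ₀ hσ using hex
    have hi : Function.Injective σ₀ := fun i j h => hinj (by
      show f i = f j
      rw [← hσ i, ← hσ j, h])
    refine ⟨(v, Equiv.ofBijective σ₀ (Finite.injective_iff_bijective.1 hi)), ?_⟩
    refine Subtype.ext (Prod.ext rfl (funext fun i => ?_))
    exact hσ i

theorem cn_ty_eq {n d : ℕ} {𝒜 : Type} {G : SimpleGraph (Fin n)} (hG : G ∈ Claims.C0462.regularGraphs n d) {e : Fin n → Fin d → Fin n} (he : CnEnum G e) (c : Fin n → 𝒜) :
    cnTy (cnArr e c) = enT G d c := by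
  funext τ
  unfold cnTy enT
  rw [← cn_avg_equiv (Equiv.ofBijective _ (cn_star_bij hG he))]
  congr 1
  funext q
  have : (fun x => c ((Equiv.ofBijective _ (cn_star_bij hG he) q).vx x)) = fun x : Option (Fin d) => cnArr e c q.1 (x.map q.2) := by
    funext x
    cases x <;> rfl
  rw [this]

open Classical in
theorem cn_encode {n d : ℕ} {𝒜 : Type} [Fintype 𝒜] (T : (Option (Fin d) → 𝒜) → ℝ) :
    (∑ G ∈ Claims.C0462.regularGraphs n d, (Finset.univ.filter fun c : Fin n → 𝒜 => enT G d c = T).card) * d.factorial ^ n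
      ≤ ∑ a ∈ Finset.univ.filter (fun a : Fin n → Option (Fin d) → 𝒜 => cnTy a = T), (cnMat (Finset.univ : Finset (Fin n × Fin d)) (cnChi a)).card := by
  rw [Finset.sum_mul, ← Finset.card_sigma (Finset.univ.filter (fun a : Fin n → Option (Fin d) → 𝒜 => cnTy a = T))]
  have h1 : ∑ G ∈ Claims.C0462.regularGraphs n d, (Finset.univ.filter fun c : Fin n → 𝒜 => enT G d c = T).card * d.factorial ^ n
      = ((Claims.C0462.regularGraphs n d).sigma fun G => (Finset.univ.filter fun c : Fin n → 𝒜 => enT G d c = T) ×ˢ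
          (Finset.univ.filter fun e : Fin n → Fin d → Fin n => CnEnum G e)).card := by
    rw [Finset.card_sigma]
    refine Finset.sum_congr rfl fun G hG => ?_
    rw [Finset.card_product, cn_enum_card hG]
  rw [h1]
  refine Finset.card_le_card_of_injOn (fun x => ⟨cnArr x.2.2 x.2.1,
    if h : ∃ μ ∈ cnMat (Finset.univ : Finset (Fin n × Fin d)) (cnChi (cnArr x.2.2 x.2.1)), ∀ y, (μ y).1 = x.2.2 y.1 y.2 then h.choose else 1⟩) ?_ ?_
  · rintro ⟨G, c, e⟩ hx
    simp only [Finset.coe_sigma, Set.mem_sigma_iff, Finset.mem_coe, Finset.mem_product, Finset.mem_filter, Finset.mem_univ, true_and] at hx ⊢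
    obtain ⟨hG, hc, he⟩ := hx
    refine ⟨by rw [cn_ty_eq hG he, hc], ?_⟩
    rw [dif_pos (cn_mu hG he c)]
    exact (cn_mu hG he c).choose_spec.1
  · rintro ⟨G, c, e⟩ hx ⟨G', c', e'⟩ hx' h
    simp only [Finset.coe_sigma, Set.mem_sigma_iff, Finset.mem_coe, Finset.mem_product, Finset.mem_filter, Finset.mem_univ, true_and] at hx hx'
    obtain ⟨hG, hc, he⟩ := hx
    obtain ⟨hG', hc', he'⟩ := hx'
    simp only [Sigma.mk.injEq, heq_eq_eq] at h
    obtain ⟨h2, h3⟩ := h
    rw [dif_pos (cn_mu hG he c), dif_pos (cn_mu hG' he' c')] at h3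
    have s1 := (cn_mu hG he c).choose_spec.2
    have s2 := (cn_mu hG' he' c').choose_spec.2
    have ee : e = e' := by
      funext v i
      rw [← s1 (v, i), ← s2 (v, i), h3]
    have cc : c = c' := by
      funext v
      exact congrFun (congrFun h2 v) none
    have gg : G = G' := by
      ext v w
      constructor
      · intro hvw
        obtain ⟨i, hi⟩ := cn_enum_surj hG he hvw
        rw [← hi, ee]
        exact (he' v).2 i
      · intro hvw
        obtain ⟨i, hi⟩ := cn_enum_surj hG' he' hvw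
        rw [← hi, ← ee]
        exact (he v).2 i
    subst ee cc gg
    rfl

/-! ### (D), (E) -/

/-- integration against a histogram (any decidability instance) -/
theorem cn_hist_sum {K B : Type} [Fintype K] [Fintype B] (g : K → B) (F : B → ℝ) {inst : ∀ q τ, Decidable (g q = τ)} :
    ∑ τ, enAvg (fun q => if g q = τ then (1 : ℝ) else 0) * F τ = enAvg fun q => F (g q) := by
  unfold enAvg
  simp only [mul_assoc, Finset.sum_mul]
  rw [← Finset.mul_sum, Finset.sum_comm]
  congr 1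
  refine Finset.sum_congr rfl fun q _ => ?_
  rw [Finset.sum_eq_single (g q)]
  · rw [if_pos rfl, one_mul]
  · intro τ _ h
    rw [if_neg (Ne.symm h), zero_mul]
  · intro h
    exact absurd (Finset.mem_univ _) h

theorem cn_avg_const {K : Type} [Fintype K] [Nonempty K] (c : ℝ) : enAvg (fun _ : K => c) = c := by
  unfold enAvg
  have : (Fintype.card K : ℝ) ≠ 0 := by exact_mod_cast Fintype.card_ne_zero
  simp only [Finset.sum_const, Finset.card_univ, nsmul_eq_mul]
  field_simp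

theorem cn_avg_nonneg {K : Type} [Fintype K] {f : K → ℝ} (h : ∀ k, 0 ≤ f k) : 0 ≤ enAvg f := by
  unfold enAvg
  exact mul_nonneg (by positivity) (Finset.sum_nonneg fun k _ => h k)

/-- average over a product of a function of the first factor -/
theorem cn_avg_fst {K L : Type} [Fintype K] [Fintype L] [Nonempty L] (f : K → ℝ) : enAvg (fun q : K × L => f q.1) = enAvg f := by
  unfold enAvg
  have : (Fintype.card L : ℝ) ≠ 0 := by exact_mod_cast Fintype.card_ne_zero
  rw [Fintype.sum_prod_type, Fintype.card_prod]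
  simp only [Finset.sum_const, Finset.card_univ, nsmul_eq_mul]
  rw [← Finset.mul_sum]
  push_cast
  rw [mul_inv]
  field_simp

theorem cn_map_surj {d : ℕ} (σ : Equiv.Perm (Fin d)) : Function.Surjective (Option.map σ) := fun y =>
  ⟨y.map σ.symm, by cases y <;> simp⟩

/-- integration against the type of an array -/
theorem cn_ty_sum {n d : ℕ} {𝒜 : Type} [Fintype 𝒜] (a : Fin n → Option (Fin d) → 𝒜) (F : (Option (Fin d) → 𝒜) → ℝ) :
    ∑ τ, cnTy a τ * F τ = enAvg fun q : Fin n × Equiv.Perm (Fin d) => F fun x : Option (Fin d) => a q.1 (x.map q.2) := by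
  unfold cnTy
  exact cn_hist_sum (fun q : Fin n × Equiv.Perm (Fin d) => fun x : Option (Fin d) => a q.1 (x.map q.2)) F

theorem cn_ty_symm {n d : ℕ} {𝒜 : Type} (a : Fin n → Option (Fin d) → 𝒜) (σ : Equiv.Perm (Fin d)) (τ : Option (Fin d) → 𝒜) :
    cnTy a (fun x => τ (x.map σ)) = cnTy a τ := by
  classical
  unfold cnTy
  rw [← cn_avg_equiv (Equiv.prodCongr (Equiv.refl (Fin n)) (Equiv.mulRight σ))]
  congr 1
  funext q
  have : ((fun x : Option (Fin d) => a ((Equiv.prodCongr (Equiv.refl (Fin n)) (Equiv.mulRight σ)) q).1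
      (x.map ((Equiv.prodCongr (Equiv.refl (Fin n)) (Equiv.mulRight σ)) q).2)) = fun x => τ (x.map σ))
      ↔ ((fun x : Option (Fin d) => a q.1 (x.map q.2)) = τ) := by
    constructor
    · intro h
      funext y
      obtain ⟨x, rfl⟩ := cn_map_surj σ y
      have := congrFun h x
      simp only [Equiv.prodCongr_apply, Prod.map_fst, Prod.map_snd, Equiv.refl_apply, Equiv.coe_mulRight] at this
      rw [← this]
      cases x <;> simp
    · intro h
      funext x
      rw [← h]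
      simp only [Equiv.prodCongr_apply, Prod.map_fst, Prod.map_snd, Equiv.refl_apply, Equiv.coe_mulRight]
      cases x <;> simp
  simp only [this]

theorem cn_ty_prop {n d : ℕ} {𝒜 : Type} [Fintype 𝒜] (hn : 0 < n) (a : Fin n → Option (Fin d) → 𝒜) :
    (∀ τ, 0 ≤ cnTy a τ) ∧ ∑ τ, cnTy a τ = 1 ∧ (∀ (σ : Equiv.Perm (Fin d)) τ, cnTy a (fun x => τ (x.map σ)) = cnTy a τ) ∧ ∀ v, 0 < cnTy a (a v) := by
  classical
  have : Nonempty (Fin n) := ⟨⟨0, hn⟩⟩
  refine ⟨fun τ => ?_, ?_, fun σ τ => cn_ty_symm a σ τ, fun v => ?_⟩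
  · unfold cnTy
    exact cn_avg_nonneg fun q => by split_ifs <;> norm_num
  · have := cn_ty_sum a (fun _ => (1 : ℝ))
    simp only [mul_one] at this
    rw [cn_avg_const] at this
    exact this
  · unfold cnTy enAvg
    have hc : (0 : ℝ) < (Fintype.card (Fin n × Equiv.Perm (Fin d)) : ℝ) := by exact_mod_cast Fintype.card_pos
    refine mul_pos (inv_pos.2 hc) ?_
    refine Finset.sum_pos' (fun q _ => by split_ifs <;> norm_num) ⟨(v, 1), Finset.mem_univ _, ?_⟩
    rw [if_pos]
    · norm_num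
    · funext x
      cases x <;> simp

theorem cn_ty_log {n d : ℕ} {𝒜 : Type} [Fintype 𝒜] (a : Fin n → Option (Fin d) → 𝒜) : ∑ v, Real.log (cnTy a (a v)) = -(n * enHd (cnTy a)) := by
  classical
  have h1 := cn_ty_sum a (fun τ => Real.log (cnTy a τ))
  have h2 : (enAvg fun q : Fin n × Equiv.Perm (Fin d) => Real.log (cnTy a fun x : Option (Fin d) => a q.1 (x.map q.2)))
      = enAvg fun v : Fin n => Real.log (cnTy a (a v)) := by
    rw [← cn_avg_fst (L := Equiv.Perm (Fin d)) (fun v : Fin n => Real.log (cnTy a (a v)))]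
    congr 1
    funext q
    rw [cn_ty_symm a q.2 (a q.1)]
  have h3 : enHd (cnTy a) = - enAvg fun v : Fin n => Real.log (cnTy a (a v)) := by
    rw [← h2, ← h1, enHd, ← Finset.sum_neg_distrib]
    refine Finset.sum_congr rfl fun τ _ => ?_
    rw [Real.negMulLog]
    ring
  rw [h3]
  unfold enAvg
  rcases Nat.eq_zero_or_pos n with rfl | hn
  · simp
  · have : (n : ℝ) ≠ 0 := by positivity
    rw [Fintype.card_fin]
    field_simp

open Classical in
theorem cn_arr_card {n d : ℕ} {𝒜 : Type} [Fintype 𝒜] (T : (Option (Fin d) → 𝒜) → ℝ) :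
    ((Finset.univ.filter fun a : Fin n → Option (Fin d) → 𝒜 => cnTy a = T).card : ℝ) ≤ Real.exp (n * enHd T) := by
  rcases (Finset.univ.filter fun a : Fin n → Option (Fin d) → 𝒜 => cnTy a = T).eq_empty_or_nonempty with h0 | ⟨a₀, ha₀⟩
  · rw [h0]
    simp only [Finset.card_empty, Nat.cast_zero]
    positivity
  rcases Nat.eq_zero_or_pos n with rfl | hn
  · have : (Finset.univ.filter fun a : Fin 0 → Option (Fin d) → 𝒜 => cnTy a = T).card ≤ 1 := by
      rw [Finset.card_le_one]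
      intro a _ b _
      funext v
      exact v.elim0
    have h2 : ((Finset.univ.filter fun a : Fin 0 → Option (Fin d) → 𝒜 => cnTy a = T).card : ℝ) ≤ 1 := by exact_mod_cast this
    simpa using h2
  · have hT : cnTy a₀ = T := (Finset.mem_filter.1 ha₀).2
    obtain ⟨p1, p2, -, -⟩ := cn_ty_prop hn a₀
    rw [hT] at p1 p2
    have h1 : (1 : ℝ) = ∑ a : Fin n → Option (Fin d) → 𝒜, ∏ v, T (a v) := by
      rw [← Fintype.sum_pow, p2, one_pow]
    have h2 : ∑ a ∈ Finset.univ.filter (fun a : Fin n → Option (Fin d) → 𝒜 => cnTy a = T), ∏ v, T (a v)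
        ≤ ∑ a : Fin n → Option (Fin d) → 𝒜, ∏ v, T (a v) :=
      Finset.sum_le_sum_of_subset_of_nonneg (Finset.filter_subset _ _) fun a _ _ => Finset.prod_nonneg fun v _ => p1 _
    have h3 : ∀ a ∈ Finset.univ.filter (fun a : Fin n → Option (Fin d) → 𝒜 => cnTy a = T), ∏ v, T (a v) = Real.exp (-(n * enHd T)) := by
      intro a ha
      have hTa : cnTy a = T := (Finset.mem_filter.1 ha).2
      obtain ⟨-, -, -, q4⟩ := cn_ty_prop hn a
      have := cn_ty_log a
      rw [hTa] at this q4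
      rw [← this, Real.exp_sum]
      exact Finset.prod_congr rfl fun v _ => (Real.exp_log (q4 v)).symm
    rw [Finset.sum_congr rfl h3, ← h1] at h2
    simp only [Finset.sum_const, nsmul_eq_mul] at h2
    rw [Real.exp_neg] at h2
    have hpos := Real.exp_pos (n * enHd T)
    rwa [← div_eq_mul_inv, div_le_one hpos] at h2

/-- `m!/l! ≤ m^{m-l}` in product form -/
theorem cn_fact_pow (m l : ℕ) : m.factorial * m ^ l ≤ l.factorial * m ^ m := by
  rcases le_total l m with h | h
  · obtain ⟨j, rfl⟩ := Nat.exists_eq_add_of_le h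
    have a1 := Nat.factorial_mul_descFactorial (n := l + j) (k := j) (by omega)
    have a2 := Nat.descFactorial_le_pow (l + j) j
    rw [Nat.add_sub_cancel] at a1
    rw [← a1, pow_add (l + j) l j]
    calc l.factorial * (l + j).descFactorial j * (l + j) ^ l ≤ l.factorial * (l + j) ^ j * (l + j) ^ l :=
          Nat.mul_le_mul_right _ (Nat.mul_le_mul_left _ a2)
      _ = l.factorial * ((l + j) ^ l * (l + j) ^ j) := by ring
  · obtain ⟨j, rfl⟩ := Nat.exists_eq_add_of_le h
    have a1 : m.factorial * (m + 1) ^ j ≤ (m + j).factorial := Nat.factorial_mul_pow_le_factorial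
    have a2 : m ^ j ≤ (m + 1) ^ j := Nat.pow_le_pow_left (by omega) j
    rw [pow_add]
    calc m.factorial * (m ^ m * m ^ j) = (m.factorial * m ^ j) * m ^ m := by ring
      _ ≤ (m.factorial * (m + 1) ^ j) * m ^ m := Nat.mul_le_mul_right _ (Nat.mul_le_mul_left _ a2)
      _ ≤ (m + j).factorial * m ^ m := Nat.mul_le_mul_right _ a1

/-- the type class bound in `ℕ` -/
theorem cn_multinomial_nat {β : Type} [Fintype β] (m : β → ℕ) :
    (∏ c, (m c).factorial) * (∑ c, m c) ^ (∑ c, m c) ≤ ((∑ c, m c) + 1) ^ Fintype.card β * ((∑ c, m c).factorial * ∏ c, m c ^ m c) := by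
  classical
  set N := ∑ c, m c with hN
  have h1 : N ^ N = ∑ l ∈ Finset.piAntidiag Finset.univ N, Nat.multinomial Finset.univ l * ∏ c, m c ^ l c := by
    have := Finset.sum_pow_eq_sum_piAntidiag (Finset.univ : Finset β) m N
    simpa using this
  have h2 : ∀ l ∈ Finset.piAntidiag (Finset.univ : Finset β) N,
      (∏ c, (m c).factorial) * (Nat.multinomial Finset.univ l * ∏ c, m c ^ l c) ≤ N.factorial * ∏ c, m c ^ m c := by
    intro l hl
    rw [Finset.mem_piAntidiag] at hl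
    have s1 := Nat.multinomial_spec (Finset.univ : Finset β) l
    rw [hl.1] at s1
    have pos : 0 < ∏ c, (l c).factorial := Finset.prod_pos fun c _ => Nat.factorial_pos _
    refine Nat.le_of_mul_le_mul_left ?_ pos
    have s2 : ∏ c, ((m c).factorial * m c ^ l c) ≤ ∏ c, ((l c).factorial * m c ^ m c) :=
      Finset.prod_le_prod' fun c _ => cn_fact_pow (m c) (l c)
    rw [Finset.prod_mul_distrib, Finset.prod_mul_distrib] at s2
    calc (∏ c, (l c).factorial) * ((∏ c, (m c).factorial) * (Nat.multinomial Finset.univ l * ∏ c, m c ^ l c))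
        = ((∏ c, (l c).factorial) * Nat.multinomial Finset.univ l) * ((∏ c, (m c).factorial) * ∏ c, m c ^ l c) := by ring
      _ = N.factorial * ((∏ c, (m c).factorial) * ∏ c, m c ^ l c) := by rw [s1]
      _ ≤ N.factorial * ((∏ c, (l c).factorial) * ∏ c, m c ^ m c) := Nat.mul_le_mul_left _ s2
      _ = (∏ c, (l c).factorial) * (N.factorial * ∏ c, m c ^ m c) := by ring
  have h3 : (Finset.piAntidiag (Finset.univ : Finset β) N).card ≤ (N + 1) ^ Fintype.card β := by
    have : Finset.piAntidiag (Finset.univ : Finset β) N ⊆ Fintype.piFinset fun _ => Finset.range (N + 1) := by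
      intro l hl
      rw [Finset.mem_piAntidiag] at hl
      rw [Fintype.mem_piFinset]
      intro c
      rw [Finset.mem_range, Nat.lt_succ_iff, ← hl.1]
      exact Finset.single_le_sum (f := l) (fun _ _ => Nat.zero_le _) (Finset.mem_univ c)
    refine (Finset.card_le_card this).trans ?_
    rw [Fintype.card_piFinset]
    simp
  rw [h1, Finset.mul_sum]
  calc _ ≤ ∑ _l ∈ Finset.piAntidiag (Finset.univ : Finset β) N, N.factorial * ∏ c, m c ^ m c := Finset.sum_le_sum h2
    _ = (Finset.piAntidiag (Finset.univ : Finset β) N).card * (N.factorial * ∏ c, m c ^ m c) := by simp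
    _ ≤ _ := Nat.mul_le_mul_right _ h3

/-- one factor of `e^{N H(m/N)} ∏ m^m = N^N` -/
theorem cn_exp_factor {N : ℝ} (hN : 0 < N) (m : ℕ) : Real.exp (N * Real.negMulLog ((m : ℝ) / N)) * (m : ℝ) ^ m = N ^ m := by
  rcases Nat.eq_zero_or_pos m with rfl | hm
  · simp
  · have hm' : (0 : ℝ) < m := by exact_mod_cast hm
    have e1 : N * Real.negMulLog ((m : ℝ) / N) = (m : ℝ) * Real.log (N / m) := by
      rw [Real.negMulLog, Real.log_div hm'.ne' hN.ne', Real.log_div hN.ne' hm'.ne']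
      field_simp
      ring
    rw [e1, mul_comm (m : ℝ) (Real.log (N / m)), Real.exp_mul, Real.exp_log (by positivity), Real.rpow_natCast, ← mul_pow]
    congr 1
    field_simp

theorem cn_multinomial {β : Type} [Fintype β] (m : β → ℕ) :
    (∏ c, ((m c).factorial : ℝ)) * Real.exp ((∑ c, m c : ℕ) * enHd fun c => (m c : ℝ) / (∑ c, m c : ℕ))
      ≤ ((∑ c, m c).factorial : ℝ) * (((∑ c, m c : ℕ) : ℝ) + 1) ^ Fintype.card β := by
  have hnat := cn_multinomial_nat m
  set N := ∑ c, m c with hN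
  rcases Nat.eq_zero_or_pos N with h0 | hpos
  · have hm : ∀ c, m c = 0 := fun c => by
      have := Finset.single_le_sum (f := m) (fun _ _ => Nat.zero_le _) (Finset.mem_univ c)
      omega
    rw [h0]
    simp [hm]
  · have hN' : (0 : ℝ) < (N : ℝ) := by exact_mod_cast hpos
    have e1 : Real.exp ((N : ℝ) * enHd fun c => (m c : ℝ) / (N : ℝ)) * ∏ c, (m c : ℝ) ^ m c = (N : ℝ) ^ N := by
      rw [enHd, Finset.mul_sum, Real.exp_sum, ← Finset.prod_mul_distrib, Finset.prod_congr rfl fun c _ => cn_exp_factor hN' (m c),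
        Finset.prod_pow_eq_pow_sum, ← hN]
    have pos : (0 : ℝ) < ∏ c, (m c : ℝ) ^ m c := by
      refine Finset.prod_pos fun c _ => ?_
      rcases Nat.eq_zero_or_pos (m c) with h | h
      · rw [h]; simp
      · have : (0 : ℝ) < m c := by exact_mod_cast h
        positivity
    have hr : (∏ c, ((m c).factorial : ℝ)) * (N : ℝ) ^ N ≤ ((N : ℝ) + 1) ^ Fintype.card β * ((N.factorial : ℝ) * ∏ c, (m c : ℝ) ^ m c) := by
      exact_mod_cast hnat
    refine le_of_mul_le_mul_right ?_ pos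
    calc (∏ c, ((m c).factorial : ℝ)) * Real.exp ((N : ℝ) * enHd fun c => (m c : ℝ) / (N : ℝ)) * ∏ c, (m c : ℝ) ^ m c
        = (∏ c, ((m c).factorial : ℝ)) * (Real.exp ((N : ℝ) * enHd fun c => (m c : ℝ) / (N : ℝ)) * ∏ c, (m c : ℝ) ^ m c) := by ring
      _ = (∏ c, ((m c).factorial : ℝ)) * (N : ℝ) ^ N := by rw [e1]
      _ ≤ _ := hr
      _ = _ := by ring

/-! ### (F) first moment, Lemma 3.2 -/

open Classical in
/-- edge marginal of a star type -/
def cnMg {d : ℕ} {𝒜 : Type} [Fintype 𝒜] (i : Fin d) (T : (Option (Fin d) → 𝒜) → ℝ) (τ : Bool → 𝒜) : ℝ :=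
  ∑ σ : Option (Fin d) → 𝒜, if σ none = τ false ∧ σ (some i) = τ true then T σ else 0

/-- the marginal as an integral -/
theorem cn_mg_eq {d : ℕ} {𝒜 : Type} [Fintype 𝒜] (i : Fin d) (T : (Option (Fin d) → 𝒜) → ℝ) (τ : Bool → 𝒜)
    {inst : ∀ σ : Option (Fin d) → 𝒜, Decidable (σ none = τ false ∧ σ (some i) = τ true)} :
    cnMg i T τ = ∑ σ : Option (Fin d) → 𝒜, T σ * if σ none = τ false ∧ σ (some i) = τ true then (1 : ℝ) else 0 := by
  unfold cnMg
  refine Finset.sum_congr rfl fun σ _ => ?_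
  by_cases h : σ none = τ false ∧ σ (some i) = τ true
  · rw [if_pos h, if_pos h, mul_one]
  · rw [if_neg h, if_neg h, mul_zero]

theorem cn_mg_enQ {n d : ℕ} {𝒜 : Type} [Fintype 𝒜] (G : SimpleGraph (Fin n)) (i : Fin d) (c : Fin n → 𝒜) : enQ G d i c = cnMg i (enT G d c) := by
  classical
  funext τ
  rw [cn_mg_eq]
  unfold enT
  rw [cn_hist_sum (fun s : EnLoc G d => fun x => c (s.vx x)) (fun σ => if σ none = τ false ∧ σ (some i) = τ true then (1 : ℝ) else 0)]
  unfold enQ
  congr 1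
  funext s
  have : ((fun x => c (s.ed i x)) = τ) ↔ (c (s.vx none) = τ false ∧ c (s.vx (some i)) = τ true) := by
    constructor
    · intro h
      exact ⟨congrFun h false, congrFun h true⟩
    · rintro ⟨h1, h2⟩
      funext x
      cases x
      · exact h1
      · exact h2
  by_cases h : (fun x => c (s.ed i x)) = τ
  · rw [if_pos h, if_pos (this.1 h)]
  · rw [if_neg h, if_neg (fun h' => h (this.2 h'))]

/-- a uniform permutation sends `i` to a uniform point -/
theorem cn_perm_sum {d : ℕ} (i : Fin d) (F : Fin d → ℝ) : (d : ℝ) * ∑ ρ : Equiv.Perm (Fin d), F (ρ i) = (d.factorial : ℝ) * ∑ j, F j := by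
  have h1 : ∀ k : Fin d, ∑ ρ : Equiv.Perm (Fin d), F (ρ k) = ∑ ρ : Equiv.Perm (Fin d), F (ρ i) := by
    intro k
    rw [← Equiv.sum_comp (Equiv.mulRight (Equiv.swap i k)) fun ρ : Equiv.Perm (Fin d) => F (ρ k)]
    refine Finset.sum_congr rfl fun ρ _ => ?_
    simp
  have h2 : ∑ k : Fin d, ∑ ρ : Equiv.Perm (Fin d), F (ρ k) = (d : ℝ) * ∑ ρ : Equiv.Perm (Fin d), F (ρ i) := by
    rw [Finset.sum_congr rfl fun k _ => h1 k]
    simp
  rw [← h2, Finset.sum_comm]
  rw [Finset.sum_congr rfl fun ρ _ => Equiv.sum_comp ρ F]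
  simp [Fintype.card_perm]

open Classical in
theorem cn_mg_class {n d : ℕ} {𝒜 : Type} [Fintype 𝒜] (a : Fin n → Option (Fin d) → 𝒜) (i : Fin d) (τ : Bool → 𝒜) :
    (((Finset.univ : Finset (Fin n × Fin d)).filter fun x => cnChi a x = (τ false, τ true)).card : ℝ) = n * d * cnMg i (cnTy a) τ := by
  rw [cn_mg_eq, cn_ty_sum a (fun σ => if σ none = τ false ∧ σ (some i) = τ true then (1 : ℝ) else 0)]
  unfold enAvg
  rw [Fintype.sum_prod_type, Fintype.card_prod, Fintype.card_fin, Fintype.card_perm, Fintype.card_fin]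
  have h1 : ∀ v : Fin n, (d : ℝ) * ∑ ρ : Equiv.Perm (Fin d), (if a v (Option.map ρ none) = τ false ∧ a v (Option.map ρ (some i)) = τ true then (1 : ℝ) else 0)
      = (d.factorial : ℝ) * ∑ j : Fin d, if a v none = τ false ∧ a v (some j) = τ true then (1 : ℝ) else 0 := by
    intro v
    exact cn_perm_sum i (fun j => if a v none = τ false ∧ a v (some j) = τ true then (1 : ℝ) else 0)
  have h2 : (((Finset.univ : Finset (Fin n × Fin d)).filter fun x => cnChi a x = (τ false, τ true)).card : ℝ)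
      = ∑ v : Fin n, ∑ j : Fin d, if a v none = τ false ∧ a v (some j) = τ true then (1 : ℝ) else 0 := by
    rw [Finset.card_filter, ← Fintype.sum_prod_type' (f := fun (v : Fin n) (j : Fin d) => if a v none = τ false ∧ a v (some j) = τ true then (1 : ℝ) else 0)]
    push_cast
    refine Finset.sum_congr rfl fun x _ => ?_
    simp only [cnChi, Prod.mk.injEq]
  rw [h2]
  rcases Nat.eq_zero_or_pos n with rfl | hn
  · simp
  · have hn' : (n : ℝ) ≠ 0 := by positivity
    have hf : (d.factorial : ℝ) ≠ 0 := by positivity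
    push_cast
    calc ∑ v : Fin n, ∑ j : Fin d, (if a v none = τ false ∧ a v (some j) = τ true then (1 : ℝ) else 0)
        = (d.factorial : ℝ)⁻¹ * ∑ v : Fin n, (d.factorial : ℝ) * ∑ j : Fin d, (if a v none = τ false ∧ a v (some j) = τ true then (1 : ℝ) else 0) := by
          rw [← Finset.mul_sum, ← mul_assoc, inv_mul_cancel₀ hf, one_mul]
      _ = (d.factorial : ℝ)⁻¹ * ∑ v : Fin n, (d : ℝ) * ∑ ρ : Equiv.Perm (Fin d),
            (if a v (Option.map ρ none) = τ false ∧ a v (Option.map ρ (some i)) = τ true then (1 : ℝ) else 0) := by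
          rw [Finset.sum_congr rfl fun v _ => h1 v]
      _ = _ := by
          rw [← Finset.mul_sum, mul_inv]
          field_simp

open Classical in
/-- bound of the number of matchings of one array -/
theorem cn_first_one {n d : ℕ} {𝒜 : Type} [Fintype 𝒜] (a : Fin n → Option (Fin d) → 𝒜) (i : Fin d) :
    ((cnMat (Finset.univ : Finset (Fin n × Fin d)) (cnChi a)).card : ℝ)
      ≤ Real.exp (-((n * d / 2 : ℝ) * enHd (cnMg i (cnTy a)))) * Real.sqrt ((n * d).factorial) * ((n * d : ℝ) + 1) ^ (Fintype.card 𝒜 ^ 2) := by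
  set m : 𝒜 × 𝒜 → ℕ := fun c => ((Finset.univ : Finset (Fin n × Fin d)).filter fun x => cnChi a x = c).card with hm
  have hsum : ∑ c, m c = n * d := by
    have := Finset.card_eq_sum_card_fiberwise (f := cnChi a) (s := (Finset.univ : Finset (Fin n × Fin d))) (t := Finset.univ) (fun _ _ => Finset.mem_coe.2 (Finset.mem_univ _))
    rw [← this]
    simp
  have h1 := cn_mat_card (Finset.univ : Finset (Fin n × Fin d)) (cnChi a)
  have h2 := cn_multinomial m
  rw [hsum] at h2
  -- the entropy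
  have h3 : ((n * d : ℕ) : ℝ) * (enHd fun c => (m c : ℝ) / ((n * d : ℕ) : ℝ)) = ((n * d : ℕ) : ℝ) * enHd (cnMg i (cnTy a)) := by
    rcases Nat.eq_zero_or_pos (n * d) with h0 | hpos
    · rw [h0]; simp
    · congr 1
      unfold enHd
      rw [← Equiv.sum_comp (Equiv.boolArrowEquivProd 𝒜)]
      refine Finset.sum_congr rfl fun τ _ => ?_
      congr 1
      have := cn_mg_class a i τ
      have hN : ((n * d : ℕ) : ℝ) ≠ 0 := by positivity
      show (m (τ false, τ true) : ℝ) / ((n * d : ℕ) : ℝ) = _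
      rw [hm]
      simp only
      rw [this]
      push_cast
      push_cast at hN
      rw [mul_div_cancel_left₀ _ hN]
  rw [h3] at h2
  set H := enHd (cnMg i (cnTy a)) with hH
  set N : ℝ := ((n * d : ℕ) : ℝ) with hN
  have hcard : Fintype.card (𝒜 × 𝒜) = Fintype.card 𝒜 ^ 2 := by rw [Fintype.card_prod, sq]
  rw [hcard] at h2
  have h4 : ((cnMat (Finset.univ : Finset (Fin n × Fin d)) (cnChi a)).card : ℝ) ^ 2 ≤ ∏ c, ((m c).factorial : ℝ) := by exact_mod_cast h1
  have hE : 0 < Real.exp (N * H) := Real.exp_pos _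
  have h5 : ∏ c, ((m c).factorial : ℝ) ≤ ((n * d).factorial : ℝ) * (N + 1) ^ (Fintype.card 𝒜 ^ 2) * Real.exp (-(N * H)) := by
    rw [Real.exp_neg, ← div_eq_mul_inv, le_div_iff₀ hE]
    exact h2
  have hN0 : 0 ≤ N := by positivity
  have hB : (1 : ℝ) ≤ (N + 1) ^ (Fintype.card 𝒜 ^ 2) := one_le_pow₀ (by linarith)
  have h6 : ((n * d).factorial : ℝ) * (N + 1) ^ (Fintype.card 𝒜 ^ 2) * Real.exp (-(N * H))
      ≤ (Real.exp (-(N / 2 * H)) * Real.sqrt ((n * d).factorial) * (N + 1) ^ (Fintype.card 𝒜 ^ 2)) ^ 2 := by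
    rw [mul_pow, mul_pow, Real.sq_sqrt (by positivity), ← Real.exp_nat_mul]
    have e1 : ((2 : ℕ) : ℝ) * -(N / 2 * H) = -(N * H) := by push_cast; ring
    rw [e1]
    have : (N + 1) ^ (Fintype.card 𝒜 ^ 2) ≤ ((N + 1) ^ (Fintype.card 𝒜 ^ 2)) ^ 2 := by nlinarith
    calc ((n * d).factorial : ℝ) * (N + 1) ^ (Fintype.card 𝒜 ^ 2) * Real.exp (-(N * H))
        = (Real.exp (-(N * H)) * ((n * d).factorial : ℝ)) * (N + 1) ^ (Fintype.card 𝒜 ^ 2) := by ring
      _ ≤ (Real.exp (-(N * H)) * ((n * d).factorial : ℝ)) * ((N + 1) ^ (Fintype.card 𝒜 ^ 2)) ^ 2 :=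
          mul_le_mul_of_nonneg_left this (by positivity)
  have h7 := h4.trans (h5.trans h6)
  have h8 := abs_le_of_sq_le_sq' h7 (by positivity)
  have e2 : (n * d : ℝ) = N := by rw [hN]; push_cast; ring
  rw [e2]
  exact h8.2

open Classical in
theorem cn_first {n d : ℕ} {𝒜 : Type} [Fintype 𝒜] (T : (Option (Fin d) → 𝒜) → ℝ) (i : Fin d) :
    ((∑ G ∈ Claims.C0462.regularGraphs n d, (Finset.univ.filter fun c : Fin n → 𝒜 => enT G d c = T).card : ℕ) : ℝ) * (d.factorial : ℝ) ^ n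
      ≤ Real.exp (n * enHd T - (n * d / 2 : ℝ) * enHd (cnMg i T)) * Real.sqrt ((n * d).factorial) * ((n * d : ℝ) + 1) ^ (Fintype.card 𝒜 ^ 2) := by
  have h1 := cn_encode (n := n) (d := d) T
  have h2 : ((∑ G ∈ Claims.C0462.regularGraphs n d, (Finset.univ.filter fun c : Fin n → 𝒜 => enT G d c = T).card : ℕ) : ℝ) * (d.factorial : ℝ) ^ n
      ≤ ∑ a ∈ Finset.univ.filter (fun a : Fin n → Option (Fin d) → 𝒜 => cnTy a = T), ((cnMat (Finset.univ : Finset (Fin n × Fin d)) (cnChi a)).card : ℝ) := by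
    exact_mod_cast h1
  refine h2.trans ?_
  set B := Real.exp (-((n * d / 2 : ℝ) * enHd (cnMg i T))) * Real.sqrt ((n * d).factorial) * ((n * d : ℝ) + 1) ^ (Fintype.card 𝒜 ^ 2) with hB
  have hB0 : 0 ≤ B := by positivity
  have h3 : ∀ a ∈ Finset.univ.filter (fun a : Fin n → Option (Fin d) → 𝒜 => cnTy a = T), ((cnMat (Finset.univ : Finset (Fin n × Fin d)) (cnChi a)).card : ℝ) ≤ B := by
    intro a ha
    have := cn_first_one a i
    rw [(Finset.mem_filter.1 ha).2] at this
    exact this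
  refine (Finset.sum_le_sum h3).trans ?_
  rw [Finset.sum_const, nsmul_eq_mul]
  refine (mul_le_mul_of_nonneg_right (cn_arr_card T) hB0).trans (le_of_eq ?_)
  rw [hB, sub_eq_add_neg, Real.exp_add]
  ring

open Classical in
/-- number of types: every value is `k/(n d!)`, `0 ≤ k ≤ n d!` -/
theorem cn_types (n d : ℕ) (𝒜 : Type) [Fintype 𝒜] :
    (Finset.univ.image fun a : Fin n → Option (Fin d) → 𝒜 => cnTy a).card ≤ (n * d.factorial + 1) ^ (Fintype.card 𝒜 ^ (d + 1)) := by
  have hcard : Fintype.card (Fin n × Equiv.Perm (Fin d)) = n * d.factorial := by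
    rw [Fintype.card_prod, Fintype.card_perm, Fintype.card_fin, Fintype.card_fin]
  let cnt : (Fin n → Option (Fin d) → 𝒜) → (Option (Fin d) → 𝒜) → Fin (n * d.factorial + 1) := fun a τ =>
    ⟨(Finset.univ.filter fun q : Fin n × Equiv.Perm (Fin d) => (fun x : Option (Fin d) => a q.1 (x.map q.2)) = τ).card, by
      rw [Nat.lt_succ_iff, ← hcard]
      exact Finset.card_le_univ _⟩
  let g : ((Option (Fin d) → 𝒜) → Fin (n * d.factorial + 1)) → (Option (Fin d) → 𝒜) → ℝ := fun k τ =>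
    (Fintype.card (Fin n × Equiv.Perm (Fin d)) : ℝ)⁻¹ * ((k τ : ℕ) : ℝ)
  have hfac : (fun a : Fin n → Option (Fin d) → 𝒜 => cnTy a) = g ∘ cnt := by
    funext a τ
    simp only [cnTy, enAvg, g, cnt, Function.comp]
    rw [Finset.sum_boole]
  rw [hfac, ← Finset.image_image]
  refine Finset.card_image_le.trans ((Finset.card_le_univ _).trans ?_)
  rw [Fintype.card_fun, Fintype.card_fun, Fintype.card_fin, Fintype.card_option, Fintype.card_fin]

open Classical in
/-- Markov + union over the types, finite form -/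
theorem cn_markov {n d : ℕ} {𝒜 : Type} [Fintype 𝒜] (hd : 1 ≤ d) (err R : ℝ)
    (hR : Real.sqrt ((n * d).factorial) ≤ R * (Claims.C0462.regularGraphs n d).card * (d.factorial : ℝ) ^ n) :
    (((Claims.C0462.regularGraphs n d).filter fun G => ¬ ∀ i : Fin d, EnTypeOk G d i 𝒜 err).card : ℝ)
      ≤ (d : ℝ) * ((n * d.factorial + 1 : ℕ) : ℝ) ^ (Fintype.card 𝒜 ^ (d + 1)) * R * ((n * d : ℝ) + 1) ^ (Fintype.card 𝒜 ^ 2) * Real.exp (-err)
        * (Claims.C0462.regularGraphs n d).card := by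
  obtain ⟨𝒢, h𝒢⟩ : ∃ 𝒢, 𝒢 = Claims.C0462.regularGraphs n d := ⟨_, rfl⟩
  rw [← h𝒢] at hR ⊢
  obtain ⟨𝒯, h𝒯⟩ : ∃ 𝒯, 𝒯 = Finset.univ.image fun a : Fin n → Option (Fin d) → 𝒜 => cnTy a := ⟨_, rfl⟩
  obtain ⟨Nn, hNn⟩ : ∃ Nn : SimpleGraph (Fin n) → ((Option (Fin d) → 𝒜) → ℝ) → ℕ,
    Nn = fun G T => (Finset.univ.filter fun c : Fin n → 𝒜 => enT G d c = T).card := ⟨_, rfl⟩
  obtain ⟨W, hW⟩ : ∃ W : Fin d → ((Option (Fin d) → 𝒜) → ℝ) → ℝ, W = fun i T => Real.exp (n * enHd T - (n * d / 2 : ℝ) * enHd (cnMg i T)) := ⟨_, rfl⟩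
  obtain ⟨P, hP⟩ : ∃ P : ℝ, P = ((n * d : ℝ) + 1) ^ (Fintype.card 𝒜 ^ 2) := ⟨_, rfl⟩
  rw [← hP]
  have hP0 : 0 < P := by rw [hP]; positivity
  have hW0 : ∀ i T, 0 < W i T := fun i T => by rw [hW]; exact Real.exp_pos _
  have hf0 : (0 : ℝ) < (d.factorial : ℝ) ^ n := by
    have : (0 : ℝ) < d.factorial := by exact_mod_cast Nat.factorial_pos d
    positivity
  have hsq : 0 < Real.sqrt ((n * d).factorial) := Real.sqrt_pos.2 (by exact_mod_cast Nat.factorial_pos _)
  have hRG : 0 < R * 𝒢.card := by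
    by_contra h
    have : R * 𝒢.card * (d.factorial : ℝ) ^ n ≤ 0 := mul_nonpos_of_nonpos_of_nonneg (not_lt.1 h) hf0.le
    linarith
  obtain ⟨S, hS⟩ : ∃ S : Fin d → ((Option (Fin d) → 𝒜) → ℝ) → Finset (SimpleGraph (Fin n)),
    S = fun i T => 𝒢.filter fun G => W i T * Real.exp err < Nn G T := ⟨_, rfl⟩
  -- Markov for one type
  have hone : ∀ i T, ((S i T).card : ℝ) ≤ R * 𝒢.card * P * Real.exp (-err) := by
    intro i T
    have h1 := cn_first (n := n) (d := d) T i
    rw [← h𝒢, ← hP] at h1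
    have h2 : ((S i T).card : ℝ) * (W i T * Real.exp err) ≤ ((∑ G ∈ 𝒢, (Finset.univ.filter fun c : Fin n → 𝒜 => enT G d c = T).card : ℕ) : ℝ) := by
      push_cast
      calc ((S i T).card : ℝ) * (W i T * Real.exp err) = ∑ _G ∈ S i T, W i T * Real.exp err := by rw [Finset.sum_const, nsmul_eq_mul]
        _ ≤ ∑ G ∈ S i T, (Nn G T : ℝ) := by
            refine Finset.sum_le_sum fun G hG => ?_
            rw [hS] at hG
            exact (Finset.mem_filter.1 hG).2.le
        _ ≤ ∑ G ∈ 𝒢, (Nn G T : ℝ) := by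
            refine Finset.sum_le_sum_of_subset_of_nonneg ?_ fun _ _ _ => Nat.cast_nonneg _
            rw [hS]; exact Finset.filter_subset _ _
        _ = _ := by rw [hNn]
    have h3 : ((S i T).card : ℝ) * (W i T * Real.exp err) * (d.factorial : ℝ) ^ n ≤ W i T * (R * 𝒢.card * (d.factorial : ℝ) ^ n) * P := by
      refine (mul_le_mul_of_nonneg_right h2 hf0.le).trans (h1.trans ?_)
      have : Real.exp (n * enHd T - (n * d / 2 : ℝ) * enHd (cnMg i T)) = W i T := by rw [hW]
      rw [this]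
      exact mul_le_mul_of_nonneg_right (mul_le_mul_of_nonneg_left hR (hW0 i T).le) hP0.le
    have h4 : ((S i T).card : ℝ) * Real.exp err ≤ R * 𝒢.card * P := by
      have hp : 0 < W i T * (d.factorial : ℝ) ^ n := mul_pos (hW0 i T) hf0
      refine le_of_mul_le_mul_right ?_ hp
      calc ((S i T).card : ℝ) * Real.exp err * (W i T * (d.factorial : ℝ) ^ n) = ((S i T).card : ℝ) * (W i T * Real.exp err) * (d.factorial : ℝ) ^ n := by ring
        _ ≤ _ := h3
        _ = _ := by ring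
    rw [Real.exp_neg, ← div_eq_mul_inv, le_div_iff₀ (Real.exp_pos _)]
    exact h4
  -- the bad graphs
  have hsub : (𝒢.filter fun G => ¬ ∀ i : Fin d, EnTypeOk G d i 𝒜 err) ⊆ Finset.univ.biUnion fun i : Fin d => 𝒯.biUnion fun T => S i T := by
    intro G hG
    rw [Finset.mem_filter] at hG
    obtain ⟨hG1, hG2⟩ := hG
    rw [not_forall] at hG2
    obtain ⟨i, hi⟩ := hG2
    unfold EnTypeOk at hi
    rw [not_forall] at hi
    obtain ⟨c, hc⟩ := hi
    rw [not_le] at hc
    have hGr : G ∈ Claims.C0462.regularGraphs n d := by rw [← h𝒢]; exact hG1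
    -- an enumeration
    have hen := cn_enum_card hGr
    have hne : (Finset.univ.filter fun e : Fin n → Fin d → Fin n => CnEnum G e).Nonempty := by
      rw [← Finset.card_pos, hen]
      exact pow_pos (Nat.factorial_pos d) n
    obtain ⟨e, he⟩ := hne
    have he' : CnEnum G e := (Finset.mem_filter.1 he).2
    have hT : enT G d c ∈ 𝒯 := by
      rw [h𝒯, Finset.mem_image]
      exact ⟨cnArr e c, Finset.mem_univ _, cn_ty_eq hGr he' c⟩
    rw [Finset.mem_biUnion]
    refine ⟨i, Finset.mem_univ _, ?_⟩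
    rw [Finset.mem_biUnion]
    refine ⟨enT G d c, hT, ?_⟩
    rw [hS, Finset.mem_filter]
    refine ⟨hG1, ?_⟩
    have hpos : (0 : ℝ) < ((Finset.univ.filter fun c' : Fin n → 𝒜 => enT G d c' = enT G d c).card : ℝ) := by
      have : 0 < (Finset.univ.filter fun c' : Fin n → 𝒜 => enT G d c' = enT G d c).card :=
        Finset.card_pos.2 ⟨c, Finset.mem_filter.2 ⟨Finset.mem_univ _, rfl⟩⟩
      exact_mod_cast this
    rw [Real.lt_log_iff_exp_lt hpos, Real.exp_add, cn_mg_enQ] at hc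
    rw [hW, hNn]
    exact hc
  have hcard : (((𝒢.filter fun G => ¬ ∀ i : Fin d, EnTypeOk G d i 𝒜 err).card : ℕ) : ℝ) ≤ ∑ _i : Fin d, ∑ _T ∈ 𝒯, R * 𝒢.card * P * Real.exp (-err) := by
    have c1 := (Finset.card_le_card hsub).trans Finset.card_biUnion_le
    have c2 : ∑ i : Fin d, (𝒯.biUnion fun T => S i T).card ≤ ∑ i : Fin d, ∑ T ∈ 𝒯, (S i T).card :=
      Finset.sum_le_sum fun i _ => Finset.card_biUnion_le
    have c3 : (((𝒢.filter fun G => ¬ ∀ i : Fin d, EnTypeOk G d i 𝒜 err).card : ℕ) : ℝ) ≤ ∑ i : Fin d, ∑ T ∈ 𝒯, ((S i T).card : ℝ) := by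
      exact_mod_cast c1.trans c2
    exact c3.trans (Finset.sum_le_sum fun i _ => Finset.sum_le_sum fun T _ => hone i T)
  refine hcard.trans ?_
  rw [Finset.sum_const, Finset.sum_const, nsmul_eq_mul, nsmul_eq_mul, Finset.card_univ, Fintype.card_fin]
  have hty : (𝒯.card : ℝ) ≤ ((n * d.factorial + 1 : ℕ) : ℝ) ^ (Fintype.card 𝒜 ^ (d + 1)) := by
    have := cn_types n d 𝒜
    rw [← h𝒯] at this
    exact_mod_cast this
  have hX : 0 ≤ R * 𝒢.card * P * Real.exp (-err) := by positivity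
  calc (d : ℝ) * ((𝒯.card : ℝ) * (R * 𝒢.card * P * Real.exp (-err)))
      ≤ (d : ℝ) * (((n * d.factorial + 1 : ℕ) : ℝ) ^ (Fintype.card 𝒜 ^ (d + 1)) * (R * 𝒢.card * P * Real.exp (-err))) :=
        mul_le_mul_of_nonneg_left (mul_le_mul_of_nonneg_right hty hX) (Nat.cast_nonneg _)
    _ = _ := by ring

/-- the number of bins -/
theorem cn253_K_le {n : ℕ} (hn : 1 ≤ n) {γ : ℝ} (hγ0 : 0 < γ) : ((2 * ⌈(n : ℝ) ^ (2 * γ)⌉₊ + 2 : ℕ) : ℝ) ≤ 6 * (n : ℝ) ^ (2 * γ) := by
  have hx : (1 : ℝ) ≤ n := by exact_mod_cast hn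
  have hy : (1 : ℝ) ≤ (n : ℝ) ^ (2 * γ) := Real.one_le_rpow hx (by positivity)
  have h1 := (Nat.ceil_lt_add_one (by linarith : (0 : ℝ) ≤ (n : ℝ) ^ (2 * γ))).le
  push_cast
  linarith

theorem cn253_M_le {n : ℕ} (hn : 1 ≤ n) {γ : ℝ} (hγ0 : 0 < γ) (ℓ k : ℕ) (hk : 2 * γ * ℓ * k ≤ 1 / 16) :
    ((((2 * ⌈(n : ℝ) ^ (2 * γ)⌉₊ + 2) ^ ℓ) ^ k : ℕ) : ℝ) ≤ 6 ^ (ℓ * k) * (n : ℝ) ^ (1 / 16 : ℝ) := by
  have hx : (1 : ℝ) ≤ n := by exact_mod_cast hn
  have hx0 : (0 : ℝ) ≤ n := by linarith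
  have h1 := cn253_K_le hn hγ0
  rw [← pow_mul]
  rw [Nat.cast_pow]
  calc ((2 * ⌈(n : ℝ) ^ (2 * γ)⌉₊ + 2 : ℕ) : ℝ) ^ (ℓ * k) ≤ (6 * (n : ℝ) ^ (2 * γ)) ^ (ℓ * k) := pow_le_pow_left₀ (by positivity) h1 _
    _ = 6 ^ (ℓ * k) * (n : ℝ) ^ (2 * γ * ℓ * k) := by
        rw [mul_pow, ← Real.rpow_natCast ((n : ℝ) ^ (2 * γ)), ← Real.rpow_mul hx0]
        congr 2
        push_cast
        ring
    _ ≤ _ := mul_le_mul_of_nonneg_left (Real.rpow_le_rpow_of_exponent_le hx hk) (by positivity)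

/-- asymptotics: `M = K^ℓ ≤ (6 n^{2γ})^ℓ`, `M^{d+1} ≤ C n^{1/32}`, `err = n^{1-c₂} ≥ n^{1/2}` -/
theorem cn_asym {d ℓ : ℕ} {γ c₂ : ℝ} (hγ0 : 0 < γ) (hγ : 64 * ((ℓ : ℝ) + 1) * ((d : ℝ) + 1) * γ ≤ 1) (hc : c₂ ≤ 1 / 2) (C : ℕ) :
    ∃ n₀ : ℕ, ∀ n : ℕ, n₀ ≤ n →
      (d : ℝ) * ((n * d.factorial + 1 : ℕ) : ℝ) ^ (((2 * ⌈(n : ℝ) ^ (2 * γ)⌉₊ + 2) ^ ℓ) ^ (d + 1)) * (n : ℝ) ^ C * ((n * d : ℝ) + 1) ^ (((2 * ⌈(n : ℝ) ^ (2 * γ)⌉₊ + 2) ^ ℓ) ^ 2)
        * Real.exp (-(n : ℝ) ^ (1 - c₂)) ≤ (n : ℝ)⁻¹ := by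
  rcases Nat.eq_zero_or_pos d with rfl | hd
  · exact ⟨0, fun n _ => by simp⟩
  have hd' : (1 : ℝ) ≤ d := by exact_mod_cast hd
  have hℓ0 : (0 : ℝ) ≤ ℓ := Nat.cast_nonneg _
  have k1 : 2 * γ * ℓ * ((d + 1 : ℕ) : ℝ) ≤ 1 / 16 := by
    push_cast
    nlinarith [mul_pos hγ0 (by linarith : (0 : ℝ) < (d : ℝ) + 1)]
  have k2 : 2 * γ * ℓ * ((2 : ℕ) : ℝ) ≤ 1 / 16 := by
    push_cast
    nlinarith [mul_nonneg hγ0.le hℓ0, mul_nonneg (mul_nonneg hγ0.le hℓ0) (by linarith : (0 : ℝ) ≤ (d : ℝ) - 1), mul_pos hγ0 (by linarith : (0 : ℝ) < (d : ℝ) + 1)]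
  obtain ⟨A, hA⟩ : ∃ A : ℝ, A = 6 ^ (ℓ * (d + 1)) := ⟨_, rfl⟩
  obtain ⟨A', hA'⟩ : ∃ A : ℝ, A = 6 ^ (ℓ * 2) := ⟨_, rfl⟩
  obtain ⟨L, hL⟩ : ∃ L : ℝ, L = Real.log ((d.factorial : ℝ) + 1) := ⟨_, rfl⟩
  obtain ⟨L', hL'⟩ : ∃ L : ℝ, L = Real.log ((d : ℝ) + 1) := ⟨_, rfl⟩
  have hA0 : 0 < A := by rw [hA]; positivity
  have hA'0 : 0 < A' := by rw [hA']; positivity
  have hL0 : 0 ≤ L := by
    rw [hL]
    refine Real.log_nonneg ?_
    have : (0 : ℝ) ≤ d.factorial := Nat.cast_nonneg _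
    linarith
  have hL'0 : 0 ≤ L' := by rw [hL']; exact Real.log_nonneg (by linarith)
  obtain ⟨B, hB⟩ : ∃ B : ℝ, B = d + A * (16 + L) + 16 * (C + 1) + A' * (16 + L') := ⟨_, rfl⟩
  have hlim : Filter.Tendsto (fun n : ℕ => (n : ℝ) ^ (3 / 8 : ℝ)) Filter.atTop Filter.atTop :=
    (tendsto_rpow_atTop (by norm_num : (0 : ℝ) < 3 / 8)).comp tendsto_natCast_atTop_atTop
  obtain ⟨n1, hn1⟩ := Filter.eventually_atTop.1 (hlim.eventually_ge_atTop B)
  refine ⟨max n1 1, fun n hn => ?_⟩
  have hn0 : 1 ≤ n := (le_max_right _ _).trans hn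
  have hBn := hn1 n ((le_max_left _ _).trans hn)
  have hx : (1 : ℝ) ≤ n := by exact_mod_cast hn0
  have hx0 : (0 : ℝ) < n := by linarith
  obtain ⟨w, hw⟩ : ∃ w : ℝ, w = (n : ℝ) ^ (1 / 16 : ℝ) := ⟨_, rfl⟩
  have hw1 : 1 ≤ w := by rw [hw]; exact Real.one_le_rpow hx (by norm_num)
  have hlog : Real.log n ≤ 16 * w := by
    have := Real.log_le_rpow_div hx0.le (by norm_num : (0 : ℝ) < 1 / 16)
    rw [hw]; linarith
  have hlog0 : 0 ≤ Real.log n := Real.log_nonneg hx
  have hww : w * w = (n : ℝ) ^ (1 / 8 : ℝ) := by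
    rw [hw, ← Real.rpow_add hx0]; norm_num
  have hhalf : (n : ℝ) ^ (1 / 8 : ℝ) * (n : ℝ) ^ (3 / 8 : ℝ) = (n : ℝ) ^ (1 / 2 : ℝ) := by
    rw [← Real.rpow_add hx0]; norm_num
  have hexp : (n : ℝ) ^ (1 / 2 : ℝ) ≤ (n : ℝ) ^ (1 - c₂) := Real.rpow_le_rpow_of_exponent_le hx (by linarith)
  have m1 := cn253_M_le hn0 hγ0 ℓ (d + 1) k1
  have m2 := cn253_M_le hn0 hγ0 ℓ 2 k2
  rw [← hA, ← hw] at m1
  rw [← hA', ← hw] at m2
  obtain ⟨M1, hM1⟩ : ∃ M : ℕ, M = ((2 * ⌈(n : ℝ) ^ (2 * γ)⌉₊ + 2) ^ ℓ) ^ (d + 1) := ⟨_, rfl⟩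
  obtain ⟨M2, hM2⟩ : ∃ M : ℕ, M = ((2 * ⌈(n : ℝ) ^ (2 * γ)⌉₊ + 2) ^ ℓ) ^ 2 := ⟨_, rfl⟩
  rw [← hM1] at m1 ⊢
  rw [← hM2] at m2 ⊢
  -- the logarithms
  have l1 : Real.log ((n * d.factorial + 1 : ℕ) : ℝ) ≤ Real.log n + L := by
    rw [hL, ← Real.log_mul hx0.ne' (by positivity)]
    refine Real.log_le_log (by positivity) ?_
    push_cast
    nlinarith
  have l1' : 0 ≤ Real.log ((n * d.factorial + 1 : ℕ) : ℝ) := by
    refine Real.log_nonneg ?_
    push_cast
    have : (0 : ℝ) ≤ (n : ℝ) * d.factorial := by positivity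
    linarith
  have l2 : Real.log ((n * d : ℝ) + 1) ≤ Real.log n + L' := by
    rw [hL', ← Real.log_mul hx0.ne' (by positivity)]
    refine Real.log_le_log (by positivity) ?_
    nlinarith
  have l2' : 0 ≤ Real.log ((n * d : ℝ) + 1) := by
    refine Real.log_nonneg ?_
    have : (0 : ℝ) ≤ (n : ℝ) * d := by positivity
    linarith
  have l3 : Real.log d ≤ d := (Real.log_le_sub_one_of_pos (by linarith)).trans (by linarith)
  have e1 : (d : ℝ) = Real.exp (Real.log d) := (Real.exp_log (by linarith)).symm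
  have e2 : ((n * d.factorial + 1 : ℕ) : ℝ) ^ M1 = Real.exp (M1 * Real.log ((n * d.factorial + 1 : ℕ) : ℝ)) := by
    rw [Real.exp_nat_mul, Real.exp_log (by positivity)]
  have e3 : (n : ℝ) ^ C = Real.exp (C * Real.log n) := by
    rw [Real.exp_nat_mul, Real.exp_log hx0]
  have e4 : ((n * d : ℝ) + 1) ^ M2 = Real.exp (M2 * Real.log ((n * d : ℝ) + 1)) := by
    rw [Real.exp_nat_mul, Real.exp_log (by positivity)]
  have e5 : (n : ℝ)⁻¹ = Real.exp (-Real.log n) := by rw [Real.exp_neg, Real.exp_log hx0]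
  rw [e2, e3, e4, e5]
  nth_rewrite 1 [e1]
  rw [← Real.exp_add, ← Real.exp_add, ← Real.exp_add, ← Real.exp_add]
  refine Real.exp_le_exp.2 ?_
  have t1 : (M1 : ℝ) * Real.log ((n * d.factorial + 1 : ℕ) : ℝ) ≤ A * (16 + L) * (w * w) := by
    calc (M1 : ℝ) * Real.log ((n * d.factorial + 1 : ℕ) : ℝ) ≤ (A * w) * (16 * w + L * w) :=
          mul_le_mul m1 (l1.trans (add_le_add hlog (le_mul_of_one_le_right hL0 hw1))) l1' (by positivity)
      _ = _ := by ring
  have t2 : (M2 : ℝ) * Real.log ((n * d : ℝ) + 1) ≤ A' * (16 + L') * (w * w) := by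
    calc (M2 : ℝ) * Real.log ((n * d : ℝ) + 1) ≤ (A' * w) * (16 * w + L' * w) :=
          mul_le_mul m2 (l2.trans (add_le_add hlog (le_mul_of_one_le_right hL'0 hw1))) l2' (by positivity)
      _ = _ := by ring
  have hw2 : w ≤ w * w := le_mul_of_one_le_right (by linarith) hw1
  have hw3 : 1 ≤ w * w := hw1.trans hw2
  have t3 : ((C : ℝ) + 1) * Real.log n ≤ 16 * (C + 1) * (w * w) := by
    have hC : (0 : ℝ) ≤ (C : ℝ) + 1 := by positivity
    calc ((C : ℝ) + 1) * Real.log n ≤ ((C : ℝ) + 1) * (16 * (w * w)) := mul_le_mul_of_nonneg_left (hlog.trans (by linarith)) hC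
      _ = _ := by ring
  have t4 : Real.log d ≤ d * (w * w) := l3.trans (le_mul_of_one_le_right (by linarith) hw3)
  have tot : B * (w * w) ≤ (n : ℝ) ^ (1 - c₂) := by
    refine le_trans ?_ hexp
    rw [← hhalf, hww, mul_comm]
    exact mul_le_mul_of_nonneg_left hBn (by positivity)
  rw [hB] at tot
  have e : (d + A * (16 + L) + 16 * ((C : ℝ) + 1) + A' * (16 + L')) * (w * w)
      = d * (w * w) + A * (16 + L) * (w * w) + 16 * ((C : ℝ) + 1) * (w * w) + A' * (16 + L') * (w * w) := by ring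
  rw [e] at tot
  linarith

theorem cn_eqns_cite : True := by
  have := @cnReg.eq_1
  have := @cnEnd.eq_1
  have := @CnTup.eq_1
  have := @cnIns.eq_1
  have := @cnMat.eq_1
  have := @cnChi.eq_1
  have := @cnTy.eq_1
  have := @CnEnum.eq_1
  have := @cnArr.eq_1
  have := @cnArr.eq_2
  have := @cnMg.eq_1
  have := @cnStar.eq_1
  trivial

open Classical in
/-- **P1 Lemma 3.2**: GLUE from `cn_lower`, `cn_markov`, `cn_asym` -/
theorem en_type' {d ℓ : ℕ} {γ c₂ : ℝ} (hd : 3 ≤ d) (hγ0 : 0 < γ) (hγ : 64 * ((ℓ : ℝ) + 1) * ((d : ℝ) + 1) * γ ≤ 1) (hc : c₂ ≤ 1 / 2) :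
    ∃ n₀ : ℕ, ∀ n : ℕ, n₀ ≤ n →
      (((Claims.C0462.regularGraphs n d).filter fun G => ¬ ∀ i : Fin d, EnTypeOk G d i (Fin ℓ → Fin (2 * ⌈(n : ℝ) ^ (2 * γ)⌉₊ + 2)) ((n : ℝ) ^ (1 - c₂))).card : ℝ)
        ≤ (n : ℝ)⁻¹ * ((Claims.C0462.regularGraphs n d).card : ℝ) := by
  obtain ⟨C, n1, H1⟩ := cn_lower (d := d) (by omega)
  obtain ⟨n2, H2⟩ := cn_asym (d := d) (ℓ := ℓ) hγ0 hγ hc C
  refine ⟨max n1 n2, fun n hn => ?_⟩
  by_cases hne : (Claims.C0462.regularGraphs n d).Nonempty
  · have h1 := H1 n ((le_max_left _ _).trans hn) hne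
    have h2 := H2 n ((le_max_right _ _).trans hn)
    have h3 := cn_markov (n := n) (d := d) (𝒜 := Fin ℓ → Fin (2 * ⌈(n : ℝ) ^ (2 * γ)⌉₊ + 2)) (by omega) ((n : ℝ) ^ (1 - c₂)) ((n : ℝ) ^ C) h1
    have hcard : Fintype.card (Fin ℓ → Fin (2 * ⌈(n : ℝ) ^ (2 * γ)⌉₊ + 2)) = (2 * ⌈(n : ℝ) ^ (2 * γ)⌉₊ + 2) ^ ℓ := by simp
    rw [hcard] at h3
    exact h3.trans (mul_le_mul_of_nonneg_right h2 (by positivity))
  · rw [Finset.not_nonempty_iff_eq_empty] at hne
    simp [hne]

end

end Claimed.Agent.R287
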