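-- KEEP
import Claimed.Agent.R287.Ent.Loc
import Claimed.Agent.R287.Ent.Cnt

/-!
# Row 287 (S0534), unit ENT, sub-unit CONC: the discrete leaves `en_ii` (grouping by types) and `en_iii` (concentration of the edge histogram)      HEAD helper277.   Prefix `en_`.
`en_ii` :  `H(L) ≤ log #types + E log N(type L)`, the event `EnTypeOk`, concavity of the entropy for the star term.
`en_iii`:  `H(Q̄) - E H(Q) ≤ Σ_τ E |Q̄ - Q|^{1/2} ≤ M^{3/2} V^{1/4}`, `V = Σ_τ Var Q(τ) ≤ avg_{s,s'} P(lab(F_{s'}) ≠ lab(F̃_{s'}))` for the REGRESSION COUPLING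
           `F̃ = ε V + L(1 - W) g + L W g̃`, `W` = orthogonal projection onto the rows of `L` at the edge `s`: `(F_s, F̃_{s'})` has the law of `(F_s(g), F_{s'}(g̃))` (equal covariances: `gm_map_add2`);
           `E |F - F̃|² = 2 (L W Lᵀ)_xx ≤ 2 lam Σ_{v ∈ s} Γ_xv²`, `avg Γ_xv² = Tr Γ²/n² ≤ 1/(n r² η²)`; Chebyshev + anti-concentration at the `K` grid points, `δ = n^{-1/3}`.
-/

set_option autoImplicit false

namespace Claimed.Agent.R287

open MeasureTheory ProbabilityTheory Matrix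

noncomputable section

/-! ### discrete entropy -/

/-- entropy `≤ log` of the cardinality (`en_Hd_part` with `S = univ`) -/
theorem en_Hd_le_log {α : Type} [Fintype α] (p : α → ℝ) (hp : ∀ a, 0 ≤ p a) (h1 : ∑ a, p a = 1) : enHd p ≤ Real.log (Fintype.card α) := by
  have h := en_Hd_part p hp Finset.univ
  rw [h1, one_mul, Real.negMulLog_one, add_zero, Finset.card_univ] at h
  exact h

open Classical in
/-- **grouping**: `H(p) ≤ log #(image t) + Σ_x p_x log #{x' : t x' = t x}`   (`en_Hd_part` on each fibre; `Σ_y negMulLog P_y ≤ log #image`) -/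
theorem en_group {X Y : Type} [Fintype X] (p : X → ℝ) (hp : ∀ a, 0 ≤ p a) (h1 : ∑ a, p a = 1) (t : X → Y) :
    enHd p ≤ Real.log ((Finset.univ.image t).card) + ∑ x, p x * Real.log ((Finset.univ.filter fun x' => t x' = t x).card) := by
  set I := Finset.univ.image t with hI
  have hmap : ∀ x ∈ (Finset.univ : Finset X), t x ∈ I := fun x _ => Finset.mem_image_of_mem t (Finset.mem_univ x)
  set P : Y → ℝ := fun y => ∑ x ∈ Finset.univ.filter (fun x' => t x' = y), p x with hP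
  have e1 : enHd p = ∑ y ∈ I, ∑ x ∈ Finset.univ.filter (fun x' => t x' = y), Real.negMulLog (p x) :=
    (Finset.sum_fiberwise_of_maps_to hmap _).symm
  have e2 : ∑ x, p x * Real.log ((Finset.univ.filter fun x' => t x' = t x).card)
      = ∑ y ∈ I, P y * Real.log ((Finset.univ.filter fun x' => t x' = y).card) := by
    rw [← Finset.sum_fiberwise_of_maps_to hmap]
    refine Finset.sum_congr rfl fun y _ => ?_
    rw [hP, Finset.sum_mul]
    refine Finset.sum_congr rfl fun x hx => ?_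
    rw [(Finset.mem_filter.1 hx).2]
  have e3 : ∑ y ∈ I, Real.negMulLog (P y) ≤ Real.log I.card := by
    have h := en_Hd_le_log (α := I) (fun y => P y.1) (fun y => Finset.sum_nonneg fun x _ => hp x) (by
      rw [Finset.sum_coe_sort I P, hP, Finset.sum_fiberwise_of_maps_to hmap, h1])
    unfold enHd at h
    rw [Finset.sum_coe_sort I (fun y => Real.negMulLog (P y)), Fintype.card_coe] at h
    exact h
  rw [e1, e2]
  calc _ ≤ ∑ y ∈ I, (P y * Real.log ((Finset.univ.filter fun x' => t x' = y).card) + Real.negMulLog (P y)) :=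
        Finset.sum_le_sum fun y _ => en_Hd_part p hp _
    _ = _ := by rw [Finset.sum_add_distrib, add_comm]
    _ ≤ _ := by linarith

/-- **concavity** (`Real.concaveOn_negMulLog`, `ConcaveOn.le_map_sum`) -/
theorem en_Hd_concave {X α : Type} [Fintype X] [Fintype α] (p : X → ℝ) (hp : ∀ a, 0 ≤ p a) (h1 : ∑ a, p a = 1) (T : X → α → ℝ) (hT : ∀ x a, 0 ≤ T x a) :
    ∑ x, p x * enHd (T x) ≤ enHd fun a => ∑ x, p x * T x a := by
  unfold enHd
  simp_rw [Finset.mul_sum]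
  rw [Finset.sum_comm]
  refine Finset.sum_le_sum fun a _ => ?_
  have hJ := Real.concaveOn_negMulLog.le_map_sum (t := Finset.univ) (w := p) (p := fun x => T x a)
    (fun x _ => hp x) h1 (fun x _ => hT x a)
  simpa only [smul_eq_mul] using hJ

/-- `- t log t ≤ √t` on `[0, ∞)` -/
theorem en_negMulLog_sqrt {t : ℝ} (ht : 0 ≤ t) : Real.negMulLog t ≤ Real.sqrt t := by
  rcases ht.eq_or_lt with rfl | ht
  · simp
  set s := Real.sqrt (Real.sqrt t) with hs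
  have hs0 : 0 < s := Real.sqrt_pos.2 (Real.sqrt_pos.2 ht)
  have h2 : s ^ 2 = Real.sqrt t := Real.sq_sqrt (Real.sqrt_nonneg t)
  have h4 : s ^ 4 = t := by
    have : s ^ 4 = (s ^ 2) ^ 2 := by ring
    rw [this, h2, Real.sq_sqrt ht.le]
  have hl := Real.one_sub_inv_le_log_of_pos hs0
  rw [← h2, Real.negMulLog, ← h4, Real.log_pow]
  have e : s ^ 4 * s⁻¹ = s ^ 3 := by field_simp
  have h5 : s ^ 4 * (1 - s⁻¹) ≤ s ^ 4 * Real.log s := mul_le_mul_of_nonneg_left hl (by positivity)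
  rw [mul_sub, e] at h5
  push_cast
  nlinarith [mul_nonneg (sq_nonneg s) (sq_nonneg (2 * s - 1))]

/-- subadditivity -/
theorem en_negMulLog_add {a b : ℝ} (ha : 0 ≤ a) (hb : 0 ≤ b) : Real.negMulLog (a + b) ≤ Real.negMulLog a + Real.negMulLog b := by
  rcases ha.eq_or_lt with rfl | ha
  · simp
  rcases hb.eq_or_lt with rfl | hb
  · simp
  have h1 : Real.log a ≤ Real.log (a + b) := Real.log_le_log ha (by linarith)
  have h2 : Real.log b ≤ Real.log (a + b) := Real.log_le_log hb (by linarith)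
  unfold Real.negMulLog
  nlinarith [mul_le_mul_of_nonneg_left h1 ha.le, mul_le_mul_of_nonneg_left h2 hb.le]

/-- Hoelder-1/2 bound: `φ` concave, `φ 0 = 0` ⇒ subadditive, `φ(t) ≤ (2/e) √t`; `φ' ≥ -1` on `[0,1]` -/
theorem en_negMulLog_holder {x y : ℝ} (hx0 : 0 ≤ x) (hx1 : x ≤ 1) (hy0 : 0 ≤ y) (hy1 : y ≤ 1) : Real.negMulLog x - Real.negMulLog y ≤ Real.sqrt |x - y| := by
  rcases le_total y x with h | h
  · rw [abs_of_nonneg (sub_nonneg.2 h)]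
    have h1 := en_negMulLog_add hy0 (sub_nonneg.2 h)
    have h2 := en_negMulLog_sqrt (sub_nonneg.2 h)
    rw [add_sub_cancel] at h1
    linarith
  · rw [abs_of_nonpos (sub_nonpos.2 h), neg_sub]
    have h3 : y - x ≤ Real.sqrt (y - x) := by
      have h0 : 0 ≤ y - x := sub_nonneg.2 h
      have h1 : y - x ≤ 1 := by linarith
      have hs := Real.sq_sqrt h0
      have hs1 : Real.sqrt (y - x) ≤ 1 := Real.sqrt_le_one.2 h1
      nlinarith [Real.sqrt_nonneg (y - x)]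
    refine le_trans ?_ h3
    rcases hx0.eq_or_lt with rfl | hx
    · have := Real.negMulLog_nonneg hy0 hy1
      simp only [Real.negMulLog_zero]
      linarith
    · have hy : 0 < y := hx.trans_le h
      have hl : Real.log y ≤ 0 := Real.log_nonpos hy0 hy1
      have h4 : Real.log (y / x) ≤ y / x - 1 := Real.log_le_sub_one_of_pos (div_pos hy hx)
      rw [Real.log_div hy.ne' hx.ne'] at h4
      have h5 := mul_le_mul_of_nonneg_left h4 hx.le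
      have e : x * (y / x - 1) = y - x := by field_simp
      rw [e] at h5
      unfold Real.negMulLog
      nlinarith [mul_nonneg (sub_nonneg.2 h) (neg_nonneg.2 hl)]

/-- weighted Cauchy-Schwarz -/
theorem en_cs_w {J : Type} (s : Finset J) (w u : J → ℝ) (hw : ∀ j ∈ s, 0 ≤ w j) :
    (∑ j ∈ s, w j * u j) ^ 2 ≤ (∑ j ∈ s, w j) * ∑ j ∈ s, w j * u j ^ 2 :=
  Finset.sum_sq_le_sum_mul_sum_of_sq_le_mul s hw (fun j hj => mul_nonneg (hw j hj) (sq_nonneg _)) (fun j _ => le_of_eq (by ring))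

/-- `Σ w √|Δ| ≤ N^{3/4} (Σ w Δ²)^{1/4}`, `N = Σ w` -/
theorem en_cs_quart {J : Type} (s : Finset J) (w Δ : J → ℝ) (hw : ∀ j ∈ s, 0 ≤ w j) :
    ∑ j ∈ s, w j * Real.sqrt |Δ j| ≤ (∑ j ∈ s, w j) ^ (3 / 4 : ℝ) * (∑ j ∈ s, w j * Δ j ^ 2) ^ (1 / 4 : ℝ) := by
  set N := ∑ j ∈ s, w j with hN
  set V := ∑ j ∈ s, w j * Δ j ^ 2 with hV
  set S1 := ∑ j ∈ s, w j * Real.sqrt |Δ j| with hS1
  set S2 := ∑ j ∈ s, w j * |Δ j| with hS2
  have hN0 : 0 ≤ N := Finset.sum_nonneg hw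
  have hV0 : 0 ≤ V := Finset.sum_nonneg fun j hj => mul_nonneg (hw j hj) (sq_nonneg _)
  have hS10 : 0 ≤ S1 := Finset.sum_nonneg fun j hj => mul_nonneg (hw j hj) (Real.sqrt_nonneg _)
  have hS20 : 0 ≤ S2 := Finset.sum_nonneg fun j hj => mul_nonneg (hw j hj) (abs_nonneg _)
  have c1 : S1 ^ 2 ≤ N * S2 := by
    have := en_cs_w s w (fun j => Real.sqrt |Δ j|) hw
    simp only [Real.sq_sqrt (abs_nonneg _)] at this
    exact this
  have c2 : S2 ^ 2 ≤ N * V := by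
    have := en_cs_w s w (fun j => |Δ j|) hw
    simp only [sq_abs] at this
    exact this
  have c3 : S1 ^ 4 ≤ N ^ 3 * V := by
    calc S1 ^ 4 = (S1 ^ 2) ^ 2 := by ring
      _ ≤ (N * S2) ^ 2 := pow_le_pow_left₀ (sq_nonneg _) c1 2
      _ = N ^ 2 * S2 ^ 2 := by ring
      _ ≤ N ^ 2 * (N * V) := mul_le_mul_of_nonneg_left c2 (sq_nonneg _)
      _ = _ := by ring
  have e1 : (N ^ (3 / 4 : ℝ) * V ^ (1 / 4 : ℝ)) ^ 4 = N ^ 3 * V := by
    rw [mul_pow, ← Real.rpow_natCast (N ^ (3 / 4 : ℝ)), ← Real.rpow_natCast (V ^ (1 / 4 : ℝ)), ← Real.rpow_mul hN0, ← Real.rpow_mul hV0]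
    norm_num
  rw [← e1] at c3
  exact le_of_pow_le_pow_left₀ (by norm_num) (by positivity) c3

/-- `H(Q̄) - E H(Q) ≤ |α|^{3/4} V^{1/4}` (`en_negMulLog_holder`, Cauchy-Schwarz twice) -/
theorem en_Hd_var {X α : Type} [Fintype X] [Fintype α] (p : X → ℝ) (hp : ∀ a, 0 ≤ p a) (h1 : ∑ a, p a = 1) (Q : X → α → ℝ) (hQ0 : ∀ x a, 0 ≤ Q x a) (hQ1 : ∀ x a, Q x a ≤ 1) :
    (enHd fun a => ∑ x, p x * Q x a) - ∑ x, p x * enHd (Q x)
      ≤ (Fintype.card α : ℝ) ^ (3 / 4 : ℝ) * (∑ a, ∑ x, p x * (Q x a - ∑ x', p x' * Q x' a) ^ 2) ^ (1 / 4 : ℝ) := by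
  set Qb : α → ℝ := fun a => ∑ x, p x * Q x a with hQb
  have hb0 : ∀ a, 0 ≤ Qb a := fun a => Finset.sum_nonneg fun x _ => mul_nonneg (hp x) (hQ0 x a)
  have hb1 : ∀ a, Qb a ≤ 1 := fun a => by
    calc Qb a ≤ ∑ x, p x * 1 := Finset.sum_le_sum fun x _ => mul_le_mul_of_nonneg_left (hQ1 x a) (hp x)
      _ = 1 := by simp [h1]
  have e1 : enHd Qb - ∑ x, p x * enHd (Q x) = ∑ q : α × X, p q.2 * (Real.negMulLog (Qb q.1) - Real.negMulLog (Q q.2 q.1)) := by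
    rw [Fintype.sum_prod_type]
    unfold enHd
    simp_rw [mul_sub, Finset.sum_sub_distrib, ← Finset.sum_mul, h1, one_mul, Finset.mul_sum]
    rw [Finset.sum_comm]
  have e2 : ∑ q : α × X, p q.2 = Fintype.card α := by
    rw [Fintype.sum_prod_type]
    simp [h1]
  have e3 : ∑ a, ∑ x, p x * (Q x a - Qb a) ^ 2 = ∑ q : α × X, p q.2 * (Qb q.1 - Q q.2 q.1) ^ 2 := by
    rw [Fintype.sum_prod_type]
    refine Finset.sum_congr rfl fun a _ => Finset.sum_congr rfl fun x _ => by ring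
  rw [e1, e3, ← e2]
  refine le_trans (Finset.sum_le_sum fun q _ => mul_le_mul_of_nonneg_left
    (en_negMulLog_holder (hb0 q.1) (hb1 q.1) (hQ0 q.2 q.1) (hQ1 q.2 q.1)) (hp q.2)) ?_
  exact en_cs_quart Finset.univ (fun q : α × X => p q.2) (fun q => Qb q.1 - Q q.2 q.1) (fun q _ => hp q.2)

/-! ### the leaf (ii) -/

open Classical in
/-- number of star types at a fixed graph (`cn_types`, `cn_ty_eq`, an enumeration exists by `cn_enum_card`) -/
theorem en_types {n d : ℕ} {G : SimpleGraph (Fin n)} (hG : G ∈ Claims.C0462.regularGraphs n d) (𝒜 : Type) [Fintype 𝒜] :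
    (Finset.univ.image fun c : Fin n → 𝒜 => enT G d c).card ≤ (n * d.factorial + 1) ^ (Fintype.card 𝒜 ^ (d + 1)) := by
  have hc := cn_enum_card hG
  have hpos : 0 < (Finset.univ.filter fun e : Fin n → Fin d → Fin n => CnEnum G e).card := by
    rw [hc]; exact pow_pos (Nat.factorial_pos d) n
  obtain ⟨e, he⟩ := Finset.card_pos.1 hpos
  have he' : CnEnum G e := (Finset.mem_filter.1 he).2
  refine le_trans (Finset.card_le_card ?_) (cn_types n d 𝒜)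
  intro T hT
  obtain ⟨c, _, rfl⟩ := Finset.mem_image.1 hT
  exact Finset.mem_image.2 ⟨cnArr e c, Finset.mem_univ _, cn_ty_eq hG he' c⟩

/-- the histograms are probability vectors -/
theorem en_T_prob {n d : ℕ} {G : SimpleGraph (Fin n)} (hG : G ∈ Claims.C0462.regularGraphs n d) (hn : 1 ≤ n) {𝒜 : Type} [Fintype 𝒜] (c : Fin n → 𝒜) (i : Fin d) :
    (∀ τ, 0 ≤ enT G d c τ) ∧ (∀ τ, 0 ≤ enQ G d i c τ ∧ enQ G d i c τ ≤ 1) ∧ ∑ τ, enQ G d i c τ = 1 := by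
  classical
  have hcard : 0 < Fintype.card (EnLoc G d) := by
    rw [en_loc_card hG]
    exact Nat.mul_pos hn (Nat.factorial_pos d)
  have : Nonempty (EnLoc G d) := Fintype.card_pos_iff.1 hcard
  refine ⟨fun τ => en_Avg_nonneg fun s => by split_ifs <;> norm_num, fun τ => ⟨en_Avg_nonneg fun s => by split_ifs <;> norm_num, ?_⟩, ?_⟩
  · calc enQ G d i c τ ≤ enAvg (fun _ : EnLoc G d => (1 : ℝ)) := en_Avg_mono fun s => by split_ifs <;> norm_num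
      _ = 1 := en_Avg_const 1
  · unfold enQ enAvg
    rw [← Finset.mul_sum, Finset.sum_comm]
    have : ∀ s : EnLoc G d, ∑ τ : Bool → 𝒜, (if (fun x => c (s.ed i x)) = τ then (1 : ℝ) else 0) = 1 := by
      intro s
      rw [Finset.sum_ite_eq]
      simp
    simp only [this, Finset.sum_const, Finset.card_univ, nsmul_eq_mul, mul_one]
    exact inv_mul_cancel₀ (by exact_mod_cast hcard.ne')

/-- `C ≤ n^κ` for large `n` -/
theorem en_pow_ge (C : ℝ) {κ₀ : ℝ} (hκ : 0 < κ₀) : ∃ n₀ : ℕ, ∀ n : ℕ, n₀ ≤ n → C ≤ (n : ℝ) ^ κ₀ := by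
  have h2 : Filter.Tendsto (fun n : ℕ => (n : ℝ) ^ κ₀) Filter.atTop Filter.atTop :=
    (tendsto_rpow_atTop hκ).comp tendsto_natCast_atTop_atTop
  exact Filter.eventually_atTop.1 (h2.eventually_ge_atTop C)

/-- `K = 2 ⌈n^{2γ}⌉ + 2 ≤ 6 n^{2γ}` -/
theorem en_K_le {n : ℕ} (hn : 1 ≤ n) {γ : ℝ} (hγ0 : 0 ≤ γ) : ((2 * ⌈(n : ℝ) ^ (2 * γ)⌉₊ + 2 : ℕ) : ℝ) ≤ 6 * (n : ℝ) ^ (2 * γ) := by
  have h1 : (1 : ℝ) ≤ (n : ℝ) ^ (2 * γ) := Real.one_le_rpow (by exact_mod_cast hn) (by linarith)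
  have h2 := Nat.ceil_lt_add_one (show (0 : ℝ) ≤ (n : ℝ) ^ (2 * γ) by positivity)
  push_cast
  linarith

/-- `K^m ≤ 6^m n^{2γm}` -/
theorem en_K_pow_le {n : ℕ} (hn : 1 ≤ n) {γ : ℝ} (hγ0 : 0 ≤ γ) (m : ℕ) :
    (((2 * ⌈(n : ℝ) ^ (2 * γ)⌉₊ + 2) ^ m : ℕ) : ℝ) ≤ 6 ^ m * (n : ℝ) ^ (2 * γ * m) := by
  rw [Nat.cast_pow, Real.rpow_mul_natCast (Nat.cast_nonneg n), ← mul_pow]
  exact pow_le_pow_left₀ (Nat.cast_nonneg _) (en_K_le hn hγ0) m

/-- `M^{d+1} log(n d! + 1) ≤ n^{1/2}`:  `M = K^ℓ ≤ (6 n^{2γ})^ℓ`, `2 γ ℓ (d+1) ≤ 1/32` -/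
theorem en_types_asym {d ℓ : ℕ} {γ : ℝ} (hγ0 : 0 < γ) (hγ : 64 * ((ℓ : ℝ) + 1) * ((d : ℝ) + 1) * γ ≤ 1) : ∃ n₀ : ℕ, ∀ n : ℕ, n₀ ≤ n →
    (((2 * ⌈(n : ℝ) ^ (2 * γ)⌉₊ + 2) ^ ℓ) ^ (d + 1) : ℕ) * Real.log ((n * d.factorial + 1 : ℕ) : ℝ) ≤ (n : ℝ) ^ (1 / 2 : ℝ) := by
  set C : ℝ := 6 ^ (ℓ * (d + 1)) * (32 + Real.log (d.factorial + 1)) with hC
  obtain ⟨n₀, H⟩ := en_pow_ge C (show (0 : ℝ) < 7 / 16 by norm_num)
  refine ⟨max n₀ 1, fun n hn => ?_⟩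
  have hn1 : 1 ≤ n := (le_max_right _ _).trans hn
  have hnR : (1 : ℝ) ≤ n := by exact_mod_cast hn1
  have hn0 : (0 : ℝ) < n := by linarith
  have hH := H n ((le_max_left _ _).trans hn)
  have hf : (1 : ℝ) ≤ d.factorial := by exact_mod_cast Nat.factorial_pos d
  have hlf : 0 ≤ Real.log ((d.factorial : ℝ) + 1) := Real.log_nonneg (by linarith)
  have p1 : (1 : ℝ) ≤ (n : ℝ) ^ (1 / 32 : ℝ) := Real.one_le_rpow hnR (by norm_num)
  have h1 : (((2 * ⌈(n : ℝ) ^ (2 * γ)⌉₊ + 2) ^ ℓ) ^ (d + 1) : ℕ) ≤ 6 ^ (ℓ * (d + 1)) * (n : ℝ) ^ (1 / 32 : ℝ) := by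
    rw [← pow_mul]
    have := en_K_pow_le hn1 hγ0.le (ℓ * (d + 1))
    push_cast at this ⊢
    refine this.trans (mul_le_mul_of_nonneg_left (Real.rpow_le_rpow_of_exponent_le hnR ?_) (by positivity))
    have : 0 ≤ ((d : ℝ) + 1) * γ := by positivity
    nlinarith
  have h2 : Real.log ((n * d.factorial + 1 : ℕ) : ℝ) ≤ (32 + Real.log (d.factorial + 1)) * (n : ℝ) ^ (1 / 32 : ℝ) := by
    have a1 : ((n * d.factorial + 1 : ℕ) : ℝ) ≤ n * ((d.factorial : ℝ) + 1) := by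
      push_cast
      nlinarith
    have a2 : Real.log ((n * d.factorial + 1 : ℕ) : ℝ) ≤ Real.log n + Real.log ((d.factorial : ℝ) + 1) := by
      rw [← Real.log_mul hn0.ne' (by positivity)]
      exact Real.log_le_log (by positivity) a1
    have a3 := en_log_le (show (0 : ℝ) < 1 / 32 by norm_num) n hn1
    have a4 : (n : ℝ) ^ (1 / 32 : ℝ) / (1 / 32) = 32 * (n : ℝ) ^ (1 / 32 : ℝ) := by ring
    rw [a4] at a3
    nlinarith
  have h0 : 0 ≤ Real.log ((n * d.factorial + 1 : ℕ) : ℝ) := Real.log_nonneg (by push_cast; nlinarith)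
  calc _ ≤ (6 ^ (ℓ * (d + 1)) * (n : ℝ) ^ (1 / 32 : ℝ)) * ((32 + Real.log (d.factorial + 1)) * (n : ℝ) ^ (1 / 32 : ℝ)) :=
        mul_le_mul h1 h2 h0 (by positivity)
    _ = C * ((n : ℝ) ^ (1 / 32 : ℝ) * (n : ℝ) ^ (1 / 32 : ℝ)) := by rw [hC]; ring
    _ = C * (n : ℝ) ^ (1 / 16 : ℝ) := by rw [← Real.rpow_add hn0]; norm_num
    _ ≤ (n : ℝ) ^ (7 / 16 : ℝ) * (n : ℝ) ^ (1 / 16 : ℝ) := mul_le_mul_of_nonneg_right hH (by positivity)
    _ = _ := by rw [← Real.rpow_add hn0]; norm_num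

/-! ### the regression coupling -/

/-- two pairs of independent noises with the same total covariance (`gm_map_add` twice, third noise on `κ₁ ⊕ κ₂` with `Matrix.fromCols`) -/
theorem gm_map_add2 {ι κ₁ κ₂ κ₃ κ₄ : Type} [Fintype ι] [Fintype κ₁] [Fintype κ₂] [Fintype κ₃] [Fintype κ₄] (B₁ : Matrix ι κ₁ ℝ) (B₂ : Matrix ι κ₂ ℝ) (B₃ : Matrix ι κ₃ ℝ)
    (B₄ : Matrix ι κ₄ ℝ) (h : B₁ * B₁ᵀ + B₂ * B₂ᵀ = B₃ * B₃ᵀ + B₄ * B₄ᵀ) :
    ((gmStd κ₁).prod (gmStd κ₂)).map (fun p => B₁ *ᵥ p.1 + B₂ *ᵥ p.2) = ((gmStd κ₃).prod (gmStd κ₄)).map (fun p => B₃ *ᵥ p.1 + B₄ *ᵥ p.2) := by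
  have e : (Matrix.fromCols B₁ B₂) * (Matrix.fromCols B₁ B₂)ᵀ = B₁ * B₁ᵀ + B₂ * B₂ᵀ := by
    rw [Matrix.transpose_fromCols, Matrix.fromCols_mul_fromRows]
  rw [gm_map_add B₁ B₂ (Matrix.fromCols B₁ B₂) e.symm, gm_map_add B₃ B₄ (Matrix.fromCols B₁ B₂) (by rw [e, h])]

/-- the projection onto the rows of `L` at the two ends of an edge -/
structure EnProj {n d ℓ : ℕ} (D : EnData n d ℓ) (e : Bool → Fin n) (W : Matrix (Fin n) (Fin n) ℝ) (lam : ℝ) : Prop where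
  sym : Wᵀ = W
  idem : W * W = W
  fix : ∀ t a, (D.L * W) (e t) a = D.L (e t) a
  small : ∀ x, (D.L * W * (D.L)ᵀ) x x ≤ lam * ∑ t, D.Γ x (e t) ^ 2

/-! ### Kronecker kit -/

/-- `(R ⊗ 1) g` -/
theorem en_kr_mulVec {P Q J : Type} [Fintype Q] [Fintype J] [DecidableEq J] (R : Matrix P Q ℝ) (g : Q × J → ℝ) (p : P) (j : J) :
    (Matrix.kroneckerMap (· * ·) R (1 : Matrix J J ℝ) *ᵥ g) (p, j) = ∑ a, R p a * g (a, j) := by
  simp only [mulVec, dotProduct, Fintype.sum_prod_type, kroneckerMap_apply, one_apply, mul_ite, mul_one, mul_zero, ite_mul, zero_mul,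
    Finset.sum_ite_eq, Finset.mem_univ, if_true]

/-- `(R ⊗ 1) (R' ⊗ 1)ᵀ = (R R'ᵀ) ⊗ 1` -/
theorem en_kr_cov {P P' Q J : Type} [Fintype Q] [Fintype J] [DecidableEq J] (R : Matrix P Q ℝ) (R' : Matrix P' Q ℝ) :
    Matrix.kroneckerMap (· * ·) R (1 : Matrix J J ℝ) * (Matrix.kroneckerMap (· * ·) R' (1 : Matrix J J ℝ))ᵀ
      = Matrix.kroneckerMap (· * ·) (R * R'ᵀ) (1 : Matrix J J ℝ) := by
  rw [← kroneckerMap_transpose, transpose_one]
  have := Matrix.mul_kronecker_mul R R'ᵀ (1 : Matrix J J ℝ) (1 : Matrix J J ℝ)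
  rw [mul_one] at this
  exact this.symm

/-- the field, coordinatewise -/
theorem en_F_apply {n d ℓ : ℕ} (D : EnData n d ℓ) (ε : ℝ) (g : Fin n × Fin ℓ → ℝ) (x : Fin n) (j : Fin ℓ) :
    D.F ε g (x, j) = ε * D.V x j + ∑ a, D.L x a * g (a, j) := by
  unfold EnData.F EnData.obsB EnData.obsM
  rw [Pi.add_apply, en_kr_mulVec]
  rfl

/-- extension by zero along `e` -/
theorem en_ext_sum26 {P N : Type} [Fintype P] [Fintype N] [DecidableEq N] (e : P → N) (y : P → ℝ) (f : N → ℝ) :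
    ∑ v, (∑ t, if e t = v then y t else 0) * f v = ∑ t, y t * f (e t) := by
  simp only [Finset.sum_mul]
  rw [Finset.sum_comm]
  refine Finset.sum_congr rfl fun t _ => ?_
  simp only [ite_mul, zero_mul, Finset.sum_ite_eq, Finset.mem_univ, if_true]

/-- a principal submatrix inherits the lower bound of the quadratic form -/
theorem en_sub_low {P N : Type} [Fintype P] [Fintype N] [DecidableEq N] {S : Matrix N N ℝ} {s : ℝ} (h : ∀ x, s * gmSq x ≤ gmQ S x) {e : P → N} (he : Function.Injective e)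
    (y : P → ℝ) : s * gmSq y ≤ gmQ (S.submatrix e e) y := by
  classical
  set z : N → ℝ := fun v => ∑ t, if e t = v then y t else 0 with hz
  have hze : ∀ t, z (e t) = y t := by
    intro t
    simp only [hz, he.eq_iff, Finset.sum_ite_eq', Finset.mem_univ, if_true]
  have e1 : gmSq z = gmSq y := by
    unfold gmSq
    simp only [sq]
    rw [en_ext_sum26 e y z]
    simp only [hze]
  have e2 : gmQ S z = gmQ (S.submatrix e e) y := by
    unfold gmQ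
    simp only [dotProduct, mulVec]
    rw [en_ext_sum26 e y]
    refine Finset.sum_congr rfl fun t _ => ?_
    congr 1
    have := en_ext_sum26 e y (fun w => S (e t) w)
    simp only [mul_comm (S (e t) _), submatrix_apply]
    simpa only [mul_comm] using this
  have := h z
  rwa [e1, e2] at this

/-- the inverse of a matrix bounded below is bounded above -/
theorem en_inv_up {P : Type} [Fintype P] [DecidableEq P] {S Si : Matrix P P ℝ} {s : ℝ} (hs : 0 < s) (h : ∀ y, s * gmSq y ≤ gmQ S y) (hi : S * Si = 1) (k : P → ℝ) :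
    gmQ Si k ≤ s⁻¹ * gmSq k := by
  set y := Si *ᵥ k with hy
  have hk : S *ᵥ y = k := by rw [hy, mulVec_mulVec, hi, one_mulVec]
  have e1 : gmQ Si k = gmQ S y := by
    unfold gmQ
    rw [hk, dotProduct_comm]
  set q := gmQ S y with hq
  have h1 := h y
  have hy0 := gm_Sq_nonneg y
  have hk0 := gm_Sq_nonneg k
  have hq0 : 0 ≤ q := le_trans (by positivity) h1
  have h2 : q ^ 2 ≤ gmSq k * gmSq y := by
    have a1 : q = k ⬝ᵥ y := by rw [hq]; unfold gmQ; rw [hk, dotProduct_comm]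
    have a2 := gm_dot_le k y
    rw [← a1, abs_of_nonneg hq0] at a2
    calc q ^ 2 ≤ (gmN k * gmN y) ^ 2 := pow_le_pow_left₀ hq0 a2 2
      _ = _ := by rw [mul_pow, gm_N_sq, gm_N_sq]
  rw [e1]
  rcases hq0.eq_or_lt with h0 | h0
  · rw [← h0]; positivity
  · have h3 : s * q ^ 2 ≤ gmSq k * q := by
      calc s * q ^ 2 ≤ s * (gmSq k * gmSq y) := mul_le_mul_of_nonneg_left h2 hs.le
        _ = gmSq k * (s * gmSq y) := by ring
        _ ≤ gmSq k * q := mul_le_mul_of_nonneg_left h1 hk0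
    have h4 : s * q ≤ gmSq k := by
      have : (s * q) * q ≤ gmSq k * q := by nlinarith
      exact le_of_mul_le_mul_right this h0
    rw [inv_mul_eq_div, le_div_iff₀ hs]
    linarith

/-- `W = L_eᵀ Γ_e⁻¹ L_e`;   `(L W Lᵀ)_xx = k_xᵀ Γ_e⁻¹ k_x ≤ lam |k_x|²`, `k_x = (Γ_{x,e t})_t`   (`en_obs_ok`-like bound of `Γ_e⁻¹`, `en_gam_bd`) -/
theorem en_proj_exists {n d ℓ : ℕ} {γ α c₂ : ℝ} {D : EnData n d ℓ} (hD : D.Ok γ α c₂) (hr : 0 < D.r) (hn : 0 < n) (e : Bool → Fin n) (he : Function.Injective e) :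
    ∃ W, EnProj D e W (D.r * (((d : ℝ) + |D.E|) ^ 2 + D.η ^ 2) / D.η) := by
  classical
  have hn0 : (0 : ℝ) < n := by exact_mod_cast hn
  have hη0 : 0 < D.η := by rw [hD.η_eq]; positivity
  obtain ⟨hsym, hbd⟩ := en_gam_bd hD hr hn
  set s : ℝ := D.η / (D.r * (((d : ℝ) + |D.E|) ^ 2 + D.η ^ 2)) with hs
  have hs0 : 0 < s := by positivity
  have hlam : D.r * (((d : ℝ) + |D.E|) ^ 2 + D.η ^ 2) / D.η = s⁻¹ := by rw [hs, inv_div]
  set Le : Matrix Bool (Fin n) ℝ := D.L.submatrix e id with hLe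
  set Ge : Matrix Bool Bool ℝ := Le * Leᵀ with hGe
  have hGe' : Ge = D.Γ.submatrix e e := by
    ext t t'
    simp only [hGe, hLe, EnData.Γ, Matrix.mul_apply, submatrix_apply, transpose_apply, id]
  have hlow : ∀ y, s * gmSq y ≤ gmQ Ge y := by
    intro y
    rw [hGe']
    exact en_sub_low (fun x => (hbd x).1) he y
  have hdet : Ge.det ≠ 0 := by
    intro h0
    obtain ⟨v, hv, hv0⟩ := Matrix.exists_mulVec_eq_zero_iff.2 h0
    have h1 := hlow v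
    have h2 : gmQ Ge v = 0 := by unfold gmQ; rw [hv0, dotProduct_zero]
    rw [h2] at h1
    have h3 : gmSq v = 0 := le_antisymm (by nlinarith) (gm_Sq_nonneg v)
    apply hv
    funext t
    have h4 := (Finset.sum_eq_zero_iff_of_nonneg (fun t _ => sq_nonneg (v t))).1 h3 t (Finset.mem_univ t)
    exact pow_eq_zero_iff (two_ne_zero) |>.1 h4
  have hu : IsUnit Ge.det := isUnit_iff_ne_zero.2 hdet
  have hi1 : Ge * Ge⁻¹ = 1 := Matrix.mul_nonsing_inv Ge hu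
  have hi2 : Ge⁻¹ * Ge = 1 := Matrix.nonsing_inv_mul Ge hu
  have hGs : Geᵀ = Ge := by rw [hGe, transpose_mul, transpose_transpose]
  have hGis : (Ge⁻¹)ᵀ = Ge⁻¹ := by rw [transpose_nonsing_inv, hGs]
  refine ⟨Leᵀ * Ge⁻¹ * Le, ?_, ?_, ?_, ?_⟩
  · rw [transpose_mul, transpose_mul, transpose_transpose, hGis, Matrix.mul_assoc]
  · calc Leᵀ * Ge⁻¹ * Le * (Leᵀ * Ge⁻¹ * Le) = Leᵀ * (Ge⁻¹ * (Le * Leᵀ)) * Ge⁻¹ * Le := by simp only [Matrix.mul_assoc]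
      _ = _ := by rw [← hGe, hi2, Matrix.mul_one]
  · intro t a
    have e1 : (D.L * (Leᵀ * Ge⁻¹ * Le)) (e t) a = (Le * (Leᵀ * Ge⁻¹ * Le)) t a := by
      rw [Matrix.mul_apply, Matrix.mul_apply]
      rfl
    have e2 : Le * (Leᵀ * Ge⁻¹ * Le) = Le := by
      calc Le * (Leᵀ * Ge⁻¹ * Le) = (Le * Leᵀ) * Ge⁻¹ * Le := by simp only [Matrix.mul_assoc]
        _ = Le := by rw [← hGe, hi1, Matrix.one_mul]
    rw [e1, e2]
    rfl
  · intro x
    set k : Bool → ℝ := fun t => D.Γ x (e t) with hk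
    have e1 : (D.L * (Leᵀ * Ge⁻¹ * Le) * (D.L)ᵀ) x x = gmQ Ge⁻¹ k := by
      have a1 : D.L * (Leᵀ * Ge⁻¹ * Le) * (D.L)ᵀ = (D.L * Leᵀ) * Ge⁻¹ * (D.L * Leᵀ)ᵀ := by
        rw [transpose_mul, transpose_transpose]
        simp only [Matrix.mul_assoc]
      have a2 : ∀ t, (D.L * Leᵀ) x t = k t := by
        intro t
        simp only [hk, hLe, EnData.Γ, Matrix.mul_apply, transpose_apply, submatrix_apply, id]
      rw [a1, Matrix.mul_apply]
      unfold gmQ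
      simp only [dotProduct, mulVec, Matrix.mul_apply, transpose_apply, a2, Finset.sum_mul, Finset.mul_sum]
      rw [Finset.sum_comm]
      refine Finset.sum_congr rfl fun t _ => Finset.sum_congr rfl fun t' _ => by ring
    rw [e1, hlam]
    exact en_inv_up hs0 hlow hi1 k

/-- the coupled field `F̃ = ε V + L (1 - W) g + L W g̃` -/
def EnData.Fc {n d ℓ : ℕ} (D : EnData n d ℓ) (W : Matrix (Fin n) (Fin n) ℝ) (ε : ℝ) (p : (Fin n × Fin ℓ → ℝ) × (Fin n × Fin ℓ → ℝ)) : Fin n × Fin ℓ → ℝ := fun q =>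
  ε * D.V q.1 q.2 + ∑ a, (D.L * (1 - W)) q.1 a * p.1 (a, q.2) + ∑ a, (D.L * W) q.1 a * p.2 (a, q.2)

/-- the colour extension `A ⊗ 1` acts colour by colour -/
theorem en_kr_apply {P : Type} {n ℓ : ℕ} (A : Matrix P (Fin n) ℝ) (g : Fin n × Fin ℓ → ℝ) (x : P) (j : Fin ℓ) :
    (Matrix.kroneckerMap (· * ·) A (1 : Matrix (Fin ℓ) (Fin ℓ) ℝ) *ᵥ g) (x, j) = ∑ a, A x a * g (a, j) := by
  simp only [mulVec, dotProduct, kroneckerMap_apply, Fintype.sum_prod_type, one_apply]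
  refine Finset.sum_congr rfl fun a _ => ?_
  simp

theorem en_kr_gram {P : Type} {n ℓ : ℕ} (A A' : Matrix P (Fin n) ℝ) :
    Matrix.kroneckerMap (· * ·) A (1 : Matrix (Fin ℓ) (Fin ℓ) ℝ) * (Matrix.kroneckerMap (· * ·) A' (1 : Matrix (Fin ℓ) (Fin ℓ) ℝ))ᵀ
      = Matrix.kroneckerMap (· * ·) (A * A'ᵀ) (1 : Matrix (Fin ℓ) (Fin ℓ) ℝ) := by
  rw [← Matrix.kroneckerMap_transpose, transpose_one]
  have := Matrix.mul_kronecker_mul A A'ᵀ (1 : Matrix (Fin ℓ) (Fin ℓ) ℝ) (1 : Matrix (Fin ℓ) (Fin ℓ) ℝ)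
  rw [Matrix.mul_one] at this
  exact this.symm

/-- **law of the coupling**: `(F_e(g), F̃_{e'}(g, g̃)) ~ (F_e(g), F_{e'}(g̃))`.   Index set `Bool × (Bool × Fin ℓ)`; covariances: `L_e (1-W) Lᵀ = 0`, `L(1-W)(1-W)ᵀLᵀ + L W Wᵀ Lᵀ = Γ`; `gm_map_add2` + translation by the means -/
theorem en_cpl_law {n d ℓ : ℕ} (D : EnData n d ℓ) {e : Bool → Fin n} {W : Matrix (Fin n) (Fin n) ℝ} {lam : ℝ} (hW : EnProj D e W lam) (e' : Bool → Fin n) (ε : ℝ) :
    ((gmStd (Fin n × Fin ℓ)).prod (gmStd (Fin n × Fin ℓ))).map (fun p => ((fun q : Bool × Fin ℓ => D.F ε p.1 (e q.1, q.2)), fun q : Bool × Fin ℓ => D.Fc W ε p (e' q.1, q.2)))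
      = ((gmStd (Fin n × Fin ℓ)).prod (gmStd (Fin n × Fin ℓ))).map (fun p => ((fun q : Bool × Fin ℓ => D.F ε p.1 (e q.1, q.2)), fun q : Bool × Fin ℓ => D.F ε p.2 (e' q.1, q.2))) := by
  set A₁ : Matrix (Bool ⊕ Bool) (Fin n) ℝ := Matrix.of (Sum.elim (fun t a => D.L (e t) a) (fun t a => (D.L * (1 - W)) (e' t) a)) with hA₁
  set A₂ : Matrix (Bool ⊕ Bool) (Fin n) ℝ := Matrix.of (Sum.elim (fun _ _ => 0) (fun t a => (D.L * W) (e' t) a)) with hA₂
  set A₃ : Matrix (Bool ⊕ Bool) (Fin n) ℝ := Matrix.of (Sum.elim (fun t a => D.L (e t) a) (fun _ _ => 0)) with hA₃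
  set A₄ : Matrix (Bool ⊕ Bool) (Fin n) ℝ := Matrix.of (Sum.elim (fun _ _ => 0) (fun t a => D.L (e' t) a)) with hA₄
  have hq : (1 - W) * (1 - W) = 1 - W := by
    rw [sub_mul, mul_sub, mul_sub, Matrix.one_mul, Matrix.mul_one, Matrix.one_mul, hW.idem]
    abel
  have M1 : (D.L * (1 - W)) * (D.L * (1 - W))ᵀ + (D.L * W) * (D.L * W)ᵀ = D.L * (D.L)ᵀ := by
    rw [transpose_mul, transpose_mul, transpose_sub, transpose_one, hW.sym]
    calc D.L * (1 - W) * ((1 - W) * (D.L)ᵀ) + D.L * W * (W * (D.L)ᵀ)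
        = D.L * ((1 - W) * (1 - W)) * (D.L)ᵀ + D.L * (W * W) * (D.L)ᵀ := by simp only [Matrix.mul_assoc]
      _ = D.L * ((1 - W) + W) * (D.L)ᵀ := by rw [hq, hW.idem, Matrix.mul_add, Matrix.add_mul]
      _ = _ := by rw [sub_add_cancel, Matrix.mul_one]
  have M2 : ∀ t x, ∑ a, D.L (e t) a * (D.L * (1 - W)) x a = 0 := by
    intro t x
    have h1 : D.L * (D.L * (1 - W))ᵀ = (D.L * (1 - W)) * (D.L)ᵀ := by
      rw [transpose_mul, transpose_sub, transpose_one, hW.sym, Matrix.mul_assoc]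
    have h2 := congrFun (congrFun h1 (e t)) x
    rw [Matrix.mul_apply, Matrix.mul_apply] at h2
    simp only [transpose_apply] at h2
    rw [h2]
    refine Finset.sum_eq_zero fun b _ => ?_
    have : (D.L * (1 - W)) (e t) b = 0 := by
      rw [Matrix.mul_sub, Matrix.mul_one, Matrix.sub_apply, hW.fix, sub_self]
    rw [this, zero_mul]
  have hA : A₁ * A₁ᵀ + A₂ * A₂ᵀ = A₃ * A₃ᵀ + A₄ * A₄ᵀ := by
    ext x y
    simp only [Matrix.add_apply, Matrix.mul_apply, transpose_apply, hA₁, hA₂, hA₃, hA₄, Matrix.of_apply]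
    rcases x with t | t <;> rcases y with t' | t'
    · simp
    · simp only [Sum.elim_inl, Sum.elim_inr, zero_mul, mul_zero, Finset.sum_const_zero, add_zero]
      exact M2 t (e' t')
    · simp only [Sum.elim_inl, Sum.elim_inr, zero_mul, mul_zero, Finset.sum_const_zero, add_zero]
      rw [← M2 t' (e' t)]
      exact Finset.sum_congr rfl fun a _ => mul_comm _ _
    · simp only [Sum.elim_inr, zero_mul, Finset.sum_const_zero, zero_add]
      have := congrFun (congrFun M1 (e' t)) (e' t')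
      simp only [Matrix.add_apply, Matrix.mul_apply (M := D.L * (1 - W)) (N := (D.L * (1 - W))ᵀ), Matrix.mul_apply (M := D.L * W) (N := (D.L * W)ᵀ),
        Matrix.mul_apply (M := D.L) (N := (D.L)ᵀ), transpose_apply] at this
      exact this
  have hB := gm_map_add2 (Matrix.kroneckerMap (· * ·) A₁ (1 : Matrix (Fin ℓ) (Fin ℓ) ℝ)) (Matrix.kroneckerMap (· * ·) A₂ (1 : Matrix (Fin ℓ) (Fin ℓ) ℝ))
    (Matrix.kroneckerMap (· * ·) A₃ (1 : Matrix (Fin ℓ) (Fin ℓ) ℝ)) (Matrix.kroneckerMap (· * ·) A₄ (1 : Matrix (Fin ℓ) (Fin ℓ) ℝ)) (by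
      rw [en_kr_gram, en_kr_gram, en_kr_gram, en_kr_gram, ← Matrix.kroneckerMap_add_left _ (fun a b c => add_mul a b c),
        ← Matrix.kroneckerMap_add_left _ (fun a b c => add_mul a b c), hA])
  set Ψ : ((Bool ⊕ Bool) × Fin ℓ → ℝ) → (Bool × Fin ℓ → ℝ) × (Bool × Fin ℓ → ℝ) := fun y =>
    (fun q => ε * D.V (e q.1) q.2 + y (Sum.inl q.1, q.2), fun q => ε * D.V (e' q.1) q.2 + y (Sum.inr q.1, q.2)) with hΨ
  have hΨm : Measurable Ψ := by
    refine Measurable.prodMk ?_ ?_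
    · exact measurable_pi_lambda _ fun q => (measurable_pi_apply _).const_add _
    · exact measurable_pi_lambda _ fun q => (measurable_pi_apply _).const_add _
  have hm : ∀ (X Y : Matrix ((Bool ⊕ Bool) × Fin ℓ) (Fin n × Fin ℓ) ℝ), Measurable fun p : (Fin n × Fin ℓ → ℝ) × (Fin n × Fin ℓ → ℝ) => X *ᵥ p.1 + Y *ᵥ p.2 :=
    fun X Y => ((gm_x_meas X).comp measurable_fst).add ((gm_x_meas Y).comp measurable_snd)
  have e1 : (fun p : (Fin n × Fin ℓ → ℝ) × (Fin n × Fin ℓ → ℝ) => ((fun q : Bool × Fin ℓ => D.F ε p.1 (e q.1, q.2)), fun q : Bool × Fin ℓ => D.Fc W ε p (e' q.1, q.2)))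
      = Ψ ∘ fun p => Matrix.kroneckerMap (· * ·) A₁ (1 : Matrix (Fin ℓ) (Fin ℓ) ℝ) *ᵥ p.1 + Matrix.kroneckerMap (· * ·) A₂ (1 : Matrix (Fin ℓ) (Fin ℓ) ℝ) *ᵥ p.2 := by
    funext p
    refine Prod.ext (funext fun q => ?_) (funext fun q => ?_)
    · simp only [hΨ, Function.comp, Pi.add_apply, en_kr_apply, en_F_apply, hA₁, hA₂, Matrix.of_apply, Sum.elim_inl, zero_mul, Finset.sum_const_zero, add_zero]
    · simp only [hΨ, Function.comp, Pi.add_apply, en_kr_apply, EnData.Fc, hA₁, hA₂, Matrix.of_apply, Sum.elim_inr]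
      ring
  have e2 : (fun p : (Fin n × Fin ℓ → ℝ) × (Fin n × Fin ℓ → ℝ) => ((fun q : Bool × Fin ℓ => D.F ε p.1 (e q.1, q.2)), fun q : Bool × Fin ℓ => D.F ε p.2 (e' q.1, q.2)))
      = Ψ ∘ fun p => Matrix.kroneckerMap (· * ·) A₃ (1 : Matrix (Fin ℓ) (Fin ℓ) ℝ) *ᵥ p.1 + Matrix.kroneckerMap (· * ·) A₄ (1 : Matrix (Fin ℓ) (Fin ℓ) ℝ) *ᵥ p.2 := by
    funext p
    refine Prod.ext (funext fun q => ?_) (funext fun q => ?_)
    · simp only [hΨ, Function.comp, Pi.add_apply, en_kr_apply, en_F_apply, hA₃, hA₄, Matrix.of_apply, Sum.elim_inl, zero_mul, Finset.sum_const_zero, add_zero]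
    · simp only [hΨ, Function.comp, Pi.add_apply, en_kr_apply, en_F_apply, hA₃, hA₄, Matrix.of_apply, Sum.elim_inr, zero_mul, Finset.sum_const_zero, zero_add]
  rw [e1, e2, ← Measure.map_map hΨm (hm _ _), ← Measure.map_map hΨm (hm _ _), hB]

/-- product of two histograms -/
theorem en_pair_sum {S α : Type} [Fintype S] [Fintype α] (u v : S → α) {i1 : ∀ s a, Decidable (u s = a)} {i2 : ∀ s a, Decidable (v s = a)}
    {i3 : ∀ s s', Decidable (u s = v s')} :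
    ∑ a, enAvg (fun s => if u s = a then (1 : ℝ) else 0) * enAvg (fun s => if v s = a then (1 : ℝ) else 0)
      = enAvg fun s => enAvg fun s' => if u s = v s' then (1 : ℝ) else 0 := by
  rw [cn_hist_sum u (fun a => enAvg (fun s => if v s = a then (1 : ℝ) else 0))]
  congr 1
  funext s
  congr 1
  funext s'
  by_cases h : u s = v s'
  · rw [if_pos h, if_pos h.symm]
  · rw [if_neg h, if_neg (fun h' => h h'.symm)]

/-- linearity of the average -/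
theorem en_avg_lin {K X : Type} [Fintype K] [Fintype X] (w : X → ℝ) (f : X → K → ℝ) : ∑ x, w x * enAvg (f x) = enAvg fun s => ∑ x, w x * f x s := by
  unfold enAvg
  simp only [Finset.mul_sum]
  rw [Finset.sum_comm]
  refine Finset.sum_congr rfl fun s _ => Finset.sum_congr rfl fun x _ => by ring

/-- the total variance of a family of vectors -/
theorem en_var_pair {X α : Type} [Fintype X] [Fintype α] (p : X → ℝ) (h1 : ∑ x, p x = 1) (q : X → α → ℝ) :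
    ∑ a, ∑ x, p x * (q x a - ∑ x', p x' * q x' a) ^ 2 = ∑ x, p x * ∑ a, q x a * q x a - ∑ y : X × X, p y.1 * p y.2 * ∑ a, q y.1 a * q y.2 a := by
  have h2 : ∀ a, ∑ x, p x * (q x a - ∑ x', p x' * q x' a) ^ 2 = ∑ x, p x * (q x a * q x a) - (∑ x, p x * q x a) * ∑ x', p x' * q x' a := by
    intro a
    set m := ∑ x', p x' * q x' a with hm
    have : ∀ x, p x * (q x a - m) ^ 2 = p x * (q x a * q x a) - 2 * m * (p x * q x a) + m ^ 2 * p x := fun x => by ring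
    simp only [this]
    rw [Finset.sum_add_distrib, Finset.sum_sub_distrib, ← Finset.mul_sum, ← Finset.mul_sum, h1, ← hm]
    ring
  simp only [h2]
  rw [Finset.sum_sub_distrib]
  congr 1
  · rw [Finset.sum_comm]
    exact Finset.sum_congr rfl fun x _ => (Finset.mul_sum _ _ _).symm
  · rw [Fintype.sum_prod_type]
    have h3 : ∀ a, (∑ x, p x * q x a) * ∑ x', p x' * q x' a = ∑ x, ∑ x', p x * p x' * (q x a * q x' a) := by
      intro a
      rw [Finset.sum_mul_sum]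
      exact Finset.sum_congr rfl fun x _ => Finset.sum_congr rfl fun x' _ => by ring
    simp only [h3, Finset.mul_sum]
    rw [Finset.sum_comm]
    refine Finset.sum_congr rfl fun x _ => ?_
    rw [Finset.sum_comm]

/-- events of the pair of labellings under the product measure -/
theorem en_pL_pair {n d ℓ : ℕ} (D : EnData n d ℓ) (ε : ℝ) (ψ : (Fin n → Fin ℓ → Fin D.K) × (Fin n → Fin ℓ → Fin D.K) → Prop) {inst : DecidablePred ψ} :
    ∑ y : (Fin n → Fin ℓ → Fin D.K) × (Fin n → Fin ℓ → Fin D.K), D.pL ε y.1 * D.pL ε y.2 * (if ψ y then (1 : ℝ) else 0)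
      = ((gmStd (Fin n × Fin ℓ)).prod (gmStd (Fin n × Fin ℓ))).real {p | ψ (D.lab ε p.1, D.lab ε p.2)} := by
  have hm : Measurable fun p : (Fin n × Fin ℓ → ℝ) × (Fin n × Fin ℓ → ℝ) => (D.lab ε p.1, D.lab ε p.2) :=
    ((en_lab_meas D ε).comp measurable_fst).prodMk ((en_lab_meas D ε).comp measurable_snd)
  have h2 := sum_measureReal_preimage_singleton (μ := (gmStd (Fin n × Fin ℓ)).prod (gmStd (Fin n × Fin ℓ)))
    ((Finset.univ : Finset ((Fin n → Fin ℓ → Fin D.K) × (Fin n → Fin ℓ → Fin D.K))).filter ψ)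
    (f := fun p : (Fin n × Fin ℓ → ℝ) × (Fin n × Fin ℓ → ℝ) => (D.lab ε p.1, D.lab ε p.2)) (fun y _ => hm (measurableSet_singleton y))
  have e : {p : (Fin n × Fin ℓ → ℝ) × (Fin n × Fin ℓ → ℝ) | ψ (D.lab ε p.1, D.lab ε p.2)}
      = (fun p : (Fin n × Fin ℓ → ℝ) × (Fin n × Fin ℓ → ℝ) => (D.lab ε p.1, D.lab ε p.2)) ⁻¹'
        (((Finset.univ : Finset ((Fin n → Fin ℓ → Fin D.K) × (Fin n → Fin ℓ → Fin D.K))).filter ψ) : Set _) := by
    ext p; simp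
  rw [e, ← h2, Finset.sum_filter]
  refine Finset.sum_congr rfl fun y _ => ?_
  have e2 : (fun p : (Fin n × Fin ℓ → ℝ) × (Fin n × Fin ℓ → ℝ) => (D.lab ε p.1, D.lab ε p.2)) ⁻¹' {y} = (D.lab ε ⁻¹' {y.1}) ×ˢ (D.lab ε ⁻¹' {y.2}) := by
    ext p
    simp [Prod.ext_iff]
  by_cases h : ψ y
  · rw [if_pos h, if_pos h, mul_one, e2, measureReal_prod_prod]
    rfl
  · rw [if_neg h, if_neg h, mul_zero]


theorem en_F_meas {n d ℓ : ℕ} (D : EnData n d ℓ) (ε : ℝ) (v : Fin n) (j : Fin ℓ) : Measurable fun g : Fin n × Fin ℓ → ℝ => D.F ε g (v, j) :=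
  (measurable_pi_apply (v, j)).comp ((gm_x_meas (D.obsB id)).const_add (D.obsM ε id))

theorem en_Fc_meas {n d ℓ : ℕ} (D : EnData n d ℓ) (W : Matrix (Fin n) (Fin n) ℝ) (ε : ℝ) (v : Fin n) (j : Fin ℓ) :
    Measurable fun p : (Fin n × Fin ℓ → ℝ) × (Fin n × Fin ℓ → ℝ) => D.Fc W ε p (v, j) := by
  unfold EnData.Fc
  fun_prop

/-- the event "equal labels" has the same probability for the coupled field and for an independent copy -/
theorem en_cpl_event {n d ℓ : ℕ} (D : EnData n d ℓ) {e : Bool → Fin n} {W : Matrix (Fin n) (Fin n) ℝ} {lam : ℝ} (hW : EnProj D e W lam) (e' : Bool → Fin n) (ε : ℝ) : haveI := D.K0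
    ((gmStd (Fin n × Fin ℓ)).prod (gmStd (Fin n × Fin ℓ))).real {p | ∀ q : Bool × Fin ℓ, enBin D.b D.K (D.F ε p.1 (e q.1, q.2)) = enBin D.b D.K (D.Fc W ε p (e' q.1, q.2))}
      = ((gmStd (Fin n × Fin ℓ)).prod (gmStd (Fin n × Fin ℓ))).real {p | ∀ q : Bool × Fin ℓ, enBin D.b D.K (D.F ε p.1 (e q.1, q.2)) = enBin D.b D.K (D.F ε p.2 (e' q.1, q.2))} := by
  have := D.K0
  have h := en_cpl_law D hW e' ε
  set A : Set ((Bool × Fin ℓ → ℝ) × (Bool × Fin ℓ → ℝ)) := {y | ∀ q, enBin D.b D.K (y.1 q) = enBin D.b D.K (y.2 q)} with hA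
  have hAm : MeasurableSet A := by
    have : A = ⋂ q, {y : (Bool × Fin ℓ → ℝ) × (Bool × Fin ℓ → ℝ) | enBin D.b D.K (y.1 q) = enBin D.b D.K (y.2 q)} := by
      ext y; simp [hA]
    rw [this]
    refine MeasurableSet.iInter fun q => ?_
    exact measurableSet_eq_fun ((en_bin_meas D.b D.K).comp ((measurable_pi_apply q).comp measurable_fst))
      ((en_bin_meas D.b D.K).comp ((measurable_pi_apply q).comp measurable_snd))
  have m1 : Measurable fun p : (Fin n × Fin ℓ → ℝ) × (Fin n × Fin ℓ → ℝ) => ((fun q : Bool × Fin ℓ => D.F ε p.1 (e q.1, q.2)), fun q : Bool × Fin ℓ => D.Fc W ε p (e' q.1, q.2)) :=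
    (measurable_pi_lambda _ fun q => (en_F_meas D ε _ _).comp measurable_fst).prodMk (measurable_pi_lambda _ fun q => en_Fc_meas D W ε _ _)
  have m2 : Measurable fun p : (Fin n × Fin ℓ → ℝ) × (Fin n × Fin ℓ → ℝ) => ((fun q : Bool × Fin ℓ => D.F ε p.1 (e q.1, q.2)), fun q : Bool × Fin ℓ => D.F ε p.2 (e' q.1, q.2)) :=
    (measurable_pi_lambda _ fun q => (en_F_meas D ε _ _).comp measurable_fst).prodMk (measurable_pi_lambda _ fun q => (en_F_meas D ε _ _).comp measurable_snd)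
  have a1 := map_measureReal_apply (μ := (gmStd (Fin n × Fin ℓ)).prod (gmStd (Fin n × Fin ℓ))) m1 hAm
  have a2 := map_measureReal_apply (μ := (gmStd (Fin n × Fin ℓ)).prod (gmStd (Fin n × Fin ℓ))) m2 hAm
  rw [h, a2] at a1
  exact a1.symm

/-- **variance by coupling**.   `Σ_τ Var Q(τ) = avg_{s,s'} [P(c_s = c_{s'}) - P ⊗ P(c_s(g) = c_{s'}(g̃))]`, the second term `= P(c_s(g) = c̃_{s'}(g,g̃))` (`en_cpl_law`), and `1[X = Y] - 1[X = Ỹ] ≤ 1[Y ≠ Ỹ]` -/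
theorem en_iii_cpl {n d ℓ : ℕ} (D : EnData n d ℓ) (i : Fin d) (ε : ℝ) {lam : ℝ} (W : EnLoc D.G d → Matrix (Fin n) (Fin n) ℝ) (hW : ∀ s, EnProj D (s.ed i) (W s) lam) : haveI := D.K0
    ∑ τ, ∑ c, D.pL ε c * (enQ D.G d i c τ - ∑ c', D.pL ε c' * enQ D.G d i c' τ) ^ 2
      ≤ enAvg fun s : EnLoc D.G d => enAvg fun s' : EnLoc D.G d =>
        ((gmStd (Fin n × Fin ℓ)).prod (gmStd (Fin n × Fin ℓ))).real {p | ∃ (t : Bool) (j : Fin ℓ), enBin D.b D.K (D.F ε p.1 (s'.ed i t, j)) ≠ enBin D.b D.K (D.Fc (W s) ε p (s'.ed i t, j))} := by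
  classical
  have := D.K0
  obtain ⟨hp0, hp1⟩ := en_pL_prob D ε
  set μ2 := (gmStd (Fin n × Fin ℓ)).prod (gmStd (Fin n × Fin ℓ)) with hμ2
  rw [en_var_pair (D.pL ε) hp1 (fun c τ => enQ D.G d i c τ)]
  have hR : ∀ c c' : Fin n → Fin ℓ → Fin D.K, ∑ τ, enQ D.G d i c τ * enQ D.G d i c' τ
      = enAvg fun s : EnLoc D.G d => enAvg fun s' : EnLoc D.G d => if (fun x => c (s.ed i x)) = (fun x => c' (s'.ed i x)) then (1 : ℝ) else 0 := by
    intro c c'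
    unfold enQ
    exact en_pair_sum (fun s : EnLoc D.G d => fun x => c (s.ed i x)) (fun s : EnLoc D.G d => fun x => c' (s.ed i x))
  simp only [hR]
  -- the first term as a sum over pairs
  have hfirst : ∑ c, D.pL ε c * (enAvg fun s : EnLoc D.G d => enAvg fun s' : EnLoc D.G d => if (fun x => c (s.ed i x)) = (fun x => c (s'.ed i x)) then (1 : ℝ) else 0)
      = ∑ y : (Fin n → Fin ℓ → Fin D.K) × (Fin n → Fin ℓ → Fin D.K), D.pL ε y.1 * D.pL ε y.2 *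
          (enAvg fun s : EnLoc D.G d => enAvg fun s' : EnLoc D.G d => if (fun x => y.1 (s.ed i x)) = (fun x => y.1 (s'.ed i x)) then (1 : ℝ) else 0) := by
    have gen : ∀ R : (Fin n → Fin ℓ → Fin D.K) → ℝ, ∑ c, D.pL ε c * R c
        = ∑ y : (Fin n → Fin ℓ → Fin D.K) × (Fin n → Fin ℓ → Fin D.K), D.pL ε y.1 * D.pL ε y.2 * R y.1 := by
      intro R
      rw [Fintype.sum_prod_type]
      refine Finset.sum_congr rfl fun c _ => ?_
      have : ∀ c' : Fin n → Fin ℓ → Fin D.K, D.pL ε c * D.pL ε c' * R c = D.pL ε c' * (D.pL ε c * R c) := fun c' => by ring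
      simp only [this]
      rw [← Finset.sum_mul, hp1, one_mul]
    exact gen _
  rw [hfirst]
  -- exchange sums and averages
  have hlin : ∀ r : EnLoc D.G d → EnLoc D.G d → (Fin n → Fin ℓ → Fin D.K) × (Fin n → Fin ℓ → Fin D.K) → ℝ,
      ∑ y : (Fin n → Fin ℓ → Fin D.K) × (Fin n → Fin ℓ → Fin D.K), D.pL ε y.1 * D.pL ε y.2 * (enAvg fun s => enAvg fun s' => r s s' y)
        = enAvg fun s => enAvg fun s' => ∑ y : (Fin n → Fin ℓ → Fin D.K) × (Fin n → Fin ℓ → Fin D.K), D.pL ε y.1 * D.pL ε y.2 * r s s' y := by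
    intro r
    rw [en_avg_lin (fun y : (Fin n → Fin ℓ → Fin D.K) × (Fin n → Fin ℓ → Fin D.K) => D.pL ε y.1 * D.pL ε y.2) (fun y s => enAvg fun s' => r s s' y)]
    congr 1
    funext s
    rw [en_avg_lin (fun y : (Fin n → Fin ℓ → Fin D.K) × (Fin n → Fin ℓ → Fin D.K) => D.pL ε y.1 * D.pL ε y.2) (fun y s' => r s s' y)]
  rw [hlin (fun s s' y => if (fun x => y.1 (s.ed i x)) = (fun x => y.1 (s'.ed i x)) then (1 : ℝ) else 0),
    hlin (fun s s' y => if (fun x => y.1 (s.ed i x)) = (fun x => y.2 (s'.ed i x)) then (1 : ℝ) else 0)]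
  have hA : ∀ s s' : EnLoc D.G d, ∑ y : (Fin n → Fin ℓ → Fin D.K) × (Fin n → Fin ℓ → Fin D.K), D.pL ε y.1 * D.pL ε y.2 *
      (if (fun x => y.1 (s.ed i x)) = (fun x => y.1 (s'.ed i x)) then (1 : ℝ) else 0)
      = μ2.real {p | (fun x => D.lab ε p.1 (s.ed i x)) = fun x => D.lab ε p.1 (s'.ed i x)} :=
    fun s s' => en_pL_pair D ε (fun y => (fun x => y.1 (s.ed i x)) = fun x => y.1 (s'.ed i x))
  have hB : ∀ s s' : EnLoc D.G d, ∑ y : (Fin n → Fin ℓ → Fin D.K) × (Fin n → Fin ℓ → Fin D.K), D.pL ε y.1 * D.pL ε y.2 *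
      (if (fun x => y.1 (s.ed i x)) = (fun x => y.2 (s'.ed i x)) then (1 : ℝ) else 0)
      = μ2.real {p | (fun x => D.lab ε p.1 (s.ed i x)) = fun x => D.lab ε p.2 (s'.ed i x)} :=
    fun s s' => en_pL_pair D ε (fun y => (fun x => y.1 (s.ed i x)) = fun x => y.2 (s'.ed i x))
  simp only [hA, hB]
  have key : ∀ s s' : EnLoc D.G d, μ2.real {p | (fun x => D.lab ε p.1 (s.ed i x)) = fun x => D.lab ε p.1 (s'.ed i x)}
      ≤ μ2.real {p | (fun x => D.lab ε p.1 (s.ed i x)) = fun x => D.lab ε p.2 (s'.ed i x)}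
        + μ2.real {p | ∃ (t : Bool) (j : Fin ℓ), enBin D.b D.K (D.F ε p.1 (s'.ed i t, j)) ≠ enBin D.b D.K (D.Fc (W s) ε p (s'.ed i t, j))} := by
    intro s s'
    have e1 : {p : (Fin n × Fin ℓ → ℝ) × (Fin n × Fin ℓ → ℝ) | (fun x => D.lab ε p.1 (s.ed i x)) = fun x => D.lab ε p.2 (s'.ed i x)}
        = {p | ∀ q : Bool × Fin ℓ, enBin D.b D.K (D.F ε p.1 (s.ed i q.1, q.2)) = enBin D.b D.K (D.F ε p.2 (s'.ed i q.1, q.2))} := by
      ext p
      simp only [Set.mem_ofPred_eq]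
      constructor
      · intro h q
        exact congrFun (congrFun h q.1) q.2
      · intro h
        funext t j
        exact h (t, j)
    rw [e1, ← en_cpl_event D (hW s) (s'.ed i) ε]
    refine (measureReal_mono ?_).trans (measureReal_union_le _ _)
    intro p hp
    simp only [Set.mem_ofPred_eq] at hp
    by_cases hc : ∃ (t : Bool) (j : Fin ℓ), enBin D.b D.K (D.F ε p.1 (s'.ed i t, j)) ≠ enBin D.b D.K (D.Fc (W s) ε p (s'.ed i t, j))
    · exact Or.inr hc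
    · left
      push Not at hc
      intro q
      rw [← hc q.1 q.2]
      exact congrFun (congrFun hp q.1) q.2
  rw [sub_le_iff_le_add']
  calc _ ≤ enAvg fun s : EnLoc D.G d => enAvg fun s' : EnLoc D.G d =>
        (μ2.real {p | (fun x => D.lab ε p.1 (s.ed i x)) = fun x => D.lab ε p.2 (s'.ed i x)}
        + μ2.real {p | ∃ (t : Bool) (j : Fin ℓ), enBin D.b D.K (D.F ε p.1 (s'.ed i t, j)) ≠ enBin D.b D.K (D.Fc (W s) ε p (s'.ed i t, j))}) :=
        en_Avg_mono fun s => en_Avg_mono fun s' => key s s'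
    _ = _ := by simp only [en_Avg_add]

/-- different bins: far apart or close to one of the grid points `(k - K/2) b` -/
theorem en_bin_ne {b : ℝ} (hb : 0 < b) (Kb : ℕ) [NeZero Kb] {t t' δ : ℝ} (h : enBin b Kb t ≠ enBin b Kb t') :
    δ < |t - t'| ∨ ∃ k : Fin Kb, |t - ((k.val : ℝ) - (Kb / 2 : ℕ)) * b| ≤ δ := by
  by_contra hc
  push Not at hc
  obtain ⟨h1, h2⟩ := hc
  have hv : (enBin b Kb t).val ≠ (enBin b Kb t').val := fun e => h (Fin.ext e)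
  -- key: if bin u < bin u' then  u < g ≤ u',  g = grid point of bin u'
  have key : ∀ u u' : ℝ, (enBin b Kb u).val < (enBin b Kb u').val →
      u < (((enBin b Kb u').val : ℝ) - (Kb / 2 : ℕ)) * b ∧ (((enBin b Kb u').val : ℝ) - (Kb / 2 : ℕ)) * b ≤ u' := by
    intro u u' hlt
    have e1 := en_bin_val b Kb u
    have e2 := en_bin_val b Kb u'
    set k := (enBin b Kb u').val with hk
    have a1 : ⌊u / b⌋ < (k : ℤ) - (Kb / 2 : ℕ) := by omega
    have a2 : (k : ℤ) - (Kb / 2 : ℕ) ≤ ⌊u' / b⌋ := by omega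
    rw [Int.floor_lt, div_lt_iff₀ hb] at a1
    rw [Int.le_floor, le_div_iff₀ hb] at a2
    push_cast at a1 a2
    exact ⟨a1, a2⟩
  rw [abs_le] at h1
  rcases lt_or_gt_of_ne hv with hlt | hlt
  · obtain ⟨k1, k2⟩ := key t t' hlt
    refine absurd (h2 (enBin b Kb t')) (not_lt.2 ?_)
    rw [abs_le]
    constructor <;> linarith [h1.1, h1.2]
  · obtain ⟨k1, k2⟩ := key t' t hlt
    refine absurd (h2 (enBin b Kb t)) (not_lt.2 ?_)
    rw [abs_le]
    constructor <;> linarith [h1.1, h1.2]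

/-- Chebyshev for one coordinate -/
theorem gm_cheb {ι κ : Type} [Fintype ι] [Fintype κ] (B : Matrix ι κ ℝ) (i : ι) {δ : ℝ} (hδ : 0 < δ) :
    (gmStd κ).real {g | δ < |(B *ᵥ g) i|} ≤ (B * Bᵀ) i i / δ ^ 2 := by
  have hS : MeasurableSet {x : ℝ | δ < |x|} := measurableSet_lt measurable_const (by fun_prop)
  have h1 := gm_coord_law B i hS
  have e1 : {g : κ → ℝ | (B *ᵥ g) i ∈ {x : ℝ | δ < |x|}} = {g | δ < |(B *ᵥ g) i|} := rfl
  rw [e1] at h1
  rw [h1]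
  have h0 : 0 ≤ (B * Bᵀ) i i := by
    rw [Matrix.mul_apply]
    exact Finset.sum_nonneg fun a _ => by rw [Matrix.transpose_apply]; exact mul_self_nonneg _
  set σ := Real.sqrt ((B * Bᵀ) i i) with hσ
  have hσ2 : σ ^ 2 = (B * Bᵀ) i i := Real.sq_sqrt h0
  have hsub : {x : ℝ | σ * x ∈ {x : ℝ | δ < |x|}} ⊆ {x | δ ^ 2 ≤ σ ^ 2 * x ^ 2} := by
    intro x hx
    simp only [Set.mem_ofPred_eq] at hx ⊢
    rw [← mul_pow, ← sq_abs (σ * x)]
    exact pow_le_pow_left₀ hδ.le hx.le 2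
  have hM := mul_meas_ge_le_integral_of_nonneg (μ := gaussianReal 0 1) (f := fun x : ℝ => σ ^ 2 * x ^ 2)
    (Filter.Eventually.of_forall fun x => by positivity) ((qf_g1_pow_integrable 2).const_mul _) (δ ^ 2)
  rw [integral_const_mul, qf_g1_sq, mul_one] at hM
  rw [le_div_iff₀ (by positivity), mul_comm, ← hσ2]
  exact (mul_le_mul_of_nonneg_left (measureReal_mono hsub) (by positivity)).trans hM

/-- Chebyshev for one coordinate of a sum of two independent noises -/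
theorem gm_cheb2 {ι κ κ' : Type} [Fintype ι] [Fintype κ] [Fintype κ'] (B : Matrix ι κ ℝ) (B' : Matrix ι κ' ℝ) (i : ι) {δ : ℝ} (hδ : 0 < δ) :
    ((gmStd κ).prod (gmStd κ')).real {p | δ < |(B *ᵥ p.1 + B' *ᵥ p.2) i|} ≤ ((B * Bᵀ) i i + (B' * B'ᵀ) i i) / δ ^ 2 := by
  have e : (Matrix.fromCols B B') * (Matrix.fromCols B B')ᵀ = B * Bᵀ + B' * B'ᵀ := by
    rw [Matrix.transpose_fromCols, Matrix.fromCols_mul_fromRows]
  have hl := gm_map_add B B' (Matrix.fromCols B B') e.symm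
  have hm : Measurable fun p : (κ → ℝ) × (κ' → ℝ) => B *ᵥ p.1 + B' *ᵥ p.2 :=
    ((gm_x_meas B).comp measurable_fst).add ((gm_x_meas B').comp measurable_snd)
  have hS : MeasurableSet {y : ι → ℝ | δ < |y i|} := measurableSet_lt measurable_const (by fun_prop)
  have h1 := congrArg (fun μ : Measure (ι → ℝ) => μ.real {y : ι → ℝ | δ < |y i|}) hl
  rw [map_measureReal_apply hm hS, map_measureReal_apply (gm_x_meas _) hS] at h1
  have h2 := gm_cheb (Matrix.fromCols B B') i hδ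
  rw [e] at h2
  exact (le_of_eq h1).trans h2

/-- first marginal -/
theorem gm_prod_fst {κ κ' : Type} [Fintype κ] [Fintype κ'] (T : Set (κ → ℝ)) : ((gmStd κ).prod (gmStd κ')).real {p | p.1 ∈ T} = (gmStd κ).real T := by
  have e : {p : (κ → ℝ) × (κ' → ℝ) | p.1 ∈ T} = T ×ˢ Set.univ := by
    ext p; simp
  have : IsProbabilityMeasure (gmStd κ') := by unfold gmStd; infer_instance
  rw [e, measureReal_prod_prod, probReal_univ, mul_one]

/-- one coordinate: Chebyshev for `F - F̃ = Σ_a (L W)_{xa} (g_a - g̃_a)` (variance `2 (L W Lᵀ)_xx`) + `gm_anti` at the `K` grid points (`Γ_xx ≥ sLow`) -/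
theorem en_iii_coord {n d ℓ : ℕ} (D : EnData n d ℓ) {W : Matrix (Fin n) (Fin n) ℝ} (hs : Wᵀ = W) (hi : W * W = W) (ε : ℝ) (x : Fin n) (j : Fin ℓ) {δ sLow : ℝ} (hδ : 0 < δ)
    (hb : 0 < D.b) (h0 : 0 < sLow) (hlow : sLow ≤ D.Γ x x) : haveI := D.K0
    ((gmStd (Fin n × Fin ℓ)).prod (gmStd (Fin n × Fin ℓ))).real {p | enBin D.b D.K (D.F ε p.1 (x, j)) ≠ enBin D.b D.K (D.Fc W ε p (x, j))}
      ≤ 2 * (D.L * W * (D.L)ᵀ) x x / δ ^ 2 + D.K * (2 * δ / Real.sqrt (2 * Real.pi * sLow)) := by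
  classical
  have := D.K0
  set μ2 := (gmStd (Fin n × Fin ℓ)).prod (gmStd (Fin n × Fin ℓ)) with hμ2
  set R : Matrix Unit (Fin n) ℝ := Matrix.of fun _ a => (D.L * W) x a with hR
  set B : Matrix (Unit × Fin ℓ) (Fin n × Fin ℓ) ℝ := Matrix.kroneckerMap (· * ·) R (1 : Matrix (Fin ℓ) (Fin ℓ) ℝ) with hB
  have hdiff : ∀ p : (Fin n × Fin ℓ → ℝ) × (Fin n × Fin ℓ → ℝ), D.F ε p.1 (x, j) - D.Fc W ε p (x, j) = (B *ᵥ p.1 + (-B) *ᵥ p.2) ((), j) := by
    intro p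
    rw [en_F_apply, EnData.Fc, Pi.add_apply, neg_mulVec, Pi.neg_apply, hB, en_kr_mulVec, en_kr_mulVec]
    simp only [hR, Matrix.of_apply, Matrix.mul_sub, Matrix.mul_one, Matrix.sub_apply, sub_mul, Finset.sum_sub_distrib]
    ring
  have hsub : {p | enBin D.b D.K (D.F ε p.1 (x, j)) ≠ enBin D.b D.K (D.Fc W ε p (x, j))}
      ⊆ {p : (Fin n × Fin ℓ → ℝ) × (Fin n × Fin ℓ → ℝ) | δ < |(B *ᵥ p.1 + (-B) *ᵥ p.2) ((), j)|}
        ∪ ⋃ k : Fin D.K, {p | p.1 ∈ {g | |(D.obsB id *ᵥ g) (x, j) - ((((k.val : ℝ) - (D.K / 2 : ℕ)) * D.b) - ε * D.V x j)| ≤ δ}} := by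
    intro p hp
    rcases en_bin_ne hb D.K (δ := δ) hp with h | ⟨k, hk⟩
    · left
      rw [hdiff] at h
      exact h
    · right
      refine Set.mem_iUnion.2 ⟨k, ?_⟩
      show |(D.obsB id *ᵥ p.1) (x, j) - ((((k.val : ℝ) - (D.K / 2 : ℕ)) * D.b) - ε * D.V x j)| ≤ δ
      have e : (D.obsB id *ᵥ p.1) (x, j) - ((((k.val : ℝ) - (D.K / 2 : ℕ)) * D.b) - ε * D.V x j) = D.F ε p.1 (x, j) - ((k.val : ℝ) - (D.K / 2 : ℕ)) * D.b := by
        unfold EnData.F EnData.obsM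
        rw [Pi.add_apply]
        simp only [id]
        ring
      rw [e]
      exact hk
  have hcov : (D.obsB id * (D.obsB id)ᵀ) (x, j) (x, j) = D.Γ x x := by
    unfold EnData.obsB
    rw [en_kr_cov, kroneckerMap_apply, one_apply_eq, mul_one, submatrix_id_id]
    rfl
  have c1 : μ2.real {p | δ < |(B *ᵥ p.1 + (-B) *ᵥ p.2) ((), j)|} ≤ 2 * (D.L * W * (D.L)ᵀ) x x / δ ^ 2 := by
    refine (gm_cheb2 B (-B) ((), j) hδ).trans (le_of_eq ?_)
    congr 1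
    have e1 : (-B) * (-B)ᵀ = B * Bᵀ := by rw [transpose_neg, Matrix.neg_mul, Matrix.mul_neg, neg_neg]
    have e2 : (B * Bᵀ) ((), j) ((), j) = (D.L * W * (D.L)ᵀ) x x := by
      rw [hB, en_kr_cov, kroneckerMap_apply, one_apply_eq, mul_one]
      have : (D.L * W * (D.L)ᵀ) = (D.L * W) * (D.L * W)ᵀ := by
        rw [transpose_mul, hs, Matrix.mul_assoc D.L W (W * (D.L)ᵀ), ← Matrix.mul_assoc W W, hi, Matrix.mul_assoc]
      rw [this, Matrix.mul_apply, Matrix.mul_apply]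
      rfl
    rw [e1, e2]
    ring
  have c2 : ∀ k : Fin D.K, μ2.real {p | p.1 ∈ {g | |(D.obsB id *ᵥ g) (x, j) - ((((k.val : ℝ) - (D.K / 2 : ℕ)) * D.b) - ε * D.V x j)| ≤ δ}}
      ≤ 2 * δ / Real.sqrt (2 * Real.pi * sLow) := by
    intro k
    rw [hμ2, gm_prod_fst]
    exact gm_anti (D.obsB id) (x, j) h0 (by rw [hcov]; exact hlow) hδ.le _
  calc _ ≤ μ2.real _ := measureReal_mono hsub
    _ ≤ _ := measureReal_union_le _ _
    _ ≤ 2 * (D.L * W * (D.L)ᵀ) x x / δ ^ 2 + ∑ k : Fin D.K, 2 * δ / Real.sqrt (2 * Real.pi * sLow) :=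
        add_le_add c1 ((measureReal_iUnion_fintype_le _).trans (Finset.sum_le_sum fun k _ => c2 k))
    _ = _ := by simp

/-- each end of the `i`-th edge of a uniform ordered star is a uniform vertex -/
theorem en_avg_end {n d : ℕ} {G : SimpleGraph (Fin n)} (hG : G ∈ Claims.C0462.regularGraphs n d) (i : Fin d) (t : Bool) (f : Fin n → ℝ) :
    enAvg (fun s : EnLoc G d => f (s.ed i t)) = (n : ℝ)⁻¹ * ∑ v, f v := by
  cases t
  · exact en_avg_vx hG f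
  · exact en_avg_nb hG i f

/-- both ends of the `i`-th edge of a uniform ordered star are uniform vertices (`en_avg_vx`, `en_avg_nb`), `en_gam_tr` -/
theorem en_iii_avg {n d ℓ : ℕ} {γ α c₂ : ℝ} {D : EnData n d ℓ} (hD : D.Ok γ α c₂) (hr : 0 < D.r) (hn : 0 < n) (i : Fin d) :
    (enAvg fun s : EnLoc D.G d => enAvg fun s' : EnLoc D.G d => ∑ t' : Bool, ∑ t : Bool, D.Γ (s'.ed i t') (s.ed i t) ^ 2) ≤ 4 * ((n : ℝ)⁻¹ * ((D.r * D.η)⁻¹) ^ 2) := by
  have hn0 : (0 : ℝ) < n := by exact_mod_cast hn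
  have htr := en_gam_tr hD hr hn
  have key : ∀ t' t : Bool, (enAvg fun s : EnLoc D.G d => enAvg fun s' : EnLoc D.G d => D.Γ (s'.ed i t') (s.ed i t) ^ 2)
      = (n : ℝ)⁻¹ * ((n : ℝ)⁻¹ * ∑ v, ∑ w, D.Γ v w ^ 2) := by
    intro t' t
    have h1 : ∀ s : EnLoc D.G d, (enAvg fun s' : EnLoc D.G d => D.Γ (s'.ed i t') (s.ed i t) ^ 2) = (n : ℝ)⁻¹ * ∑ v, D.Γ v (s.ed i t) ^ 2 :=
      fun s => en_avg_end hD.reg i t' (fun v => D.Γ v (s.ed i t) ^ 2)
    simp only [h1]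
    rw [en_avg_end hD.reg i t (fun w => (n : ℝ)⁻¹ * ∑ v, D.Γ v w ^ 2), ← Finset.mul_sum, Finset.sum_comm]
  have e : (enAvg fun s : EnLoc D.G d => enAvg fun s' : EnLoc D.G d => ∑ t' : Bool, ∑ t : Bool, D.Γ (s'.ed i t') (s.ed i t) ^ 2)
      = ∑ t' : Bool, ∑ t : Bool, (enAvg fun s : EnLoc D.G d => enAvg fun s' : EnLoc D.G d => D.Γ (s'.ed i t') (s.ed i t) ^ 2) := by
    simp only [Fintype.sum_bool, en_Avg_add]
  rw [e]
  simp only [key, Fintype.sum_bool]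
  have h2 : (n : ℝ)⁻¹ * ((n : ℝ)⁻¹ * ∑ v, ∑ w, D.Γ v w ^ 2) ≤ (n : ℝ)⁻¹ * ((D.r * D.η)⁻¹) ^ 2 := by
    refine mul_le_mul_of_nonneg_left ?_ (by positivity)
    calc (n : ℝ)⁻¹ * ∑ v, ∑ w, D.Γ v w ^ 2 ≤ (n : ℝ)⁻¹ * (n * ((D.r * D.η)⁻¹) ^ 2) := mul_le_mul_of_nonneg_left htr (by positivity)
      _ = _ := by field_simp
  linarith

/-- diagonal of `Γ` from the lower bound of the quadratic form -/
theorem en_gam_diag {n d ℓ : ℕ} (D : EnData n d ℓ) {s : ℝ} (h : ∀ x, s * gmSq x ≤ gmQ D.Γ x) (v : Fin n) : s ≤ D.Γ v v := by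
  classical
  have h1 := h (Pi.single v 1)
  have e1 : gmSq (Pi.single v (1 : ℝ) : Fin n → ℝ) = 1 := by
    unfold gmSq
    rw [Finset.sum_eq_single v]
    · simp
    · intro b _ hb; simp [Pi.single_eq_of_ne hb]
    · simp
  have e2 : gmQ D.Γ (Pi.single v (1 : ℝ)) = D.Γ v v := by
    unfold gmQ
    rw [single_one_dotProduct, mulVec_single_one]
    rfl
  rwa [e1, e2, mul_one] at h1

/-- the numerics of `en_iii_V` -/
theorem en_iii_num {x α γ A r : ℝ} (hx : 1 ≤ x) (hα0 : 0 < α) (hαγ : 16 * α ≤ γ) (hγ : 64 * γ ≤ 1) (hA : 0 < A) (hr : 0 < r) {lam Kr : ℝ}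
    (hlam : lam ≤ A * x ^ α) (hK : Kr ≤ 6 * x ^ (2 * γ)) (ℓ : ℕ) :
    (ℓ : ℝ) * (2 * lam / (x ^ (-(1 / 3 : ℝ))) ^ 2) * (4 * (x⁻¹ * ((r * x ^ (-α))⁻¹) ^ 2))
      + 2 * (ℓ : ℝ) * (Kr * (2 * x ^ (-(1 / 3 : ℝ)) / Real.sqrt (2 * Real.pi * (x ^ (-α) / A))))
      ≤ (8 * ℓ * A * (r⁻¹) ^ 2 + 24 * ℓ * Real.sqrt A) * x ^ (-(1 / 4 : ℝ)) := by
  have hx0 : 0 < x := by linarith
  have e1 : (x ^ (-(1 / 3 : ℝ))) ^ 2 = x ^ (-(2 / 3 : ℝ)) := by
    rw [← Real.rpow_natCast, ← Real.rpow_mul hx0.le]; norm_num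
  have e2 : ((r * x ^ (-α))⁻¹) ^ 2 = (r⁻¹) ^ 2 * x ^ (2 * α) := by
    rw [mul_inv, mul_pow, ← Real.rpow_neg hx0.le, neg_neg, ← Real.rpow_natCast (x ^ α), ← Real.rpow_mul hx0.le]
    congr 2; push_cast; ring
  have e3 : 2 * lam / x ^ (-(2 / 3 : ℝ)) = 2 * lam * x ^ (2 / 3 : ℝ) := by
    rw [Real.rpow_neg hx0.le, div_inv_eq_mul]
  have t1 : (ℓ : ℝ) * (2 * lam / (x ^ (-(1 / 3 : ℝ))) ^ 2) * (4 * (x⁻¹ * ((r * x ^ (-α))⁻¹) ^ 2)) ≤ 8 * ℓ * A * (r⁻¹) ^ 2 * x ^ (-(1 / 4 : ℝ)) := by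
    rw [e1, e2, e3]
    have p : x ^ α * x ^ (2 / 3 : ℝ) * (x⁻¹ * x ^ (2 * α)) ≤ x ^ (-(1 / 4 : ℝ)) := by
      rw [← Real.rpow_neg_one, ← Real.rpow_add hx0, ← Real.rpow_add hx0, ← Real.rpow_add hx0]
      exact Real.rpow_le_rpow_of_exponent_le hx (by linarith)
    calc (ℓ : ℝ) * (2 * lam * x ^ (2 / 3 : ℝ)) * (4 * (x⁻¹ * ((r⁻¹) ^ 2 * x ^ (2 * α))))
        = lam * (8 * ℓ * (r⁻¹) ^ 2 * x ^ (2 / 3 : ℝ) * (x⁻¹ * x ^ (2 * α))) := by ring
      _ ≤ (A * x ^ α) * (8 * ℓ * (r⁻¹) ^ 2 * x ^ (2 / 3 : ℝ) * (x⁻¹ * x ^ (2 * α))) := mul_le_mul_of_nonneg_right hlam (by positivity)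
      _ = 8 * ℓ * A * (r⁻¹) ^ 2 * (x ^ α * x ^ (2 / 3 : ℝ) * (x⁻¹ * x ^ (2 * α))) := by ring
      _ ≤ _ := mul_le_mul_of_nonneg_left p (by positivity)
  have s1 : x ^ (-(α / 2)) / Real.sqrt A ≤ Real.sqrt (2 * Real.pi * (x ^ (-α) / A)) := by
    have a1 : x ^ (-(α / 2)) / Real.sqrt A = Real.sqrt (x ^ (-α) / A) := by
      rw [Real.sqrt_div (by positivity), Real.sqrt_eq_rpow (x ^ (-α)), ← Real.rpow_mul hx0.le]
      congr 2; ring
    rw [a1]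
    refine Real.sqrt_le_sqrt ?_
    have : (1 : ℝ) ≤ 2 * Real.pi := by have := Real.pi_gt_three; linarith
    have h0 : 0 ≤ x ^ (-α) / A := by positivity
    nlinarith
  have hsA : 0 < Real.sqrt A := Real.sqrt_pos.2 hA
  have t2 : 2 * (ℓ : ℝ) * (Kr * (2 * x ^ (-(1 / 3 : ℝ)) / Real.sqrt (2 * Real.pi * (x ^ (-α) / A)))) ≤ 24 * ℓ * Real.sqrt A * x ^ (-(1 / 4 : ℝ)) := by
    have b1 : 2 * x ^ (-(1 / 3 : ℝ)) / Real.sqrt (2 * Real.pi * (x ^ (-α) / A)) ≤ 2 * x ^ (-(1 / 3 : ℝ)) / (x ^ (-(α / 2)) / Real.sqrt A) :=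
      div_le_div_of_nonneg_left (by positivity) (by positivity) s1
    have b2 : 2 * x ^ (-(1 / 3 : ℝ)) / (x ^ (-(α / 2)) / Real.sqrt A) = 2 * Real.sqrt A * (x ^ (-(1 / 3 : ℝ)) * x ^ (α / 2)) := by
      rw [Real.rpow_neg hx0.le (α / 2)]
      field_simp
    have p : x ^ (2 * γ) * (x ^ (-(1 / 3 : ℝ)) * x ^ (α / 2)) ≤ x ^ (-(1 / 4 : ℝ)) := by
      rw [← Real.rpow_add hx0, ← Real.rpow_add hx0]
      exact Real.rpow_le_rpow_of_exponent_le hx (by linarith)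
    calc 2 * (ℓ : ℝ) * (Kr * (2 * x ^ (-(1 / 3 : ℝ)) / Real.sqrt (2 * Real.pi * (x ^ (-α) / A))))
        ≤ 2 * (ℓ : ℝ) * ((6 * x ^ (2 * γ)) * (2 * Real.sqrt A * (x ^ (-(1 / 3 : ℝ)) * x ^ (α / 2)))) := by
          refine mul_le_mul_of_nonneg_left (mul_le_mul hK (b1.trans_eq b2) (by positivity) (by positivity)) (by positivity)
      _ = 24 * ℓ * Real.sqrt A * (x ^ (2 * γ) * (x ^ (-(1 / 3 : ℝ)) * x ^ (α / 2))) := by ring
      _ ≤ _ := mul_le_mul_of_nonneg_left p (by positivity)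
  rw [add_mul]
  exact add_le_add t1 t2

section leaves

variable {d ℓ : ℕ} {E r γ α c₂ : ℝ} (hF : EnFix d E r) (hP : EnPar d ℓ γ α c₂)

include hF hP

/-- **the variance is polynomially small**: `en_proj_exists`, `en_iii_cpl`, union over `(t,j)`, `en_iii_coord` with `δ = n^{-1/3}`, `en_iii_avg`:
`V ≤ 2ℓ [ C n^{-1 + 3α + 2/3} + C n^{2γ - 1/3 + α/2} ] ≤ C n^{-1/4}` -/
theorem en_iii_V : ∃ C : ℝ, ∃ n₀ : ℕ, ∀ n : ℕ, n₀ ≤ n → ∀ D : EnData n d ℓ, D.E = E → D.r = r → D.Ok γ α c₂ → ∀ ε ∈ Set.Icc (0 : ℝ) 1, ∀ i : Fin d,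
    ∑ τ, ∑ c, D.pL ε c * (enQ D.G d i c τ - ∑ c', D.pL ε c' * enQ D.G d i c' τ) ^ 2 ≤ C * (n : ℝ) ^ (-(1 / 4 : ℝ)) := by
  classical
  have hγ0 : 0 < γ := by have := hP.α0; have := hP.αγ; linarith
  have hr0 := hF.r0
  set A : ℝ := r * (((d : ℝ) + |E|) ^ 2 + 1) with hA
  have hA0 : 0 < A := by positivity
  have hγ1 : 64 * γ ≤ 1 := by
    have h1 := hP.γ1
    have h2 : 0 ≤ (ℓ : ℝ) * γ := by positivity
    have h3 : 0 ≤ ((ℓ : ℝ) + 1) * γ * d := by positivity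
    nlinarith
  refine ⟨8 * ℓ * A * (r⁻¹) ^ 2 + 24 * ℓ * Real.sqrt A, 1, fun n hn1 D hE hr hD ε hε i => ?_⟩
  have hn : 0 < n := hn1
  have hnR : (1 : ℝ) ≤ n := by exact_mod_cast hn1
  have hn0 : (0 : ℝ) < n := by linarith
  have hDr : 0 < D.r := by rw [hr]; exact hr0
  have := D.K0
  have hη0 : 0 < D.η := by rw [hD.η_eq]; positivity
  have hη1 : D.η ≤ 1 := by rw [hD.η_eq]; exact Real.rpow_le_one_of_one_le_of_nonpos hnR (by have := hP.α0; linarith)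
  have hb0 : 0 < D.b := by rw [hD.b_eq]; positivity
  set lam : ℝ := D.r * (((d : ℝ) + |D.E|) ^ 2 + D.η ^ 2) / D.η with hlam
  set δ : ℝ := (n : ℝ) ^ (-(1 / 3 : ℝ)) with hδ
  have hδ0 : 0 < δ := by positivity
  set sLow : ℝ := D.η / A with hsLow
  have hs0 : 0 < sLow := by positivity
  have hη2 : D.η ^ 2 ≤ 1 := by nlinarith
  have hden : D.r * (((d : ℝ) + |D.E|) ^ 2 + D.η ^ 2) ≤ A := by
    rw [hA, hr, hE]
    exact mul_le_mul_of_nonneg_left (by linarith) hr0.le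
  have hden0 : 0 < D.r * (((d : ℝ) + |D.E|) ^ 2 + D.η ^ 2) := by positivity
  have hlamA : lam ≤ A * (n : ℝ) ^ α := by
    rw [hlam, hD.η_eq, Real.rpow_neg hn0.le, div_inv_eq_mul, ← Real.rpow_neg hn0.le, ← hD.η_eq]
    exact mul_le_mul_of_nonneg_right hden (by positivity)
  have hlow : ∀ v, sLow ≤ D.Γ v v := by
    intro v
    have h1 := en_gam_diag D (fun x => ((en_gam_bd hD hDr hn).2 x).1) v
    refine le_trans ?_ h1
    exact div_le_div_of_nonneg_left hη0.le hden0 hden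
  have hcard : 0 < Fintype.card (EnLoc D.G d) := by
    rw [en_loc_card hD.reg]
    exact Nat.mul_pos hn (Nat.factorial_pos d)
  have : Nonempty (EnLoc D.G d) := Fintype.card_pos_iff.1 hcard
  choose W hW using fun s : EnLoc D.G d => en_proj_exists hD hDr hn (s.ed i) ((en_vx_inj D s).2 i)
  refine (en_iii_cpl D i ε W hW).trans ?_
  set c0 : ℝ := D.K * (2 * δ / Real.sqrt (2 * Real.pi * sLow)) with hc0
  have pt : ∀ s s' : EnLoc D.G d,
      ((gmStd (Fin n × Fin ℓ)).prod (gmStd (Fin n × Fin ℓ))).real {p | ∃ (t : Bool) (j : Fin ℓ), enBin D.b D.K (D.F ε p.1 (s'.ed i t, j)) ≠ enBin D.b D.K (D.Fc (W s) ε p (s'.ed i t, j))}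
        ≤ (ℓ : ℝ) * (2 * lam / δ ^ 2) * (∑ t' : Bool, ∑ t : Bool, D.Γ (s'.ed i t') (s.ed i t) ^ 2) + 2 * (ℓ : ℝ) * c0 := by
    intro s s'
    have e1 : {p : (Fin n × Fin ℓ → ℝ) × (Fin n × Fin ℓ → ℝ) | ∃ (t : Bool) (j : Fin ℓ), enBin D.b D.K (D.F ε p.1 (s'.ed i t, j)) ≠ enBin D.b D.K (D.Fc (W s) ε p (s'.ed i t, j))}
        = ⋃ q : Bool × Fin ℓ, {p | enBin D.b D.K (D.F ε p.1 (s'.ed i q.1, q.2)) ≠ enBin D.b D.K (D.Fc (W s) ε p (s'.ed i q.1, q.2))} := by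
      ext p
      simp only [Set.mem_ofPred_eq, Set.mem_iUnion, Prod.exists]
    rw [e1]
    refine (measureReal_iUnion_fintype_le _).trans ?_
    calc _ ≤ ∑ q : Bool × Fin ℓ, ((2 * lam / δ ^ 2) * (∑ t : Bool, D.Γ (s'.ed i q.1) (s.ed i t) ^ 2) + c0) := by
          refine Finset.sum_le_sum fun q _ => ?_
          refine (en_iii_coord D (hW s).sym (hW s).idem ε (s'.ed i q.1) q.2 hδ0 hb0 hs0 (hlow _)).trans ?_
          refine add_le_add ?_ le_rfl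
          have := (hW s).small (s'.ed i q.1)
          have h2 := div_le_div_of_nonneg_right this (show 0 ≤ δ ^ 2 by positivity)
          calc 2 * (D.L * W s * (D.L)ᵀ) (s'.ed i q.1) (s'.ed i q.1) / δ ^ 2
              = 2 * ((D.L * W s * (D.L)ᵀ) (s'.ed i q.1) (s'.ed i q.1) / δ ^ 2) := by ring
            _ ≤ 2 * (lam * (∑ t : Bool, D.Γ (s'.ed i q.1) (s.ed i t) ^ 2) / δ ^ 2) := mul_le_mul_of_nonneg_left h2 (by norm_num)
            _ = _ := by ring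
      _ = _ := by
          rw [Fintype.sum_prod_type]
          simp only [Finset.sum_const, Finset.card_univ, Fintype.card_fin, nsmul_eq_mul, Fintype.sum_bool]
          ring
  calc _ ≤ enAvg fun s : EnLoc D.G d => enAvg fun s' : EnLoc D.G d =>
        (ℓ : ℝ) * (2 * lam / δ ^ 2) * (∑ t' : Bool, ∑ t : Bool, D.Γ (s'.ed i t') (s.ed i t) ^ 2) + 2 * (ℓ : ℝ) * c0 :=
        en_Avg_mono fun s => en_Avg_mono fun s' => pt s s'
    _ = (ℓ : ℝ) * (2 * lam / δ ^ 2) * (enAvg fun s : EnLoc D.G d => enAvg fun s' : EnLoc D.G d => ∑ t' : Bool, ∑ t : Bool, D.Γ (s'.ed i t') (s.ed i t) ^ 2)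
        + 2 * (ℓ : ℝ) * c0 := by
        simp only [en_Avg_add, en_Avg_mul, en_Avg_const]
    _ ≤ (ℓ : ℝ) * (2 * lam / δ ^ 2) * (4 * ((n : ℝ)⁻¹ * ((D.r * D.η)⁻¹) ^ 2)) + 2 * (ℓ : ℝ) * c0 := by
        refine add_le_add (mul_le_mul_of_nonneg_left (en_iii_avg hD hDr hn i) ?_) le_rfl
        have : 0 < lam := by positivity
        positivity
    _ ≤ _ := by
        have hK : (D.K : ℝ) ≤ 6 * (n : ℝ) ^ (2 * γ) := by rw [hD.K_eq]; exact en_K_le hn1 hγ0.le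
        have := en_iii_num hnR hP.α0 hP.αγ hγ1 hA0 hr0 hlamA hK ℓ
        rw [hc0, hsLow, hδ, hr, hD.η_eq]
        exact this

/-- LEAF (ii) = ASSEMBLY: `en_group` for `p = pL`, `t = enT G d` (`en_pL_prob`), `en_types` + `en_types_asym`, `hD.typeOk`, `en_Hd_concave` (`Tb = Σ_c pL c * enT c`), divide by `n`.      Original plan: `H(L) ≤ log #types + E log N(type)`, the event of Lemma 3.2, concavity of the entropy for the star term -/
theorem en_ii : EnLeaf d ℓ E r γ α c₂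
    (fun n D ε _ => (n : ℝ)⁻¹ * enHd (D.pL ε))
    (fun _ D ε i => enHd (D.Tb ε) - (d : ℝ) / 2 * ∑ c, D.pL ε c * enHd (enQ D.G d i c)) := by
  classical
  have hγ0 : 0 < γ := by have := hP.α0; have := hP.αγ; linarith
  have hc0 : 0 < c₂ := by have := hP.α0; have := hP.αc; linarith
  obtain ⟨n₀, H⟩ := en_types_asym (d := d) (ℓ := ℓ) hγ0 hP.γ1
  refine ⟨c₂, 2, max n₀ 1, hc0, fun n hn D hE hr hD ε hε i => ?_⟩
  have hn1 : 1 ≤ n := (le_max_right _ _).trans hn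
  have hnR : (1 : ℝ) ≤ n := by exact_mod_cast hn1
  have hn0 : (0 : ℝ) < n := by linarith
  have hH := H n ((le_max_left _ _).trans hn)
  obtain ⟨hp0, hp1⟩ := en_pL_prob D ε
  have := D.K0
  have g1 := en_group (D.pL ε) hp0 hp1 (fun c => enT D.G d c)
  -- number of types
  have t1 : Real.log ((Finset.univ.image fun c : Fin n → Fin ℓ → Fin D.K => enT D.G d c).card) ≤ (n : ℝ) ^ (1 / 2 : ℝ) := by
    have a1 := en_types hD.reg (Fin ℓ → Fin D.K)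
    have hcard : Fintype.card (Fin ℓ → Fin D.K) = (2 * ⌈(n : ℝ) ^ (2 * γ)⌉₊ + 2) ^ ℓ := by
      simp [hD.K_eq]
    rw [hcard] at a1
    have a2 : 0 < (Finset.univ.image fun c : Fin n → Fin ℓ → Fin D.K => enT D.G d c).card :=
      Finset.card_pos.2 (Finset.univ_nonempty.image _)
    refine le_trans (Real.log_le_log (by exact_mod_cast a2) (Nat.cast_le.2 a1)) ?_
    rw [Nat.cast_pow, Real.log_pow]
    exact hH
  -- the type classes
  have t2 : ∑ c, D.pL ε c * Real.log ((Finset.univ.filter fun c' : Fin n → Fin ℓ → Fin D.K => enT D.G d c' = enT D.G d c).card)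
      ≤ n * ∑ c, D.pL ε c * enHd (enT D.G d c) - (n * d / 2 : ℝ) * ∑ c, D.pL ε c * enHd (enQ D.G d i c) + (n : ℝ) ^ (1 - c₂) := by
    calc _ ≤ ∑ c, D.pL ε c * (n * enHd (enT D.G d c) - (n * d / 2 : ℝ) * enHd (enQ D.G d i c) + (n : ℝ) ^ (1 - c₂)) :=
          Finset.sum_le_sum fun c _ => mul_le_mul_of_nonneg_left (hD.typeOk i c) (hp0 c)
      _ = _ := by
          simp only [mul_add, mul_sub, Finset.sum_add_distrib, Finset.sum_sub_distrib, ← Finset.sum_mul, hp1, one_mul, Finset.mul_sum]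
          congr 2
          · exact Finset.sum_congr rfl fun c _ => by ring
          · exact Finset.sum_congr rfl fun c _ => by ring
  have t3 : ∑ c, D.pL ε c * enHd (enT D.G d c) ≤ enHd (D.Tb ε) :=
    en_Hd_concave (D.pL ε) hp0 hp1 (fun c => enT D.G d c) (fun c τ => (en_T_prob hD.reg hn1 c i).1 τ)
  have t4 : enHd (D.pL ε) ≤ (n : ℝ) ^ (1 / 2 : ℝ) + (n * enHd (D.Tb ε) - (n * d / 2 : ℝ) * ∑ c, D.pL ε c * enHd (enQ D.G d i c) + (n : ℝ) ^ (1 - c₂)) := by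
    have h3 := mul_le_mul_of_nonneg_left t3 hn0.le
    have g2 : enHd (D.pL ε) ≤ Real.log ((Finset.univ.image fun c : Fin n → Fin ℓ → Fin D.K => enT D.G d c).card)
        + ∑ c, D.pL ε c * Real.log ((Finset.univ.filter fun c' : Fin n → Fin ℓ → Fin D.K => enT D.G d c' = enT D.G d c).card) := by
      convert g1
    linarith
  have t5 := mul_le_mul_of_nonneg_left t4 (inv_nonneg.2 hn0.le)
  have e1 : (n : ℝ)⁻¹ * (n : ℝ) ^ (1 / 2 : ℝ) = (n : ℝ) ^ (-(1 / 2) : ℝ) := by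
    rw [← Real.rpow_neg_one, ← Real.rpow_add hn0]; norm_num
  have e2 : (n : ℝ)⁻¹ * (n : ℝ) ^ (1 - c₂) = (n : ℝ) ^ (-c₂) := by
    rw [← Real.rpow_neg_one, ← Real.rpow_add hn0]; congr 1; ring
  have e3 : (n : ℝ) ^ (-(1 / 2) : ℝ) ≤ (n : ℝ) ^ (-c₂) := en_rpow_le hn1 hP.c1
  have e4 : (n : ℝ)⁻¹ * ((n : ℝ) ^ (1 / 2 : ℝ) + (n * enHd (D.Tb ε) - (n * d / 2 : ℝ) * ∑ c, D.pL ε c * enHd (enQ D.G d i c) + (n : ℝ) ^ (1 - c₂)))
      = (n : ℝ)⁻¹ * (n : ℝ) ^ (1 / 2 : ℝ) + (enHd (D.Tb ε) - (d : ℝ) / 2 * ∑ c, D.pL ε c * enHd (enQ D.G d i c)) + (n : ℝ)⁻¹ * (n : ℝ) ^ (1 - c₂) := by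
    field_simp
    ring
  rw [e4, e1, e2] at t5
  linarith

/-- LEAF (iii) = ASSEMBLY: `en_Hd_var` (`Qb = Σ_c pL c * enQ c`, `en_T_prob`), `en_iii_V`, `|α| = K^{2ℓ} ≤ C n^{4γℓ}`, `3 γ ℓ ≤ 3/256 < 1/16`.      Original plan: concentration of the edge histogram (regression coupling + anti-concentration at the grid) and continuity of the entropy -/
theorem en_iii : EnLeaf d ℓ E r γ α c₂
    (fun _ D ε i => enHd (D.Qb ε i))
    (fun _ D ε i => ∑ c, D.pL ε c * enHd (enQ D.G d i c)) := by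
  classical
  have hγ0 : 0 < γ := by have := hP.α0; have := hP.αγ; linarith
  obtain ⟨C, n₀, H⟩ := en_iii_V hF hP
  refine ⟨1 / 64, (6 ^ (2 * ℓ) : ℝ) ^ (3 / 4 : ℝ) * |C| ^ (1 / 4 : ℝ), max n₀ 1, by norm_num, fun n hn D hE hr hD ε hε i => ?_⟩
  have hn1 : 1 ≤ n := (le_max_right _ _).trans hn
  have hnR : (1 : ℝ) ≤ n := by exact_mod_cast hn1
  have hn0 : (0 : ℝ) < n := by linarith
  have hH := H n ((le_max_left _ _).trans hn) D hE hr hD ε hε i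
  obtain ⟨hp0, hp1⟩ := en_pL_prob D ε
  have := D.K0
  have v1 := en_Hd_var (D.pL ε) hp0 hp1 (fun c => enQ D.G d i c) (fun c τ => ((en_T_prob hD.reg hn1 c i).2.1 τ).1)
    (fun c τ => ((en_T_prob hD.reg hn1 c i).2.1 τ).2)
  have hcard : (Fintype.card (Bool → Fin ℓ → Fin D.K) : ℝ) ≤ 6 ^ (2 * ℓ) * (n : ℝ) ^ (2 * γ * (2 * ℓ : ℕ)) := by
    have a1 : Fintype.card (Bool → Fin ℓ → Fin D.K) = (2 * ⌈(n : ℝ) ^ (2 * γ)⌉₊ + 2) ^ (2 * ℓ) := by
      simp [hD.K_eq, ← pow_mul, mul_comm]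
    rw [a1]
    exact en_K_pow_le hn1 hγ0.le (2 * ℓ)
  set V := ∑ τ, ∑ c, D.pL ε c * (enQ D.G d i c τ - ∑ c', D.pL ε c' * enQ D.G d i c' τ) ^ 2 with hV
  have hV0 : 0 ≤ V := Finset.sum_nonneg fun τ _ => Finset.sum_nonneg fun c _ => mul_nonneg (hp0 c) (sq_nonneg _)
  have hV1 : V ≤ |C| * (n : ℝ) ^ (-(1 / 4 : ℝ)) := hH.trans (mul_le_mul_of_nonneg_right (le_abs_self C) (by positivity))
  have b1 : (Fintype.card (Bool → Fin ℓ → Fin D.K) : ℝ) ^ (3 / 4 : ℝ) ≤ (6 ^ (2 * ℓ) : ℝ) ^ (3 / 4 : ℝ) * (n : ℝ) ^ (3 / 64 : ℝ) := by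
    refine (Real.rpow_le_rpow (Nat.cast_nonneg _) hcard (by norm_num)).trans ?_
    rw [Real.mul_rpow (by positivity) (by positivity), ← Real.rpow_mul hn0.le]
    refine mul_le_mul_of_nonneg_left (Real.rpow_le_rpow_of_exponent_le hnR ?_) (by positivity)
    have h1 := hP.γ1
    have h2 : 0 ≤ (ℓ : ℝ) * γ := by positivity
    have h3 : 0 ≤ ((ℓ : ℝ) + 1) * γ * d := by positivity
    push_cast
    nlinarith
  have b2 : V ^ (1 / 4 : ℝ) ≤ |C| ^ (1 / 4 : ℝ) * (n : ℝ) ^ (-(1 / 16) : ℝ) := by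
    refine (Real.rpow_le_rpow hV0 hV1 (by norm_num)).trans (le_of_eq ?_)
    rw [Real.mul_rpow (abs_nonneg C) (by positivity), ← Real.rpow_mul hn0.le]
    norm_num
  have b3 := mul_le_mul b1 b2 (by positivity) (by positivity)
  have e1 : (6 ^ (2 * ℓ) : ℝ) ^ (3 / 4 : ℝ) * (n : ℝ) ^ (3 / 64 : ℝ) * (|C| ^ (1 / 4 : ℝ) * (n : ℝ) ^ (-(1 / 16) : ℝ))
      = (6 ^ (2 * ℓ) : ℝ) ^ (3 / 4 : ℝ) * |C| ^ (1 / 4 : ℝ) * (n : ℝ) ^ (-(1 / 64) : ℝ) := by
    have : (n : ℝ) ^ (-(1 / 64) : ℝ) = (n : ℝ) ^ (3 / 64 : ℝ) * (n : ℝ) ^ (-(1 / 16) : ℝ) := by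
      rw [← Real.rpow_add hn0]; norm_num
    rw [this]; ring
  rw [e1] at b3
  have v2 : enHd (D.Qb ε i) - ∑ c, D.pL ε c * enHd (enQ D.G d i c) ≤ _ := v1.trans b3
  linarith

end leaves

theorem en_conc_eqns_cite : True := by
  have := @EnData.Fc.eq_1
  trivial

end

end Claimed.Agent.R287
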