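-- KEEP
import Claimed.Agent.R287.Ent.Cell
import Claimed.Agent.R287.Ent.Conc

/-!
# Row 287 (S0534), unit ENT, sub-unit GIBBS: the leaves `en_vi`, `en_viii` (P1 Lemma 3.4) and the FINAL GLUE `en_exit`, `en_out`      HEAD helper277.   Prefix `en_`.
STAR (`en_vi`).   `M̂ : ℝ^{1+d} → ℝ^{1+d}`, `y = (Z, X) ↦ (R(y)/σ ; 𝔅 y)`, `𝔅 y = Z ω + P X/√a`, `R(y) = Σ X - E Z`, `σ² = η/r`.   ONE Gibbs step with the ideal mixture `h = avg_k N(ε V̂_k, (M̂ᵀ M̂)⁻¹)`: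
   `HS ≤ (D/2) log 2π - ℓ log |det M̂| + E_f ψ`,  `ψ(y) = - log avg_k exp(-|M̂(y - ε V̂_k)|²/2) ≤ |𝔅y|²/2 - log enR(ε B_V)(𝔅 y) + (|R(y)|/σ + w̄)²/2`;
   `E|𝔅y|² ≤ ε² avg|B_V|² + dℓ + err` (`𝔅 Σ₀ 𝔅ᵀ = 1`, typical stars), `E|R(y)|²/σ² ≤ ℓ + err` (`en_gam_res`), `- E log enR(𝔅 y) ≤ - Ent(ε B_V) + err` (`gm_cmp`, Lipschitz constant `C n^α`).
EDGE (`en_viii`).  ideal mixture `g' = avg_k N(ε (⟨ω,B_k⟩, ⟨v_i,B_k⟩), Σ₂ ⊗ 1)`: `H(g')` = the left side EXACTLY (`en_viii_id`); Gibbs the other way `H(g') ≤ - ∫ g' log f_edge`; then `gm_cmp` with `ψ = - log f₀`, `f₀` = the part of `f_edge` carried by the typical locations (precision `O(1)`; the loss `f → f₀` costs only `avg bad`: `gm_W_loss`).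
REGIME: closeness of the typical stars `n^{-α/2}` (cannot be better: `O(η)`), sup norm `n^{α/16}`, bad fraction `n^-c₂ ≤ n^{-16α}`: on bad stars crude polynomial bounds `n^{4α}`.
-/

set_option autoImplicit false

namespace Claimed.Agent.R287

open MeasureTheory ProbabilityTheory Matrix

noncomputable section

/-! ### linear algebra of the star map -/

/-- the star map `𝔅` (one colour) -/
def enBm (d : ℕ) (E : ℝ) : Matrix (Fin d) (Option (Fin d)) ℝ := fun k x =>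
  match x with
  | none => 1 / Real.sqrt d
  | some k' => ((if k = k' then 1 else 0) - (d : ℝ)⁻¹) / Real.sqrt (enAa d E)

/-- the residual functional `R(Z, X) = Σ X - E Z` -/
def enRm (d : ℕ) (E : ℝ) : Option (Fin d) → ℝ
  | none => -E
  | some _ => 1

/-- `M̂` -/
def enMh (d : ℕ) (E σ : ℝ) : Matrix (Option (Fin d)) (Option (Fin d)) ℝ := fun x y =>
  match x with
  | none => enRm d E y / σ
  | some k => enBm d E k y

/-- tensoring with the colours -/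
def enKr {P Q : Type} (ℓ : ℕ) (M : Matrix P Q ℝ) : Matrix (P × Fin ℓ) (Q × Fin ℓ) ℝ := Matrix.kroneckerMap (· * ·) M (1 : Matrix (Fin ℓ) (Fin ℓ) ℝ)

/-- `a > 0` in the bulk -/
theorem en_Aa_pos {d : ℕ} {E : ℝ} (hd : 3 ≤ d) (hE : |E| < 2 * Real.sqrt ((d : ℝ) - 1)) : 0 < enAa d E ∧ E ^ 2 < (d : ℝ) ^ 2 := by
  have hd3 : (3 : ℝ) ≤ d := by exact_mod_cast hd
  have h1 : E ^ 2 < 4 * ((d : ℝ) - 1) := by
    have h0 : (0 : ℝ) ≤ (d : ℝ) - 1 := by linarith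
    have := Real.sq_sqrt h0
    have h2 : |E| ^ 2 < (2 * Real.sqrt ((d : ℝ) - 1)) ^ 2 := by
      apply pow_lt_pow_left₀ hE (abs_nonneg _) (by norm_num)
    rw [sq_abs, mul_pow, this] at h2
    linarith
  have h2 : E ^ 2 < (d : ℝ) ^ 2 := by nlinarith
  refine ⟨?_, h2⟩
  unfold enAa enP
  have hd0 : (0 : ℝ) < d := by linarith
  have : 0 < 1 - (E / d) ^ 2 := by
    rw [div_pow, sub_pos, div_lt_one (by positivity)]
    exact h2
  have h3 : (0 : ℝ) < (d : ℝ) - 1 := by linarith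
  positivity

theorem en_Bm_sum {d : ℕ} (E : ℝ) (hd : 0 < d) (k : Fin d) : ∑ j, enBm d E k (some j) = 0 := by
  have hd0 : (d : ℝ) ≠ 0 := by exact_mod_cast hd.ne'
  simp only [enBm]
  rw [← Finset.sum_div, Finset.sum_sub_distrib, Finset.sum_ite_eq]
  simp [hd0]

theorem en_Bm_gram {d : ℕ} {E : ℝ} (hd : 0 < d) (ha : 0 < enAa d E) (k k' : Fin d) :
    ∑ j, enBm d E k (some j) * enBm d E k' (some j) = ((if k = k' then 1 else 0) - (d : ℝ)⁻¹) / enAa d E := by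
  have hd0 : (d : ℝ) ≠ 0 := by exact_mod_cast hd.ne'
  have hs := Real.mul_self_sqrt ha.le
  have hs0 : Real.sqrt (enAa d E) ≠ 0 := (Real.sqrt_pos.2 ha).ne'
  simp only [enBm]
  have e : ∀ j : Fin d, ((if k = j then (1 : ℝ) else 0) - (d : ℝ)⁻¹) / Real.sqrt (enAa d E) * (((if k' = j then (1 : ℝ) else 0) - (d : ℝ)⁻¹) / Real.sqrt (enAa d E))
      = ((if k = j then (if k' = j then (1 : ℝ) else 0) else 0) - (d : ℝ)⁻¹ * (if k = j then 1 else 0) - (d : ℝ)⁻¹ * (if k' = j then 1 else 0) + (d : ℝ)⁻¹ ^ 2) / enAa d E := by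
    intro j
    rw [div_mul_div_comm, hs]
    congr 1
    split_ifs <;> ring
  simp only [e]
  rw [← Finset.sum_div]
  congr 1
  rw [Finset.sum_add_distrib, Finset.sum_sub_distrib, Finset.sum_sub_distrib, ← Finset.mul_sum, ← Finset.mul_sum, Finset.sum_ite_eq, Finset.sum_ite_eq, Finset.sum_ite_eq]
  simp only [Finset.mem_univ, if_true, Finset.sum_const, Finset.card_univ, Fintype.card_fin, nsmul_eq_mul]
  have : (if k' = k then (1 : ℝ) else 0) = if k = k' then 1 else 0 := by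
    by_cases h : k = k'
    · simp [h]
    · simp [h, Ne.symm h]
  rw [this]
  field_simp
  ring

/-- `(det M̂)² = d / (a^{d-1} σ²)`.   `M̂ᵀ M̂ = [[1 + E²/σ², -(E/σ²) 1ᵀ], [-(E/σ²) 1, (1/a) 1 + (1/σ² - 1/(ad)) J]]`; Schur complement on the scalar block (`Matrix.det_fromBlocks₁₁` after reindexing `Option (Fin d) ≃ Unit ⊕ Fin d`),
`det (x 1 + y J) = x^{d-1} (x + d y)` (`Matrix.det_one_add_replicateCol_mul_replicateRow` or `det_one_add_mul_comm`) -/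
theorem en_Mh_det {d : ℕ} {E σ : ℝ} (hd : 3 ≤ d) (hE : |E| < 2 * Real.sqrt ((d : ℝ) - 1)) (hσ : 0 < σ) : (enMh d E σ).det ^ 2 = d / (enAa d E ^ (d - 1) * σ ^ 2) := by
  obtain ⟨ha, -⟩ := en_Aa_pos hd hE
  have hd0 : 0 < d := by omega
  have hdR : (0 : ℝ) < d := by exact_mod_cast hd0
  have hsd := Real.mul_self_sqrt hdR.le
  have hsd0 : Real.sqrt d ≠ 0 := (Real.sqrt_pos.2 hdR).ne'
  obtain ⟨s, hs⟩ : ∃ s : ℝ, s = (E ^ 2 + d) / σ ^ 2 := ⟨_, rfl⟩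
  obtain ⟨β, hβ⟩ : ∃ β : ℝ, β = -E / (σ * Real.sqrt d) := ⟨_, rfl⟩
  have hs0 : 0 < s := by rw [hs]; positivity
  obtain ⟨A, hA⟩ : ∃ A : Matrix (Fin d) (Fin d) ℝ, A = fun k k' => (d : ℝ)⁻¹ + ((if k = k' then 1 else 0) - (d : ℝ)⁻¹) / enAa d E := ⟨_, rfl⟩
  obtain ⟨B, hB⟩ : ∃ B : Matrix (Fin d) Unit ℝ, B = fun _ _ => β := ⟨_, rfl⟩
  obtain ⟨C, hC⟩ : ∃ C : Matrix Unit (Fin d) ℝ, C = fun _ _ => β := ⟨_, rfl⟩
  obtain ⟨Dm, hDm⟩ : ∃ Dm : Matrix Unit Unit ℝ, Dm = fun _ _ => s := ⟨_, rfl⟩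
  have hno : ∀ k : Fin d, ∑ y, enRm d E y / σ * enBm d E k y = β := by
    intro k
    rw [Fintype.sum_option]
    have e : ∀ j : Fin d, enRm d E (some j) / σ * enBm d E k (some j) = σ⁻¹ * enBm d E k (some j) := by
      intro j
      show 1 / σ * _ = _
      rw [one_div]
    simp only [e]
    rw [← Finset.mul_sum, en_Bm_sum E hd0, mul_zero, add_zero, hβ]
    show -E / σ * (1 / Real.sqrt d) = _
    rw [div_mul_div_comm, mul_one]
  have hG : enMh d E σ * (enMh d E σ)ᵀ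
      = (fromBlocks A B C Dm).submatrix (Equiv.optionEquivSumPUnit (Fin d)) (Equiv.optionEquivSumPUnit (Fin d)) := by
    ext x y
    rw [Matrix.mul_apply, submatrix_apply]
    simp only [transpose_apply]
    cases x with
    | none =>
      cases y with
      | none =>
        rw [Equiv.optionEquivSumPUnit_none, fromBlocks_apply₂₂, hDm, hs, Fintype.sum_option]
        show -E / σ * (-E / σ) + ∑ j : Fin d, (1 / σ) * (1 / σ) = _
        rw [Finset.sum_const, Finset.card_univ, Fintype.card_fin, nsmul_eq_mul]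
        field_simp
      | some k =>
        rw [Equiv.optionEquivSumPUnit_none, Equiv.optionEquivSumPUnit_some, fromBlocks_apply₂₁, hC]
        exact hno k
    | some k =>
      cases y with
      | none =>
        rw [Equiv.optionEquivSumPUnit_none, Equiv.optionEquivSumPUnit_some, fromBlocks_apply₁₂, hB]
        rw [← hno k]
        exact Finset.sum_congr rfl fun y _ => mul_comm _ _
      | some k' =>
        rw [Equiv.optionEquivSumPUnit_some, Equiv.optionEquivSumPUnit_some, fromBlocks_apply₁₁, hA, Fintype.sum_option]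
        show 1 / Real.sqrt d * (1 / Real.sqrt d) + ∑ j, enBm d E k (some j) * enBm d E k' (some j) = _
        rw [en_Bm_gram hd0 ha, div_mul_div_comm, hsd, one_mul, one_div]
  obtain ⟨Di, hDi⟩ : ∃ Di : Matrix Unit Unit ℝ, Di = fun _ _ => s⁻¹ := ⟨_, rfl⟩
  have i1 : Di * Dm = 1 := by
    ext i j
    rw [Matrix.mul_apply, hDm, hDi]
    simp [hs0.ne']
  have i2 : Dm * Di = 1 := by
    ext i j
    rw [Matrix.mul_apply, hDm, hDi]
    simp [hs0.ne']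
  let _ : Invertible Dm := ⟨Di, i1, i2⟩
  have hinv : ⅟Dm = Di := rfl
  have h0 : (enMh d E σ).det ^ 2 = (enMh d E σ * (enMh d E σ)ᵀ).det := by rw [det_mul, det_transpose, sq]
  rw [h0, hG, det_submatrix_equiv_self, det_fromBlocks₂₂]
  have h1 : Dm.det = s := by rw [det_unique, hDm]
  obtain ⟨c, hc⟩ : ∃ c : ℝ, c = enAa d E * ((d : ℝ)⁻¹ - (d : ℝ)⁻¹ / enAa d E - β ^ 2 / s) := ⟨_, rfl⟩
  have h2 : A - B * ⅟Dm * C = (enAa d E)⁻¹ • (1 + replicateCol Unit (fun _ : Fin d => c) * replicateRow Unit (fun _ : Fin d => (1 : ℝ))) := by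
    ext k k'
    have hBC : (B * Di * C) k k' = β * s⁻¹ * β := by
      simp only [Matrix.mul_apply, Finset.univ_unique, Finset.sum_singleton]
      rw [hB, hDi, hC]
    rw [Matrix.sub_apply, hinv, hBC, Matrix.smul_apply, Matrix.add_apply, Matrix.mul_apply, hA, hc, one_apply]
    simp only [Finset.univ_unique, Finset.sum_singleton, replicateCol_apply, replicateRow_apply, smul_eq_mul]
    field_simp
    ring
  rw [h1, h2, det_smul, det_one_add_replicateCol_mul_replicateRow, Fintype.card_fin]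
  have h3 : (fun _ : Fin d => (1 : ℝ)) ⬝ᵥ (fun _ : Fin d => c) = d * c := by
    simp [dotProduct]
  rw [h3]
  have h4 : 1 + d * c = enAa d E * d / (E ^ 2 + d) := by
    rw [hc, hβ, hs]
    have : E ^ 2 + (d : ℝ) ≠ 0 := by positivity
    have e1 : (-E / (σ * Real.sqrt d)) ^ 2 = E ^ 2 / (σ ^ 2 * d) := by
      rw [div_pow, mul_pow, sq (Real.sqrt d), hsd, neg_sq]
    rw [e1]
    field_simp
    ring
  have h5 : enAa d E ^ d = enAa d E ^ (d - 1) * enAa d E := by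
    rw [← pow_succ]; congr 1; omega
  rw [h4, hs, inv_pow, h5]
  have : E ^ 2 + (d : ℝ) ≠ 0 := by positivity
  field_simp

/-- `𝔅 Σ₀ 𝔅ᵀ = 1`   (`1 - (E² - d)/(d(d-1)) = a`) -/
theorem en_Bm_sig0 {d : ℕ} {E : ℝ} (hd : 3 ≤ d) (hE : |E| < 2 * Real.sqrt ((d : ℝ) - 1)) : enBm d E * enSig0 d E * (enBm d E)ᵀ = 1 := by
  obtain ⟨ha, -⟩ := en_Aa_pos hd hE
  have hd0 : 0 < d := by omega
  have hdR : (0 : ℝ) < d := by exact_mod_cast hd0
  have hd3 : (3 : ℝ) ≤ d := by exact_mod_cast hd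
  have hsd := Real.mul_self_sqrt hdR.le
  have hsd0 : Real.sqrt d ≠ 0 := (Real.sqrt_pos.2 hdR).ne'
  obtain ⟨q, hq⟩ : ∃ q : ℝ, q = (E ^ 2 - d) / (d * ((d : ℝ) - 1)) := ⟨_, rfl⟩
  have hqa : 1 - q = enAa d E := by
    rw [hq]; unfold enAa enP
    have : (d : ℝ) - 1 ≠ 0 := by linarith
    field_simp
    ring
  -- `Σ₀ 𝔅ᵀ`
  have h1 : ∀ k' : Fin d, (enSig0 d E * (enBm d E)ᵀ) none k' = 1 / Real.sqrt d := by
    intro k'
    rw [Matrix.mul_apply, Fintype.sum_option]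
    simp only [enSig0, transpose_apply, if_true, true_or, reduceCtorEq, if_false]
    rw [← Finset.mul_sum, en_Bm_sum E hd0]
    simp [enBm]
  have h2 : ∀ (i k' : Fin d), (enSig0 d E * (enBm d E)ᵀ) (some i) k' = enP d E / Real.sqrt d + enAa d E * enBm d E k' (some i) := by
    intro i k'
    rw [Matrix.mul_apply, Fintype.sum_option]
    simp only [enSig0, transpose_apply, reduceCtorEq, if_false, or_true, if_true, Option.some.injEq, or_self, ← hq]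
    have e : ∀ j : Fin d, (if i = j then (1 : ℝ) else q) * enBm d E k' (some j) = (1 - q) * (if i = j then enBm d E k' (some j) else 0) + q * enBm d E k' (some j) := by
      intro j; split_ifs <;> ring
    simp only [e]
    rw [Finset.sum_add_distrib, ← Finset.mul_sum, ← Finset.mul_sum, en_Bm_sum E hd0, Finset.sum_ite_eq, hqa]
    simp [enBm]
    ring
  ext k k'
  rw [Matrix.mul_assoc, Matrix.mul_apply, Fintype.sum_option, h1]
  simp only [h2]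
  have e : ∀ i : Fin d, enBm d E k (some i) * (enP d E / Real.sqrt d + enAa d E * enBm d E k' (some i))
      = enP d E / Real.sqrt d * enBm d E k (some i) + enAa d E * (enBm d E k (some i) * enBm d E k' (some i)) := by
    intro i; ring
  simp only [e]
  rw [Finset.sum_add_distrib, ← Finset.mul_sum, ← Finset.mul_sum, en_Bm_sum E hd0, en_Bm_gram hd0 ha, one_apply]
  have : enBm d E k none = 1 / Real.sqrt d := rfl
  rw [this, div_mul_div_comm, hsd]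
  field_simp
  ring

/-- action of `M ⊗ 1` -/
theorem en_Kr_mulVec {P Q : Type} [Fintype Q] (ℓ : ℕ) (M : Matrix P Q ℝ) (y : Q × Fin ℓ → ℝ) (p : P) (j : Fin ℓ) :
    (enKr ℓ M *ᵥ y) (p, j) = ∑ q, M p q * y (q, j) := by
  unfold enKr
  simp only [mulVec, dotProduct, kroneckerMap_apply, Fintype.sum_prod_type, one_apply]
  refine Finset.sum_congr rfl fun q _ => ?_
  simp [Finset.sum_ite_eq]

theorem en_Kr_mul {P Q R : Type} [Fintype Q] (ℓ : ℕ) (M : Matrix P Q ℝ) (N : Matrix Q R ℝ) : enKr ℓ (M * N) = enKr ℓ M * enKr ℓ N := by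
  unfold enKr
  have := Matrix.mul_kronecker_mul M N (1 : Matrix (Fin ℓ) (Fin ℓ) ℝ) (1 : Matrix (Fin ℓ) (Fin ℓ) ℝ)
  rw [Matrix.one_mul] at this
  exact this

theorem en_Kr_transpose {P Q : Type} (ℓ : ℕ) (M : Matrix P Q ℝ) : (enKr ℓ M)ᵀ = enKr ℓ Mᵀ := by
  unfold enKr
  rw [← Matrix.kroneckerMap_transpose, transpose_one]

theorem en_Kr_one {P : Type} [DecidableEq P] (ℓ : ℕ) : enKr ℓ (1 : Matrix P P ℝ) = 1 := by
  unfold enKr
  exact Matrix.one_kronecker_one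

/-- `B_V = 𝔅 V̂` -/
theorem en_BV_eq {n d ℓ : ℕ} (D : EnData n d ℓ) (s : EnLoc D.G d) (ε : ℝ) : enKr ℓ (enBm d D.E) *ᵥ D.obsM ε s.vx = ε • D.BV s := by
  funext ⟨k, j⟩
  rw [en_Kr_mulVec, Fintype.sum_option]
  simp only [enBm, EnData.obsM, EnData.BV, Pi.smul_apply, smul_eq_mul]
  have : ∑ x : Fin d, ((if k = x then (1 : ℝ) else 0) - (d : ℝ)⁻¹) / Real.sqrt (enAa d D.E) * (ε * D.V (s.vx (some x)) j)
      = ε * ((D.V (s.vx (some k)) j - (d : ℝ)⁻¹ * ∑ x, D.V (s.vx (some x)) j) / Real.sqrt (enAa d D.E)) := by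
    have e : ∀ x : Fin d, ((if k = x then (1 : ℝ) else 0) - (d : ℝ)⁻¹) / Real.sqrt (enAa d D.E) * (ε * D.V (s.vx (some x)) j)
        = ε / Real.sqrt (enAa d D.E) * ((if k = x then D.V (s.vx (some x)) j else 0) - (d : ℝ)⁻¹ * D.V (s.vx (some x)) j) := by
      intro x
      split_ifs <;> ring
    simp only [e]
    rw [← Finset.mul_sum, Finset.sum_sub_distrib, Finset.sum_ite_eq, ← Finset.mul_sum]
    simp only [Finset.mem_univ, if_true]
    ring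
  rw [this]
  ring

/-- `|M̂ y|² = |𝔅 y|² + |R y|²/σ²` -/
theorem en_Mh_sq {d ℓ : ℕ} (E σ : ℝ) (y : Option (Fin d) × Fin ℓ → ℝ) :
    gmQ (enKr ℓ ((enMh d E σ)ᵀ * enMh d E σ)) y = gmSq (enKr ℓ (enBm d E) *ᵥ y) + ∑ j, ((∑ x, enRm d E x * y (x, j)) / σ) ^ 2 := by
  rw [en_Kr_mul, ← en_Kr_transpose, gm_x_Q_sq]
  unfold gmSq
  rw [Fintype.sum_prod_type, Fintype.sum_option, Fintype.sum_prod_type, add_comm]
  congr 1
  · refine Finset.sum_congr rfl fun j _ => ?_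
    rw [en_Kr_mulVec, Finset.sum_div]
    congr 1
    refine Finset.sum_congr rfl fun x _ => ?_
    show enRm d E x / σ * _ = _
    ring

/-- the ideal star mixture is a mixture: `L̂ = M̂⁻¹` (`en_Mh_det`), SOME bounds (finite dimension: `lam' = Σ entries²` of `M̂`, `sig' = Σ entries²` of `L̂`) -/
theorem en_Mh_ok {d ℓ : ℕ} {E σ : ℝ} (hd : 3 ≤ d) (hE : |E| < 2 * Real.sqrt ((d : ℝ) - 1)) (hσ : 0 < σ) {K : Type} [Fintype K] (m : K → Option (Fin d) × Fin ℓ → ℝ) :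
    ∃ (Lh : Matrix (Option (Fin d)) (Option (Fin d)) ℝ) (lam' sig' mu' : ℝ),
      GmOk (fun _ : K => enKr ℓ Lh) (fun _ : K => enKr ℓ ((enMh d E σ)ᵀ * enMh d E σ)) m lam' sig' mu' := by
  have hdet : (enMh d E σ).det ≠ 0 := by
    intro h0
    have h1 := en_Mh_det hd hE hσ
    rw [h0] at h1
    have hd0 : (0 : ℝ) < d := by have : 0 < d := by omega
                                 exact_mod_cast this
    have ha : 0 < enAa d E := (en_Aa_pos hd hE).1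
    have : 0 < (d : ℝ) / (enAa d E ^ (d - 1) * σ ^ 2) := by positivity
    rw [← h1] at this
    norm_num at this
  have hu : IsUnit (enMh d E σ).det := isUnit_iff_ne_zero.2 hdet
  obtain ⟨M, hM⟩ : ∃ M, M = enMh d E σ := ⟨_, rfl⟩
  rw [← hM] at hu ⊢
  have h1 : M⁻¹ * M = 1 := nonsing_inv_mul M hu
  have h2 : M * M⁻¹ = 1 := mul_nonsing_inv M hu
  have k1 : enKr ℓ M⁻¹ * enKr ℓ M = 1 := by rw [← en_Kr_mul, h1, en_Kr_one]
  have k2 : enKr ℓ M * enKr ℓ M⁻¹ = 1 := by rw [← en_Kr_mul, h2, en_Kr_one]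
  have hQ : ∀ x, gmQ (enKr ℓ (Mᵀ * M)) x = gmSq (enKr ℓ M *ᵥ x) := by
    intro x
    rw [en_Kr_mul, ← en_Kr_transpose, gm_x_Q_sq]
  refine ⟨M⁻¹, 1 + (enKr ℓ M * (enKr ℓ M)ᵀ).trace, 1 + (enKr ℓ M⁻¹ * (enKr ℓ M⁻¹)ᵀ).trace, ∑ k, gmN (m k), ?_, ?_, fun _ => ?_, fun _ x => ?_, fun _ x => ?_, fun k => ?_⟩
  · have := gm_trace_nonneg (enKr ℓ M); linarith
  · have := gm_trace_nonneg (enKr ℓ M⁻¹); linarith
  · rw [en_Kr_mul, ← en_Kr_transpose]
    calc enKr ℓ M⁻¹ * (enKr ℓ M⁻¹)ᵀ * ((enKr ℓ M)ᵀ * enKr ℓ M) = enKr ℓ M⁻¹ * ((enKr ℓ M * enKr ℓ M⁻¹)ᵀ) * enKr ℓ M := by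
          rw [transpose_mul]; simp only [Matrix.mul_assoc]
      _ = 1 := by rw [k2, transpose_one, Matrix.mul_one, k1]
  · rw [hQ]
    have := gm_Sq_mulVec_le (enKr ℓ M) x
    have := gm_Sq_nonneg x
    nlinarith
  · rw [hQ]
    have e : x = enKr ℓ M⁻¹ *ᵥ (enKr ℓ M *ᵥ x) := by rw [mulVec_mulVec, k1, one_mulVec]
    have := gm_Sq_mulVec_le (enKr ℓ M⁻¹) (enKr ℓ M *ᵥ x)
    rw [← e] at this
    have := gm_Sq_nonneg (enKr ℓ M *ᵥ x)
    nlinarith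
  · exact Finset.single_le_sum (f := fun k => gmN (m k)) (fun k _ => gm_N_nonneg _) (Finset.mem_univ k)

/-! ### kit: modulus of `log f` -/

/-- modulus of `log f` for a mixture (`gm_ratio` both ways, `gm_Q_lip`, `gm_prec`) -/
theorem gm_log_mod {ι κ K : Type} [Fintype ι] [DecidableEq ι] [Fintype κ] [Fintype K] [Nonempty K] {B : K → Matrix ι κ ℝ} {Λ : K → Matrix ι ι ℝ} {m : K → ι → ℝ} {lam sig mu : ℝ}
    (h : GmOk B Λ m lam sig mu) (y y' : ι → ℝ) : |Real.log (gmMix Λ m y) - Real.log (gmMix Λ m y')| ≤ lam * gmN (y - y') * (2 * mu + gmN y + gmN y') := by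
  obtain ⟨t, ht⟩ : ∃ t, t = lam * gmN (y - y') * (2 * mu + gmN y + gmN y') := ⟨_, rfl⟩
  rw [← ht]
  have hpos := (gm_mix_pos h).1
  have key : ∀ k, |gmQ (Λ k) (y' - m k) - gmQ (Λ k) (y - m k)| ≤ t := by
    intro k
    obtain ⟨hs, -, hq, -⟩ := gm_prec (B k) (Λ k) (h.inv k)
    have h1 := gm_Q_lip hs (fun x => by rw [hq]; exact gm_Sq_nonneg _) (h.prec k) (y' - m k) (y - m k)
    have e : y' - m k - (y - m k) = y' - y := by abel
    rw [e, gm_N_comm] at h1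
    refine h1.trans ?_
    rw [ht]
    have a1 := gm_N_sub y' (m k)
    have a2 := gm_N_sub y (m k)
    have a3 := h.mean k
    exact mul_le_mul_of_nonneg_left (by linarith) (mul_nonneg h.lam0.le (gm_N_nonneg _))
  have ht0 : 0 ≤ t := (abs_nonneg _).trans (key (Classical.arbitrary K))
  have r1 : gmMix Λ m y ≤ Real.exp t * gmMix Λ m y' := gm_ratio Λ m y y' t fun k => by
    have := (abs_le.1 (key k)).2; linarith
  have r2 : gmMix Λ m y' ≤ Real.exp t * gmMix Λ m y := gm_ratio Λ m y' y t fun k => by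
    have := (abs_le.1 (key k)).1; linarith
  have l1 := Real.log_le_log (hpos y) r1
  have l2 := Real.log_le_log (hpos y') r2
  rw [Real.log_mul (Real.exp_pos t).ne' (hpos _).ne', Real.log_exp] at l1 l2
  rw [abs_le]
  constructor <;> linarith

/-- monotonicity of `gmE` for functions of polynomial growth -/
theorem gm_E_mono {ι κ K : Type} [Fintype ι] [Fintype κ] [Fintype K] (B : K → Matrix ι κ ℝ) (m : K → ι → ℝ) {φ ψ : (ι → ℝ) → ℝ} (hφ : Measurable φ) (hψ : Measurable ψ)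
    (C : ℝ) (k : ℕ) (h1 : ∀ y, |φ y| ≤ C * (1 + gmSq y) ^ k) (h2 : ∀ y, |ψ y| ≤ C * (1 + gmSq y) ^ k) (h : ∀ y, φ y ≤ ψ y) : gmE B m φ ≤ gmE B m ψ :=
  gm_E_le B m ⟨hφ, C, k, h1⟩ ⟨hψ, C, k, h2⟩ h

/-- average over the locations, split into typical and bad ones: `avg f ≤ a + (avg bad) b` if `f ≤ a` on the typical and `f ≤ a + b` on the bad locations -/
theorem en_avg_split {K : Type} [Fintype K] [Nonempty K] (f bad : K → ℝ) (a b : ℝ) (hb : 0 ≤ b) (hbad : ∀ k, bad k = 0 ∨ bad k = 1) (h0 : ∀ k, bad k = 0 → f k ≤ a) (h1 : ∀ k, f k ≤ a + b) :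
    enAvg f ≤ a + enAvg bad * b := by
  have h : ∀ k, f k ≤ a + b * bad k := by
    intro k
    rcases hbad k with h | h
    · rw [h, mul_zero, add_zero]; exact h0 k h
    · rw [h, mul_one]; exact h1 k
  calc enAvg f ≤ enAvg (fun k => a + b * bad k) := en_Avg_mono h
    _ = a + enAvg bad * b := by rw [en_Avg_add, en_Avg_const, en_Avg_mul, mul_comm]

/-! ### kit: weighted sub-mixtures (the bad components are thrown away) -/

/-- weighted mixture density `avg_k w_k N(m_k, Λ_k⁻¹)` -/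
def gmMixW {ι K : Type} [Fintype ι] [DecidableEq ι] [Fintype K] (w : K → ℝ) (Λ : K → Matrix ι ι ℝ) (m : K → ι → ℝ) (y : ι → ℝ) : ℝ :=
  enAvg fun k => w k * gmDens (Λ k) (m k) y

/-- `f₀ ≤ f`, `f₀ > 0` -/
theorem gm_W_le {ι κ K : Type} [Fintype ι] [DecidableEq ι] [Fintype κ] [Fintype K] {B : K → Matrix ι κ ℝ} {Λ : K → Matrix ι ι ℝ} {m : K → ι → ℝ} {lam sig mu : ℝ}
    (h : GmOk B Λ m lam sig mu) (w : K → ℝ) (hw : ∀ k, w k = 0 ∨ w k = 1) (h1 : ∃ k, w k = 1) (y : ι → ℝ) : 0 < gmMixW w Λ m y ∧ gmMixW w Λ m y ≤ gmMix Λ m y := by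
  obtain ⟨k0, hk0⟩ := h1
  have : Nonempty K := ⟨k0⟩
  have hK : (0 : ℝ) < (Fintype.card K : ℝ)⁻¹ := by
    have : (0 : ℝ) < Fintype.card K := by exact_mod_cast Fintype.card_pos
    positivity
  have hp : ∀ k, 0 < gmDens (Λ k) (m k) y := fun k => gm_x_dens_pos (h.inv k) _ _
  have hw0 : ∀ k, 0 ≤ w k ∧ w k ≤ 1 := fun k => by rcases hw k with e | e <;> rw [e] <;> norm_num
  unfold gmMixW gmMix enAvg
  constructor
  · refine mul_pos hK ?_
    refine lt_of_lt_of_le ?_ (Finset.single_le_sum (f := fun k => w k * gmDens (Λ k) (m k) y)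
      (fun k _ => mul_nonneg (hw0 k).1 (hp k).le) (Finset.mem_univ k0))
    simp only [hk0, one_mul]
    exact hp k0
  · refine mul_le_mul_of_nonneg_left (Finset.sum_le_sum fun k _ => ?_) hK.le
    have := mul_le_mul_of_nonneg_right (hw0 k).2 (hp k).le
    simpa using this

/-- termwise ratio for the weighted mixture -/
theorem gm_z_W_ratio {ι κ K : Type} [Fintype ι] [DecidableEq ι] [Fintype κ] [Fintype K] {B : K → Matrix ι κ ℝ} {Λ : K → Matrix ι ι ℝ} {m : K → ι → ℝ} {lam sig mu lam₀ : ℝ}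
    (h : GmOk B Λ m lam sig mu) (w : K → ℝ) (hw : ∀ k, w k = 0 ∨ w k = 1) (h0 : ∀ k, w k = 1 → ∀ x, gmQ (Λ k) x ≤ lam₀ * gmSq x) (hl : 0 ≤ lam₀) (y y' : ι → ℝ) :
    gmMixW w Λ m y ≤ Real.exp (lam₀ * gmN (y - y') * (2 * mu + gmN y + gmN y')) * gmMixW w Λ m y' := by
  unfold gmMixW enAvg
  rw [mul_left_comm, Finset.mul_sum (a := Real.exp _)]
  have hc : (0 : ℝ) ≤ (Fintype.card K : ℝ)⁻¹ := by positivity
  refine mul_le_mul_of_nonneg_left (Finset.sum_le_sum fun k _ => ?_) hc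
  rcases hw k with e | e
  · simp [e]
  · rw [e, one_mul, one_mul]
    obtain ⟨hs, hdet, hq, -⟩ := gm_prec (B k) (Λ k) (h.inv k)
    have hq0 : ∀ x, 0 ≤ gmQ (Λ k) x := fun x => by rw [hq]; exact gm_Sq_nonneg _
    have h1 := gm_Q_lip hs hq0 (h0 k e) (y - m k) (y' - m k)
    have e1 : y - m k - (y' - m k) = y - y' := by abel
    rw [e1] at h1
    have hm := h.mean k
    have n1 : gmN (y - m k) ≤ gmN y + mu := by
      have := gm_N_add y (-(m k))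
      have e2 : gmN (-(m k)) = gmN (m k) := by simp [gmN, gmSq]
      rw [e2, ← sub_eq_add_neg] at this
      linarith
    have n2 : gmN (y' - m k) ≤ gmN y' + mu := by
      have := gm_N_add y' (-(m k))
      have e2 : gmN (-(m k)) = gmN (m k) := by simp [gmN, gmSq]
      rw [e2, ← sub_eq_add_neg] at this
      linarith
    have hN := gm_N_nonneg (y - y')
    have h2 : lam₀ * gmN (y - y') * (gmN (y - m k) + gmN (y' - m k)) ≤ lam₀ * gmN (y - y') * (2 * mu + gmN y + gmN y') :=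
      mul_le_mul_of_nonneg_left (by linarith) (mul_nonneg hl hN)
    have h3 : 0 ≤ lam₀ * gmN (y - y') * (2 * mu + gmN y + gmN y') := by
      refine le_trans ?_ h2
      exact mul_nonneg (mul_nonneg hl hN) (add_nonneg (gm_N_nonneg _) (gm_N_nonneg _))
    have h4 := (abs_le.1 h1).1
    unfold gmDens
    rw [mul_left_comm, ← Real.exp_add]
    refine mul_le_mul_of_nonneg_left (Real.exp_le_exp.2 ?_) (by positivity)
    linarith

/-- modulus of `log f₀`: only the components with `w_k = 1` matter; `lam₀` = bound of THEIR precision (termwise ratio as in `gm_ratio`, `gm_Q_lip`) -/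
theorem gm_W_mod {ι κ K : Type} [Fintype ι] [DecidableEq ι] [Fintype κ] [Fintype K] {B : K → Matrix ι κ ℝ} {Λ : K → Matrix ι ι ℝ} {m : K → ι → ℝ} {lam sig mu lam₀ : ℝ}
    (h : GmOk B Λ m lam sig mu) (w : K → ℝ) (hw : ∀ k, w k = 0 ∨ w k = 1) (h1 : ∃ k, w k = 1) (h0 : ∀ k, w k = 1 → ∀ x, gmQ (Λ k) x ≤ lam₀ * gmSq x) (y y' : ι → ℝ) :
    |Real.log (gmMixW w Λ m y) - Real.log (gmMixW w Λ m y')| ≤ lam₀ * gmN (y - y') * (2 * mu + gmN y + gmN y') := by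
  have hp := fun z => (gm_W_le h w hw h1 z).1
  by_cases hyy : y = y'
  · subst hyy
    simp [gmN, gmSq]
  have hl : 0 ≤ lam₀ := by
    obtain ⟨k0, hk0⟩ := h1
    obtain ⟨hs, hdet, hq, -⟩ := gm_prec (B k0) (Λ k0) (h.inv k0)
    have a1 := h0 k0 hk0 (y - y')
    have a2 : 0 ≤ gmQ (Λ k0) (y - y') := by rw [hq]; exact gm_Sq_nonneg _
    have a3 : 0 < gmSq (y - y') := by
      refine lt_of_le_of_ne (gm_Sq_nonneg _) fun e => hyy ?_
      have e' := (Finset.sum_eq_zero_iff_of_nonneg (fun i _ => sq_nonneg ((y - y') i))).1 e.symm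
      funext i
      have := e' i (Finset.mem_univ i)
      have := pow_eq_zero_iff (two_ne_zero) |>.1 this
      simp only [Pi.sub_apply] at this
      linarith
    by_contra hcon
    push Not at hcon
    nlinarith
  have a := gm_z_W_ratio h w hw h0 hl y y'
  have b := gm_z_W_ratio h w hw h0 hl y' y
  have e : gmN (y' - y) = gmN (y - y') := by
    unfold gmN gmSq
    congr 1
    refine Finset.sum_congr rfl fun i _ => ?_
    simp only [Pi.sub_apply]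
    ring
  rw [e] at b
  have la := Real.log_le_log (hp y) a
  have lb := Real.log_le_log (hp y') b
  rw [Real.log_mul (Real.exp_pos _).ne' (hp _).ne', Real.log_exp] at la lb
  rw [abs_le]
  constructor <;> linarith

theorem gm_z_W_meas {ι K : Type} [Fintype ι] [DecidableEq ι] [Fintype K] (w : K → ℝ) (Λ : K → Matrix ι ι ℝ) (m : K → ι → ℝ) :
    Measurable (gmMixW w Λ m) := by
  unfold gmMixW enAvg
  exact (Finset.measurable_sum _ fun k _ => (gm_x_dens_meas (Λ k) (m k)).const_mul (w k)).const_mul _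

theorem gm_z_W_one {ι K : Type} [Fintype ι] [DecidableEq ι] [Fintype K] (Λ : K → Matrix ι ι ℝ) (m : K → ι → ℝ) :
    gmMixW (fun _ => 1) Λ m = gmMix Λ m := by
  funext y
  simp [gmMixW, gmMix]

/-- `log f₀` has quadratic growth -/
theorem gm_z_W_poly {ι κ K : Type} [Fintype ι] [DecidableEq ι] [Fintype κ] [Fintype K] {B : K → Matrix ι κ ℝ} {Λ : K → Matrix ι ι ℝ} {m : K → ι → ℝ} {lam sig mu : ℝ}
    (h : GmOk B Λ m lam sig mu) (w : K → ℝ) (hw : ∀ k, w k = 0 ∨ w k = 1) (h1 : ∃ k, w k = 1) :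
    ∃ C : ℝ, ∀ y, |Real.log (gmMixW w Λ m y)| ≤ C * (1 + gmSq y) ^ 1 := by
  refine ⟨|Real.log (gmMixW w Λ m 0)| + lam * mu ^ 2 + 2 * lam, fun y => ?_⟩
  have a := gm_W_mod h w hw h1 (fun k _ => h.prec k) y 0
  have e0 : gmN (0 : ι → ℝ) = 0 := by simp [gmN, gmSq]
  rw [sub_zero, e0, add_zero] at a
  have b := abs_sub_abs_le_abs_sub (Real.log (gmMixW w Λ m y)) (Real.log (gmMixW w Λ m 0))
  have hN := gm_N_nonneg y
  have hS := gm_N_sq y
  have hl := h.lam0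
  have c : gmN y * (2 * mu + gmN y) ≤ mu ^ 2 + 2 * gmSq y := by nlinarith [sq_nonneg (mu - gmN y)]
  have d : lam * gmN y * (2 * mu + gmN y) ≤ lam * (mu ^ 2 + 2 * gmSq y) := by
    rw [mul_assoc]; exact mul_le_mul_of_nonneg_left c hl.le
  have hS0 := gm_Sq_nonneg y
  have hA := abs_nonneg (Real.log (gmMixW w Λ m 0))
  rw [pow_one]
  nlinarith [mul_nonneg hA hS0, mul_nonneg (mul_nonneg hl.le (sq_nonneg mu)) hS0]

/-- **loss of the bad components**: `avg_k w_k E_k[log (f/f₀)] ≤ avg_k w_k E_k[(f - f₀)/f₀] = ∫ f₀ (f - f₀)/f₀ = ∫ (f - f₀) = avg (1 - w)`   (`log (1+x) ≤ x`; `gm_map_dens` for each component; integrability: `w_k dens_k (f - f₀)/f₀ ≤ |K| (f - f₀)`; `log f`, `log f₀` have quadratic growth) -/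
theorem gm_W_loss {ι κ K : Type} [Fintype ι] [DecidableEq ι] [Fintype κ] [Fintype K] {B : K → Matrix ι κ ℝ} {Λ : K → Matrix ι ι ℝ} {m : K → ι → ℝ} {lam sig mu : ℝ}
    (h : GmOk B Λ m lam sig mu) (w : K → ℝ) (hw : ∀ k, w k = 0 ∨ w k = 1) (h1 : ∃ k, w k = 1) :
    enAvg (fun k => w k * ∫ g, - Real.log (gmMixW w Λ m (m k + B k *ᵥ g)) ∂(gmStd κ))
      ≤ enAvg (fun k => w k * ∫ g, - Real.log (gmMix Λ m (m k + B k *ᵥ g)) ∂(gmStd κ)) + enAvg fun k => 1 - w k := by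
  have hne : Nonempty K := ⟨h1.choose⟩
  have hpos := fun y => (gm_W_le h w hw h1 y).1
  have hle := fun y => (gm_W_le h w hw h1 y).2
  have hm0 : Measurable (gmMixW w Λ m) := gm_z_W_meas w Λ m
  have hm1 : Measurable (gmMix Λ m) := by rw [← gm_z_W_one]; exact gm_z_W_meas _ Λ m
  obtain ⟨C0, hC0⟩ := gm_z_W_poly h w hw h1
  obtain ⟨C1, hC1⟩ := gm_z_W_poly h (fun _ => 1) (fun _ => Or.inr rfl) ⟨h1.choose, rfl⟩
  rw [gm_z_W_one] at hC1
  have i0 : ∀ k, Integrable (fun g => Real.log (gmMixW w Λ m (m k + B k *ᵥ g))) (gmStd κ) := fun k =>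
    gm_x_int_aff (B k) (m k) (φ := fun y => Real.log (gmMixW w Λ m y)) (Real.measurable_log.comp hm0) C0 1 hC0
  have i1 : ∀ k, Integrable (fun g => Real.log (gmMix Λ m (m k + B k *ᵥ g))) (gmStd κ) := fun k =>
    gm_x_int_aff (B k) (m k) (φ := fun y => Real.log (gmMix Λ m y)) (Real.measurable_log.comp hm1) C1 1 hC1
  set φ : (ι → ℝ) → ℝ := fun y => Real.log (gmMix Λ m y) - Real.log (gmMixW w Λ m y) with hφ
  have hφm : Measurable φ := (Real.measurable_log.comp hm1).sub (Real.measurable_log.comp hm0)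
  have hφi : ∀ k, Integrable (fun y => φ y * gmDens (Λ k) (m k) y) := fun k =>
    (gm_x_integrable_map (h.inv k) (m k) hφm).1 ((i1 k).sub (i0 k))
  have key : ∀ k, ∫ g, - Real.log (gmMixW w Λ m (m k + B k *ᵥ g)) ∂(gmStd κ)
      = ∫ g, - Real.log (gmMix Λ m (m k + B k *ᵥ g)) ∂(gmStd κ) + ∫ y, φ y * gmDens (Λ k) (m k) y := by
    intro k
    rw [← gm_x_int_map (h.inv k) (m k) hφm, integral_neg, integral_neg, hφ]
    simp only
    rw [integral_sub (i1 k) (i0 k)]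
    ring
  have hd := fun k => gm_x_dens_one (h.inv k) (m k)
  have e1 : enAvg (fun k => w k * ∫ y, φ y * gmDens (Λ k) (m k) y) = ∫ y, φ y * gmMixW w Λ m y := by
    unfold gmMixW enAvg
    have : ∀ y, φ y * ((Fintype.card K : ℝ)⁻¹ * ∑ k, w k * gmDens (Λ k) (m k) y)
        = (Fintype.card K : ℝ)⁻¹ * ∑ k, w k * (φ y * gmDens (Λ k) (m k) y) := by
      intro y
      rw [mul_left_comm, Finset.mul_sum]
      congr 1
      exact Finset.sum_congr rfl fun k _ => by ring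
    simp only [this]
    rw [integral_const_mul, integral_finsetSum _ fun k _ => (hφi k).const_mul (w k)]
    simp only [integral_const_mul]
  have j0 : Integrable (fun y => φ y * gmMixW w Λ m y) := by
    unfold gmMixW enAvg
    have : ∀ y, φ y * ((Fintype.card K : ℝ)⁻¹ * ∑ k, w k * gmDens (Λ k) (m k) y)
        = (Fintype.card K : ℝ)⁻¹ * ∑ k, w k * (φ y * gmDens (Λ k) (m k) y) := by
      intro y
      rw [mul_left_comm, Finset.mul_sum]
      congr 1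
      exact Finset.sum_congr rfl fun k _ => by ring
    simp only [this]
    exact (integrable_finsetSum _ fun k _ => (hφi k).const_mul (w k)).const_mul _
  have e3f : ∀ y, gmMix Λ m y - gmMixW w Λ m y = (Fintype.card K : ℝ)⁻¹ * ∑ k, (1 - w k) * gmDens (Λ k) (m k) y := by
    intro y
    unfold gmMix gmMixW enAvg
    rw [← mul_sub, ← Finset.sum_sub_distrib]
    congr 1
    exact Finset.sum_congr rfl fun k _ => by ring
  have j1 : Integrable (fun y => gmMix Λ m y - gmMixW w Λ m y) := by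
    simp only [e3f]
    exact (integrable_finsetSum _ fun k _ => (hd k).1.const_mul (1 - w k)).const_mul _
  have e3 : ∫ y, (gmMix Λ m y - gmMixW w Λ m y) = enAvg fun k => 1 - w k := by
    simp only [e3f]
    rw [integral_const_mul, integral_finsetSum _ fun k _ => (hd k).1.const_mul (1 - w k)]
    simp only [integral_const_mul, (hd _).2, mul_one]
    rfl
  have e2 : ∫ y, φ y * gmMixW w Λ m y ≤ ∫ y, (gmMix Λ m y - gmMixW w Λ m y) := by
    refine integral_mono j0 j1 fun y => ?_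
    have p0 := hpos y
    have p1 : 0 < gmMix Λ m y := lt_of_lt_of_le p0 (hle y)
    have a : φ y ≤ gmMix Λ m y / gmMixW w Λ m y - 1 := by
      rw [hφ]
      simp only
      rw [← Real.log_div p1.ne' p0.ne']
      exact Real.log_le_sub_one_of_pos (div_pos p1 p0)
    have b := mul_le_mul_of_nonneg_right a p0.le
    have c : (gmMix Λ m y / gmMixW w Λ m y - 1) * gmMixW w Λ m y = gmMix Λ m y - gmMixW w Λ m y := by
      field_simp
    show φ y * gmMixW w Λ m y ≤ gmMix Λ m y - gmMixW w Λ m y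
    linarith
  have e4 : enAvg (fun k => w k * ∫ g, - Real.log (gmMixW w Λ m (m k + B k *ᵥ g)) ∂(gmStd κ))
      = enAvg (fun k => w k * ∫ g, - Real.log (gmMix Λ m (m k + B k *ᵥ g)) ∂(gmStd κ))
        + enAvg (fun k => w k * ∫ y, φ y * gmDens (Λ k) (m k) y) := by
    simp only [key]
    unfold enAvg
    rw [← mul_add, ← Finset.sum_add_distrib]
    congr 1
    exact Finset.sum_congr rfl fun k _ => by ring
  rw [e4, e1]
  linarith

/-! ### the star -/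

/-- `ψ(y) = - log avg_k exp(-|M̂ (y - ε V̂_k)|²/2)` -/
def EnData.psiS {n d ℓ : ℕ} (D : EnData n d ℓ) (ε σ : ℝ) (y : Option (Fin d) × Fin ℓ → ℝ) : ℝ :=
  - Real.log (enAvg fun s : EnLoc D.G d => Real.exp (-(gmQ (enKr ℓ ((enMh d D.E σ)ᵀ * enMh d D.E σ)) (y - D.obsM ε s.vx)) / 2))

/-- the normalised residual `w(y) = R(y)/σ` -/
def enW {d ℓ : ℕ} (E σ : ℝ) (y : Option (Fin d) × Fin ℓ → ℝ) : Fin ℓ → ℝ := fun j => (∑ x, enRm d E x * y (x, j)) / σ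

theorem en_Kr_det {P : Type} [Fintype P] [DecidableEq P] (ℓ : ℕ) (M : Matrix P P ℝ) : (enKr ℓ M).det = M.det ^ ℓ := by
  unfold enKr
  have := Matrix.det_kronecker M (1 : Matrix (Fin ℓ) (Fin ℓ) ℝ)
  rw [det_one, one_pow, mul_one, Fintype.card_fin] at this
  exact this

/-- the residual functional applied to the noise, as a matrix -/
def enResW {n d ℓ : ℕ} (D : EnData n d ℓ) (σ : ℝ) (s : EnLoc D.G d) : Matrix (Fin ℓ) (Fin n × Fin ℓ) ℝ :=
  fun j q => (∑ x, enRm d D.E x * D.obsB s.vx (x, j) q) / σ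

theorem en_w_eqns_cite : True := by
  have := @enResW.eq_1
  trivial

theorem en_w_W_add {d ℓ : ℕ} (E σ : ℝ) (y y' : Option (Fin d) × Fin ℓ → ℝ) : enW E σ (y + y') = enW E σ y + enW E σ y' := by
  funext j
  simp only [enW, Pi.add_apply, mul_add, Finset.sum_add_distrib, add_div]

theorem en_w_W_mul {n d ℓ : ℕ} (D : EnData n d ℓ) (σ : ℝ) (s : EnLoc D.G d) (g : Fin n × Fin ℓ → ℝ) :
    enW D.E σ (D.obsB s.vx *ᵥ g) = enResW D σ s *ᵥ g := by
  funext j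
  simp only [enW, enResW, mulVec, dotProduct, Finset.mul_sum, div_mul_eq_mul_div, Finset.sum_mul, ← Finset.sum_div]
  rw [Finset.sum_comm]
  congr 1
  exact Finset.sum_congr rfl fun q _ => Finset.sum_congr rfl fun x _ => by ring

theorem en_w_res_entry {n d ℓ : ℕ} (D : EnData n d ℓ) (hG : D.G ∈ Claims.C0462.regularGraphs n d) (σ : ℝ) (s : EnLoc D.G d) (j : Fin ℓ) (v : Fin n) (j' : Fin ℓ) :
    enResW D σ s j (v, j') = if j = j' then ((enA D.G - D.E • 1) * D.L) (s.vx none) v / σ else 0 := by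
  classical
  have h1 : ∀ x, D.obsB s.vx (x, j) (v, j') = if j = j' then D.L (s.vx x) v else 0 := by
    intro x
    simp only [EnData.obsB, kroneckerMap_apply, submatrix_apply, id, Matrix.one_apply, mul_ite, mul_one, mul_zero]
  unfold enResW
  simp only [h1]
  by_cases hj : j = j'
  · simp only [hj, if_true]
    congr 1
    rw [Fintype.sum_option, Matrix.sub_mul, Matrix.sub_apply, Matrix.smul_mul, Matrix.one_mul, Matrix.smul_apply, smul_eq_mul]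
    simp only [enRm, one_mul]
    rw [en_loc_sum hG s (fun w => D.L w v), Matrix.mul_apply]
    have : ∀ w, enA D.G (s.vx none) w * D.L w v = if D.G.Adj (s.vx none) w then D.L w v else 0 := by
      intro w
      simp only [enA, SimpleGraph.adjMatrix_apply, ite_mul, one_mul, zero_mul]
    simp only [this]
    ring
  · simp [hj]

theorem en_w_res_tr {n d ℓ : ℕ} (D : EnData n d ℓ) (hG : D.G ∈ Claims.C0462.regularGraphs n d) (σ : ℝ) (s : EnLoc D.G d) :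
    (enResW D σ s * (enResW D σ s)ᵀ).trace = ℓ * (((enA D.G - D.E • 1) * D.Γ * (enA D.G - D.E • 1)) (s.vx none) (s.vx none) / σ ^ 2) := by
  classical
  have he := en_w_res_entry D hG σ s
  set S := enA D.G - D.E • (1 : Matrix (Fin n) (Fin n) ℝ) with hS
  have hSs : Sᵀ = S := en_S_symm D.G D.E
  have h1 : (S * D.Γ * S) (s.vx none) (s.vx none) = ∑ v, (S * D.L) (s.vx none) v ^ 2 := by
    have : S * D.Γ * S = (S * D.L) * (S * D.L)ᵀ := by
      rw [transpose_mul, hSs]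
      unfold EnData.Γ
      simp only [Matrix.mul_assoc]
    rw [this, Matrix.mul_apply]
    exact Finset.sum_congr rfl fun v _ => by rw [transpose_apply, sq]
  rw [h1]
  set T := S * D.L with hT
  have h2 : ∀ j : Fin ℓ, (enResW D σ s * (enResW D σ s)ᵀ) j j = (∑ v, T (s.vx none) v ^ 2) / σ ^ 2 := by
    intro j
    rw [Matrix.mul_apply, Fintype.sum_prod_type, Finset.sum_div]
    refine Finset.sum_congr rfl fun v _ => ?_
    simp only [transpose_apply, he]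
    rw [Finset.sum_eq_single j (fun j' _ hj => by simp [Ne.symm hj]) (fun h => absurd (Finset.mem_univ _) h)]
    simp only [if_true]
    rw [div_mul_div_comm, sq, sq]
  simp only [Matrix.trace, Matrix.diag_apply, h2, Finset.sum_const, Finset.card_univ, Fintype.card_fin, nsmul_eq_mul]

/-- one star: `E (|w(y)| + w̄)² ≤ (1 + 2 w̄) ℓ + 2 w̄ + 4 w̄²` -/
theorem en_w_T2_one {n d ℓ : ℕ} {γ α c₂ : ℝ} {D : EnData n d ℓ} (hD : D.Ok γ α c₂) (hr : 0 < D.r) (hn : 0 < n) (s : EnLoc D.G d) (m : Option (Fin d) × Fin ℓ → ℝ) {wb : ℝ}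
    (hm : gmN (enW D.E (Real.sqrt (D.η / D.r)) m) ≤ wb) :
    ∫ g, (gmN (enW D.E (Real.sqrt (D.η / D.r)) (m + D.obsB s.vx *ᵥ g)) + wb) ^ 2 ∂(gmStd (Fin n × Fin ℓ)) ≤ ℓ + (2 * wb * (ℓ + 1) + 4 * wb ^ 2) := by
  have hη := en_eta_pos hD hn
  have hq : 0 < D.η / D.r := by positivity
  set σ := Real.sqrt (D.η / D.r) with hσ
  have hσ2 : σ ^ 2 = D.η / D.r := Real.sq_sqrt hq.le
  have hwb : 0 ≤ wb := (gm_N_nonneg _).trans hm
  have hi : Integrable (fun g => gmSq (enResW D σ s *ᵥ g)) (gmStd (Fin n × Fin ℓ)) := by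
    simpa only [zero_add] using GmPoly.sq.int (0 : Fin ℓ → ℝ) (enResW D σ s)
  have htr : ∫ g, gmSq (enResW D σ s *ᵥ g) ∂(gmStd (Fin n × Fin ℓ)) ≤ ℓ := by
    rw [gm_mom2_sq, en_w_res_tr D hD.reg, hσ2]
    have := en_gam_res hD hr hn (s.vx none)
    have h2 : ((enA D.G - D.E • 1) * D.Γ * (enA D.G - D.E • 1)) (s.vx none) (s.vx none) / (D.η / D.r) ≤ 1 := by
      rw [div_le_one hq]
      exact this
    calc (ℓ : ℝ) * _ ≤ ℓ * 1 := mul_le_mul_of_nonneg_left h2 (Nat.cast_nonneg _)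
      _ = ℓ := mul_one _
  have hi2 : Integrable (fun g => (1 + 2 * wb) * gmSq (enResW D σ s *ᵥ g) + (2 * wb + 4 * wb ^ 2)) (gmStd (Fin n × Fin ℓ)) :=
    (hi.const_mul _).add (integrable_const _)
  calc ∫ g, (gmN (enW D.E σ (m + D.obsB s.vx *ᵥ g)) + wb) ^ 2 ∂(gmStd (Fin n × Fin ℓ))
      ≤ ∫ g, ((1 + 2 * wb) * gmSq (enResW D σ s *ᵥ g) + (2 * wb + 4 * wb ^ 2)) ∂(gmStd (Fin n × Fin ℓ)) := by
        refine integral_mono_of_nonneg (Filter.Eventually.of_forall fun g => sq_nonneg _) hi2 (Filter.Eventually.of_forall fun g => ?_)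
        simp only []
        rw [en_w_W_add, en_w_W_mul, ← gm_N_sq (enResW D σ s *ᵥ g)]
        set N := gmN (enResW D σ s *ᵥ g) with hN
        have hN0 : 0 ≤ N := gm_N_nonneg _
        have h1 : gmN (enW D.E σ m + enResW D σ s *ᵥ g) ≤ wb + N := (gm_N_add _ _).trans (by linarith)
        have h0 := gm_N_nonneg (enW D.E σ m + enResW D σ s *ᵥ g)
        have h2 : (gmN (enW D.E σ m + enResW D σ s *ᵥ g) + wb) ^ 2 ≤ (N + 2 * wb) ^ 2 := pow_le_pow_left₀ (by positivity) (by linarith) 2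
        nlinarith [mul_nonneg hwb (sq_nonneg (N - 1))]
    _ = (1 + 2 * wb) * ∫ g, gmSq (enResW D σ s *ᵥ g) ∂(gmStd (Fin n × Fin ℓ)) + (2 * wb + 4 * wb ^ 2) := by
        rw [integral_add (hi.const_mul _) (integrable_const _), integral_const_mul]
        simp only [integral_const, probReal_univ, smul_eq_mul, one_mul]
    _ ≤ (1 + 2 * wb) * ℓ + (2 * wb + 4 * wb ^ 2) := by
        have := mul_le_mul_of_nonneg_left htr (by positivity : 0 ≤ 1 + 2 * wb)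
        linarith
    _ = _ := by ring

theorem en_w_alpha {d ℓ : ℕ} {γ α c₂ : ℝ} (hP : EnPar d ℓ γ α c₂) : α ≤ 1 / 1024 := by
  have h0 := hP.α0
  have h1 := hP.αγ
  have h2 := hP.γ1
  have hl : (0 : ℝ) ≤ ℓ := Nat.cast_nonneg _
  have hd : (0 : ℝ) ≤ d := Nat.cast_nonneg _
  have hγ : 0 < γ := by linarith
  have h3 : (1 : ℝ) ≤ ((ℓ : ℝ) + 1) * ((d : ℝ) + 1) := by nlinarith [mul_nonneg hl hd]
  have h4 : 64 * γ ≤ 64 * ((ℓ : ℝ) + 1) * ((d : ℝ) + 1) * γ := by nlinarith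
  linarith

/-- **Gibbs step for the star** (`gm_gibbs` with `en_obs_ok`, `en_Mh_ok`; `gmDens` of the ideal components: `√(det (M̂ᵀM̂ ⊗ 1)) = |det M̂|^ℓ`, `Matrix.det_kronecker`) -/
theorem en_vi_gibbs {n d ℓ : ℕ} {γ α c₂ : ℝ} {D : EnData n d ℓ} (hD : D.Ok γ α c₂) (hα : 0 ≤ α) (hr : 0 < D.r) (hn : 0 < n) (hd : 3 ≤ d) (hE : |D.E| < 2 * Real.sqrt ((d : ℝ) - 1))
    {ε σ : ℝ} (hε : ε ∈ Set.Icc (0 : ℝ) 1) (hσ : 0 < σ) :
    D.HS ε ≤ ((d : ℝ) + 1) * ℓ / 2 * Real.log (2 * Real.pi) - ℓ / 2 * Real.log ((enMh d D.E σ).det ^ 2)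
      + gmE (fun s : EnLoc D.G d => D.obsB s.vx) (fun s => D.obsM ε s.vx) (D.psiS ε σ) := by
  have hne : Nonempty (EnLoc D.G d) := en_loc_nonempty hD.reg hn
  have h1 := en_obs_ok hD hr hn hα (fun s : EnLoc D.G d => s.vx) (fun s => (en_vx_inj D s).1) hε
  obtain ⟨Lh, lam', sig', mu', h2⟩ := en_Mh_ok (ℓ := ℓ) hd hE hσ (fun s : EnLoc D.G d => D.obsM ε s.vx)
  have hg := gm_gibbs h1 h2
  obtain ⟨c, hc⟩ : ∃ c : ℝ, c = ((d : ℝ) + 1) * ℓ / 2 * Real.log (2 * Real.pi) - ℓ / 2 * Real.log ((enMh d D.E σ).det ^ 2) := ⟨_, rfl⟩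
  have hdet : 0 < (enMh d D.E σ).det ^ 2 := by
    rw [en_Mh_det hd hE hσ]
    have ha := (en_Aa_pos hd hE).1
    have hd0 : (0 : ℝ) < d := by
      have : 0 < d := by omega
      exact_mod_cast this
    positivity
  have key : ∀ y, - Real.log (gmMix (fun _ : EnLoc D.G d => enKr ℓ ((enMh d D.E σ)ᵀ * enMh d D.E σ)) (fun s => D.obsM ε s.vx) y) = c + D.psiS ε σ y := by
    intro y
    unfold gmMix gmDens EnData.psiS
    rw [en_Avg_mul]
    have hp : 0 < enAvg fun s : EnLoc D.G d => Real.exp (-(gmQ (enKr ℓ ((enMh d D.E σ)ᵀ * enMh d D.E σ)) (y - D.obsM ε s.vx)) / 2) :=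
      en_Avg_pos fun _ => Real.exp_pos _
    have hdd : (enKr ℓ ((enMh d D.E σ)ᵀ * enMh d D.E σ)).det = ((enMh d D.E σ).det ^ 2) ^ ℓ := by
      rw [en_Kr_det, det_mul, det_transpose, sq]
    have hpi : (0 : ℝ) < 2 * Real.pi := by positivity
    rw [hdd, Real.log_mul (by positivity) hp.ne', Real.log_mul (by positivity) (by positivity), Real.log_sqrt (by positivity), Real.log_pow,
      Real.log_rpow hpi, hc]
    simp only [Fintype.card_prod, Fintype.card_option, Fintype.card_fin]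
    push_cast
    ring
  have hpoly : GmPoly (D.psiS ε σ) := by
    have := ((gm_log_poly h2).neg).sub (GmPoly.const c)
    refine (congrArg GmPoly ?_).mp this
    funext y
    rw [key y]; ring
  have e : (fun y => - Real.log (gmMix (fun _ : EnLoc D.G d => enKr ℓ ((enMh d D.E σ)ᵀ * enMh d D.E σ)) (fun s => D.obsM ε s.vx) y))
      = fun y => c + D.psiS ε σ y := funext key
  rw [e, gm_E_add _ _ (GmPoly.const c) hpoly, gm_E_const] at hg
  rw [← hc]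
  exact hg

theorem en_W_sub {d ℓ : ℕ} (E σ : ℝ) (y z : Option (Fin d) × Fin ℓ → ℝ) : enW E σ (y - z) = enW E σ y - enW E σ z := by
  funext j
  simp only [enW, Pi.sub_apply, mul_sub, Finset.sum_sub_distrib, sub_div]

theorem en_Sq_sub {ι : Type} [Fintype ι] (u b : ι → ℝ) : gmSq (u - b) = gmSq u - 2 * (b ⬝ᵥ u) + gmSq b := by
  simp only [gmSq, dotProduct, Pi.sub_apply, Finset.mul_sum]
  rw [← Finset.sum_sub_distrib, ← Finset.sum_add_distrib]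
  exact Finset.sum_congr rfl fun i _ => by ring

/-- pointwise bound of `ψ` (`en_Mh_sq`, `en_BV_eq`; `avg_k exp(a_k - c_k) ≥ exp(-max c) avg_k exp(a_k)`; `|w(y) - w_k| ≤ |w(y)| + w̄`) -/
theorem en_vi_psi {n d ℓ : ℕ} (D : EnData n d ℓ) [Nonempty (EnLoc D.G d)] {ε σ wb : ℝ} (hσ : 0 < σ) (hw : ∀ s : EnLoc D.G d, gmN (enW D.E σ (D.obsM ε s.vx)) ≤ wb)
    (y : Option (Fin d) × Fin ℓ → ℝ) :
    D.psiS ε σ y ≤ gmSq (enKr ℓ (enBm d D.E) *ᵥ y) / 2 - Real.log (enR (fun s : EnLoc D.G d => ε • D.BV s) (enKr ℓ (enBm d D.E) *ᵥ y)) + (gmN (enW D.E σ y) + wb) ^ 2 / 2 := by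
  obtain ⟨u, hu⟩ : ∃ u, u = enKr ℓ (enBm d D.E) *ᵥ y := ⟨_, rfl⟩
  rw [← hu]
  obtain ⟨t, ht⟩ : ∃ t, t = gmSq u / 2 + (gmN (enW D.E σ y) + wb) ^ 2 / 2 := ⟨_, rfl⟩
  have hR : 0 < enR (fun s : EnLoc D.G d => ε • D.BV s) u := en_Avg_pos fun _ => Real.exp_pos _
  have key : ∀ s : EnLoc D.G d, Real.exp (-t) * Real.exp ((ε • D.BV s) ⬝ᵥ u - gmSq (ε • D.BV s) / 2)
      ≤ Real.exp (-(gmQ (enKr ℓ ((enMh d D.E σ)ᵀ * enMh d D.E σ)) (y - D.obsM ε s.vx)) / 2) := by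
    intro s
    rw [← Real.exp_add]
    apply Real.exp_le_exp.2
    rw [en_Mh_sq, mulVec_sub, en_BV_eq, ← hu, en_Sq_sub]
    have e : ∑ j, ((∑ x, enRm d D.E x * (y - D.obsM ε s.vx) (x, j)) / σ) ^ 2 = gmSq (enW D.E σ (y - D.obsM ε s.vx)) := rfl
    rw [e, en_W_sub, ← gm_N_sq (enW D.E σ y - enW D.E σ (D.obsM ε s.vx))]
    have a1 := gm_N_sub (enW D.E σ y) (enW D.E σ (D.obsM ε s.vx))
    have a2 := hw s
    have a3 := gm_N_nonneg (enW D.E σ y - enW D.E σ (D.obsM ε s.vx))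
    have a4 : gmN (enW D.E σ y - enW D.E σ (D.obsM ε s.vx)) ^ 2 ≤ (gmN (enW D.E σ y) + wb) ^ 2 :=
      pow_le_pow_left₀ a3 (by linarith) 2
    rw [ht]
    linarith
  have h1 : Real.exp (-t) * enR (fun s : EnLoc D.G d => ε • D.BV s) u
      ≤ enAvg fun s : EnLoc D.G d => Real.exp (-(gmQ (enKr ℓ ((enMh d D.E σ)ᵀ * enMh d D.E σ)) (y - D.obsM ε s.vx)) / 2) := by
    unfold enR
    rw [← en_Avg_mul]
    exact en_Avg_mono key
  have h2 := Real.log_le_log (by positivity) h1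
  rw [Real.log_mul (Real.exp_pos _).ne' hR.ne', Real.log_exp] at h2
  unfold EnData.psiS
  rw [ht] at h2
  linarith

/-! ### the ideal edge -/

/-- Cholesky factor of `Σ₂ = [[1,p],[p,1]]` -/
def enS2B (d : ℕ) (E : ℝ) : Matrix Bool Bool ℝ := fun a b =>
  match a, b with
  | false, false => 1
  | false, true => 0
  | true, false => enP d E
  | true, true => Real.sqrt (1 - enP d E ^ 2)

/-- `Σ₂⁻¹` -/
def enS2L (d : ℕ) (E : ℝ) : Matrix Bool Bool ℝ := fun a b => (1 - enP d E ^ 2)⁻¹ * if a = b then 1 else - enP d E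

/-- means of the ideal edge mixture: `ε (⟨ω, B_s⟩, ⟨v_i, B_s⟩)` -/
def EnData.mE {n d ℓ : ℕ} (D : EnData n d ℓ) (ε : ℝ) (i : Fin d) (s : EnLoc D.G d) : Bool × Fin ℓ → ℝ := fun q => ε * enObs d D.E i (D.BV s) q.1 q.2

/-! ### kit of the star: polynomial growth -/

/-- polynomial growth is stable under linear maps -/
theorem GmPoly.comp_mulVec {ι κ : Type} [Fintype ι] [Fintype κ] {φ : (ι → ℝ) → ℝ} (h : GmPoly φ) (A : Matrix ι κ ℝ) : GmPoly fun y : κ → ℝ => φ (A *ᵥ y) := by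
  obtain ⟨hm, C, k, hb⟩ := h
  have hT := gm_trace_nonneg A
  refine ⟨hm.comp (gm_x_meas A), |C| * (1 + (A * Aᵀ).trace) ^ k, k, fun y => ?_⟩
  have h1 := gm_Sq_mulVec_le A y
  have h2 := gm_Sq_nonneg y
  have h3 := gm_Sq_nonneg (A *ᵥ y)
  have h4 : 1 + gmSq (A *ᵥ y) ≤ (1 + (A * Aᵀ).trace) * (1 + gmSq y) := by nlinarith
  calc |φ (A *ᵥ y)| ≤ C * (1 + gmSq (A *ᵥ y)) ^ k := hb _
    _ ≤ |C| * ((1 + (A * Aᵀ).trace) * (1 + gmSq y)) ^ k :=
        mul_le_mul (le_abs_self _) (pow_le_pow_left₀ (by linarith) h4 k) (by positivity) (abs_nonneg _)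
    _ = _ := by rw [mul_pow]; ring

theorem en_R_meas {ι K : Type} [Fintype ι] [Fintype K] (b : K → ι → ℝ) : Measurable (enR b) := by
  unfold enR enAvg
  refine (Finset.measurable_sum _ fun k _ => ?_).const_mul _
  refine Real.measurable_exp.comp ?_
  simp only [dotProduct]
  fun_prop

/-- `log enR` has linear growth -/
theorem en_logR_poly {ι K : Type} [Fintype ι] [Fintype K] [Nonempty K] (b : K → ι → ℝ) : GmPoly fun y => Real.log (enR b y) := by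
  obtain ⟨β, hβ⟩ : ∃ β, β = ∑ k, gmN (b k) := ⟨_, rfl⟩
  have hb : ∀ k, gmN (b k) ≤ β := fun k => by
    rw [hβ]; exact Finset.single_le_sum (f := fun k => gmN (b k)) (fun k _ => gm_N_nonneg _) (Finset.mem_univ k)
  have hp : GmPoly fun y : ι → ℝ => β * gmN y + β ^ 2 / 2 := ((GmPoly.const β).mul GmPoly.norm).add (GmPoly.const _)
  exact hp.of_le (Real.measurable_log.comp (en_R_meas b)) fun y => ((en_R_lip b hb y y).2).trans (le_abs_self _)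

/-- the matrix of the normalised residual -/
def enWm (d ℓ : ℕ) (E σ : ℝ) : Matrix (Fin ℓ) (Option (Fin d) × Fin ℓ) ℝ := fun j q => if q.2 = j then enRm d E q.1 / σ else 0

theorem en_W_eq {d ℓ : ℕ} (E σ : ℝ) (y : Option (Fin d) × Fin ℓ → ℝ) : enW E σ y = enWm d ℓ E σ *ᵥ y := by
  funext j
  simp only [enW, enWm, mulVec, dotProduct, Fintype.sum_prod_type, ite_mul, zero_mul, Finset.sum_ite_eq', Finset.mem_univ, if_true]
  rw [Finset.sum_div]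
  exact Finset.sum_congr rfl fun x _ => by ring

theorem en_psiS_poly {n d ℓ : ℕ} (D : EnData n d ℓ) [Nonempty (EnLoc D.G d)] (hd : 3 ≤ d) (hE : |D.E| < 2 * Real.sqrt ((d : ℝ) - 1)) (ε : ℝ) {σ : ℝ} (hσ : 0 < σ) :
    GmPoly (D.psiS ε σ) := by
  obtain ⟨Lh, lam', sig', mu', h2⟩ := en_Mh_ok (ℓ := ℓ) hd hE hσ (fun s : EnLoc D.G d => D.obsM ε s.vx)
  obtain ⟨c, hc⟩ : ∃ c : ℝ, c = Real.log (Real.sqrt (enKr ℓ ((enMh d D.E σ)ᵀ * enMh d D.E σ)).det * (2 * Real.pi) ^ (-(Fintype.card (Option (Fin d) × Fin ℓ) : ℝ) / 2)) := ⟨_, rfl⟩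
  have hdet := (gm_prec _ _ (h2.inv (Classical.arbitrary _))).2.1
  have := ((GmPoly.const c).sub (gm_log_poly h2))
  refine (congrArg GmPoly ?_).mp this
  funext y
  unfold gmMix gmDens EnData.psiS
  rw [en_Avg_mul]
  have hp : 0 < enAvg fun s : EnLoc D.G d => Real.exp (-(gmQ (enKr ℓ ((enMh d D.E σ)ᵀ * enMh d D.E σ)) (y - D.obsM ε s.vx)) / 2) :=
    en_Avg_pos fun _ => Real.exp_pos _
  have hpi : (0 : ℝ) < 2 * Real.pi := by positivity
  rw [Real.log_mul (by positivity) hp.ne', ← hc]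
  ring


/-! ### kit of the star: the projected noise -/

theorem en_Kr_trace {P : Type} [Fintype P] (ℓ : ℕ) (M : Matrix P P ℝ) : (enKr ℓ M).trace = ℓ * M.trace := by
  unfold enKr
  have := Matrix.trace_kronecker M (1 : Matrix (Fin ℓ) (Fin ℓ) ℝ)
  rw [trace_one, Fintype.card_fin] at this
  rw [mul_comm]
  exact this

/-- the projected noise of a star: `(𝔅̃ B_s)(𝔅̃ B_s)ᵀ = (𝔅 Γ_s 𝔅ᵀ) ⊗ 1` -/
theorem en_star_cov {n d ℓ : ℕ} {γ α c₂ : ℝ} {D : EnData n d ℓ} (hD : D.Ok γ α c₂) (hr : 0 < D.r) (hn : 0 < n) (s : EnLoc D.G d) :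
    (enKr ℓ (enBm d D.E) * D.obsB s.vx) * (enKr ℓ (enBm d D.E) * D.obsB s.vx)ᵀ = enKr ℓ (enBm d D.E * D.Γ.submatrix s.vx s.vx * (enBm d D.E)ᵀ) := by
  have h := en_obs_cov hD hr hn s.vx
  have h' : D.obsB s.vx * (D.obsB s.vx)ᵀ = enKr ℓ (D.Γ.submatrix s.vx s.vx) := h
  rw [transpose_mul, ← Matrix.mul_assoc, Matrix.mul_assoc (enKr ℓ (enBm d D.E)), h', en_Kr_transpose, ← en_Kr_mul, ← en_Kr_mul]

/-- the constant of the typical stars -/
def enCB (d : ℕ) (E : ℝ) : ℝ := (∑ k, ∑ x, |enBm d E k x|) ^ 2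

theorem en_CB_nonneg (d : ℕ) (E : ℝ) : 0 ≤ enCB d E := sq_nonneg _

/-- typical stars: `𝔅 Γ_s 𝔅ᵀ` is close to `1` -/
theorem en_star_typ {n d ℓ : ℕ} (D : EnData n d ℓ) (hd : 3 ≤ d) (hE : |D.E| < 2 * Real.sqrt ((d : ℝ) - 1)) {δ : ℝ} (s : EnLoc D.G d) (hs : D.bad δ s = 0) (k k' : Fin d) :
    |(enBm d D.E * D.Γ.submatrix s.vx s.vx * (enBm d D.E)ᵀ) k k' - (1 : Matrix (Fin d) (Fin d) ℝ) k k'| ≤ enCB d D.E * δ := by
  classical
  have hδ : ∀ x y, |D.Γ (s.vx x) (s.vx y) - enSig0 d D.E x y| ≤ δ := by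
    unfold EnData.bad at hs
    by_contra hh
    rw [if_neg hh] at hs
    exact one_ne_zero hs
  rw [← en_Bm_sig0 hd hE, ← Matrix.sub_apply, ← Matrix.sub_mul, ← Matrix.mul_sub, Matrix.mul_apply]
  simp only [Matrix.mul_apply, transpose_apply, Matrix.sub_apply, submatrix_apply]
  obtain ⟨S, hS⟩ : ∃ S, S = ∑ k, ∑ x, |enBm d D.E k x| := ⟨_, rfl⟩
  have hrow : ∀ k, ∑ x, |enBm d D.E k x| ≤ S := by
    intro k
    rw [hS]
    exact Finset.single_le_sum (f := fun k => ∑ x, |enBm d D.E k x|) (fun k _ => Finset.sum_nonneg fun _ _ => abs_nonneg _) (Finset.mem_univ k)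
  have hS0 : 0 ≤ S := by rw [hS]; exact Finset.sum_nonneg fun _ _ => Finset.sum_nonneg fun _ _ => abs_nonneg _
  have hδ0 : 0 ≤ δ := (abs_nonneg _).trans (hδ none none)
  calc |∑ y, (∑ x, enBm d D.E k x * (D.Γ (s.vx x) (s.vx y) - enSig0 d D.E x y)) * enBm d D.E k' y|
      ≤ ∑ y, |(∑ x, enBm d D.E k x * (D.Γ (s.vx x) (s.vx y) - enSig0 d D.E x y)) * enBm d D.E k' y| := Finset.abs_sum_le_sum_abs _ _
    _ ≤ ∑ y, (S * δ) * |enBm d D.E k' y| := by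
        refine Finset.sum_le_sum fun y _ => ?_
        rw [abs_mul]
        refine mul_le_mul_of_nonneg_right ?_ (abs_nonneg _)
        calc |∑ x, enBm d D.E k x * (D.Γ (s.vx x) (s.vx y) - enSig0 d D.E x y)|
            ≤ ∑ x, |enBm d D.E k x * (D.Γ (s.vx x) (s.vx y) - enSig0 d D.E x y)| := Finset.abs_sum_le_sum_abs _ _
          _ ≤ ∑ x, |enBm d D.E k x| * δ := Finset.sum_le_sum fun x _ => by
              rw [abs_mul]; exact mul_le_mul_of_nonneg_left (hδ x y) (abs_nonneg _)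
          _ = (∑ x, |enBm d D.E k x|) * δ := by rw [Finset.sum_mul]
          _ ≤ S * δ := mul_le_mul_of_nonneg_right (hrow k) hδ0
    _ = (S * δ) * ∑ y, |enBm d D.E k' y| := by rw [Finset.mul_sum]
    _ ≤ (S * δ) * S := mul_le_mul_of_nonneg_left (hrow k') (mul_nonneg hS0 hδ0)
    _ = enCB d D.E * δ := by rw [enCB, ← hS]; ring

/-- Frobenius norms are submultiplicative -/
theorem gm_trace_mul_le {ι κ μ : Type} [Fintype ι] [Fintype κ] [Fintype μ] (A : Matrix ι κ ℝ) (B : Matrix κ μ ℝ) :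
    ((A * B) * (A * B)ᵀ).trace ≤ (A * Aᵀ).trace * (B * Bᵀ).trace := by
  rw [← gm_mom2_sq (A * B), ← gm_mom2_sq B, ← integral_const_mul]
  have hp : GmPoly (gmSq : (κ → ℝ) → ℝ) := GmPoly.sq
  have hp' : GmPoly (gmSq : (ι → ℝ) → ℝ) := GmPoly.sq
  have i1 := hp.int 0 B
  have i2 := hp'.int 0 (A * B)
  simp only [zero_add] at i1 i2
  refine integral_mono i2 (i1.const_mul _) fun g => ?_
  show gmSq ((A * B) *ᵥ g) ≤ _
  rw [← mulVec_mulVec]
  exact gm_Sq_mulVec_le A (B *ᵥ g)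

/-- crude bound at all stars -/
theorem en_star_crude {n d ℓ : ℕ} {γ α c₂ : ℝ} {D : EnData n d ℓ} (hD : D.Ok γ α c₂) (hα : 0 ≤ α) (hr : 0 < D.r) (hn : 0 < n) (s : EnLoc D.G d) :
    ((enKr ℓ (enBm d D.E) * D.obsB s.vx) * (enKr ℓ (enBm d D.E) * D.obsB s.vx)ᵀ).trace
      ≤ (enKr ℓ (enBm d D.E) * (enKr ℓ (enBm d D.E))ᵀ).trace * ((((d : ℝ) + 1) * ℓ) * (D.r * D.η)⁻¹) := by
  have h1 := en_obs_ok hD hr hn hα (fun s : EnLoc D.G d => s.vx) (fun s => (en_vx_inj D s).1) (ε := 0) ⟨le_rfl, zero_le_one⟩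
  have h2 := (gm_y_trace h1.sig0 (h1.inv s) (h1.cov s)).2
  simp only [Fintype.card_prod, Fintype.card_option, Fintype.card_fin] at h2
  push_cast at h2
  exact (gm_trace_mul_le _ _).trans (mul_le_mul_of_nonneg_left h2 (gm_trace_nonneg _))


/-- crude bound of an expectation of a function of linear growth -/
theorem en_w_crude {ι κ : Type} [Fintype ι] [Fintype κ] {ψ : (ι → ℝ) → ℝ} {β c : ℝ} (hβ : 0 ≤ β) (h : ∀ y, |ψ y| ≤ β * gmN y + c)
    (m : ι → ℝ) (M : Matrix ι κ ℝ) : |∫ g, ψ (m + M *ᵥ g) ∂(gmStd κ)| ≤ β * (gmN m + (1 + (M * Mᵀ).trace) / 2) + c := by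
  have hi : Integrable (fun g => gmSq (M *ᵥ g)) (gmStd κ) := by
    simpa only [zero_add] using GmPoly.sq.int (0 : ι → ℝ) M
  have hi2 : Integrable (fun g => β / 2 * gmSq (M *ᵥ g) + (β * (gmN m + 1 / 2) + c)) (gmStd κ) := (hi.const_mul _).add (integrable_const _)
  calc |∫ g, ψ (m + M *ᵥ g) ∂(gmStd κ)| ≤ ∫ g, |ψ (m + M *ᵥ g)| ∂(gmStd κ) := abs_integral_le_integral_abs
    _ ≤ ∫ g, (β / 2 * gmSq (M *ᵥ g) + (β * (gmN m + 1 / 2) + c)) ∂(gmStd κ) := by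
        refine integral_mono_of_nonneg (Filter.Eventually.of_forall fun g => abs_nonneg _) hi2 (Filter.Eventually.of_forall fun g => ?_)
        simp only []
        have h1 := h (m + M *ᵥ g)
        have h2 := gm_N_add m (M *ᵥ g)
        have h3 : gmN (M *ᵥ g) ≤ (1 + gmSq (M *ᵥ g)) / 2 := by
          rw [← gm_N_sq]
          nlinarith [sq_nonneg (gmN (M *ᵥ g) - 1)]
        have h4 : β * gmN (m + M *ᵥ g) ≤ β * (gmN m + (1 + gmSq (M *ᵥ g)) / 2) := mul_le_mul_of_nonneg_left (by linarith) hβ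
        calc _ ≤ _ := h1
          _ ≤ β * (gmN m + (1 + gmSq (M *ᵥ g)) / 2) + c := by linarith
          _ = _ := by ring
    _ = β / 2 * (M * Mᵀ).trace + (β * (gmN m + 1 / 2) + c) := by
        rw [integral_add (hi.const_mul _) (integrable_const _), integral_const_mul, gm_mom2_sq]
        simp only [integral_const, probReal_univ, smul_eq_mul, one_mul]
    _ = _ := by ring

/-- the projected star observation -/
theorem en_w_proj {n d ℓ : ℕ} (D : EnData n d ℓ) (ε : ℝ) (s : EnLoc D.G d) (g : Fin n × Fin ℓ → ℝ) :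
    enKr ℓ (enBm d D.E) *ᵥ (D.obsM ε s.vx + D.obsB s.vx *ᵥ g) = ε • D.BV s + (enKr ℓ (enBm d D.E) * D.obsB s.vx) *ᵥ g := by
  rw [mulVec_add, en_BV_eq, mulVec_mulVec]

/-- typical star: comparison of the projected noise with the standard one -/
theorem en_w_T3_typ {n d ℓ : ℕ} {γ α c₂ : ℝ} {D : EnData n d ℓ} (hD : D.Ok γ α c₂) (hr : 0 < D.r) (hn : 0 < n) (hd : 3 ≤ d) (hE : |D.E| < 2 * Real.sqrt ((d : ℝ) - 1))
    [Nonempty (EnLoc D.G d)] {ε β δ : ℝ} (hβ : ∀ s : EnLoc D.G d, gmN (ε • D.BV s) ≤ β) (s : EnLoc D.G d) (hs : D.bad δ s = 0) (hδ1 : enCB d D.E * δ ≤ 1) :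
    |∫ g, - Real.log (enR (fun s : EnLoc D.G d => ε • D.BV s) (ε • D.BV s + (enKr ℓ (enBm d D.E) * D.obsB s.vx) *ᵥ g)) ∂(gmStd (Fin n × Fin ℓ))
        - ∫ g, - Real.log (enR (fun s : EnLoc D.G d => ε • D.BV s) (ε • D.BV s + g)) ∂(gmStd (Fin d × Fin ℓ))|
      ≤ β * (3 * ((d : ℝ) * ℓ) * Real.sqrt (enCB d D.E * δ)) * (1 + 2 * β + 4 * Real.sqrt (2 * ((d : ℝ) * ℓ) + 3 * ((d : ℝ) * ℓ) ^ 2)) * 4 := by
  have hβ0 : 0 ≤ β := (gm_N_nonneg _).trans (hβ s)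
  set b : EnLoc D.G d → Fin d × Fin ℓ → ℝ := fun s => ε • D.BV s with hb
  set ψ : (Fin d × Fin ℓ → ℝ) → ℝ := fun y => - Real.log (enR b y) with hψ
  have hψm : Measurable ψ := (en_x_R_meas b).log.neg
  have hmod : ∀ y y', |ψ y - ψ y'| ≤ β * gmN (y - y') * (1 + gmN y + gmN y') := by
    intro y y'
    have h1 := (en_R_lip b hβ y y').1
    have e : ψ y - ψ y' = -(Real.log (enR b y) - Real.log (enR b y')) := by simp only [hψ]; ring
    rw [e, abs_neg]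
    refine h1.trans (le_mul_of_one_le_right (mul_nonneg hβ0 (gm_N_nonneg _)) ?_)
    linarith [gm_N_nonneg y, gm_N_nonneg y']
  set M := enKr ℓ (enBm d D.E) * D.obsB s.vx with hM
  set X := enBm d D.E * D.Γ.submatrix s.vx s.vx * (enBm d D.E)ᵀ with hX
  have hcov : M * Mᵀ = enKr ℓ X := en_star_cov hD hr hn s
  have htyp := en_star_typ D hd hE s hs
  rw [← hX] at htyp
  have hδ : ∀ p q, |(M * Mᵀ) p q - ((1 : Matrix (Fin d × Fin ℓ) (Fin d × Fin ℓ) ℝ) * (1 : Matrix (Fin d × Fin ℓ) (Fin d × Fin ℓ) ℝ)ᵀ) p q| ≤ enCB d D.E * δ := by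
    rintro ⟨k, j⟩ ⟨k', j'⟩
    rw [hcov, transpose_one, Matrix.mul_one, ← en_Kr_one (P := Fin d) ℓ]
    simp only [enKr, kroneckerMap_apply]
    rw [← sub_mul, abs_mul]
    have h0 := (abs_nonneg _).trans (htyp k k')
    calc _ ≤ enCB d D.E * δ * |(1 : Matrix (Fin ℓ) (Fin ℓ) ℝ) j j'| := mul_le_mul_of_nonneg_right (htyp k k') (abs_nonneg _)
      _ ≤ enCB d D.E * δ * 1 := by
          refine mul_le_mul_of_nonneg_left ?_ h0
          rw [Matrix.one_apply]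
          split_ifs <;> simp
      _ = _ := mul_one _
  have hDr : (0 : ℝ) ≤ (d : ℝ) * ℓ := by positivity
  have hs1 : (M * Mᵀ).trace ≤ 2 * ((d : ℝ) * ℓ) := by
    rw [hcov, en_Kr_trace, Matrix.trace]
    have h1 : ∀ k : Fin d, X.diag k ≤ 2 := by
      intro k
      have := (abs_le.1 (htyp k k)).2
      rw [one_apply_eq] at this
      rw [diag_apply]
      linarith
    have h3 := Finset.sum_le_sum fun k (_ : k ∈ Finset.univ) => h1 k
    rw [Finset.sum_const, Finset.card_univ, Fintype.card_fin, nsmul_eq_mul] at h3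
    have := mul_le_mul_of_nonneg_left h3 (Nat.cast_nonneg ℓ : (0 : ℝ) ≤ ℓ)
    linarith
  have hs2 : ((1 : Matrix (Fin d × Fin ℓ) (Fin d × Fin ℓ) ℝ) * (1 : Matrix (Fin d × Fin ℓ) (Fin d × Fin ℓ) ℝ)ᵀ).trace ≤ 2 * ((d : ℝ) * ℓ) := by
    rw [transpose_one, Matrix.mul_one, trace_one, Fintype.card_prod, Fintype.card_fin, Fintype.card_fin]
    push_cast
    linarith
  have := gm_cmp M (1 : Matrix (Fin d × Fin ℓ) (Fin d × Fin ℓ) ℝ) (b s) (b s) hψm hβ0 zero_le_one hmod hδ hδ1 hs1 hs2 (hβ s) (hβ s)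
  simp only [one_mulVec, sub_self, gm_N_zero, zero_add, Fintype.card_prod, Fintype.card_fin] at this
  push_cast at this
  exact this

theorem en_w_ar1 {c1 X Dr q S : ℝ} (hX1 : 1 ≤ X) (hc1 : 0 ≤ c1) (hDr : 0 ≤ Dr) (hq : 0 ≤ q) (hS : 0 ≤ S) :
    c1 * X * (3 * Dr * (q * (X ^ 4)⁻¹)) * (1 + 2 * (c1 * X) + 4 * S) * 4 ≤ c1 * (3 * Dr * q) * (1 + 2 * c1 + 4 * S) * 4 * (X ^ 2)⁻¹ := by
  have hX0 : 0 < X := by linarith
  have h2 : 1 + 2 * (c1 * X) + 4 * S ≤ (1 + 2 * c1 + 4 * S) * X := by nlinarith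
  have h3 : 0 ≤ c1 * X * (3 * Dr * (q * (X ^ 4)⁻¹)) := by positivity
  calc c1 * X * (3 * Dr * (q * (X ^ 4)⁻¹)) * (1 + 2 * (c1 * X) + 4 * S) * 4
      ≤ c1 * X * (3 * Dr * (q * (X ^ 4)⁻¹)) * ((1 + 2 * c1 + 4 * S) * X) * 4 := by
        have := mul_le_mul_of_nonneg_left h2 h3
        linarith
    _ = _ := by
        field_simp

theorem en_w_ar2 {c1 X Dr T0 : ℝ} (hX1 : 1 ≤ X) (hc1 : 0 ≤ c1) (hDr : 0 ≤ Dr) :
    c1 * X * (c1 * X + (1 + T0 * X ^ 16) / 2) + (c1 * X) ^ 2 / 2 + (c1 * X * (c1 * X + (1 + Dr) / 2) + (c1 * X) ^ 2 / 2)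
      ≤ (3 * c1 ^ 2 + c1 * (2 + T0 + Dr) / 2) * X ^ 17 := by
  have hX0 : 0 < X := by linarith
  have hX2 : X ^ 2 ≤ X ^ 17 := pow_le_pow_right₀ hX1 (by norm_num)
  obtain ⟨Y, hY⟩ : ∃ Y : ℝ, Y = X ^ 16 := ⟨_, rfl⟩
  have hY1 : 1 ≤ Y := by rw [hY]; exact one_le_pow₀ hX1
  have e1 : c1 * X * (c1 * X + (1 + T0 * X ^ 16) / 2) + (c1 * X) ^ 2 / 2 + (c1 * X * (c1 * X + (1 + Dr) / 2) + (c1 * X) ^ 2 / 2)
      = 3 * c1 ^ 2 * X ^ 2 + c1 * X * (2 + T0 * Y + Dr) / 2 := by rw [hY]; ring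
  have e2 : (3 * c1 ^ 2 + c1 * (2 + T0 + Dr) / 2) * X ^ 17 = 3 * c1 ^ 2 * X ^ 17 + c1 * X * ((2 + T0 + Dr) * Y) / 2 := by rw [hY]; ring
  rw [e1, e2]
  have h9 : 2 + T0 * Y + Dr ≤ (2 + T0 + Dr) * Y := by
    have : 0 ≤ (2 + Dr) * (Y - 1) := mul_nonneg (by linarith) (by linarith)
    linarith
  have h10 : c1 * X * (2 + T0 * Y + Dr) ≤ c1 * X * ((2 + T0 + Dr) * Y) := mul_le_mul_of_nonneg_left h9 (by positivity)
  have h11 : 3 * c1 ^ 2 * X ^ 2 ≤ 3 * c1 ^ 2 * X ^ 17 := mul_le_mul_of_nonneg_left hX2 (by positivity)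
  linarith

theorem en_w_ar3 {X : ℝ} (hX1 : 1 ≤ X) : (X ^ 256)⁻¹ * X ^ 17 ≤ (X ^ 2)⁻¹ := by
  have hX0 : 0 < X := by linarith
  rw [inv_mul_le_iff₀ (by positivity), ← div_eq_mul_inv, le_div_iff₀ (by positivity), ← pow_add]
  exact pow_le_pow_right₀ hX1 (by norm_num)

theorem en_bad_01 {n d ℓ : ℕ} (D : EnData n d ℓ) (δ : ℝ) (s : EnLoc D.G d) : D.bad δ s = 0 ∨ D.bad δ s = 1 := by
  classical
  unfold EnData.bad
  split_ifs
  · exact Or.inl rfl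
  · exact Or.inr rfl

/-! ### helpers for the edge (277) -/

/-- the bounds of `en_obs_ok` in powers of `n` -/
theorem en_e_lam_le {n d ℓ : ℕ} {γ α c₂ : ℝ} {D : EnData n d ℓ} (hD : D.Ok γ α c₂) (hα : 0 ≤ α) (hr : 0 < D.r) (hn : 1 ≤ n) :
    D.r * (((d : ℝ) + |D.E|) ^ 2 + D.η ^ 2) / D.η ≤ D.r * (((d : ℝ) + |D.E|) ^ 2 + 1) * (n : ℝ) ^ α ∧ (D.r * D.η)⁻¹ = (D.r)⁻¹ * (n : ℝ) ^ α ∧ 0 < D.η ∧ D.η ≤ 1 := by
  have hn0 : (0 : ℝ) < n := by exact_mod_cast hn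
  have hn1 : (1 : ℝ) ≤ n := by exact_mod_cast hn
  have hη : D.η = ((n : ℝ) ^ α)⁻¹ := by rw [hD.η_eq, Real.rpow_neg hn0.le]
  have hp : 1 ≤ (n : ℝ) ^ α := Real.one_le_rpow hn1 hα
  have hη0 : 0 < D.η := by rw [hη]; positivity
  have hη1 : D.η ≤ 1 := by rw [hη]; exact inv_le_one_of_one_le₀ hp
  refine ⟨?_, ?_, hη0, hη1⟩
  · have e : D.r * (((d : ℝ) + |D.E|) ^ 2 + D.η ^ 2) / D.η = D.r * (((d : ℝ) + |D.E|) ^ 2 + D.η ^ 2) * (n : ℝ) ^ α := by
      rw [div_eq_mul_inv]; congr 1; rw [hη, inv_inv]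
    rw [e]
    refine mul_le_mul_of_nonneg_right (mul_le_mul_of_nonneg_left ?_ hr.le) (by positivity)
    have : D.η ^ 2 ≤ 1 := pow_le_one₀ hη0.le hη1
    linarith
  · rw [mul_inv, hη, inv_inv]

/-- `B₂ B₂ᵀ = Σ₂` -/
theorem en_e_S2B_gram {d : ℕ} {E : ℝ} (hp : 0 < 1 - enP d E ^ 2) (a b : Bool) : (enS2B d E * (enS2B d E)ᵀ) a b = if a = b then 1 else enP d E := by
  have hs : Real.sqrt (1 - enP d E ^ 2) * Real.sqrt (1 - enP d E ^ 2) = 1 - enP d E ^ 2 := Real.mul_self_sqrt hp.le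
  cases a <;> cases b <;> simp [Matrix.mul_apply, enS2B, hs] <;> ring

theorem en_e_S2_inv {d : ℕ} {E : ℝ} (hp : 0 < 1 - enP d E ^ 2) : enS2B d E * (enS2B d E)ᵀ * enS2L d E = 1 := by
  ext a b
  rw [Matrix.mul_apply]
  simp only [en_e_S2B_gram hp, Fintype.sum_bool, enS2L]
  cases a <;> cases b <;> simp <;> field_simp <;> ring

/-- quadratic form of `M ⊗ 1` for `2 × 2` matrices -/
theorem en_e_Q2 {ℓ : ℕ} (M : Matrix Bool Bool ℝ) (x : Bool × Fin ℓ → ℝ) :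
    gmQ (enKr ℓ M) x = ∑ j, (M false false * x (false, j) ^ 2 + (M false true + M true false) * (x (false, j) * x (true, j)) + M true true * x (true, j) ^ 2) := by
  unfold gmQ dotProduct
  rw [Fintype.sum_prod_type, Fintype.sum_bool, ← Finset.sum_add_distrib]
  refine Finset.sum_congr rfl fun j _ => ?_
  rw [en_Kr_mulVec, en_Kr_mulVec, Fintype.sum_bool, Fintype.sum_bool]
  ring

theorem en_e_Sq2 {ℓ : ℕ} (x : Bool × Fin ℓ → ℝ) : gmSq x = ∑ j, (x (false, j) ^ 2 + x (true, j) ^ 2) := by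
  unfold gmSq
  rw [Fintype.sum_prod_type, Fintype.sum_bool, ← Finset.sum_add_distrib]
  exact Finset.sum_congr rfl fun j _ => add_comm _ _

theorem en_e_mE {n d ℓ : ℕ} {γ α c₂ : ℝ} {D : EnData n d ℓ} (hD : D.Ok γ α c₂) (hd : 3 ≤ d) (hE : |D.E| < 2 * Real.sqrt ((d : ℝ) - 1)) (ε : ℝ) (i : Fin d) (s : EnLoc D.G d) (q : Bool × Fin ℓ) :
    D.mE ε i s q = D.obsM ε (s.ed i) q - (if q.1 then ε * ((D.lam q.2 - D.E) / d * D.V (s.vx none) q.2) else 0) := by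
  obtain ⟨t, c⟩ := q
  cases t
  · simp only [EnData.mE, en_obs_om hD (by omega : 0 < d), EnData.obsM, Bool.false_eq_true, if_false, sub_zero]
    rfl
  · simp only [EnData.mE, en_obs_vi hD hd hE, EnData.obsM, if_true]
    rw [mul_sub]
    rfl

/-- the ideal means are close to the true ones -/
theorem en_e_mE_sub {n d ℓ : ℕ} {γ α c₂ : ℝ} {D : EnData n d ℓ} (hD : D.Ok γ α c₂) (hd : 3 ≤ d) (hE : |D.E| < 2 * Real.sqrt ((d : ℝ) - 1)) {ε : ℝ} (hε : ε ∈ Set.Icc (0 : ℝ) 1) (i : Fin d) (s : EnLoc D.G d) :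
    gmN (D.mE ε i s - D.obsM ε (s.ed i)) ≤ Real.sqrt (2 * ℓ) * ((n : ℝ) ^ (-(1 / 2 : ℝ)) * (n : ℝ) ^ (α / 16)) := by
  have h := gm_N_le_sup (D.mE ε i s - D.obsM ε (s.ed i)) (s := (n : ℝ) ^ (-(1 / 2 : ℝ)) * (n : ℝ) ^ (α / 16)) (fun q => ?_)
  · simpa using h
  · rw [Pi.sub_apply, en_e_mE hD hd hE]
    have hd' : (1 : ℝ) ≤ d := by exact_mod_cast (by omega : 1 ≤ d)
    have h0 : 0 ≤ (n : ℝ) ^ (-(1 / 2 : ℝ)) * (n : ℝ) ^ (α / 16) := by positivity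
    split_ifs
    · have e : D.obsM ε (s.ed i) q - ε * ((D.lam q.2 - D.E) / d * D.V (s.vx none) q.2) - D.obsM ε (s.ed i) q = -(ε * ((D.lam q.2 - D.E) / d * D.V (s.vx none) q.2)) := by ring
      rw [e, abs_neg, abs_mul, abs_mul, abs_div, abs_of_nonneg hε.1, abs_of_nonneg (by linarith : (0 : ℝ) ≤ d)]
      have a1 := hD.band q.2
      have a2 := hD.sup (s.vx none) q.2
      have a3 : |D.lam q.2 - D.E| / d ≤ (n : ℝ) ^ (-(1 / 2 : ℝ)) := (div_le_self (abs_nonneg _) hd').trans a1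
      have a4 : |D.lam q.2 - D.E| / d * |D.V (s.vx none) q.2| ≤ (n : ℝ) ^ (-(1 / 2 : ℝ)) * (n : ℝ) ^ (α / 16) :=
        mul_le_mul a3 a2 (abs_nonneg _) (by positivity)
      calc ε * (|D.lam q.2 - D.E| / d * |D.V (s.vx none) q.2|) ≤ 1 * (|D.lam q.2 - D.E| / d * |D.V (s.vx none) q.2|) :=
            mul_le_mul_of_nonneg_right hε.2 (by positivity)
        _ ≤ _ := by rw [one_mul]; exact a4
    · simpa using h0

/-- size of the true means -/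
theorem en_e_obsM_le {n d ℓ : ℕ} {γ α c₂ : ℝ} {D : EnData n d ℓ} (hD : D.Ok γ α c₂) {ε : ℝ} (hε : ε ∈ Set.Icc (0 : ℝ) 1) {P : Type} [Fintype P] (x : P → Fin n) :
    gmN (D.obsM ε x) ≤ Real.sqrt (Fintype.card P * ℓ) * (n : ℝ) ^ (α / 16) := by
  have h := gm_N_le_sup (D.obsM ε x) (s := (n : ℝ) ^ (α / 16)) (fun q => ?_)
  · simpa using h
  · unfold EnData.obsM
    rw [abs_mul, abs_of_nonneg hε.1]
    calc ε * |D.V (x q.1) q.2| ≤ 1 * |D.V (x q.1) q.2| := mul_le_mul_of_nonneg_right hε.2 (abs_nonneg _)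
      _ ≤ _ := by rw [one_mul]; exact hD.sup _ _

/-- size of the ideal means -/
theorem en_e_mE_le {n d ℓ : ℕ} {γ α c₂ : ℝ} {D : EnData n d ℓ} (hD : D.Ok γ α c₂) (hn : 1 ≤ n) (hd : 3 ≤ d) (hE : |D.E| < 2 * Real.sqrt ((d : ℝ) - 1)) {ε : ℝ} (hε : ε ∈ Set.Icc (0 : ℝ) 1) (i : Fin d) (s : EnLoc D.G d) :
    gmN (D.mE ε i s) ≤ 2 * Real.sqrt (2 * ℓ) * (n : ℝ) ^ (α / 16) := by
  have h1 := en_e_mE_sub hD hd hE hε i s
  have h2 := en_e_obsM_le hD hε (s.ed i)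
  have h3 := gm_N_add (D.mE ε i s - D.obsM ε (s.ed i)) (D.obsM ε (s.ed i))
  rw [sub_add_cancel] at h3
  have hn1 : (1 : ℝ) ≤ n := by exact_mod_cast hn
  have h4 : (n : ℝ) ^ (-(1 / 2 : ℝ)) ≤ 1 := Real.rpow_le_one_of_one_le_of_nonpos hn1 (by norm_num)
  have h5 : (n : ℝ) ^ (-(1 / 2 : ℝ)) * (n : ℝ) ^ (α / 16) ≤ (n : ℝ) ^ (α / 16) := by
    have := mul_le_mul_of_nonneg_right h4 (by positivity : (0 : ℝ) ≤ (n : ℝ) ^ (α / 16))
    rwa [one_mul] at this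
  have h6 := mul_le_mul_of_nonneg_left h5 (Real.sqrt_nonneg (2 * (ℓ : ℝ)))
  have e : ((Fintype.card Bool : ℕ) : ℝ) = 2 := by simp
  rw [e] at h2
  linarith


theorem en_e_Kr_trace {P : Type} [Fintype P] (ℓ : ℕ) (M : Matrix P P ℝ) : (enKr ℓ M).trace = M.trace * ℓ := by
  unfold enKr
  have := Matrix.trace_kronecker M (1 : Matrix (Fin ℓ) (Fin ℓ) ℝ)
  rw [Matrix.trace_one, Fintype.card_fin] at this
  exact this

theorem en_e_S2B_trace {d : ℕ} {E : ℝ} (hp : 0 < 1 - enP d E ^ 2) (ℓ : ℕ) : (enKr ℓ (enS2B d E) * (enKr ℓ (enS2B d E))ᵀ).trace = 2 * ℓ := by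
  rw [en_Kr_transpose, ← en_Kr_mul, en_e_Kr_trace]
  congr 1
  simp [Matrix.trace, Matrix.diag, en_e_S2B_gram hp]

/-- entries of the edge covariance at a typical location -/
theorem en_e_typ_ent {n d ℓ : ℕ} (D : EnData n d ℓ) {δ : ℝ} (s : EnLoc D.G d) (hs : D.bad δ s = 0) (i : Fin d) (a b : Bool) :
    |D.Γ.submatrix (s.ed i) (s.ed i) a b - (if a = b then 1 else enP d D.E)| ≤ δ := by
  unfold EnData.bad at hs
  split_ifs at hs with h
  · cases a <;> cases b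
    · simpa [enSig0, EnLoc.vx, EnLoc.ed] using h none none
    · simpa [enSig0, EnLoc.vx, EnLoc.ed] using h none (some i)
    · simpa [enSig0, EnLoc.vx, EnLoc.ed] using h (some i) none
    · simpa [enSig0, EnLoc.vx, EnLoc.ed] using h (some i) (some i)
  · exact absurd hs one_ne_zero

/-- `2 × 2` quadratic form -/
theorem en_e_Q2b (M : Matrix Bool Bool ℝ) (y : Bool → ℝ) :
    gmQ M y = M false false * y false ^ 2 + (M false true + M true false) * (y false * y true) + M true true * y true ^ 2 := by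
  unfold gmQ dotProduct mulVec dotProduct
  simp only [Fintype.sum_bool]
  ring

/-- lower bound of a `2 × 2` form `δ`-close to `[[1, p], [p, 1]]` -/
theorem en_e_typ_lo {M : Matrix Bool Bool ℝ} {p δ : ℝ} (h : ∀ a b, |M a b - (if a = b then 1 else p)| ≤ δ) (hδ : δ ≤ (1 - |p|) / 4) (y : Bool → ℝ) :
    (1 - |p|) / 2 * gmSq y ≤ gmQ M y := by
  rw [en_e_Q2b]
  have e : gmSq y = y false ^ 2 + y true ^ 2 := by
    unfold gmSq; rw [Fintype.sum_bool]; ring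
  rw [e]
  have h1 := abs_le.1 (h false false)
  have h2 := abs_le.1 (h false true)
  have h3 := abs_le.1 (h true false)
  have h4 := abs_le.1 (h true true)
  simp only [if_true, Bool.false_eq_true, Bool.true_eq_false, if_false] at h1 h2 h3 h4
  set u := y false
  set v := y true
  have hδ0 : 0 ≤ δ := (abs_nonneg _).trans (h false false)
  have huv : 2 * |u * v| ≤ u ^ 2 + v ^ 2 := by
    rw [abs_mul]; nlinarith [sq_nonneg (|u| - |v|), sq_abs u, sq_abs v]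
  have hc : |M false true + M true false| ≤ 2 * (|p| + δ) := by
    rw [abs_le]
    have := neg_abs_le p
    have := le_abs_self p
    constructor <;> linarith [h2.1, h2.2, h3.1, h3.2]
  have hcr : -(2 * (|p| + δ) * |u * v|) ≤ (M false true + M true false) * (u * v) := by
    have := neg_abs_le ((M false true + M true false) * (u * v))
    rw [abs_mul] at this
    have h5 := mul_le_mul_of_nonneg_right hc (abs_nonneg (u * v))
    linarith
  have h6 : (|p| + δ) * (2 * |u * v|) ≤ (|p| + δ) * (u ^ 2 + v ^ 2) := mul_le_mul_of_nonneg_left huv (by positivity)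
  have h7 : (1 - δ) * u ^ 2 ≤ M false false * u ^ 2 := mul_le_mul_of_nonneg_right (by linarith [h1.1]) (sq_nonneg u)
  have h8 : (1 - δ) * v ^ 2 ≤ M true true * v ^ 2 := mul_le_mul_of_nonneg_right (by linarith [h4.1]) (sq_nonneg v)
  have h9 : 2 * δ * (u ^ 2 + v ^ 2) ≤ (1 - |p|) / 2 * (u ^ 2 + v ^ 2) := mul_le_mul_of_nonneg_right (by linarith) (by positivity)
  nlinarith

/-- **the precision at a typical location is `O(1)`** -/
theorem en_e_typ_prec {n d ℓ : ℕ} {γ α c₂ : ℝ} {D : EnData n d ℓ} (hD : D.Ok γ α c₂) (hr : 0 < D.r) (hn : 0 < n) {δ : ℝ} (hp : |enP d D.E| < 1)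
    (hδ : δ ≤ (1 - |enP d D.E|) / 4) (s : EnLoc D.G d) (hs : D.bad δ s = 0) (i : Fin d) (x : Bool × Fin ℓ → ℝ) :
    gmQ (D.obsΛ (s.ed i)) x ≤ 2 / (1 - |enP d D.E|) * gmSq x := by
  have hinj := (en_vx_inj D s).2 i
  have hT : D.Γ.submatrix (s.ed i) (s.ed i) = (((D.L.submatrix (s.ed i) id)ᵀ)ᵀ) * (D.L.submatrix (s.ed i) id)ᵀ := by
    rw [transpose_transpose]; exact en_sub_gram D.L (s.ed i)
  have hpos : 0 < (1 - |enP d D.E|) / 2 := by linarith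
  unfold EnData.obsΛ
  rw [en_kron_Q, en_kron_Sq, Finset.mul_sum]
  refine Finset.sum_le_sum fun c _ => ?_
  have := (en_inv_bd hT (en_sub_inv hD hr hn hinj) hpos (en_e_typ_lo (en_e_typ_ent D s hs i) hδ) (fun y => (en_sub_bd hD hr hn hinj y).2) (fun p => x (p, c))).2
  rwa [inv_div] at this

/-- the two covariances are `δ`-close at a typical location -/
theorem en_e_typ_cov {n d ℓ : ℕ} {γ α c₂ : ℝ} {D : EnData n d ℓ} (hD : D.Ok γ α c₂) (hr : 0 < D.r) (hn : 0 < n) {δ : ℝ} (hp : 0 < 1 - enP d D.E ^ 2)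
    (s : EnLoc D.G d) (hs : D.bad δ s = 0) (i : Fin d) (q q' : Bool × Fin ℓ) :
    |(enKr ℓ (enS2B d D.E) * (enKr ℓ (enS2B d D.E))ᵀ) q q' - (D.obsB (s.ed i) * (D.obsB (s.ed i))ᵀ) q q'| ≤ δ := by
  rw [en_obs_cov hD hr hn, en_Kr_transpose, ← en_Kr_mul]
  unfold enKr
  simp only [kroneckerMap_apply, en_e_S2B_gram hp]
  have h := en_e_typ_ent D s hs i q.1 q'.1
  have hδ0 : 0 ≤ δ := (abs_nonneg _).trans h
  rw [← sub_mul, abs_mul, abs_sub_comm]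
  by_cases hc : q.2 = q'.2
  · simpa [Matrix.one_apply, hc] using h
  · simpa [Matrix.one_apply, hc] using hδ0

/-- trace of the edge covariance at a typical location -/
theorem en_e_typ_trace {n d ℓ : ℕ} {γ α c₂ : ℝ} {D : EnData n d ℓ} (hD : D.Ok γ α c₂) (hr : 0 < D.r) (hn : 0 < n) {δ : ℝ}
    (s : EnLoc D.G d) (hs : D.bad δ s = 0) (i : Fin d) :
    (D.obsB (s.ed i) * (D.obsB (s.ed i))ᵀ).trace ≤ 2 * ℓ * (1 + δ) := by
  rw [en_obs_cov hD hr hn]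
  have e := en_e_Kr_trace ℓ (D.Γ.submatrix (s.ed i) (s.ed i))
  unfold enKr at e
  rw [e]
  have h1 := (abs_le.1 (en_e_typ_ent D s hs i false false)).2
  have h2 := (abs_le.1 (en_e_typ_ent D s hs i true true)).2
  simp only [if_true] at h1 h2
  have : (D.Γ.submatrix (s.ed i) (s.ed i)).trace ≤ 2 * (1 + δ) := by
    unfold Matrix.trace
    rw [Fintype.sum_bool]
    simp only [Matrix.diag_apply]
    linarith
  calc _ ≤ 2 * (1 + δ) * (ℓ : ℝ) := mul_le_mul_of_nonneg_right this (by positivity)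
    _ = _ := by ring

/-- a mixture of standard Gaussians is a mixture -/
theorem en_e_std_ok {ι K : Type} [Fintype ι] [DecidableEq ι] [Fintype K] (b : K → ι → ℝ) :
    GmOk (fun _ : K => (1 : Matrix ι ι ℝ)) (fun _ => (1 : Matrix ι ι ℝ)) b 1 1 (∑ k, gmN (b k)) := by
  refine ⟨one_pos, one_pos, fun _ => by simp, fun _ x => by rw [en_Q_one, one_mul], fun _ x => by rw [en_Q_one, one_mul], fun k => ?_⟩
  exact Finset.single_le_sum (f := fun k => gmN (b k)) (fun k _ => gm_N_nonneg _) (Finset.mem_univ k)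

/-- **whitening**: common noise `B` (square, `C B = 1`), precision `Cᵀ C` -/
theorem en_e_whiten {ι K : Type} [Fintype ι] [DecidableEq ι] [Fintype K] [Nonempty K] (B C : Matrix ι ι ℝ) (hCB : C * B = 1) (m : K → ι → ℝ) :
    gmH (fun _ : K => B) (fun _ => Cᵀ * C) m = - Real.log ((Cᵀ * C).det) / 2 + gmH (fun _ : K => (1 : Matrix ι ι ℝ)) (fun _ => 1) (fun k => C *ᵥ m k) := by
  have hprob : IsProbabilityMeasure (gmStd ι) := by unfold gmStd; infer_instance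
  have hok := en_e_std_ok (fun k => C *ᵥ m k)
  have hpos := (gm_mix_pos hok).1
  have hdet : 0 < (Cᵀ * C).det := by
    rw [det_mul, det_transpose]
    have h1 : C.det * B.det = 1 := by rw [← det_mul, hCB, det_one]
    have h2 : C.det ≠ 0 := fun h => by rw [h, zero_mul] at h1; exact zero_ne_one h1
    exact mul_self_pos.2 h2
  have hpt : ∀ (k : K) (g : ι → ℝ), gmMix (fun _ : K => Cᵀ * C) m (m k + B *ᵥ g)
      = Real.sqrt ((Cᵀ * C).det) * gmMix (fun _ : K => (1 : Matrix ι ι ℝ)) (fun k => C *ᵥ m k) (C *ᵥ m k + (1 : Matrix ι ι ℝ) *ᵥ g) := by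
    intro k g
    unfold gmMix
    rw [← en_Avg_mul]
    congr 1
    funext l
    unfold gmDens
    rw [gm_x_Q_sq, en_Q_one, det_one, Real.sqrt_one, one_mul, one_mulVec]
    have e : C *ᵥ (m k + B *ᵥ g - m l) = C *ᵥ m k + g - C *ᵥ m l := by
      rw [mulVec_sub, mulVec_add, mulVec_mulVec, hCB, one_mulVec]
    rw [e]
    ring
  unfold gmH gmE
  rw [← en_Avg_const (K := K) (- Real.log ((Cᵀ * C).det) / 2), ← en_Avg_add]
  congr 1
  funext k
  have hint : Integrable (fun g => - Real.log (gmMix (fun _ : K => (1 : Matrix ι ι ℝ)) (fun k => C *ᵥ m k) (C *ᵥ m k + (1 : Matrix ι ι ℝ) *ᵥ g))) (gmStd ι) :=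
    (gm_log_poly hok).neg.int _ _
  have e : ∀ g, - Real.log (gmMix (fun _ : K => Cᵀ * C) m (m k + B *ᵥ g))
      = - Real.log ((Cᵀ * C).det) / 2 + - Real.log (gmMix (fun _ : K => (1 : Matrix ι ι ℝ)) (fun k => C *ᵥ m k) (C *ᵥ m k + (1 : Matrix ι ι ℝ) *ᵥ g)) := by
    intro g
    rw [hpt, Real.log_mul (Real.sqrt_pos.2 hdet).ne' (hpos _).ne', Real.log_sqrt hdet.le]
    ring
  simp only [e]
  rw [integral_add (integrable_const _) hint, integral_const, probReal_univ, one_smul]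


theorem en_e_det_bool (M : Matrix Bool Bool ℝ) : M.det = M false false * M true true - M false true * M true false := by
  rw [← Matrix.det_submatrix_equiv_self finTwoEquiv, Matrix.det_fin_two]
  simp [finTwoEquiv]

/-- coordinates in the orthonormal basis `(ω, a_i)` of the plane `U_i` -/
theorem en_e_pi_gram {d ℓ : ℕ} (hd : 1 < d) (i : Fin d) (y y' : Fin d × Fin ℓ → ℝ) :
    enPi i y ⬝ᵥ enPi i y' = ∑ c, ((∑ k, etOm d k * y (k, c)) * (∑ k, etOm d k * y' (k, c)) + (∑ k, etAv d i k * y (k, c)) * (∑ k, etAv d i k * y' (k, c))) := by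
  have hd0 : 0 < d := by omega
  have e : ∀ (y : Fin d × Fin ℓ → ℝ) (q : Fin d) (c : Fin ℓ), enPi i y (q, c) = etOm d q * (∑ k, etOm d k * y (k, c)) + etAv d i q * (∑ k, etAv d i k * y (k, c)) := by
    intro y q c
    unfold enPi
    simp only [etP_expand, etW, Matrix.add_apply, Matrix.vecMulVec_apply, add_mul, mul_assoc, Finset.sum_add_distrib, ← Finset.mul_sum]
  have o1 : ∑ q, etOm d q * etOm d q = 1 := et_om_om hd0
  have o2 : ∑ q, etOm d q * etAv d i q = 0 := et_om_av hd0 i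
  have o3 : ∑ q, etAv d i q * etAv d i q = 1 := by
    have := et_av_av hd i i
    simpa [dotProduct] using this
  unfold dotProduct
  rw [Fintype.sum_prod_type, Finset.sum_comm]
  refine Finset.sum_congr rfl fun c _ => ?_
  simp only [e]
  set A := ∑ k, etOm d k * y (k, c)
  set A' := ∑ k, etOm d k * y' (k, c)
  set W := ∑ k, etAv d i k * y (k, c)
  set W' := ∑ k, etAv d i k * y' (k, c)
  have e2 : ∀ q : Fin d, (etOm d q * A + etAv d i q * W) * (etOm d q * A' + etAv d i q * W')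
      = A * A' * (etOm d q * etOm d q) + (A * W' + W * A') * (etOm d q * etAv d i q) + W * W' * (etAv d i q * etAv d i q) := by
    intro q; ring
  simp only [e2]
  rw [Finset.sum_add_distrib, Finset.sum_add_distrib, ← Finset.mul_sum, ← Finset.mul_sum, ← Finset.mul_sum, o1, o2, o3]
  ring

/-- arithmetic of `en_viii_typ` -/
theorem en_e_typ_ar {A N1 sl l a dl e1 W μ₀ sd : ℝ} (hA : 0 ≤ A) (hsl : 0 ≤ sl) (hl : 0 ≤ l) (ha : 1 ≤ a) (hdl : 0 ≤ dl) (hN0 : 0 ≤ N1) (hN1 : N1 ≤ sl * e1) (he1 : e1 ≤ dl)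
    (hW : W = 2 * (sl * a)) (hμ : μ₀ = 2 * sl * a) (hsd : 0 ≤ sd) :
    A * (N1 + 3 * (2 * l) * dl) * (W + 2 * μ₀ + 4 * sd) * 4 ≤ A * (sl + 6 * l) * (6 * sl + 4 * sd) * 4 * (dl * a) := by
  have h1 : N1 + 3 * (2 * l) * dl ≤ (sl + 6 * l) * dl := by
    have := mul_le_mul_of_nonneg_left he1 hsl
    nlinarith
  have h2 : W + 2 * μ₀ + 4 * sd ≤ (6 * sl + 4 * sd) * a := by
    rw [hW, hμ]
    have : sd ≤ sd * a := le_mul_of_one_le_right hsd ha
    nlinarith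
  have h3 : 0 ≤ N1 + 3 * (2 * l) * dl := by positivity
  have h4 : 0 ≤ (6 * sl + 4 * sd) * a := by positivity
  have h5 : (N1 + 3 * (2 * l) * dl) * (W + 2 * μ₀ + 4 * sd) ≤ ((sl + 6 * l) * dl) * ((6 * sl + 4 * sd) * a) := by
    calc _ ≤ (N1 + 3 * (2 * l) * dl) * ((6 * sl + 4 * sd) * a) := mul_le_mul_of_nonneg_left h2 h3
      _ ≤ _ := mul_le_mul_of_nonneg_right h1 h4
  have h6 := mul_le_mul_of_nonneg_left h5 hA
  nlinarith

section leaves

variable {d ℓ : ℕ} {E r γ α c₂ : ℝ} (hF : EnFix d E r) (hP : EnPar d ℓ γ α c₂)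

include hF hP

/-- residual of the signal: `R(V̂_s) = (λ - E) V(o)`: `|w_s| ≤ √ℓ n^{-1/2 + α}/σ` -/
theorem en_vi_wb : ∀ n : ℕ, 1 ≤ n → ∀ D : EnData n d ℓ, D.E = E → D.r = r → D.Ok γ α c₂ → ∀ ε ∈ Set.Icc (0 : ℝ) 1, ∀ s : EnLoc D.G d,
    gmN (enW D.E (Real.sqrt (D.η / D.r)) (D.obsM ε s.vx)) ≤ Real.sqrt ℓ * (n : ℝ) ^ (-(1 / 2 : ℝ) + α) / Real.sqrt (D.η / D.r) := by
  intro n hn D hE hr hD ε hε s
  have hn1 : (1 : ℝ) ≤ n := by exact_mod_cast hn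
  have hσ0 : 0 ≤ Real.sqrt (D.η / D.r) := Real.sqrt_nonneg _
  have hb : ∀ j, |enW D.E (Real.sqrt (D.η / D.r)) (D.obsM ε s.vx) j| ≤ (n : ℝ) ^ (-(1 / 2 : ℝ) + α) / Real.sqrt (D.η / D.r) := by
    intro j
    have e1 : ∑ x, enRm d D.E x * D.obsM ε s.vx (x, j) = ε * ((D.lam j - D.E) * D.V (s.vx none) j) := by
      rw [Fintype.sum_option]
      have e2 : ∑ k : Fin d, D.V (s.vx (some k)) j = D.lam j * D.V (s.vx none) j := by
        classical
        rw [en_loc_sum hD.reg s (fun w => D.V w j), en_eig_sum hD]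
      show -D.E * (ε * D.V (s.vx none) j) + ∑ k : Fin d, 1 * (ε * D.V (s.vx (some k)) j) = _
      simp only [one_mul]
      rw [← Finset.mul_sum, e2]
      ring
    unfold enW
    rw [e1, abs_div, abs_of_nonneg hσ0]
    apply div_le_div_of_nonneg_right _ hσ0
    rw [abs_mul, abs_mul, abs_of_nonneg hε.1]
    have b1 := hD.band j
    have b2 := hD.sup (s.vx none) j
    have b3 : (n : ℝ) ^ (α / 16) ≤ (n : ℝ) ^ α := Real.rpow_le_rpow_of_exponent_le hn1 (by have := hP.α0; linarith)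
    calc ε * (|D.lam j - D.E| * |D.V (s.vx none) j|) ≤ 1 * ((n : ℝ) ^ (-(1 / 2 : ℝ)) * (n : ℝ) ^ α) := by
          apply mul_le_mul hε.2 _ (by positivity) zero_le_one
          exact mul_le_mul b1 (b2.trans b3) (abs_nonneg _) (by positivity)
      _ = (n : ℝ) ^ (-(1 / 2 : ℝ) + α) := by rw [one_mul, ← Real.rpow_add (by linarith)]
  have := gm_N_le_sup _ hb
  rw [Fintype.card_fin] at this
  rw [mul_div_assoc]
  exact this

/-- T1: `E |𝔅 y|² = ε² avg |B_V|² + ℓ avg_s Tr(𝔅 Γ_s 𝔅ᵀ)` (`gm_mom0`, `gm_mom2_sq`, `en_obs_cov`), `Tr(𝔅 Γ_s 𝔅ᵀ) ≤ d + C n^{-α/2}` on typical stars (`en_Bm_sig0`), `≤ C n^α` always (`en_gam_bd`), `en_avg_split`, `hD.typ` (`n^{α - c₂} ≤ n^{-15α}`) -/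
theorem en_vi_T1 : EnLeaf d ℓ E r γ α c₂
    (fun _ D ε _ => gmE (fun s : EnLoc D.G d => D.obsB s.vx) (fun s => D.obsM ε s.vx) fun y => gmSq (enKr ℓ (enBm d D.E) *ᵥ y))
    (fun _ D ε _ => ε ^ 2 * enAvg (fun s => gmSq (D.BV s)) + (d : ℝ) * ℓ) := by
  have hα := hP.α0
  obtain ⟨T0, hT0⟩ : ∃ T0, T0 = (enKr ℓ (enBm d E) * (enKr ℓ (enBm d E))ᵀ).trace * ((((d : ℝ) + 1) * ℓ) * r⁻¹) := ⟨_, rfl⟩
  have hT00 : 0 ≤ T0 := by
    rw [hT0]
    have := gm_trace_nonneg (enKr ℓ (enBm d E))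
    have := hF.r0
    positivity
  refine ⟨α / 2, (d : ℝ) * ℓ * enCB d E + T0, 1, by linarith, fun n hn D hE hr hD ε hε i => ?_⟩
  have hn0 : 0 < n := hn
  have hn1 : (1 : ℝ) ≤ n := by exact_mod_cast hn
  have hr0 : 0 < D.r := hr ▸ hF.r0
  have hbulk : |D.E| < 2 * Real.sqrt ((d : ℝ) - 1) := hE ▸ hF.bulk
  have hne : Nonempty (EnLoc D.G d) := en_loc_nonempty hD.reg hn
  obtain ⟨δ, hδ⟩ : ∃ δ : ℝ, δ = (n : ℝ) ^ (-(α / 2)) := ⟨_, rfl⟩
  have hδ0 : 0 ≤ δ := by rw [hδ]; positivity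
  obtain ⟨tr, htr⟩ : ∃ tr : EnLoc D.G d → ℝ, tr = fun s => ((enKr ℓ (enBm d D.E) * D.obsB s.vx) * (enKr ℓ (enBm d D.E) * D.obsB s.vx)ᵀ).trace := ⟨_, rfl⟩
  have h1 : ∀ s : EnLoc D.G d, ∫ g, gmSq (enKr ℓ (enBm d D.E) *ᵥ (D.obsM ε s.vx + D.obsB s.vx *ᵥ g)) ∂(gmStd (Fin n × Fin ℓ)) = ε ^ 2 * gmSq (D.BV s) + tr s := by
    intro s
    have e : ∀ g, enKr ℓ (enBm d D.E) *ᵥ (D.obsM ε s.vx + D.obsB s.vx *ᵥ g) = ε • D.BV s + (enKr ℓ (enBm d D.E) * D.obsB s.vx) *ᵥ g := by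
      intro g
      rw [mulVec_add, en_BV_eq, mulVec_mulVec]
    simp only [e]
    rw [gm_mom2_aff, en_Sq_smul, htr]
  have h2 : ∀ s, D.bad δ s = 0 → tr s ≤ (d : ℝ) * ℓ + (d : ℝ) * ℓ * enCB d E * δ := by
    intro s hs
    rw [htr]
    simp only
    rw [en_star_cov hD hr0 hn0, en_Kr_trace, Matrix.trace]
    have : ∀ k : Fin d, (enBm d D.E * D.Γ.submatrix s.vx s.vx * (enBm d D.E)ᵀ).diag k ≤ 1 + enCB d E * δ := by
      intro k
      have := (abs_le.1 (en_star_typ D hF.d3 hbulk s hs k k)).2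
      rw [one_apply_eq, hE] at this
      rw [diag_apply, hE]
      linarith
    have h3 := Finset.sum_le_sum fun k (_ : k ∈ Finset.univ) => this k
    rw [Finset.sum_const, Finset.card_univ, Fintype.card_fin, nsmul_eq_mul] at h3
    have : (ℓ : ℝ) * ∑ k, (enBm d D.E * D.Γ.submatrix s.vx s.vx * (enBm d D.E)ᵀ).diag k ≤ ℓ * (d * (1 + enCB d E * δ)) :=
      mul_le_mul_of_nonneg_left h3 (by positivity)
    linarith
  have hη : D.η⁻¹ = (n : ℝ) ^ α := by rw [hD.η_eq, Real.rpow_neg (by positivity), inv_inv]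
  have h3 : ∀ s, tr s ≤ (d : ℝ) * ℓ + (d : ℝ) * ℓ * enCB d E * δ + T0 * (n : ℝ) ^ α := by
    intro s
    have := en_star_crude hD hα.le hr0 hn0 s
    rw [mul_inv, hη, hE, hr] at this
    rw [htr]
    simp only
    rw [hE]
    have h4 : 0 ≤ (d : ℝ) * ℓ + (d : ℝ) * ℓ * enCB d E * δ := by
      have := en_CB_nonneg d E
      positivity
    have e : T0 * (n : ℝ) ^ α = (enKr ℓ (enBm d E) * (enKr ℓ (enBm d E))ᵀ).trace * (((d : ℝ) + 1) * ℓ * (r⁻¹ * (n : ℝ) ^ α)) := by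
      rw [hT0]; ring
    rw [e]
    linarith
  have h4 := en_avg_split tr (D.bad δ) _ _ (by positivity) (en_bad_01 D δ) h2 h3
  have h5 : enAvg (D.bad δ) ≤ (n : ℝ) ^ (-c₂) := by rw [hδ]; exact hD.typ
  have h6 : enAvg (D.bad δ) * (T0 * (n : ℝ) ^ α) ≤ T0 * δ := by
    calc enAvg (D.bad δ) * (T0 * (n : ℝ) ^ α) ≤ (n : ℝ) ^ (-c₂) * (T0 * (n : ℝ) ^ α) := mul_le_mul_of_nonneg_right h5 (by positivity)
      _ = T0 * (n : ℝ) ^ (-c₂ + α) := by rw [Real.rpow_add (by linarith)]; ring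
      _ ≤ T0 * δ := by
          rw [hδ]
          exact mul_le_mul_of_nonneg_left (Real.rpow_le_rpow_of_exponent_le hn1 (by have := hP.αc; linarith)) hT00
  simp only
  unfold gmE
  simp only [h1]
  rw [en_Avg_add, en_Avg_mul, ← hδ]
  linarith

/-- T2: `E (|w(y)| + w̄)² ≤ ℓ + C n^-c`:  `w(y) = w_s + R(Y_s)/σ`, `E |R(Y_s)|² = ℓ ((A-E) Γ (A-E))_oo ≤ ℓ σ²` (`en_gam_res`, `en_loc_sum`), `w̄, |w_s| ≤ C n^{-1/2 + 3α/2}` (`en_vi_wb`) -/
theorem en_vi_T2 : EnLeaf d ℓ E r γ α c₂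
    (fun n D ε _ => gmE (fun s : EnLoc D.G d => D.obsB s.vx) (fun s => D.obsM ε s.vx) fun y =>
      (gmN (enW D.E (Real.sqrt (D.η / D.r)) y) + Real.sqrt ℓ * (n : ℝ) ^ (-(1 / 2 : ℝ) + α) / Real.sqrt (D.η / D.r)) ^ 2)
    (fun _ _ _ _ => (ℓ : ℝ)) := by
  set C0 := Real.sqrt ℓ * Real.sqrt r with hC0
  have hC00 : 0 ≤ C0 := by positivity
  refine ⟨1 / 4, 2 * C0 * (ℓ + 1) + 4 * C0 ^ 2, 1, by norm_num, fun n hn D hE hr hD ε hε i => ?_⟩
  have hr0 : 0 < D.r := hr ▸ hF.r0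
  have hne : Nonempty (EnLoc D.G d) := en_loc_nonempty hD.reg hn
  have hn1 : (1 : ℝ) ≤ n := by exact_mod_cast hn
  have hn0 : (0 : ℝ) < n := by linarith
  have hα := en_w_alpha hP
  have hsr : 0 < Real.sqrt r := Real.sqrt_pos.2 hF.r0
  set wb := Real.sqrt ℓ * (n : ℝ) ^ (-(1 / 2 : ℝ) + α) / Real.sqrt (D.η / D.r) with hwb
  have hs : Real.sqrt (D.η / D.r) = (n : ℝ) ^ (-(α / 2)) / Real.sqrt r := by
    rw [hD.η_eq, hr, Real.sqrt_div (by positivity), Real.sqrt_eq_rpow, ← Real.rpow_mul hn0.le]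
    congr 2
    ring
  have hwe : wb = C0 * (n : ℝ) ^ (-(1 / 2 : ℝ) + α + α / 2) := by
    rw [hwb, hs, div_div_eq_mul_div, Real.rpow_neg hn0.le, div_inv_eq_mul, Real.rpow_add hn0 (-(1 / 2 : ℝ) + α), hC0]
    ring
  set t := (n : ℝ) ^ (-(1 / 4 : ℝ)) with ht
  have ht0 : 0 < t := by positivity
  have ht1 : t ≤ 1 := Real.rpow_le_one_of_one_le_of_nonpos hn1 (by norm_num)
  have hw1 : wb ≤ C0 * t := by
    rw [hwe]
    exact mul_le_mul_of_nonneg_left (Real.rpow_le_rpow_of_exponent_le hn1 (by linarith)) hC00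
  have hw0 : 0 ≤ wb := by rw [hwe]; positivity
  have hone : ∀ s : EnLoc D.G d, ∫ g, (gmN (enW D.E (Real.sqrt (D.η / D.r)) (D.obsM ε s.vx + D.obsB s.vx *ᵥ g)) + wb) ^ 2 ∂(gmStd (Fin n × Fin ℓ))
      ≤ ℓ + (2 * wb * (ℓ + 1) + 4 * wb ^ 2) := fun s =>
    en_w_T2_one hD hr0 (by omega) s _ (en_vi_wb hF hP n hn D hE hr hD ε hε s)
  have hl : (0 : ℝ) ≤ ℓ := Nat.cast_nonneg _
  unfold gmE
  calc enAvg _ ≤ enAvg (fun _ : EnLoc D.G d => (ℓ : ℝ) + (2 * wb * (ℓ + 1) + 4 * wb ^ 2)) := en_Avg_mono hone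
    _ = (ℓ : ℝ) + (2 * wb * (ℓ + 1) + 4 * wb ^ 2) := en_Avg_const _
    _ ≤ (ℓ : ℝ) + (2 * (C0 * t) * (ℓ + 1) + 4 * (C0 * t) ^ 2) := by
        have h2 : wb ^ 2 ≤ (C0 * t) ^ 2 := pow_le_pow_left₀ hw0 hw1 2
        have h3 : wb * (ℓ + 1) ≤ C0 * t * (ℓ + 1) := mul_le_mul_of_nonneg_right hw1 (by linarith)
        linarith
    _ ≤ (ℓ : ℝ) + (2 * C0 * (ℓ + 1) + 4 * C0 ^ 2) * t := by
        have h4 : t ^ 2 ≤ t := by nlinarith
        have h5 : C0 ^ 2 * t ^ 2 ≤ C0 ^ 2 * t := mul_le_mul_of_nonneg_left h4 (by positivity)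
        nlinarith

/-- T3: `- E log enR(ε B_V)(𝔅 y) ≤ - Ent(ε B_V) + C n^-c`.   For each `s`: `gm_cmp` with `ψ = - log enR(ε B_V)`, `A = C n^{α/16}` (`en_R_lip`, `en_sup`, `hD.sup`), `W = 1`, noises `𝔅̃ B_s` (covariance `𝔅 Γ_s 𝔅ᵀ ⊗ 1`) and `1`, same mean `ε B_s` (`μ₀ = C n^{α/16}`):
typical stars `δ = C n^{-α/2}`: error `C n^{α/8 - α/4}`; bad stars: `|log enR(u)| ≤ β|u| + β²/2`: error `C n^{α}`, weight `n^-c₂`; `en_avg_split` -/
theorem en_vi_T3 : EnLeaf d ℓ E r γ α c₂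
    (fun _ D ε _ => gmE (fun s : EnLoc D.G d => D.obsB s.vx) (fun s => D.obsM ε s.vx) fun y => - Real.log (enR (fun s : EnLoc D.G d => ε • D.BV s) (enKr ℓ (enBm d D.E) *ᵥ y)))
    (fun _ D ε _ => - enEnt (fun s => ε • D.BV s)) := by
  have hα := hP.α0
  obtain ⟨C2, H2⟩ := en_sup (ℓ := ℓ) hF
  obtain ⟨Dr, hDr⟩ : ∃ Dr : ℝ, Dr = (d : ℝ) * ℓ := ⟨_, rfl⟩
  have hDr0 : 0 ≤ Dr := by rw [hDr]; positivity
  obtain ⟨c1, hc1⟩ : ∃ c1 : ℝ, c1 = Real.sqrt Dr * |C2| := ⟨_, rfl⟩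
  have hc10 : 0 ≤ c1 := by rw [hc1]; positivity
  obtain ⟨T0, hT0⟩ : ∃ T0, T0 = (enKr ℓ (enBm d E) * (enKr ℓ (enBm d E))ᵀ).trace * ((((d : ℝ) + 1) * ℓ) * r⁻¹) := ⟨_, rfl⟩
  have hT00 : 0 ≤ T0 := by
    rw [hT0]
    have := gm_trace_nonneg (enKr ℓ (enBm d E))
    have := hF.r0
    positivity
  obtain ⟨S, hS⟩ : ∃ S : ℝ, S = Real.sqrt (2 * Dr + 3 * Dr ^ 2) := ⟨_, rfl⟩
  have hS0 : 0 ≤ S := by rw [hS]; positivity
  obtain ⟨q, hq⟩ : ∃ q : ℝ, q = Real.sqrt (enCB d E) := ⟨_, rfl⟩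
  have hq0 : 0 ≤ q := by rw [hq]; positivity
  obtain ⟨Ca, hCa⟩ : ∃ Ca : ℝ, Ca = c1 * (3 * Dr * q) * (1 + 2 * c1 + 4 * S) * 4 := ⟨_, rfl⟩
  have hCa0 : 0 ≤ Ca := by rw [hCa]; positivity
  obtain ⟨Cb, hCb⟩ : ∃ Cb : ℝ, Cb = 3 * c1 ^ 2 + c1 * (2 + T0 + Dr) / 2 := ⟨_, rfl⟩
  have hCb0 : 0 ≤ Cb := by rw [hCb]; positivity
  obtain ⟨n₀, hn₀⟩ := en_pow_ge (enCB d E) (κ₀ := α / 2) (by linarith)
  refine ⟨α / 8, Ca + Cb, max n₀ 1, by linarith, fun n hn D hE hr hD ε hε i => ?_⟩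
  have hn1' : 1 ≤ n := (le_max_right _ _).trans hn
  have hn0 : 0 < n := hn1'
  have hn1 : (1 : ℝ) ≤ n := by exact_mod_cast hn1'
  have hnp : (0 : ℝ) < n := by linarith
  have hr0 : 0 < D.r := hr ▸ hF.r0
  have hbulk : |D.E| < 2 * Real.sqrt ((d : ℝ) - 1) := hE ▸ hF.bulk
  have hne : Nonempty (EnLoc D.G d) := en_loc_nonempty hD.reg hn1'
  -- the scale
  obtain ⟨X, hX⟩ : ∃ X : ℝ, X = (n : ℝ) ^ (α / 16) := ⟨_, rfl⟩
  have hX1 : 1 ≤ X := by rw [hX]; exact Real.one_le_rpow hn1 (by linarith)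
  have hX0 : 0 < X := by linarith
  have hpow : ∀ k : ℕ, X ^ k = (n : ℝ) ^ (α / 16 * k) := by
    intro k
    rw [hX, ← Real.rpow_natCast, ← Real.rpow_mul hnp.le]
  have hpowi : ∀ k : ℕ, (X ^ k)⁻¹ = (n : ℝ) ^ (-(α / 16 * k)) := by
    intro k
    rw [hpow, Real.rpow_neg hnp.le]
  obtain ⟨δ, hδ⟩ : ∃ δ : ℝ, δ = (n : ℝ) ^ (-(α / 2)) := ⟨_, rfl⟩
  have hδX : δ = (X ^ 8)⁻¹ := by
    rw [hδ, hpowi]
    congr 1
    push_cast
    ring
  have hsδ : Real.sqrt δ = (X ^ 4)⁻¹ := by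
    rw [hδX, Real.sqrt_inv, show X ^ 8 = (X ^ 4) ^ 2 by ring, Real.sqrt_sq (by positivity)]
  have hδ1 : enCB d D.E * δ ≤ 1 := by
    have h1 := hn₀ n ((le_max_left _ _).trans hn)
    rw [hE, hδ, Real.rpow_neg hnp.le, ← div_eq_mul_inv, div_le_one (by positivity)]
    exact h1
  have ht : (n : ℝ) ^ (-(α / 8)) = (X ^ 2)⁻¹ := by
    rw [hpowi]
    congr 1
    push_cast
    ring
  have hna : (n : ℝ) ^ α = X ^ 16 := by
    rw [hpow]
    congr 1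
    push_cast
    ring
  have hbadX : enAvg (D.bad δ) ≤ (X ^ 256)⁻¹ := by
    rw [hδ]
    refine hD.typ.trans ?_
    rw [hpowi]
    refine Real.rpow_le_rpow_of_exponent_le hn1 ?_
    have := hP.αc
    push_cast
    linarith
  -- the sup norm
  obtain ⟨β, hβd⟩ : ∃ β : ℝ, β = c1 * X := ⟨_, rfl⟩
  have hβ0 : 0 ≤ β := by rw [hβd]; positivity
  have hβ : ∀ s : EnLoc D.G d, gmN (ε • D.BV s) ≤ β := by
    intro s
    have h1 : ∀ x, |(ε • D.BV s) x| ≤ |C2| * X := by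
      intro x
      have h2 := H2 n D hE X (fun v j => by rw [hX]; exact hD.sup v j) s x
      rw [Pi.smul_apply, smul_eq_mul, abs_mul, abs_of_nonneg hε.1]
      calc ε * |D.BV s x| ≤ 1 * |D.BV s x| := mul_le_mul_of_nonneg_right hε.2 (abs_nonneg _)
        _ = |D.BV s x| := one_mul _
        _ ≤ C2 * X := h2
        _ ≤ |C2| * X := mul_le_mul_of_nonneg_right (le_abs_self _) hX0.le
    have := gm_N_le_sup _ h1
    rw [Fintype.card_prod, Fintype.card_fin, Fintype.card_fin] at this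
    push_cast at this
    rw [hβd, hc1, hDr]
    linarith
  set b : EnLoc D.G d → Fin d × Fin ℓ → ℝ := fun s => ε • D.BV s with hb
  obtain ⟨Ls, hLs⟩ : ∃ Ls : EnLoc D.G d → ℝ, Ls = fun s => ∫ g, - Real.log (enR b (b s + (enKr ℓ (enBm d D.E) * D.obsB s.vx) *ᵥ g)) ∂(gmStd (Fin n × Fin ℓ)) := ⟨_, rfl⟩
  obtain ⟨Rs, hRs⟩ : ∃ Rs : EnLoc D.G d → ℝ, Rs = fun s => ∫ g, - Real.log (enR b (b s + g)) ∂(gmStd (Fin d × Fin ℓ)) := ⟨_, rfl⟩
  have hgrow : ∀ y, |(fun y => - Real.log (enR b y)) y| ≤ β * gmN y + β ^ 2 / 2 := by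
    intro y
    simp only [abs_neg]
    exact (en_R_lip b hβ y y).2
  -- typical stars
  have htyp : ∀ s, D.bad δ s = 0 → Ls s - Rs s ≤ Ca * (X ^ 2)⁻¹ := by
    intro s hs
    have h1 := (le_abs_self _).trans (en_w_T3_typ hD hr0 hn0 hF.d3 hbulk hβ s hs hδ1)
    rw [hLs, hRs]
    refine h1.trans ?_
    rw [hE, Real.sqrt_mul (en_CB_nonneg d E), ← hq, hsδ, ← hDr, ← hS, hβd, hCa]
    exact en_w_ar1 hX1 hc10 hDr0 hq0 hS0
  -- all stars
  have hall : ∀ s, Ls s - Rs s ≤ Ca * (X ^ 2)⁻¹ + Cb * X ^ 17 := by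
    intro s
    have h1 := en_w_crude hβ0 hgrow (b s) (enKr ℓ (enBm d D.E) * D.obsB s.vx)
    have h2 := en_w_crude hβ0 hgrow (b s) (1 : Matrix (Fin d × Fin ℓ) (Fin d × Fin ℓ) ℝ)
    simp only [one_mulVec, transpose_one, Matrix.mul_one, trace_one, Fintype.card_prod, Fintype.card_fin] at h2
    push_cast at h2
    rw [← hDr] at h2
    have h3 : ((enKr ℓ (enBm d D.E) * D.obsB s.vx) * (enKr ℓ (enBm d D.E) * D.obsB s.vx)ᵀ).trace ≤ T0 * X ^ 16 := by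
      have := en_star_crude hD hα.le hr0 hn0 s
      have hη : D.η⁻¹ = (n : ℝ) ^ α := by rw [hD.η_eq, Real.rpow_neg (by positivity), inv_inv]
      rw [mul_inv, hη, hE, hr, hna] at this
      rw [hE, hT0]
      linarith
    have h4 := hβ s
    have h5 : Ls s ≤ β * (β + (1 + T0 * X ^ 16) / 2) + β ^ 2 / 2 := by
      rw [hLs]
      refine ((le_abs_self _).trans h1).trans ?_
      have : β * (gmN (b s) + (1 + ((enKr ℓ (enBm d D.E) * D.obsB s.vx) * (enKr ℓ (enBm d D.E) * D.obsB s.vx)ᵀ).trace) / 2) ≤ β * (β + (1 + T0 * X ^ 16) / 2) :=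
        mul_le_mul_of_nonneg_left (by linarith) hβ0
      linarith
    have h6 : -Rs s ≤ β * (β + (1 + Dr) / 2) + β ^ 2 / 2 := by
      rw [hRs]
      refine ((neg_le_abs _).trans h2).trans ?_
      have : β * (gmN (b s) + (1 + Dr) / 2) ≤ β * (β + (1 + Dr) / 2) := mul_le_mul_of_nonneg_left (by linarith) hβ0
      linarith
    have h7 : 0 ≤ Ca * (X ^ 2)⁻¹ := by positivity
    have h8 : β * (β + (1 + T0 * X ^ 16) / 2) + β ^ 2 / 2 + (β * (β + (1 + Dr) / 2) + β ^ 2 / 2) ≤ Cb * X ^ 17 := by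
      rw [hβd, hCb]
      exact en_w_ar2 hX1 hc10 hDr0
    linarith
  have hsplit := en_avg_split (fun s => Ls s - Rs s) (D.bad δ) _ _ (by positivity : 0 ≤ Cb * X ^ 17) (en_bad_01 D δ) htyp hall
  have hbb : enAvg (D.bad δ) * (Cb * X ^ 17) ≤ Cb * (X ^ 2)⁻¹ := by
    calc enAvg (D.bad δ) * (Cb * X ^ 17) ≤ (X ^ 256)⁻¹ * (Cb * X ^ 17) := mul_le_mul_of_nonneg_right hbadX (by positivity)
      _ = Cb * ((X ^ 256)⁻¹ * X ^ 17) := by ring
      _ ≤ Cb * (X ^ 2)⁻¹ := by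
          exact mul_le_mul_of_nonneg_left (en_w_ar3 hX1) hCb0
  have eL : gmE (fun s : EnLoc D.G d => D.obsB s.vx) (fun s => D.obsM ε s.vx) (fun y => - Real.log (enR b (enKr ℓ (enBm d D.E) *ᵥ y))) = enAvg Ls := by
    unfold gmE
    simp only [en_w_proj]
    rw [hLs]
  have eR : - enEnt b = enAvg Rs := by
    rw [hRs]
    unfold enEnt enAvg
    simp only [integral_neg, Finset.sum_neg_distrib, mul_neg]
  rw [en_Avg_sub] at hsplit
  simp only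
  rw [eL, eR, ht, add_mul]
  linarith

/-- LEAF (vi) = ASSEMBLY: `en_vi_gibbs` with `σ = √(η/r)`, `en_Mh_det` (`- (ℓ/2) log (det M̂)² = ℓ ((d-1)/2 log a - (1/2) log d + (1/2) log (η/r))`), `en_vi_psi` + `gm_E_mono` + linearity of `gmE`, then `en_vi_T1/2 + en_vi_T3 + en_vi_T2/2`.      Original plan: ONE Gibbs step with the ideal star mixture `h(y) = |det M̂| (2π)^{-D/2} avg_k exp(-|M̂ (y - ε V̂_k)|²/2)`, `|M̂ y|² = |Z|² + |P X|²/a + |Σ X - E Z|²/σ²`, then the coupling of the noises -/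
theorem en_vi : EnLeaf d ℓ E r γ α c₂
    (fun _ D ε _ => D.HS ε)
    (fun _ D ε _ => ((d : ℝ) + 1) * ℓ / 2 * Real.log (2 * Real.pi)
      + ℓ * (((d : ℝ) - 1) / 2 * Real.log (enAa d E) - Real.log d / 2 + Real.log (D.η / r) / 2) + (ℓ : ℝ) / 2 + (d : ℝ) * ℓ / 2
      + ε ^ 2 / 2 * enAvg (fun s => gmSq (D.BV s)) - enEnt (fun s => ε • D.BV s)) := by
  have hh : ∀ ε ∈ Set.Icc (0 : ℝ) 1, 0 ≤ (fun _ : ℝ => (1 / 2 : ℝ)) ε ∧ (fun _ : ℝ => (1 / 2 : ℝ)) ε ≤ 1 / 2 := fun _ _ => ⟨by norm_num, le_rfl⟩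
  obtain ⟨c, C, n₀, hc, H⟩ := (((en_vi_T1 hF hP).mul _ _ hh).add (en_vi_T3 hF hP)).add ((en_vi_T2 hF hP).mul _ _ hh)
  refine ⟨c, C, max n₀ 1, hc, fun n hn D hE hr hD ε hε i => ?_⟩
  have h := H n (le_of_max_le_left hn) D hE hr hD ε hε i
  have hn0 : 1 ≤ n := le_of_max_le_right hn
  have hr0 : 0 < D.r := hr ▸ hF.r0
  have hbulk : |D.E| < 2 * Real.sqrt ((d : ℝ) - 1) := hE ▸ hF.bulk
  have hne : Nonempty (EnLoc D.G d) := en_loc_nonempty hD.reg hn0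
  have hη : 0 < D.η := by rw [hD.η_eq]; positivity
  have hq : 0 < D.η / D.r := by positivity
  obtain ⟨σ, hσd⟩ : ∃ σ, σ = Real.sqrt (D.η / D.r) := ⟨_, rfl⟩
  have hσ : 0 < σ := by rw [hσd]; exact Real.sqrt_pos.2 hq
  have hσ2 : σ ^ 2 = D.η / D.r := by rw [hσd]; exact Real.sq_sqrt hq.le
  obtain ⟨wb, hwb⟩ : ∃ wb, wb = Real.sqrt ℓ * (n : ℝ) ^ (-(1 / 2 : ℝ) + α) / σ := ⟨_, rfl⟩
  have hw : ∀ s : EnLoc D.G d, gmN (enW D.E σ (D.obsM ε s.vx)) ≤ wb := by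
    intro s
    rw [hwb, hσd]
    exact en_vi_wb hF hP n hn0 D hE hr hD ε hε s
  have hg := en_vi_gibbs hD hP.α0.le hr0 hn0 hF.d3 hbulk hε hσ
  have ha := (en_Aa_pos hF.d3 hbulk).1
  have hd0 : (0 : ℝ) < d := by
    have : 0 < d := by have := hF.d3; omega
    exact_mod_cast this
  have hdet : Real.log ((enMh d D.E σ).det ^ 2) = Real.log d - (((d : ℝ) - 1) * Real.log (enAa d D.E) + Real.log (D.η / D.r)) := by
    rw [en_Mh_det hF.d3 hbulk hσ, hσ2, Real.log_div hd0.ne' (by positivity), Real.log_mul (by positivity) hq.ne', Real.log_pow]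
    have : ((d - 1 : ℕ) : ℝ) = (d : ℝ) - 1 := by
      have := hF.d3
      rw [Nat.cast_sub (by omega)]; simp
    rw [this]
  obtain ⟨φ1, h1⟩ : ∃ φ1 : (Option (Fin d) × Fin ℓ → ℝ) → ℝ, φ1 = fun y => gmSq (enKr ℓ (enBm d D.E) *ᵥ y) := ⟨_, rfl⟩
  obtain ⟨φ3, h3⟩ : ∃ φ3 : (Option (Fin d) × Fin ℓ → ℝ) → ℝ, φ3 = fun y => - Real.log (enR (fun s : EnLoc D.G d => ε • D.BV s) (enKr ℓ (enBm d D.E) *ᵥ y)) := ⟨_, rfl⟩
  obtain ⟨φ2, h2⟩ : ∃ φ2 : (Option (Fin d) × Fin ℓ → ℝ) → ℝ, φ2 = fun y => (gmN (enW D.E σ y) + wb) ^ 2 := ⟨_, rfl⟩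
  have p1 : GmPoly φ1 := by rw [h1]; exact GmPoly.sq.comp_mulVec _
  have p3 : GmPoly φ3 := by rw [h3]; exact ((en_logR_poly _).comp_mulVec _).neg
  have p2 : GmPoly φ2 := by
    have q := (GmPoly.norm.comp_mulVec (enWm d ℓ D.E σ)).add (GmPoly.const wb)
    have := q.mul q
    refine (congrArg GmPoly ?_).mp this
    rw [h2]
    funext y
    rw [en_W_eq]; ring
  have hpsi : gmE (fun s : EnLoc D.G d => D.obsB s.vx) (fun s => D.obsM ε s.vx) (D.psiS ε σ)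
      ≤ 1 / 2 * gmE (fun s : EnLoc D.G d => D.obsB s.vx) (fun s => D.obsM ε s.vx) φ1 + gmE (fun s : EnLoc D.G d => D.obsB s.vx) (fun s => D.obsM ε s.vx) φ3
        + 1 / 2 * gmE (fun s : EnLoc D.G d => D.obsB s.vx) (fun s => D.obsM ε s.vx) φ2 := by
    rw [← gm_E_cmul, ← gm_E_cmul, ← gm_E_add _ _ ((GmPoly.const _).mul p1) p3, ← gm_E_add _ _ (((GmPoly.const _).mul p1).add p3) ((GmPoly.const _).mul p2)]
    refine gm_E_le _ _ (en_psiS_poly D hF.d3 hbulk ε hσ) ((((GmPoly.const _).mul p1).add p3).add ((GmPoly.const _).mul p2)) fun y => ?_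
    have := en_vi_psi D hσ hw y
    rw [h1, h2, h3]
    simp only
    linarith
  simp only at h ⊢
  rw [← hσd, ← hwb, ← h1, ← h2, ← h3] at h
  rw [hdet] at hg
  rw [← hE, ← hr]
  linarith

/-! ### the edge -/

omit hF hP in
/-- entropy of the ideal edge mixture, EXACT.   `y = m̃_s + B₂ g`: `Q_Λ(y - m̃_k) = |g + b_s - b_k|²`, `b_k = B₂⁻¹ m̃_k`;  `- log f = (ℓ/2) log(1-p²) + ℓ log 2π + |g + b_s|²/2 - log enR b (g + b_s)`;
`⟨b_k, b_l⟩ = m̃_kᵀ Σ₂⁻¹ m̃_l = ε² ⟨P_i B_k, P_i B_l⟩` (`⟨v_i - p ω, B⟩ = √(1-p²) ⟨a_i, B⟩`), `en_Ent_gram` -/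
theorem en_viii_id {n : ℕ} (D : EnData n d ℓ) [Nonempty (EnLoc D.G d)] (hd : 3 ≤ d) (hE : |D.E| < 2 * Real.sqrt ((d : ℝ) - 1)) (ε : ℝ) (i : Fin d) :
    gmH (fun _ : EnLoc D.G d => enKr ℓ (enS2B d D.E)) (fun _ => enKr ℓ (enS2L d D.E)) (fun s => D.mE ε i s)
      = ℓ * Real.log (2 * Real.pi) + (ℓ : ℝ) / 2 * Real.log (1 - enP d D.E ^ 2) + ℓ
        + ε ^ 2 / 2 * enAvg (fun s => gmSq (enPi i (D.BV s))) - enEnt (fun s => ε • enPi i (D.BV s)) := by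
  have hp := en_p_lt hd hE
  set p := enP d D.E with hpdef
  set σ := Real.sqrt (1 - p ^ 2) with hσ
  have hσ0 : 0 < σ := Real.sqrt_pos.2 hp
  have hσ2 : σ * σ = 1 - p ^ 2 := Real.mul_self_sqrt hp.le
  set C₂ : Matrix Bool Bool ℝ := fun a b => if a then (if b then σ⁻¹ else - p * σ⁻¹) else (if b then 0 else 1) with hC₂
  have hCB : C₂ * enS2B d D.E = 1 := by
    ext a b
    rw [Matrix.mul_apply, Fintype.sum_bool]
    cases a <;> cases b <;> simp [hC₂, enS2B, ← hpdef, ← hσ, hσ0.ne']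
    ring
  have hCC : C₂ᵀ * C₂ = enS2L d D.E := by
    ext a b
    rw [Matrix.mul_apply, Fintype.sum_bool, Matrix.transpose_apply, Matrix.transpose_apply]
    have h1 : σ⁻¹ * σ⁻¹ = (1 - p ^ 2)⁻¹ := by rw [← mul_inv, hσ2]
    have h2 : (1 - p ^ 2) * (1 - p ^ 2)⁻¹ = 1 := mul_inv_cancel₀ hp.ne'
    cases a <;> cases b <;> simp only [hC₂, enS2L, ← hpdef, if_true, if_false, Bool.false_eq_true, Bool.true_eq_false]
    · have : -p * σ⁻¹ * (-p * σ⁻¹) + 1 * 1 = p ^ 2 * (σ⁻¹ * σ⁻¹) + 1 := by ring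
      rw [this, h1]
      linear_combination (-1 : ℝ) * h2
    · have : -p * σ⁻¹ * σ⁻¹ + 1 * 0 = - p * (σ⁻¹ * σ⁻¹) := by ring
      rw [this, h1]; ring
    · have : σ⁻¹ * (-p * σ⁻¹) + 0 * 1 = - p * (σ⁻¹ * σ⁻¹) := by ring
      rw [this, h1]; ring
    · rw [h1]; ring
  have hdet : (enS2L d D.E).det = (1 - p ^ 2)⁻¹ := by
    rw [en_e_det_bool]
    simp only [enS2L, ← hpdef, if_true, if_false, Bool.false_eq_true, Bool.true_eq_false]
    field_simp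
  -- whitening
  have hK1 : enKr ℓ C₂ * enKr ℓ (enS2B d D.E) = 1 := by rw [← en_Kr_mul, hCB, en_Kr_one]
  have hK2 : (enKr ℓ C₂)ᵀ * enKr ℓ C₂ = enKr ℓ (enS2L d D.E) := by rw [en_Kr_transpose, ← en_Kr_mul, hCC]
  have hw := en_e_whiten (enKr ℓ (enS2B d D.E)) (enKr ℓ C₂) hK1 (fun s : EnLoc D.G d => D.mE ε i s)
  rw [hK2, en_Kr_det, hdet, gm_H_std] at hw
  rw [hw]
  -- whitened means
  have hb : ∀ (s : EnLoc D.G d) (t : Bool) (c : Fin ℓ), (enKr ℓ C₂ *ᵥ D.mE ε i s) (t, c) = ε * ∑ k, (if t then etAv d i k else etOm d k) * D.BV s (k, c) := by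
    intro s t c
    rw [en_Kr_mulVec, Fintype.sum_bool]
    cases t
    · simp only [hC₂, EnData.mE, enObs, if_true, if_false, Bool.false_eq_true]
      ring
    · simp only [hC₂, EnData.mE, enObs, if_true, if_false, Bool.false_eq_true, enVi, ← hpdef, ← hσ]
      have : ∀ k, (p * etOm d k + σ * etAv d i k) * D.BV s (k, c) = p * (etOm d k * D.BV s (k, c)) + σ * (etAv d i k * D.BV s (k, c)) := fun k => by ring
      simp only [this, Finset.sum_add_distrib, ← Finset.mul_sum]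
      field_simp
      ring
  have hgram : ∀ s s' : EnLoc D.G d, (enKr ℓ C₂ *ᵥ D.mE ε i s) ⬝ᵥ (enKr ℓ C₂ *ᵥ D.mE ε i s') = (ε • enPi i (D.BV s)) ⬝ᵥ (ε • enPi i (D.BV s')) := by
    intro s s'
    rw [smul_dotProduct, dotProduct_smul, en_e_pi_gram (by omega)]
    unfold dotProduct
    rw [Fintype.sum_prod_type, Fintype.sum_bool, ← Finset.sum_add_distrib]
    simp only [smul_eq_mul, Finset.mul_sum]
    refine Finset.sum_congr rfl fun c _ => ?_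
    rw [hb, hb, hb, hb]
    simp only [if_true, if_false, Bool.false_eq_true]
    simp only [← Finset.mul_sum]
    ring
  rw [en_Ent_gram _ _ hgram]
  have hsq : ∀ s : EnLoc D.G d, gmSq (enKr ℓ C₂ *ᵥ D.mE ε i s) = ε ^ 2 * gmSq (enPi i (D.BV s)) := by
    intro s
    rw [gm_Sq_eq, hgram, smul_dotProduct, dotProduct_smul, gm_Sq_eq]
    simp only [smul_eq_mul]
    ring
  simp only [hsq]
  rw [en_Avg_mul, Real.log_pow, Real.log_inv]
  have hc : (Fintype.card (Bool × Fin ℓ) : ℝ) / 2 = ℓ := by simp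
  rw [hc]
  ring

omit hF hP in
/-- the ideal edge mixture is a mixture (`2 × 2` algebra: `B₂ B₂ᵀ = Σ₂`, `Σ₂ Λ₂ = 1`, eigenvalues `1 ± p`) -/
theorem en_viii_ok {n : ℕ} (D : EnData n d ℓ) (hd : 3 ≤ d) (hE : |D.E| < 2 * Real.sqrt ((d : ℝ) - 1)) (ε : ℝ) (i : Fin d) {mu : ℝ} (hmu : ∀ s, gmN (D.mE ε i s) ≤ mu) :
    GmOk (fun _ : EnLoc D.G d => enKr ℓ (enS2B d D.E)) (fun _ => enKr ℓ (enS2L d D.E)) (fun s => D.mE ε i s) ((1 - |enP d D.E|)⁻¹) 2 mu := by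
  have hp := en_p_lt hd hE
  set p := enP d D.E with hpdef
  have hp1 : |p| < 1 := by
    have : |p| ^ 2 < 1 := by rw [sq_abs]; linarith
    exact (sq_lt_one_iff₀ (abs_nonneg p)).1 this
  have hq : 0 < 1 - |p| := by linarith
  have hfac : 1 - p ^ 2 = (1 - |p|) * (1 + |p|) := by rw [← sq_abs p]; ring
  refine ⟨inv_pos.2 hq, two_pos, fun _ => ?_, fun _ x => ?_, fun _ x => ?_, hmu⟩
  · rw [en_Kr_transpose, ← en_Kr_mul, ← en_Kr_mul, en_e_S2_inv hp, en_Kr_one]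
  · rw [en_e_Q2, en_e_Sq2, Finset.mul_sum]
    refine Finset.sum_le_sum fun j _ => ?_
    simp only [enS2L, if_true, Bool.false_eq_true, Bool.true_eq_false, if_false, ← hpdef]
    set a := x (false, j)
    set b := x (true, j)
    have h1 : -(2 * p * (a * b)) ≤ |p| * (a ^ 2 + b ^ 2) := by
      have : |2 * p * (a * b)| ≤ |p| * (a ^ 2 + b ^ 2) := by
        rw [abs_mul, abs_mul, abs_mul]
        have : 2 * (|a| * |b|) ≤ a ^ 2 + b ^ 2 := by nlinarith [sq_nonneg (|a| - |b|), sq_abs a, sq_abs b]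
        have h2 := mul_le_mul_of_nonneg_left this (abs_nonneg p)
        simp only [abs_two]
        nlinarith
      linarith [neg_abs_le (2 * p * (a * b))]
    have e : (1 - |p|)⁻¹ = (1 - p ^ 2)⁻¹ * (1 + |p|) := by
      rw [hfac]; field_simp
    rw [e]
    have h3 : 0 < (1 - p ^ 2)⁻¹ := inv_pos.2 hp
    have : (1 - p ^ 2)⁻¹ * 1 * a ^ 2 + ((1 - p ^ 2)⁻¹ * -p + (1 - p ^ 2)⁻¹ * -p) * (a * b) + (1 - p ^ 2)⁻¹ * 1 * b ^ 2
        = (1 - p ^ 2)⁻¹ * (a ^ 2 + b ^ 2 - 2 * p * (a * b)) := by ring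
    rw [this, mul_assoc ((1 - p ^ 2)⁻¹) (1 + |p|)]
    refine mul_le_mul_of_nonneg_left ?_ h3.le
    linarith
  · rw [en_e_Q2, en_e_Sq2, Finset.mul_sum]
    refine Finset.sum_le_sum fun j _ => ?_
    simp only [enS2L, if_true, Bool.false_eq_true, Bool.true_eq_false, if_false, ← hpdef]
    set a := x (false, j)
    set b := x (true, j)
    have h1 : 2 * p * (a * b) ≤ |p| * (a ^ 2 + b ^ 2) := by
      have : |2 * p * (a * b)| ≤ |p| * (a ^ 2 + b ^ 2) := by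
        rw [abs_mul, abs_mul, abs_mul]
        have : 2 * (|a| * |b|) ≤ a ^ 2 + b ^ 2 := by nlinarith [sq_nonneg (|a| - |b|), sq_abs a, sq_abs b]
        have h2 := mul_le_mul_of_nonneg_left this (abs_nonneg p)
        simp only [abs_two]
        nlinarith
      linarith [le_abs_self (2 * p * (a * b))]
    have this : (1 - p ^ 2)⁻¹ * 1 * a ^ 2 + ((1 - p ^ 2)⁻¹ * -p + (1 - p ^ 2)⁻¹ * -p) * (a * b) + (1 - p ^ 2)⁻¹ * 1 * b ^ 2
        = (1 - p ^ 2)⁻¹ * (a ^ 2 + b ^ 2 - 2 * p * (a * b)) := by ring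
    rw [this]
    have h4 : (1 - |p|) * (a ^ 2 + b ^ 2) ≤ a ^ 2 + b ^ 2 - 2 * p * (a * b) := by linarith
    have h5 : (1 - p ^ 2)⁻¹ * ((1 - |p|) * (a ^ 2 + b ^ 2)) ≤ (1 - p ^ 2)⁻¹ * (a ^ 2 + b ^ 2 - 2 * p * (a * b)) :=
      mul_le_mul_of_nonneg_left h4 (inv_pos.2 hp).le
    have e : (1 - p ^ 2)⁻¹ * ((1 - |p|) * (a ^ 2 + b ^ 2)) = (1 + |p|)⁻¹ * (a ^ 2 + b ^ 2) := by
      rw [hfac]; field_simp
    rw [e] at h5
    have h6 : (2 : ℝ)⁻¹ ≤ (1 + |p|)⁻¹ := inv_anti₀ (by positivity) (by linarith)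
    have h7 : (2 : ℝ)⁻¹ * (a ^ 2 + b ^ 2) ≤ (1 + |p|)⁻¹ * (a ^ 2 + b ^ 2) := mul_le_mul_of_nonneg_right h6 (by positivity)
    linarith

/-- typical edges: comparison of the two noises under `ψ = - log f₀`, `f₀` = the part of `f_edge` carried by the TYPICAL locations (weights `w = 1 - bad`).   On typical locations `Γ_e` is `n^{-α/2}`-close to `Σ₂`, so the precision is `≤ 2/(1-|p|)`:
modulus `gm_W_mod` with `lam₀ = O(1)` (the precision `n^α` of the bad components does NOT enter), `W = 2 mu ≤ C n^{α/16}`; `gm_cmp` with noises `B₂ ⊗ 1`, `obsB (s.ed i)`, `δ = n^{-α/2}`, means `m̃_s`, `ε V_s`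
(`|m̃_s - ε V_s| ≤ √ℓ n^{-1/2 + α/16}/d`: `en_obs_om`, `en_obs_vi`):  error `C n^{α/16 - α/4}` -/
theorem en_viii_typ : ∃ c C : ℝ, ∃ n₀ : ℕ, 0 < c ∧ ∀ n : ℕ, n₀ ≤ n → ∀ D : EnData n d ℓ, D.E = E → D.r = r → D.Ok γ α c₂ → ∀ ε ∈ Set.Icc (0 : ℝ) 1, ∀ i : Fin d,
    ∀ s : EnLoc D.G d, D.bad ((n : ℝ) ^ (-(α / 2))) s = 0 →
      ∫ g, - Real.log (gmMixW (fun s => 1 - D.bad ((n : ℝ) ^ (-(α / 2))) s) (fun s : EnLoc D.G d => D.obsΛ (s.ed i)) (fun s => D.obsM ε (s.ed i)) (D.mE ε i s + enKr ℓ (enS2B d D.E) *ᵥ g)) ∂(gmStd (Bool × Fin ℓ))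
        ≤ ∫ g, - Real.log (gmMixW (fun s => 1 - D.bad ((n : ℝ) ^ (-(α / 2))) s) (fun s : EnLoc D.G d => D.obsΛ (s.ed i)) (fun s => D.obsM ε (s.ed i)) (D.obsM ε (s.ed i) + D.obsB (s.ed i) *ᵥ g)) ∂(gmStd (Fin n × Fin ℓ))
          + C * (n : ℝ) ^ (-c) := by
  have hα := hP.α0
  have hα1 : α ≤ 1 / 32 := by have := hP.αc; have := hP.c1; linarith
  have hp2 := en_p_lt hF.d3 hF.bulk
  obtain ⟨p, hpdef⟩ : ∃ p : ℝ, p = enP d E := ⟨_, rfl⟩
  rw [← hpdef] at hp2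
  have hp1 : |p| < 1 := by
    have : |p| ^ 2 < 1 := by rw [sq_abs]; linarith
    exact (sq_lt_one_iff₀ (abs_nonneg p)).1 this
  have hq : 0 < 1 - |p| := by linarith
  refine ⟨3 * α / 16, 2 / (1 - |p|) * (Real.sqrt (2 * ℓ) + 6 * ℓ) * (6 * Real.sqrt (2 * ℓ) + 4 * Real.sqrt (4 * ℓ + 3 * (2 * ℓ : ℝ) ^ 2)) * 4,
    max ⌈(4 / (1 - |p|)) ^ (2 / α)⌉₊ 1, by positivity, fun n hn D hE hr hD ε hε i s hs => ?_⟩
  have hn1 : 1 ≤ n := (le_max_right _ _).trans hn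
  have hnR1 : (1 : ℝ) ≤ n := by exact_mod_cast hn1
  have hn0 : (0 : ℝ) < n := by linarith
  have hnT : (4 / (1 - |p|)) ^ (2 / α) ≤ (n : ℝ) := (Nat.le_ceil _).trans (by exact_mod_cast (le_max_left _ _).trans hn)
  have hr0 : 0 < D.r := hr ▸ hF.r0
  have hE' : |D.E| < 2 * Real.sqrt ((d : ℝ) - 1) := hE ▸ hF.bulk
  have hpD : enP d D.E = p := by rw [hE, hpdef]
  obtain ⟨δ, hδdef⟩ : ∃ δ : ℝ, δ = (n : ℝ) ^ (-(α / 2)) := ⟨_, rfl⟩
  rw [← hδdef] at hs ⊢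
  have hδ0 : 0 < δ := by rw [hδdef]; positivity
  have hδq : δ ≤ (1 - |p|) / 4 := by
    have h1 : ((4 / (1 - |p|)) ^ (2 / α)) ^ (α / 2) ≤ (n : ℝ) ^ (α / 2) := Real.rpow_le_rpow (by positivity) hnT (by positivity)
    rw [← Real.rpow_mul (by positivity), show 2 / α * (α / 2) = 1 by field_simp, Real.rpow_one] at h1
    rw [hδdef, Real.rpow_neg hn0.le]
    have h2 := inv_anti₀ (by positivity) h1
    rwa [inv_div] at h2
  have hδ1 : δ ≤ 1 := by have := abs_nonneg p; linarith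
  have hok0 := en_obs_ok hD hr0 hn1 hα.le (fun s : EnLoc D.G d => s.ed i) (fun s => (en_vx_inj D s).2 i) hε
  have hok : GmOk (fun s : EnLoc D.G d => D.obsB (s.ed i)) (fun s => D.obsΛ (s.ed i)) (fun s => D.obsM ε (s.ed i))
      (D.r * (((d : ℝ) + |D.E|) ^ 2 + D.η ^ 2) / D.η) ((D.r * D.η)⁻¹) (Real.sqrt (2 * ℓ) * (n : ℝ) ^ (α / 16)) :=
    ⟨hok0.lam0, hok0.sig0, hok0.inv, hok0.prec, hok0.cov, fun k => by
      have := en_e_obsM_le hD hε (k.ed i)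
      simpa using this⟩
  have hb01 : ∀ s, D.bad δ s = 0 ∨ D.bad δ s = 1 := by
    intro s; unfold EnData.bad; split_ifs <;> simp
  have hw01 : ∀ s, (1 - D.bad δ s = 0) ∨ (1 - D.bad δ s = 1) := by
    intro s; rcases hb01 s with e | e <;> rw [e] <;> simp
  have hex : ∃ s, 1 - D.bad δ s = 1 := ⟨s, by rw [hs]; simp⟩
  have h0 : ∀ k : EnLoc D.G d, 1 - D.bad δ k = 1 → ∀ x, gmQ (D.obsΛ (k.ed i)) x ≤ 2 / (1 - |p|) * gmSq x := by
    intro k hk x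
    have := en_e_typ_prec (δ := δ) hD hr0 hn1 (by rw [hpD]; exact hp1) (by rw [hpD]; exact hδq) k (by linarith) i x
    rwa [hpD] at this
  have hmod := gm_W_mod hok _ hw01 hex h0
  have hcmp := gm_cmp (enKr ℓ (enS2B d D.E)) (D.obsB (s.ed i)) (D.mE ε i s) (D.obsM ε (s.ed i))
    (ψ := fun y => - Real.log (gmMixW (fun s => 1 - D.bad δ s) (fun s : EnLoc D.G d => D.obsΛ (s.ed i)) (fun s => D.obsM ε (s.ed i)) y))
    (gm_z_W_meas _ _ _).log.neg (A := 2 / (1 - |p|)) (W := 2 * (Real.sqrt (2 * ℓ) * (n : ℝ) ^ (α / 16))) (δ := δ) (s := 4 * ℓ)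
    (μ₀ := 2 * Real.sqrt (2 * ℓ) * (n : ℝ) ^ (α / 16)) (by positivity) (by positivity)
    (fun y y' => by
      have := hmod y y'
      rwa [neg_sub_neg, abs_sub_comm])
    (en_e_typ_cov hD hr0 hn1 (by rw [hpD]; exact hp2) s hs i) hδ1
    (by rw [en_e_S2B_trace (by rw [hpD]; exact hp2)]
        have : (0 : ℝ) ≤ ℓ := by positivity
        linarith)
    (by have h1 := en_e_typ_trace hD hr0 hn1 s hs i
        have h2 : 2 * (ℓ : ℝ) * (1 + δ) ≤ 2 * ℓ * 2 := mul_le_mul_of_nonneg_left (by linarith) (by positivity)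
        linarith)
    (en_e_mE_le hD hn1 hF.d3 hE' hε i s)
    (by have h1 := en_e_obsM_le hD hε (s.ed i)
        have h2 : Real.sqrt ((Fintype.card Bool : ℕ) * ℓ) * (n : ℝ) ^ (α / 16) = Real.sqrt (2 * ℓ) * (n : ℝ) ^ (α / 16) := by simp
        rw [h2] at h1
        have h3 : 0 ≤ Real.sqrt (2 * ℓ) * (n : ℝ) ^ (α / 16) := by positivity
        linarith)
  have hle := (le_abs_self _).trans hcmp
  have hcard : (Fintype.card (Bool × Fin ℓ) : ℝ) = 2 * ℓ := by simp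
  rw [hcard] at hle
  have hsq : Real.sqrt δ = (n : ℝ) ^ (-(α / 4)) := by
    rw [hδdef, Real.sqrt_eq_rpow, ← Real.rpow_mul hn0.le]
    congr 1; ring
  have har := en_e_typ_ar (A := 2 / (1 - |p|)) (N1 := gmN (D.mE ε i s - D.obsM ε (s.ed i))) (sl := Real.sqrt (2 * ℓ)) (l := ℓ) (a := (n : ℝ) ^ (α / 16))
    (dl := Real.sqrt δ) (e1 := (n : ℝ) ^ (-(1 / 2 : ℝ)) * (n : ℝ) ^ (α / 16)) (W := 2 * (Real.sqrt (2 * ℓ) * (n : ℝ) ^ (α / 16)))
    (μ₀ := 2 * Real.sqrt (2 * ℓ) * (n : ℝ) ^ (α / 16)) (sd := Real.sqrt (4 * ℓ + 3 * (2 * ℓ : ℝ) ^ 2))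
    (by positivity) (by positivity) (by positivity) (Real.one_le_rpow hnR1 (by positivity)) (by positivity) (gm_N_nonneg _)
    (en_e_mE_sub hD hF.d3 hE' hε i s)
    (by rw [hsq, ← Real.rpow_add hn0]
        exact Real.rpow_le_rpow_of_exponent_le hnR1 (by linarith))
    rfl rfl (by positivity)
  have hfin : Real.sqrt δ * (n : ℝ) ^ (α / 16) = (n : ℝ) ^ (-(3 * α / 16)) := by
    rw [hsq, ← Real.rpow_add hn0]
    congr 1; ring
  rw [hfin] at har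
  linarith

/-- crude upper bound at ALL locations (`gm_log_bd`: `(D/2) log(2π sig) + lam E(|y| + mu)²/2`, `lam, sig, mu ≤ C n^α`) -/
theorem en_viii_up : ∃ C : ℝ, ∀ n : ℕ, 1 ≤ n → ∀ D : EnData n d ℓ, D.E = E → D.r = r → D.Ok γ α c₂ → ∀ ε ∈ Set.Icc (0 : ℝ) 1, ∀ i : Fin d, ∀ s : EnLoc D.G d,
    ∫ g, - Real.log (gmMix (fun s : EnLoc D.G d => D.obsΛ (s.ed i)) (fun s => D.obsM ε (s.ed i)) (D.mE ε i s + enKr ℓ (enS2B d D.E) *ᵥ g)) ∂(gmStd (Bool × Fin ℓ)) ≤ C * (n : ℝ) ^ (4 * α) := by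
  refine ⟨ℓ * (2 * Real.pi * r⁻¹) + r * (((d : ℝ) + |E|) ^ 2 + 1) * (12 * ℓ), fun n hn D hE hr hD ε hε i s => ?_⟩
  have : Nonempty (EnLoc D.G d) := ⟨s⟩
  have hα := hP.α0
  have hr0 : 0 < D.r := hr ▸ hF.r0
  have hE' : |D.E| < 2 * Real.sqrt ((d : ℝ) - 1) := hE ▸ hF.bulk
  have hp := en_p_lt hF.d3 hE'
  have hok := en_obs_ok hD hr0 hn hP.α0.le (fun s : EnLoc D.G d => s.ed i) (fun s => (en_vx_inj D s).2 i) hε
  have hprob : IsProbabilityMeasure (gmStd (Bool × Fin ℓ)) := by unfold gmStd; infer_instance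
  obtain ⟨hl, hsg, -, -⟩ := en_e_lam_le hD hP.α0.le hr0 hn
  set lam := D.r * (((d : ℝ) + |D.E|) ^ 2 + D.η ^ 2) / D.η with hlam
  set sig := (D.r * D.η)⁻¹ with hsig
  set mu := Real.sqrt ((Fintype.card Bool : ℕ) * ℓ) * (n : ℝ) ^ α with hmu
  have hlam0 : 0 < lam := hok.lam0
  have hsig0 : 0 < sig := hok.sig0
  have hc : (Fintype.card (Bool × Fin ℓ) : ℝ) / 2 = ℓ := by simp
  have hpt : ∀ y : Bool × Fin ℓ → ℝ, - Real.log (gmMix (fun s : EnLoc D.G d => D.obsΛ (s.ed i)) (fun s => D.obsM ε (s.ed i)) y)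
      ≤ (ℓ * Real.log (2 * Real.pi * sig) + lam * mu ^ 2) + lam * gmSq y := by
    intro y
    have h1 := (gm_log_bd hok y).2
    rw [hc] at h1
    have h2 : (gmN y + mu) ^ 2 ≤ 2 * gmSq y + 2 * mu ^ 2 := by
      rw [← gm_N_sq y]; nlinarith [sq_nonneg (gmN y - mu)]
    have h3 := mul_le_mul_of_nonneg_left h2 hlam0.le
    linarith
  have hint : Integrable (fun g => (ℓ * Real.log (2 * Real.pi * sig) + lam * mu ^ 2) + lam * gmSq (D.mE ε i s + enKr ℓ (enS2B d D.E) *ᵥ g)) (gmStd (Bool × Fin ℓ)) :=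
    ((GmPoly.const _).add ((GmPoly.const lam).mul GmPoly.sq)).int (D.mE ε i s) (enKr ℓ (enS2B d D.E))
  have h2 := integral_mono ((gm_log_poly hok).neg.int (D.mE ε i s) (enKr ℓ (enS2B d D.E))) hint (fun g => hpt _)
  refine h2.trans ?_
  have hint2 : Integrable (fun g => gmSq (D.mE ε i s + enKr ℓ (enS2B d D.E) *ᵥ g)) (gmStd (Bool × Fin ℓ)) := GmPoly.sq.int _ _
  rw [integral_add (integrable_const _) (hint2.const_mul _), integral_const, probReal_univ, one_smul, integral_const_mul, gm_mom2_aff, en_e_S2B_trace hp]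
  -- arithmetic
  have hn1 : (1 : ℝ) ≤ n := by exact_mod_cast hn
  have hn0 : (0 : ℝ) < n := by linarith
  have q1 : (n : ℝ) ^ α ≤ (n : ℝ) ^ (4 * α) := Real.rpow_le_rpow_of_exponent_le hn1 (by linarith)
  have q2 : (n : ℝ) ^ α * (n : ℝ) ^ (2 * α) ≤ (n : ℝ) ^ (4 * α) := by
    rw [← Real.rpow_add hn0]; exact Real.rpow_le_rpow_of_exponent_le hn1 (by linarith)
  have q3 : (1 : ℝ) ≤ (n : ℝ) ^ (2 * α) := Real.one_le_rpow hn1 (by linarith)
  have m1 : gmSq (D.mE ε i s) ≤ 8 * ℓ * (n : ℝ) ^ (2 * α) := by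
    have a1 := en_e_mE_le hD hn hF.d3 hE' hε i s
    have a2 := pow_le_pow_left₀ (gm_N_nonneg _) a1 2
    rw [gm_N_sq, mul_pow, mul_pow, Real.sq_sqrt (by positivity), ← Real.rpow_natCast ((n : ℝ) ^ (α / 16)) 2, ← Real.rpow_mul hn0.le] at a2
    have a3 : (n : ℝ) ^ (α / 16 * ((2 : ℕ) : ℝ)) ≤ (n : ℝ) ^ (2 * α) := Real.rpow_le_rpow_of_exponent_le hn1 (by push_cast; linarith)
    have a4 := mul_le_mul_of_nonneg_left a3 (by positivity : (0 : ℝ) ≤ 2 ^ 2 * (2 * (ℓ : ℝ)))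
    linarith
  have m2 : mu ^ 2 = 2 * ℓ * (n : ℝ) ^ (2 * α) := by
    rw [hmu, mul_pow, Real.sq_sqrt (by positivity), ← Real.rpow_natCast ((n : ℝ) ^ α) 2, ← Real.rpow_mul hn0.le]
    simp [mul_comm]
  have m3 : Real.log (2 * Real.pi * sig) ≤ 2 * Real.pi * D.r⁻¹ * (n : ℝ) ^ α := by
    have := Real.log_le_sub_one_of_pos (by positivity : 0 < 2 * Real.pi * sig)
    rw [hsg] at this ⊢
    linarith
  have m4 : (ℓ : ℝ) * Real.log (2 * Real.pi * sig) ≤ ℓ * (2 * Real.pi * D.r⁻¹) * (n : ℝ) ^ (4 * α) := by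
    calc (ℓ : ℝ) * Real.log (2 * Real.pi * sig) ≤ ℓ * (2 * Real.pi * D.r⁻¹ * (n : ℝ) ^ α) := mul_le_mul_of_nonneg_left m3 (by positivity)
      _ = ℓ * (2 * Real.pi * D.r⁻¹) * (n : ℝ) ^ α := by ring
      _ ≤ _ := mul_le_mul_of_nonneg_left q1 (by positivity)
  have m5 : mu ^ 2 + (gmSq (D.mE ε i s) + 2 * ℓ) ≤ 12 * ℓ * (n : ℝ) ^ (2 * α) := by
    have : (2 : ℝ) * ℓ ≤ 2 * ℓ * (n : ℝ) ^ (2 * α) := le_mul_of_one_le_right (by positivity) q3
    rw [m2]; linarith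
  have m6 : lam * (mu ^ 2 + (gmSq (D.mE ε i s) + 2 * ℓ)) ≤ D.r * (((d : ℝ) + |D.E|) ^ 2 + 1) * (12 * ℓ) * (n : ℝ) ^ (4 * α) := by
    calc lam * (mu ^ 2 + (gmSq (D.mE ε i s) + 2 * ℓ)) ≤ (D.r * (((d : ℝ) + |D.E|) ^ 2 + 1) * (n : ℝ) ^ α) * (12 * ℓ * (n : ℝ) ^ (2 * α)) :=
          mul_le_mul hl m5 (by have := gm_Sq_nonneg (D.mE ε i s); positivity) (by positivity)
      _ = D.r * (((d : ℝ) + |D.E|) ^ 2 + 1) * (12 * ℓ) * ((n : ℝ) ^ α * (n : ℝ) ^ (2 * α)) := by ring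
      _ ≤ _ := mul_le_mul_of_nonneg_left q2 (by positivity)
  rw [← hE, ← hr, add_mul]
  linarith

/-- crude lower bound at ALL locations (`gm_log_bd`: `- log f ≥ (D/2) log(2π/lam) ≥ - C n^α`) -/
theorem en_viii_lo : ∃ C : ℝ, ∀ n : ℕ, 1 ≤ n → ∀ D : EnData n d ℓ, D.E = E → D.r = r → D.Ok γ α c₂ → ∀ ε ∈ Set.Icc (0 : ℝ) 1, ∀ i : Fin d, ∀ s : EnLoc D.G d,
    -(C * (n : ℝ) ^ α) ≤ ∫ g, - Real.log (gmMix (fun s : EnLoc D.G d => D.obsΛ (s.ed i)) (fun s => D.obsM ε (s.ed i)) (D.obsM ε (s.ed i) + D.obsB (s.ed i) *ᵥ g)) ∂(gmStd (Fin n × Fin ℓ)) := by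
  refine ⟨ℓ * (r * (((d : ℝ) + |E|) ^ 2 + 1)), fun n hn D hE hr hD ε hε i s => ?_⟩
  have : Nonempty (EnLoc D.G d) := ⟨s⟩
  have hr0 : 0 < D.r := hr ▸ hF.r0
  have hok := en_obs_ok hD hr0 hn hP.α0.le (fun s : EnLoc D.G d => s.ed i) (fun s => (en_vx_inj D s).2 i) hε
  have hprob : IsProbabilityMeasure (gmStd (Fin n × Fin ℓ)) := by unfold gmStd; infer_instance
  obtain ⟨hl, -, -, -⟩ := en_e_lam_le hD hP.α0.le hr0 hn
  have h2 := integral_mono (integrable_const _) ((gm_log_poly hok).neg.int (D.obsM ε (s.ed i)) (D.obsB (s.ed i))) (fun g => (gm_log_bd hok (D.obsM ε (s.ed i) + D.obsB (s.ed i) *ᵥ g)).1)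
  rw [integral_const, probReal_univ, one_smul] at h2
  refine le_trans ?_ h2
  set lam := D.r * (((d : ℝ) + |D.E|) ^ 2 + D.η ^ 2) / D.η with hlam
  have hlam0 : 0 < lam := hok.lam0
  have h3 : - lam ≤ Real.log (2 * Real.pi / lam) := by
    rw [Real.log_div (by positivity) hlam0.ne']
    have a1 : 0 ≤ Real.log (2 * Real.pi) := Real.log_nonneg (by nlinarith [Real.pi_gt_three])
    have a2 := Real.log_le_sub_one_of_pos hlam0
    linarith
  have hc : (Fintype.card (Bool × Fin ℓ) : ℝ) / 2 = ℓ := by simp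
  rw [hc, ← hE, ← hr]
  have h4 : (ℓ : ℝ) * (- lam) ≤ ℓ * Real.log (2 * Real.pi / lam) := mul_le_mul_of_nonneg_left h3 (by positivity)
  have h5 : (ℓ : ℝ) * lam ≤ ℓ * (D.r * (((d : ℝ) + |D.E|) ^ 2 + 1) * (n : ℝ) ^ α) := mul_le_mul_of_nonneg_left hl (by positivity)
  nlinarith

/-- comparison for the edge = ARITHMETIC OF AVERAGES.   `a_s = ∫ -log f(y'_s)`, `a⁰_s = ∫ -log f₀(y'_s)`, `b⁰_s = ∫ -log f₀(y_s)`, `b_s = ∫ -log f(y_s)`, `w = 1 - bad`, `β = avg bad ≤ n^-c₂`: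
`a_s ≤ w_s a⁰_s + (1 - w_s) C n^{4α}` (`f ≥ f₀`: `gm_W_le`; `en_viii_up`);  `w_s a⁰_s ≤ w_s (b⁰_s + C n^-c)` (`en_viii_typ`);  `avg w b⁰ ≤ avg w b + β` (`gm_W_loss`);  `avg w b = HE - avg (1-w) b ≤ HE + β C n^α` (`en_viii_lo`);  `16 α ≤ c₂` -/
theorem en_viii_cmp : EnLeaf d ℓ E r γ α c₂
    (fun _ D ε i => gmE (fun _ : EnLoc D.G d => enKr ℓ (enS2B d D.E)) (fun s => D.mE ε i s)
      fun y => - Real.log (gmMix (fun s : EnLoc D.G d => D.obsΛ (s.ed i)) (fun s => D.obsM ε (s.ed i)) y))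
    (fun _ D ε i => D.HE ε i) := by
  obtain ⟨ct, Ct, nt, hct, Ht⟩ := en_viii_typ hF hP
  obtain ⟨Cu, Hu⟩ := en_viii_up hF hP
  obtain ⟨Cl, Hl⟩ := en_viii_lo hF hP
  have hα := hP.α0
  have hαc := hP.αc
  refine ⟨min ct (12 * α), |Ct| + |Cu| + |Cl| + 1, max nt 2, lt_min hct (by linarith), fun n hn D hE hr hD ε hε i => ?_⟩
  have hnt : nt ≤ n := (le_max_left _ _).trans hn
  have hn2 : 2 ≤ n := (le_max_right _ _).trans hn
  have hn1 : 1 ≤ n := by omega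
  have hnR : (1 : ℝ) < n := by exact_mod_cast hn2
  have : Nonempty (EnLoc D.G d) := en_loc_nonempty hD.reg hn1
  have hr0 : 0 < D.r := hr ▸ hF.r0
  have hok := en_obs_ok hD hr0 hn1 hP.α0.le (fun s : EnLoc D.G d => s.ed i) (fun s => (en_vx_inj D s).2 i) hε
  have hb01 : ∀ s, D.bad ((n : ℝ) ^ (-(α / 2))) s = 0 ∨ D.bad ((n : ℝ) ^ (-(α / 2))) s = 1 := by
    intro s; unfold EnData.bad; split_ifs <;> simp
  have hw01 : ∀ s, (1 - D.bad ((n : ℝ) ^ (-(α / 2))) s = 0) ∨ (1 - D.bad ((n : ℝ) ^ (-(α / 2))) s = 1) := by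
    intro s; rcases hb01 s with e | e <;> rw [e] <;> simp
  have hβ := hD.typ
  have hβ0 : 0 ≤ enAvg (fun s : EnLoc D.G d => D.bad ((n : ℝ) ^ (-(α / 2))) s) :=
    en_Avg_nonneg fun s => by rcases hb01 s with e | e <;> rw [e] <;> norm_num
  have hex : ∃ s, 1 - D.bad ((n : ℝ) ^ (-(α / 2))) s = 1 := by
    by_contra hcon
    push Not at hcon
    have h1 : ∀ s, D.bad ((n : ℝ) ^ (-(α / 2))) s = 1 := fun s => by
      rcases hb01 s with e | e
      · exact absurd (by rw [e]; simp) (hcon s)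
      · exact e
    have h2 : enAvg (fun s : EnLoc D.G d => D.bad ((n : ℝ) ^ (-(α / 2))) s) = 1 := by
      simp only [h1]; exact en_Avg_const 1
    rw [h2] at hβ
    have : (n : ℝ) ^ (-c₂) < 1 := Real.rpow_lt_one_of_one_lt_of_neg hnR (by linarith)
    linarith
  have hloss := gm_W_loss hok _ hw01 hex
  obtain ⟨Cp, hCp⟩ := gm_z_W_poly hok _ hw01 hex
  have hpoly0 : GmPoly fun y => Real.log (gmMixW (fun s => 1 - D.bad ((n : ℝ) ^ (-(α / 2))) s) (fun s : EnLoc D.G d => D.obsΛ (s.ed i)) (fun s => D.obsM ε (s.ed i)) y) :=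
    ⟨(gm_z_W_meas _ _ _).log, Cp, 1, hCp⟩
  have hpoly := gm_log_poly hok
  -- powers of n
  have hn0 : (0 : ℝ) < n := by linarith
  set c' := min ct (12 * α) with hc'
  have p0 : (0 : ℝ) < (n : ℝ) ^ (-c') := by positivity
  have p1 : (n : ℝ) ^ (-ct) ≤ (n : ℝ) ^ (-c') := en_rpow_le hn1 (min_le_left _ _)
  have p2 : (n : ℝ) ^ (-c₂) * (n : ℝ) ^ (4 * α) ≤ (n : ℝ) ^ (-c') := by
    rw [← Real.rpow_add hn0]
    exact Real.rpow_le_rpow_of_exponent_le hnR.le (by have := min_le_right ct (12 * α); linarith)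
  have p3 : (n : ℝ) ^ (-c₂) * (n : ℝ) ^ α ≤ (n : ℝ) ^ (-c') := by
    rw [← Real.rpow_add hn0]
    exact Real.rpow_le_rpow_of_exponent_le hnR.le (by have := min_le_right ct (12 * α); linarith)
  have p4 : (n : ℝ) ^ (-c₂) ≤ (n : ℝ) ^ (-c') :=
    Real.rpow_le_rpow_of_exponent_le hnR.le (by have := min_le_right ct (12 * α); linarith)
  -- pointwise in s
  have s1 : ∀ s : EnLoc D.G d,
      ∫ g, - Real.log (gmMix (fun s : EnLoc D.G d => D.obsΛ (s.ed i)) (fun s => D.obsM ε (s.ed i)) (D.mE ε i s + enKr ℓ (enS2B d D.E) *ᵥ g)) ∂(gmStd (Bool × Fin ℓ))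
        ≤ (1 - D.bad ((n : ℝ) ^ (-(α / 2))) s) * (∫ g, - Real.log (gmMixW (fun s => 1 - D.bad ((n : ℝ) ^ (-(α / 2))) s) (fun s : EnLoc D.G d => D.obsΛ (s.ed i)) (fun s => D.obsM ε (s.ed i)) (D.obsM ε (s.ed i) + D.obsB (s.ed i) *ᵥ g)) ∂(gmStd (Fin n × Fin ℓ)))
          + (|Ct| * (n : ℝ) ^ (-ct) + D.bad ((n : ℝ) ^ (-(α / 2))) s * (|Cu| * (n : ℝ) ^ (4 * α))) := by
    intro s
    have q0 : 0 ≤ |Ct| * (n : ℝ) ^ (-ct) := by positivity
    rcases hb01 s with e | e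
    · have t1 := Ht n hnt D hE hr hD ε hε i s e
      have t2 : ∫ g, - Real.log (gmMix (fun s : EnLoc D.G d => D.obsΛ (s.ed i)) (fun s => D.obsM ε (s.ed i)) (D.mE ε i s + enKr ℓ (enS2B d D.E) *ᵥ g)) ∂(gmStd (Bool × Fin ℓ))
          ≤ ∫ g, - Real.log (gmMixW (fun s => 1 - D.bad ((n : ℝ) ^ (-(α / 2))) s) (fun s : EnLoc D.G d => D.obsΛ (s.ed i)) (fun s => D.obsM ε (s.ed i)) (D.mE ε i s + enKr ℓ (enS2B d D.E) *ᵥ g)) ∂(gmStd (Bool × Fin ℓ)) := by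
        refine integral_mono (hpoly.neg.int _ _) (hpoly0.neg.int _ _) fun g => ?_
        obtain ⟨u1, u2⟩ := gm_W_le hok _ hw01 hex (D.mE ε i s + enKr ℓ (enS2B d D.E) *ᵥ g)
        exact neg_le_neg (Real.log_le_log u1 u2)
      have t3 : Ct * (n : ℝ) ^ (-ct) ≤ |Ct| * (n : ℝ) ^ (-ct) := mul_le_mul_of_nonneg_right (le_abs_self _) (by positivity)
      rw [e]
      linarith
    · have t1 := Hu n hn1 D hE hr hD ε hε i s
      have t3 : Cu * (n : ℝ) ^ (4 * α) ≤ |Cu| * (n : ℝ) ^ (4 * α) := mul_le_mul_of_nonneg_right (le_abs_self _) (by positivity)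
      rw [e]
      linarith
  have s2 : ∀ s : EnLoc D.G d,
      (1 - D.bad ((n : ℝ) ^ (-(α / 2))) s) * (∫ g, - Real.log (gmMix (fun s : EnLoc D.G d => D.obsΛ (s.ed i)) (fun s => D.obsM ε (s.ed i)) (D.obsM ε (s.ed i) + D.obsB (s.ed i) *ᵥ g)) ∂(gmStd (Fin n × Fin ℓ)))
        ≤ (∫ g, - Real.log (gmMix (fun s : EnLoc D.G d => D.obsΛ (s.ed i)) (fun s => D.obsM ε (s.ed i)) (D.obsM ε (s.ed i) + D.obsB (s.ed i) *ᵥ g)) ∂(gmStd (Fin n × Fin ℓ)))
          + D.bad ((n : ℝ) ^ (-(α / 2))) s * (|Cl| * (n : ℝ) ^ α) := by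
    intro s
    have t1 := Hl n hn1 D hE hr hD ε hε i s
    have t3 : Cl * (n : ℝ) ^ α ≤ |Cl| * (n : ℝ) ^ α := mul_le_mul_of_nonneg_right (le_abs_self _) (by positivity)
    rcases hb01 s with e | e <;> rw [e] <;> linarith
  have a1 := en_Avg_mono s1
  have a2 := en_Avg_mono s2
  rw [en_Avg_add, en_Avg_add, en_Avg_const] at a1
  rw [en_Avg_add] at a2
  have m1 : enAvg (fun s : EnLoc D.G d => D.bad ((n : ℝ) ^ (-(α / 2))) s * (|Cu| * (n : ℝ) ^ (4 * α))) = (|Cu| * (n : ℝ) ^ (4 * α)) * enAvg (fun s : EnLoc D.G d => D.bad ((n : ℝ) ^ (-(α / 2))) s) := by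
    rw [← en_Avg_mul]; congr 1; funext s; ring
  have m2 : enAvg (fun s : EnLoc D.G d => D.bad ((n : ℝ) ^ (-(α / 2))) s * (|Cl| * (n : ℝ) ^ α)) = (|Cl| * (n : ℝ) ^ α) * enAvg (fun s : EnLoc D.G d => D.bad ((n : ℝ) ^ (-(α / 2))) s) := by
    rw [← en_Avg_mul]; congr 1; funext s; ring
  have m3 : enAvg (fun s : EnLoc D.G d => 1 - (1 - D.bad ((n : ℝ) ^ (-(α / 2))) s)) = enAvg (fun s : EnLoc D.G d => D.bad ((n : ℝ) ^ (-(α / 2))) s) := by
    congr 1; funext s; ring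
  rw [m1] at a1
  rw [m2] at a2
  rw [m3] at hloss
  set β := enAvg (fun s : EnLoc D.G d => D.bad ((n : ℝ) ^ (-(α / 2))) s) with hβdef
  have z1 : (|Cu| * (n : ℝ) ^ (4 * α)) * β ≤ |Cu| * (n : ℝ) ^ (-c') := by
    calc (|Cu| * (n : ℝ) ^ (4 * α)) * β ≤ (|Cu| * (n : ℝ) ^ (4 * α)) * (n : ℝ) ^ (-c₂) := mul_le_mul_of_nonneg_left hβ (by positivity)
      _ = |Cu| * ((n : ℝ) ^ (-c₂) * (n : ℝ) ^ (4 * α)) := by ring
      _ ≤ _ := mul_le_mul_of_nonneg_left p2 (abs_nonneg _)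
  have z2 : (|Cl| * (n : ℝ) ^ α) * β ≤ |Cl| * (n : ℝ) ^ (-c') := by
    calc (|Cl| * (n : ℝ) ^ α) * β ≤ (|Cl| * (n : ℝ) ^ α) * (n : ℝ) ^ (-c₂) := mul_le_mul_of_nonneg_left hβ (by positivity)
      _ = |Cl| * ((n : ℝ) ^ (-c₂) * (n : ℝ) ^ α) := by ring
      _ ≤ _ := mul_le_mul_of_nonneg_left p3 (abs_nonneg _)
  have z3 : |Ct| * (n : ℝ) ^ (-ct) ≤ |Ct| * (n : ℝ) ^ (-c') := mul_le_mul_of_nonneg_left p1 (abs_nonneg _)
  have z4 : β ≤ (n : ℝ) ^ (-c') := hβ.trans p4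
  show enAvg _ ≤ enAvg _ + _
  simp only [add_mul, one_mul]
  linarith

/-- LEAF (viii) = ASSEMBLY: `en_viii_id`, `gm_gibbs` (`en_viii_ok`, `en_obs_ok`), `en_viii_cmp`.      Original plan: Gibbs the other way: `H(ideal edge mixture) ≤ - ∫ (ideal) log f_edge`, then the coupling -/
theorem en_viii : EnLeaf d ℓ E r γ α c₂
    (fun _ D ε i => ℓ * Real.log (2 * Real.pi) + (ℓ : ℝ) / 2 * Real.log (1 - enP d E ^ 2) + ℓ
      + ε ^ 2 / 2 * enAvg (fun s => gmSq (enPi i (D.BV s))) - enEnt (fun s => ε • enPi i (D.BV s)))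
    (fun _ D ε i => D.HE ε i) := by
  obtain ⟨c, C, n₀, hc, H⟩ := en_viii_cmp hF hP
  refine ⟨c, C, max n₀ 1, hc, fun n hn D hE hr hD ε hε i => ?_⟩
  have hn1 : 1 ≤ n := (le_max_right _ _).trans hn
  have : Nonempty (EnLoc D.G d) := en_loc_nonempty hD.reg hn1
  have hE' : |D.E| < 2 * Real.sqrt ((d : ℝ) - 1) := hE ▸ hF.bulk
  have hr0 : 0 < D.r := hr ▸ hF.r0
  have h1 := en_viii_id D hF.d3 hE' ε i
  obtain ⟨mu, hmu⟩ : ∃ mu : ℝ, ∀ s, gmN (D.mE ε i s) ≤ mu :=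
    ⟨∑ s, gmN (D.mE ε i s), fun s => Finset.single_le_sum (f := fun s => gmN (D.mE ε i s)) (fun s _ => gm_N_nonneg _) (Finset.mem_univ s)⟩
  have h2 := gm_gibbs (en_viii_ok D hF.d3 hE' ε i hmu) (en_obs_ok hD hr0 hn1 hP.α0.le (fun s : EnLoc D.G d => s.ed i) (fun s => (en_vx_inj D s).2 i) hε)
  have h3 := H n ((le_max_left _ _).trans hn) D hE hr hD ε hε i
  simp only at h3 ⊢
  rw [h1] at h2
  rw [← hE]
  linarith

/-! ### FINAL GLUE -/

/-- **EXIT of the chain** (P1 (3.11) in relative entropy form):   `Ent(ε B_V) - (d/2) Ent(ε P_i B_V) ≤ C n^-c` -/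
theorem en_exit : EnLeaf d ℓ E r γ α c₂
    (fun _ D ε i => enEnt (fun s => ε • D.BV s) - (d : ℝ) / 2 * enEnt (fun s => ε • enPi i (D.BV s)))
    (fun _ _ _ _ => 0) := by
  have hd0 : ∀ ε ∈ Set.Icc (0 : ℝ) 1, 0 ≤ (fun _ : ℝ => (d : ℝ) / 2) ε ∧ (fun _ : ℝ => (d : ℝ) / 2) ε ≤ (d : ℝ) / 2 :=
    fun _ _ => ⟨by positivity, le_rfl⟩
  have hε0 : ∀ ε ∈ Set.Icc (0 : ℝ) 1, 0 ≤ (fun ε : ℝ => ε ^ 2 / 2) ε ∧ (fun ε : ℝ => ε ^ 2 / 2) ε ≤ 1 :=
    fun ε hε => ⟨by positivity, by have := hε.1; have := hε.2; simp only; nlinarith⟩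
  -- lower bound of `HS - (d/2) HE`
  have A1 := ((en_det hF hP).add (EnLeaf.of_le (E := E) (r := r) (γ := γ) (α := α) (c₂ := c₂)
    (a := fun _ (D : EnData _ d ℓ) _ _ => ℓ * (- Real.log D.b + Real.log (2 * Real.pi * Real.exp 1) / 2))
    (b := fun _ (D : EnData _ d ℓ) _ _ => ℓ * (- Real.log D.b + Real.log (2 * Real.pi * Real.exp 1) / 2)) (fun _ _ _ _ => le_rfl)))
  have A2 := (en_i hF hP).trans (en_ii hF hP)
  have A3 := ((en_iii hF hP).mul _ _ hd0)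
  have A4 := ((en_v hF hP).mul _ _ hd0)
  have A5 := ((en_viii hF hP).mul _ _ hd0)
  have A6 := ((en_mom hF hP).mul _ _ hε0)
  have S := ((((((A1.add A2).add A3).add A4).add A5).add A6).add (en_iv hF hP)).add (en_vi hF hP)
  obtain ⟨c, C, n₀, hc, H⟩ := S
  refine ⟨c, C, n₀, hc, fun n hn D hE hr hD ε hε i => ?_⟩
  have h := H n hn D hE hr hD ε hε i
  have e1 : Real.log (2 * Real.pi * Real.exp 1) = Real.log (2 * Real.pi) + 1 := by
    rw [Real.log_mul (by positivity) (Real.exp_pos 1).ne', Real.log_exp]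
  simp only [e1, enU] at h
  linarith

/-- **EXIT of the unit ENT**: the hypotheses of the Gaussian criterion for `B = B_V`.      `S` = ANY bound `≥ 1` of the sup norm of the eigenvectors (the exponent `c` does not depend on it; `D.Ok` asks `S ≤ n^α` only implicitly) -/
theorem en_out (q : ℕ) : ∃ c C : ℝ, ∃ n₀ : ℕ, 0 < c ∧ ∀ n : ℕ, n₀ ≤ n → ∀ D : EnData n d ℓ, D.E = E → D.r = r → D.Ok γ α c₂ →
    ∀ S : ℝ, 1 ≤ S → (∀ v j, |D.V v j| ≤ S) → EnOut d ℓ E D.BV (C * S) (C * (n : ℝ) ^ (-c) * S ^ q) q := by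
  obtain ⟨c, C1, n1, hc, H1⟩ := en_exit hF hP
  obtain ⟨C2, H2⟩ := en_sup (ℓ := ℓ) hF
  obtain ⟨n3, H3⟩ := en_mean hF hP
  obtain ⟨C4, n4, H4⟩ := en_cov hF hP
  obtain ⟨C5, n5, H5⟩ := en_rev hF hP q
  refine ⟨min c (1 / 2), |C1| + |C2| + |C4| + |C5|, max (max (max n1 n3) (max n4 n5)) 1, lt_min hc (by norm_num), fun n hn D hE hr hD S hS hV => ?_⟩
  have hn1 : n1 ≤ n := le_trans (by simp) hn
  have hn3 : n3 ≤ n := le_trans (by simp) hn
  have hn4 : n4 ≤ n := le_trans (by simp) hn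
  have hn5 : n5 ≤ n := le_trans (by simp) hn
  have hn0 : 1 ≤ n := le_trans (by simp) hn
  have hSq : (1 : ℝ) ≤ S ^ q := one_le_pow₀ hS
  have pc := en_rpow_le hn0 (min_le_left c (1 / 2))
  have ph := en_rpow_le hn0 (min_le_right c (1 / 2))
  have z0 : (0 : ℝ) ≤ (n : ℝ) ^ (-(min c (1 / 2))) := by positivity
  have zc : (0 : ℝ) ≤ (n : ℝ) ^ (-c) := by positivity
  have zh : (0 : ℝ) ≤ (n : ℝ) ^ (-(1 / 2 : ℝ)) := by positivity
  -- a bound `X n^-c' ≤ (sum of the constants) n^-min S^q`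
  have key : ∀ (X c' : ℝ), |X| ≤ |C1| + |C2| + |C4| + |C5| → (n : ℝ) ^ (-c') ≤ (n : ℝ) ^ (-(min c (1 / 2))) → 0 ≤ (n : ℝ) ^ (-c') →
      X * (n : ℝ) ^ (-c') ≤ (|C1| + |C2| + |C4| + |C5|) * (n : ℝ) ^ (-(min c (1 / 2))) * S ^ q := by
    intro X c' hX hle h0
    have a1 : X * (n : ℝ) ^ (-c') ≤ (|C1| + |C2| + |C4| + |C5|) * (n : ℝ) ^ (-(min c (1 / 2))) :=
      (mul_le_mul_of_nonneg_right ((le_abs_self X).trans hX) h0).trans (mul_le_mul_of_nonneg_left hle (by positivity))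
    exact a1.trans (le_mul_of_one_le_right (by positivity) hSq)
  have b1 : |C1| ≤ |C1| + |C2| + |C4| + |C5| := by have := abs_nonneg C2; have := abs_nonneg C4; have := abs_nonneg C5; linarith
  have b2 : |C2| ≤ |C1| + |C2| + |C4| + |C5| := by have := abs_nonneg C1; have := abs_nonneg C4; have := abs_nonneg C5; linarith
  have b4 : |C4| ≤ |C1| + |C2| + |C4| + |C5| := by have := abs_nonneg C1; have := abs_nonneg C2; have := abs_nonneg C5; linarith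
  have b5 : |C5| ≤ |C1| + |C2| + |C4| + |C5| := by have := abs_nonneg C1; have := abs_nonneg C2; have := abs_nonneg C4; linarith
  refine ⟨fun s x => (H2 n D hE S hV s x).trans (mul_le_mul_of_nonneg_right ((le_abs_self C2).trans b2) (by linarith)),
    H3 n hn3 D hE hr hD, fun x y => (H4 n hn4 D hE hr hD x y).trans (key C4 _ b4 ph zh), fun i m hm t cc => ?_, fun ε hε i => ?_⟩
  · refine (H5 n hn5 D hE hr hD S hS hV i m hm t cc).trans ?_
    refine mul_le_mul_of_nonneg_right ?_ (by positivity)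
    exact (mul_le_mul_of_nonneg_right ((le_abs_self C5).trans b5) zh).trans (mul_le_mul_of_nonneg_left ph (by positivity))
  · have h := H1 n hn1 D hE hr hD ε hε i
    simp only [zero_add] at h
    exact h.trans (key C1 _ b1 pc zc)

end leaves

theorem en_gibbs_eqns_cite : True := by
  have := @enBm.eq_1
  have := @enCB.eq_1
  have := @enWm.eq_1
  have := @enRm.eq_1
  have := @enRm.eq_2
  have := @enMh.eq_1
  have := @enKr.eq_1
  have := @EnData.psiS.eq_1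
  have := @enW.eq_1
  have := @enS2B.eq_1
  have := @enS2L.eq_1
  have := @EnData.mE.eq_1
  have := @gmMixW.eq_1
  trivial

end

end Claimed.Agent.R287
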