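-- KEEP
import Claimed.Agent.R287.Ent.Cnt
import Claimed.Agent.R287.Ent.Loc
import Claimed.Agent.R287.X123

/-!
# Row 287 (S0534), unit ENT, sub-unit IMP: from the exports X1, X2, X3 of B1 and Lemma 3.2 to `EnData.Ok`      HEAD helper277.   Prefix `en_imp_`, `en_whp_`.
EXIT `en_import` (consumer: `gau_import` of `R287/GauC.lean`, helper283).
  graph event `EnEv`:  (a) `Im G_vv(E + i n^{-1+2ε₁}) ≤ C` (X1);  (b) all but `n^{1-c₂}` centres have `rgStD ≤ n^{-2α}` at `z = E + i n^-α` (X2 + Markov);  (c) one sided potential (X3);  (d) `EnTypeOk` (`en_type'`).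
  `en_imp_whp` : choice of the exponents, `RgWhp d EnEv`.        `en_imp_det` : deterministic, `EnEv` ⟹ sup norm + `EnData.Ok`.
ORDER OF THE CONSTANTS:  `c_B, h` (X2), `c, α₀` (X3)  →  `c₂ = min (1/2) (min (c_B'/2) c)`, `c_B' = min c_B 1`  →  `γ = 1/(64 (ℓ+1) (d+1))`  →  `α = min (γ/16) (min (c₂/16) α₀)`  →  `ε₁ ≤ α/32`  →  `C` (X1 at `ε = 2 ε₁`).
-/

set_option autoImplicit false

namespace Claimed.Agent.R287

open Claims.C0462 Matrix

noncomputable section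

/-! ### "with high probability" -/

theorem en_whp_mono {d : ℕ} {S S' : (n : ℕ) → Gr n → Prop} (h : RgWhp d S) (N₀ : ℕ) (himp : ∀ n, N₀ ≤ n → ∀ G ∈ regularGraphs n d, S n G → S' n G) : RgWhp d S' := by
  intro δ hδ
  obtain ⟨N, hN⟩ := h δ hδ
  exact ⟨max N N₀, fun n hn hne => (hN n ((le_max_left _ _).trans hn) hne).trans (rg_P_mono (himp n ((le_max_right _ _).trans hn)))⟩

/-- intersection (`δ/2` each; `rg_P_not`, `rg_P_or`) -/
theorem en_whp_and {d : ℕ} {S S' : (n : ℕ) → Gr n → Prop} (h : RgWhp d S) (h' : RgWhp d S') : RgWhp d fun n G => S n G ∧ S' n G := by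
  intro δ hδ
  obtain ⟨N, hN⟩ := h (δ / 2) (by positivity)
  obtain ⟨N', hN'⟩ := h' (δ / 2) (by positivity)
  refine ⟨max N N', fun n hn hne => ?_⟩
  have h1 := hN n ((le_max_left _ _).trans hn) hne
  have h2 := hN' n ((le_max_right _ _).trans hn) hne
  have h3 := rg_P_not hne (fun G => S n G ∧ S' n G)
  have h4 : rgP n d (fun G => ¬ (S n G ∧ S' n G)) ≤ rgP n d (fun G => ¬ S n G ∨ ¬ S' n G) :=
    rg_P_mono fun G _ hG => by
      by_cases hs : S n G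
      · exact Or.inr fun hs' => hG ⟨hs, hs'⟩
      · exact Or.inl hs
  have h5 := rg_P_or (n := n) (d := d) (fun G => ¬ S n G) (fun G => ¬ S' n G)
  have h6 := rg_P_not hne (S n)
  have h7 := rg_P_not hne (S' n)
  linarith

open Classical in
/-- from a count of the exceptional graphs -/
theorem en_whp_card {d : ℕ} {S : (n : ℕ) → Gr n → Prop} (h : ∃ n₀ : ℕ, ∀ n : ℕ, n₀ ≤ n →
    (((regularGraphs n d).filter fun G => ¬ S n G).card : ℝ) ≤ (n : ℝ)⁻¹ * ((regularGraphs n d).card : ℝ)) : RgWhp d S := by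
  obtain ⟨n₀, h⟩ := h
  intro δ hδ
  obtain ⟨N, hN⟩ := exists_nat_gt (1 / δ)
  refine ⟨max (max n₀ N) 1, fun n hn hne => ?_⟩
  have hn0 : n₀ ≤ n := ((le_max_left _ _).trans (le_max_left _ _)).trans hn
  have hnN : N ≤ n := ((le_max_right _ _).trans (le_max_left _ _)).trans hn
  have hn1 : 1 ≤ n := (le_max_right _ _).trans hn
  have h1 := h n hn0
  have h2 := rg_P_not hne (S n)
  have hc : (0 : ℝ) < ((regularGraphs n d).card : ℝ) := by exact_mod_cast Finset.card_pos.mpr hne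
  have h3 : rgP n d (fun G => ¬ S n G) = (((regularGraphs n d).filter fun G => ¬ S n G).card : ℝ) / ((regularGraphs n d).card : ℝ) := by
    unfold rgP rgE
    congr 1
    rw [Finset.card_filter]
    push_cast
    refine Finset.sum_congr rfl fun G _ => ?_
    by_cases hs : S n G <;> simp [hs]
  have h4 : rgP n d (fun G => ¬ S n G) ≤ (n : ℝ)⁻¹ := by
    rw [h3, div_le_iff₀ hc]
    exact h1
  have hnpos : (0 : ℝ) < n := by exact_mod_cast hn1
  have h5 : (n : ℝ)⁻¹ ≤ δ := by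
    rw [inv_le_comm₀ hnpos hδ, ← one_div]
    have : (N : ℝ) ≤ n := by exact_mod_cast hnN
    linarith
  linarith

/-! ### the event -/

open Classical in
/-- the graph event -/
def EnEv (d ℓ : ℕ) (E γ α c₂ ε₁ C : ℝ) (n : ℕ) (G : Gr n) : Prop :=
  (∀ v, (rgG G (rgz E ((n : ℝ) ^ (-1 + 2 * ε₁))) v v).im ≤ C) ∧
  ((Finset.univ.filter fun o : Fin n => (n : ℝ) ^ (-(2 * α)) < rgStD d G (rgz E ((n : ℝ) ^ (-α))) o).card : ℝ) ≤ n * (n : ℝ) ^ (-c₂) ∧
  x7Pot G (rgz E ((n : ℝ) ^ (-α))) ≤ rgPhi d (E : ℂ) + (n : ℝ) ^ (-(c₂ * α)) ∧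
  ∀ i : Fin d, EnTypeOk G d i (Fin ℓ → Fin (2 * ⌈(n : ℝ) ^ (2 * γ)⌉₊ + 2)) ((n : ℝ) ^ (1 - c₂))

theorem en_imp_eqns_cite : True := by
  have := @EnEv.eq_1
  trivial

open Classical in
/-- (b) from X2: `s = 0`, `η_n = n^-α`, `ε = 1/2`; `x7_star_markov` with `t = n^{-2α}`: fraction `≤ C n^{-(1-α) c_B + 2α} ≤ n^-c₂` for large `n` (`(1-α) c_B - 2α > c₂`) -/
theorem en_imp_star {d : ℕ} {E : ℝ} {cB h : ℝ} (hcB : 0 < cB) (hh : 0 < h)
    (h2 : ∀ ε : ℝ, 0 < ε → ε < 1 → ∃ C : ℝ, ∀ (S₀ : ℝ) (s η : ℕ → ℝ), (∀ n, |s n| ≤ S₀) → (∀ᶠ n : ℕ in Filter.atTop, (n : ℝ) ^ (-1 + ε) ≤ η n ∧ η n ≤ h) →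
      RgWhp d fun n H => ‖rgTr H (rgz (E + s n / n) (η n)) - rgm d (rgz (E + s n / n) (η n))‖ ≤ C * ((n : ℝ) * η n) ^ (-cB) ∧ rgStarF d H (rgz (E + s n / n) (η n)) ≤ C * ((n : ℝ) * η n) ^ (-cB))
    {α c₂ : ℝ} (hα : 0 < α) (hα1 : α ≤ 1 / 2) (hc : c₂ < (1 - α) * cB - 2 * α) :
    RgWhp d fun n G => ((Finset.univ.filter fun o : Fin n => (n : ℝ) ^ (-(2 * α)) < rgStD d G (rgz E ((n : ℝ) ^ (-α))) o).card : ℝ) ≤ n * (n : ℝ) ^ (-c₂) := by
  obtain ⟨C, hC⟩ := h2 (1 / 2) (by norm_num) (by norm_num)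
  have hev : ∀ᶠ n : ℕ in Filter.atTop, (n : ℝ) ^ (-1 + (1 / 2 : ℝ)) ≤ (fun n : ℕ => (n : ℝ) ^ (-α)) n ∧ (fun n : ℕ => (n : ℝ) ^ (-α)) n ≤ h := by
    have ht : Filter.Tendsto (fun n : ℕ => (n : ℝ) ^ (-α)) Filter.atTop (nhds 0) :=
      (tendsto_rpow_neg_atTop hα).comp tendsto_natCast_atTop_atTop
    filter_upwards [ht.eventually (ge_mem_nhds hh), Filter.eventually_ge_atTop 1] with n hn hn1
    refine ⟨?_, hn⟩
    have h1 : (1 : ℝ) ≤ n := by exact_mod_cast hn1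
    exact Real.rpow_le_rpow_of_exponent_le h1 (by linarith)
  have hw := hC 0 (fun _ => 0) (fun n : ℕ => (n : ℝ) ^ (-α)) (fun _ => by simp) hev
  -- the threshold
  set κ : ℝ := (1 - α) * cB - 2 * α - c₂ with hκ
  have hκ0 : 0 < κ := by rw [hκ]; linarith
  have hev2 : ∀ᶠ n : ℕ in Filter.atTop, C ≤ (n : ℝ) ^ κ :=
    ((tendsto_rpow_atTop hκ0).comp tendsto_natCast_atTop_atTop).eventually (Filter.eventually_ge_atTop C)
  obtain ⟨N₀, hN₀⟩ := Filter.eventually_atTop.1 hev2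
  refine en_whp_mono hw (max N₀ 1) fun n hn G _ hS => ?_
  have hnN : N₀ ≤ n := (le_max_left _ _).trans hn
  have hn1 : 1 ≤ n := (le_max_right _ _).trans hn
  have hnpos : (0 : ℝ) < n := by exact_mod_cast hn1
  have hS2 := hS.2
  simp only [zero_div, add_zero] at hS2
  have ht : (0 : ℝ) < (n : ℝ) ^ (-(2 * α)) := Real.rpow_pos_of_pos hnpos _
  have hm := x7_star_markov d G (rgz E ((n : ℝ) ^ (-α))) ht
  rw [div_le_iff₀ hnpos] at hm
  refine hm.trans ?_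
  rw [mul_comm]
  refine mul_le_mul_of_nonneg_left ?_ hnpos.le
  rw [div_le_iff₀ ht]
  refine hS2.trans ?_
  have e1 : ((n : ℝ) * (n : ℝ) ^ (-α)) ^ (-cB) = (n : ℝ) ^ (-((1 - α) * cB)) := by
    have : (n : ℝ) * (n : ℝ) ^ (-α) = (n : ℝ) ^ (1 - α) := by
      rw [sub_eq_add_neg, Real.rpow_add hnpos, Real.rpow_one]
    rw [this, ← Real.rpow_mul hnpos.le]
    congr 1
    ring
  rw [e1, ← Real.rpow_add hnpos]
  have e2 : (n : ℝ) ^ (-c₂ + -(2 * α)) = (n : ℝ) ^ κ * (n : ℝ) ^ (-((1 - α) * cB)) := by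
    rw [← Real.rpow_add hnpos]
    congr 1
    rw [hκ]
    ring
  rw [e2]
  exact mul_le_mul_of_nonneg_right (hN₀ n hnN) (Real.rpow_pos_of_pos hnpos _).le

/-- **choice of the exponents, probability of the event** (`en_imp_star`, X3 with `n^{-cα} ≤ n^{-c₂α}`, X1 at `ε = 2ε₁`, `en_type'` + `en_whp_card`, `en_whp_and`) -/
theorem en_imp_whp (d : ℕ) (hd : 3 ≤ d) (E : ℝ) (ℓ : ℕ) (h1 : X1 d E) (h2 : X2 d E) (h3 : X3 d E) :
    ∃ γ α c₂ : ℝ, EnPar d ℓ γ α c₂ ∧ ∀ ε₁ : ℝ, 0 < ε₁ → ε₁ ≤ α / 32 → ∃ C : ℝ, 1 ≤ C ∧ RgWhp d (EnEv d ℓ E γ α c₂ ε₁ C) := by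
  obtain ⟨cB, h, hcB, hh, H2⟩ := h2
  obtain ⟨c, α₀, hc, hα₀, H3⟩ := h3
  set cB' := min cB 1 with hcB'
  have hcB'0 : 0 < cB' := lt_min hcB one_pos
  set c₂ := min (1 / 2) (min (cB' / 2) c) with hc₂
  have hc₂0 : 0 < c₂ := lt_min (by norm_num) (lt_min (by positivity) hc)
  have hc₂a : c₂ ≤ 1 / 2 := min_le_left _ _
  have hc₂b : c₂ ≤ cB' / 2 := (min_le_right _ _).trans (min_le_left _ _)
  have hc₂c : c₂ ≤ c := (min_le_right _ _).trans (min_le_right _ _)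
  have hD : (0 : ℝ) < 64 * ((ℓ : ℝ) + 1) * ((d : ℝ) + 1) := by positivity
  set γ := 1 / (64 * ((ℓ : ℝ) + 1) * ((d : ℝ) + 1)) with hγ
  have hγ0 : 0 < γ := by positivity
  have hγ1 : 64 * ((ℓ : ℝ) + 1) * ((d : ℝ) + 1) * γ ≤ 1 := by rw [hγ]; field_simp; exact le_refl _
  set α := min (γ / 16) (min (c₂ / 16) α₀) with hα
  have hα0 : 0 < α := lt_min (by positivity) (lt_min (by positivity) hα₀)
  have hαa : α ≤ γ / 16 := min_le_left _ _
  have hαb : α ≤ c₂ / 16 := (min_le_right _ _).trans (min_le_left _ _)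
  have hαc : α ≤ α₀ := (min_le_right _ _).trans (min_le_right _ _)
  refine ⟨γ, α, c₂, ⟨hα0, by linarith, by linarith, hc₂a, hγ1⟩, fun ε₁ hε hε' => ?_⟩
  obtain ⟨C', hC'⟩ := h1 (2 * ε₁) (by linarith) (by linarith)
  refine ⟨max 1 C', le_max_left _ _, ?_⟩
  -- (b)
  have hcB1 : cB' ≤ cB := min_le_left _ _
  have hb : c₂ < (1 - α) * cB - 2 * α := by
    have a1 : α ≤ 1 / 32 := by linarith
    have a2 : α * cB ≤ cB / 32 := by nlinarith
    nlinarith
  have Wb := en_imp_star (d := d) (E := E) hcB hh H2 hα0 (by linarith) hb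
  -- (c)
  have Wc := H3 α hα0 hαc
  -- (d)
  have Wd : RgWhp d fun n G => ∀ i : Fin d, EnTypeOk G d i (Fin ℓ → Fin (2 * ⌈(n : ℝ) ^ (2 * γ)⌉₊ + 2)) ((n : ℝ) ^ (1 - c₂)) :=
    by
    classical
    obtain ⟨n₀, hn₀⟩ := en_type' (ℓ := ℓ) hd hγ0 hγ1 hc₂a
    refine en_whp_card ⟨n₀, fun n hn => le_trans (le_of_eq ?_) (hn₀ n hn)⟩
    congr 2
    apply Finset.filter_congr_decidable
  refine en_whp_mono (en_whp_and hC' (en_whp_and Wb (en_whp_and Wc Wd))) 1 fun n hn G _ hG => ?_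
  obtain ⟨g1, g2, g3, g4⟩ := hG
  refine ⟨fun v => (g1 v).trans (le_max_right _ _), g2, g3.trans ?_, g4⟩
  have hn1 : (1 : ℝ) ≤ n := by exact_mod_cast hn
  have : (n : ℝ) ^ (-(c * α)) ≤ (n : ℝ) ^ (-(c₂ * α)) :=
    Real.rpow_le_rpow_of_exponent_le hn1 (by nlinarith)
  linarith

/-! ### deterministic part -/

theorem en_A_eq_rgA {n : ℕ} (G : SimpleGraph (Fin n)) : enA G = rgA G := rfl

/-- `((A-E)² + η²) Im G(E + iη) = η` -/
theorem en_imp_imG {n : ℕ} (G : SimpleGraph (Fin n)) (E : ℝ) {η : ℝ} (hη : 0 < η) :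
    ((enA G - E • 1) * (enA G - E • 1) + η ^ 2 • 1) * (Matrix.of fun v w => (rgG G (rgz E η) v w).im) = η • (1 : Matrix (Fin n) (Fin n) ℝ) := by
  set B : Matrix (Fin n) (Fin n) ℝ := enA G - E • 1 with hB
  set I : Matrix (Fin n) (Fin n) ℝ := Matrix.of fun v w => (rgG G (rgz E η) v w).im with hI
  set R : Matrix (Fin n) (Fin n) ℝ := Matrix.of fun v w => (rgG G (rgz E η) v w).re with hR
  have hz : (rgz E η).im ≠ 0 := by rw [rg_z_im]; exact hη.ne'
  have h0 := rs_mul_G (rg_A_herm G) hz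
  have hent : ∀ v w, ∑ u, (((B v u : ℝ) : ℂ) - (if v = u then Complex.I * η else 0)) * rgG G (rgz E η) u w = if v = w then 1 else 0 := by
    intro v w
    have h1 := congrFun (congrFun h0 v) w
    rw [Matrix.mul_apply, Matrix.one_apply] at h1
    rw [← h1]
    refine Finset.sum_congr rfl fun u _ => ?_
    congr 1
    rw [hB, en_A_eq_rgA]
    simp only [Matrix.sub_apply, Matrix.smul_apply, Matrix.one_apply, rs_C_apply, smul_eq_mul]
    have hzz : rgz E η = (E : ℂ) + Complex.I * η := by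
      apply Complex.ext <;> simp [rgz]
    rw [hzz]
    by_cases hvu : v = u
    · simp only [if_pos hvu]
      push_cast
      ring
    · simp only [if_neg hvu]
      push_cast
      ring
  have hre : B * R + η • I = 1 := by
    ext v w
    have h1 := congrArg Complex.re (hent v w)
    rw [Complex.re_sum] at h1
    rw [Matrix.add_apply, Matrix.mul_apply, Matrix.smul_apply, Matrix.one_apply]
    have h2 : (if v = w then (1 : ℂ) else 0).re = if v = w then (1 : ℝ) else 0 := by split_ifs <;> simp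
    rw [h2] at h1
    rw [← h1]
    have h3 : ∀ u, ((((B v u : ℝ) : ℂ) - (if v = u then Complex.I * η else 0)) * rgG G (rgz E η) u w).re
        = B v u * R u w + (if v = u then η * I u w else 0) := by
      intro u
      by_cases hvu : v = u
      · simp [hvu, hR, hI, Complex.mul_re]
      · simp [hvu, hR, Complex.mul_re]
    rw [Finset.sum_congr rfl fun u _ => h3 u, Finset.sum_add_distrib]
    simp
  have him : B * I = η • R := by
    ext v w
    have h1 := congrArg Complex.im (hent v w)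
    rw [Complex.im_sum] at h1
    rw [Matrix.mul_apply, Matrix.smul_apply]
    have h2 : (if v = w then (1 : ℂ) else 0).im = 0 := by split_ifs <;> simp
    rw [h2] at h1
    have h3 : ∀ u, ((((B v u : ℝ) : ℂ) - (if v = u then Complex.I * η else 0)) * rgG G (rgz E η) u w).im
        = B v u * I u w - (if v = u then η * R u w else 0) := by
      intro u
      by_cases hvu : v = u
      · simp [hvu, hR, hI, Complex.mul_im]
        ring
      · simp [hvu, hI, Complex.mul_im]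
    rw [Finset.sum_congr rfl fun u _ => h3 u, Finset.sum_sub_distrib] at h1
    simp at h1
    simp only [smul_eq_mul]
    linarith
  calc (B * B + η ^ 2 • 1) * I = B * (B * I) + η ^ 2 • I := by
        rw [Matrix.add_mul, Matrix.mul_assoc, Matrix.smul_mul, Matrix.one_mul]
    _ = η • (B * R + η • I) := by
        rw [him, Matrix.mul_smul, smul_add, smul_smul, sq]
    _ = η • 1 := by rw [hre]

/-- `Γ = Im G(E + iη)/r`:  `Im (A - z)⁻¹ = η ((A-E)² + η²)⁻¹` (`(A - z)(A - z̄) = (A-E)² + η²`; or the spectral form `rs_G_apply`, `rs_im_term`), `en_gam` -/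
theorem en_imp_gam {n d ℓ : ℕ} (D : EnData n d ℓ) (hML : D.M * D.L = 1)
    (hcov : (D.M)ᵀ * D.M = (D.r / D.η) • ((enA D.G - D.E • 1) * (enA D.G - D.E • 1) + D.η ^ 2 • 1)) (hη : 0 < D.η) (hr : 0 < D.r) (v w : Fin n) :
    D.Γ v w = (rgG D.G (rgz D.E D.η) v w).im / D.r := by
  have h1 := en_gam D hML hcov
  have h2 := en_imp_imG D.G D.E hη
  set I : Matrix (Fin n) (Fin n) ℝ := Matrix.of fun v w => (rgG D.G (rgz D.E D.η) v w).im with hI
  have h3 : D.r • D.Γ = I := by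
    calc D.r • D.Γ = D.Γ * ((D.r / D.η) • (D.η • (1 : Matrix (Fin n) (Fin n) ℝ))) := by
          rw [smul_smul, div_mul_cancel₀ _ hη.ne', Matrix.mul_smul, Matrix.mul_one]
      _ = D.Γ * ((D.r / D.η) • ((enA D.G - D.E • 1) * (enA D.G - D.E • 1) + D.η ^ 2 • 1)) * I := by
          rw [← h2, Matrix.mul_assoc, Matrix.smul_mul]
      _ = I := by rw [h1, Matrix.one_mul]
  have h4 := congrFun (congrFun h3 v) w
  rw [Matrix.smul_apply, smul_eq_mul] at h4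
  rw [eq_div_iff hr.ne', mul_comm, h4, hI]
  rfl

/-- the Gaussian wave covariance at the distance `k` -/
def enS0k (d : ℕ) (E : ℝ) : ℕ → ℝ
  | 0 => 1
  | 1 => E / d
  | _ => (E ^ 2 - d) / (d * ((d : ℝ) - 1))

theorem en_imp177_ne {d : ℕ} (hd : 3 ≤ d) {E : ℝ} (hE : |E| < 2 * Real.sqrt ((d : ℝ) - 1)) : 1 - rgg d (E : ℂ) ^ 2 ≠ 0 := by
  intro h
  have hL := x7_sq_lt hd hE
  have hd' : (3 : ℝ) ≤ d := by exact_mod_cast hd
  have hb : ((d : ℝ) - 1) ≠ 0 := by linarith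
  have := x7_g_abs' hd hE
  rw [h, norm_zero] at this
  have h2 : 0 < ((d : ℝ) ^ 2 - E ^ 2) / ((d : ℝ) - 1) ^ 2 := by positivity
  rw [← this] at h2
  norm_num at h2

/-- boundary values of the tree: `Im (m (-g)^k) = π ρ S0(k)`, `k ≤ 2`   (`x7_m_bdry`, `x7_g_re_im`, `x7_g_quad`: `(d-1) g² + E g + 1 = 0`) -/
theorem en_imp_tv0 {d : ℕ} (hd : 3 ≤ d) {E : ℝ} (hE : |E| < 2 * Real.sqrt ((d : ℝ) - 1)) (k : ℕ) (hk : k ≤ 2) :
    (rgTv d (E : ℂ) k).im = Real.pi * kestenMcKay d E * enS0k d E k := by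
  have hd' : (3 : ℝ) ≤ d := by exact_mod_cast hd
  have hd0 : (d : ℝ) ≠ 0 := by linarith
  have hb : ((d : ℝ) - 1) ≠ 0 := by linarith
  have hd0c : (d : ℂ) ≠ 0 := by exact_mod_cast hd0
  have hbc : ((d : ℂ) - 1) ≠ 0 := by exact_mod_cast hb
  have hq := x7_g_quad hd hE
  have hne := en_imp177_ne hd hE
  have him := (x7_m_bdry hd hE).1
  have hm : rgm d (E : ℂ) * (1 - rgg d (E : ℂ) ^ 2) = rgg d (E : ℂ) := by
    unfold rgm; field_simp
  -- `- d m g = 1 + E m`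
  have h1 : (d : ℂ) * (rgm d (E : ℂ) * rgg d (E : ℂ)) = -(1 + (E : ℂ) * rgm d (E : ℂ)) := by
    have : ((d : ℂ) * (rgm d (E : ℂ) * rgg d (E : ℂ)) + (1 + (E : ℂ) * rgm d (E : ℂ))) * (1 - rgg d (E : ℂ) ^ 2) = 0 := by
      linear_combination ((d : ℂ) * rgg d (E : ℂ) + (E : ℂ)) * hm + hq
    have := (mul_eq_zero.1 this).resolve_right hne
    linear_combination this
  unfold rgTv
  interval_cases k
  · simp [enS0k, him]
  · have e1 : rgm d (E : ℂ) * (-rgg d (E : ℂ)) ^ 1 = (1 + (E : ℂ) * rgm d (E : ℂ)) / ((d : ℝ) : ℂ) := by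
      rw [eq_div_iff (by exact_mod_cast hd0)]
      push_cast
      linear_combination (-1 : ℂ) * h1
    rw [e1, Complex.div_ofReal_im, Complex.add_im, Complex.one_im, Complex.im_ofReal_mul, him]
    simp only [enS0k]
    ring
  · have e2 : rgm d (E : ℂ) * (-rgg d (E : ℂ)) ^ 2 = ((E : ℂ) + (((E ^ 2 - d : ℝ)) : ℂ) * rgm d (E : ℂ)) / (((d : ℝ) * ((d : ℝ) - 1) : ℝ) : ℂ) := by
      rw [eq_div_iff (by exact_mod_cast mul_ne_zero hd0 hb)]
      push_cast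
      linear_combination (d : ℂ) * rgm d (E : ℂ) * hq - (E : ℂ) * h1
    rw [e2, Complex.div_ofReal_im, Complex.add_im, Complex.ofReal_im, Complex.im_ofReal_mul, him]
    simp only [enS0k]
    ring

theorem en_imp177_g_diff {d : ℕ} (hd : 3 ≤ d) {E : ℝ} (hE : |E| < 2 * Real.sqrt ((d : ℝ) - 1)) : DifferentiableAt ℂ (rgg d) (E : ℂ) := by
  have h0 := x7_disc_pos hd hE
  have h1 : (4 * ((d : ℂ) - 1) - (E : ℂ) ^ 2) = ((4 * ((d : ℝ) - 1) - E ^ 2 : ℝ) : ℂ) := by push_cast; ring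
  have hs : (4 * ((d : ℂ) - 1) - (E : ℂ) ^ 2) ∈ Complex.slitPlane := by
    rw [h1]; exact Complex.ofReal_mem_slitPlane.2 h0
  have h1 : DifferentiableAt ℂ (fun z : ℂ => 4 * ((d : ℂ) - 1) - z ^ 2) (E : ℂ) := by fun_prop
  have h2 : DifferentiableAt ℂ (fun z : ℂ => (4 * ((d : ℂ) - 1) - z ^ 2) ^ (1 / 2 : ℂ)) (E : ℂ) := h1.cpow_const hs
  unfold rgg
  fun_prop

/-- the tree values are Lipschitz up to the real axis in the bulk: `w ↦ w^{1/2}` is Lipschitz on `Re w ≥ κ > 0` (`4(d-1) - z²` has real part `≥ 4(d-1) - E²`), `1 - g²` is bounded below (`x7_g_abs'` + continuity, or `|g|² ≤ 1/(d-1)` on the closed upper half plane) -/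
theorem en_imp_tv_lip {d : ℕ} (hd : 3 ≤ d) {E : ℝ} (hE : |E| < 2 * Real.sqrt ((d : ℝ) - 1)) :
    ∃ C η₀ : ℝ, 0 < η₀ ∧ ∀ η : ℝ, 0 < η → η ≤ η₀ → ∀ k : ℕ, k ≤ 2 → ‖rgTv d (rgz E η) k - rgTv d (E : ℂ) k‖ ≤ C * η := by
  have hg := en_imp177_g_diff hd hE
  have hm : DifferentiableAt ℂ (rgm d) (E : ℂ) := by
    unfold rgm
    exact hg.div ((differentiableAt_const _).sub (hg.pow 2)) (en_imp177_ne hd hE)
  have hk : ∀ k : ℕ, ∃ C ε : ℝ, 0 < ε ∧ ∀ η : ℝ, 0 < η → η < ε → ‖rgTv d (rgz E η) k - rgTv d (E : ℂ) k‖ ≤ C * η := by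
    intro k
    have hd : DifferentiableAt ℂ (fun z => rgTv d z k) (E : ℂ) := by
      unfold rgTv
      exact hm.mul (hg.neg.pow k)
    obtain ⟨C, hC⟩ := hd.isBigO_sub.bound
    obtain ⟨ε, hε, hb⟩ := Metric.eventually_nhds_iff.1 hC
    refine ⟨C, ε, hε, fun η hη hηε => ?_⟩
    have e1 : rgz E η - (E : ℂ) = ((η : ℝ) : ℂ) * Complex.I := by
      apply Complex.ext <;> simp [rgz]
    have e2 : ‖rgz E η - (E : ℂ)‖ = η := by
      rw [e1, norm_mul, Complex.norm_I, mul_one, Complex.norm_real, Real.norm_of_nonneg hη.le]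
    have := hb (y := rgz E η) (by rw [dist_eq_norm, e2]; exact hηε)
    rwa [e2] at this
  obtain ⟨C0, ε0, h0, b0⟩ := hk 0
  obtain ⟨C1, ε1, h1, b1⟩ := hk 1
  obtain ⟨C2, ε2, h2, b2⟩ := hk 2
  refine ⟨max C0 (max C1 C2), min ε0 (min ε1 ε2) / 2, by positivity, fun η hη hη' k hk => ?_⟩
  have hmin : η < min ε0 (min ε1 ε2) := by
    have : 0 < min ε0 (min ε1 ε2) := by positivity
    linarith
  have a0 : η < ε0 := lt_of_lt_of_le hmin (min_le_left _ _)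
  have a1 : η < ε1 := lt_of_lt_of_le hmin (le_trans (min_le_right _ _) (min_le_left _ _))
  have a2 : η < ε2 := lt_of_lt_of_le hmin (le_trans (min_le_right _ _) (min_le_right _ _))
  interval_cases k
  · exact le_trans (b0 η hη a0) (mul_le_mul_of_nonneg_right (le_max_left _ _) hη.le)
  · exact le_trans (b1 η hη a1) (mul_le_mul_of_nonneg_right (le_trans (le_max_left _ _) (le_max_right _ _)) hη.le)
  · exact le_trans (b2 η hη a2) (mul_le_mul_of_nonneg_right (le_trans (le_max_right _ _) (le_max_right _ _)) hη.le)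

/-- positions in an ordered star: `enSig0 d E x y = enS0k d E (rgSd o (s.vx x) (s.vx y))` (`en_vx_inj`) -/
theorem en_imp_sd {n d : ℕ} {G : SimpleGraph (Fin n)} (E : ℝ) (s : EnLoc G d) (x y : Option (Fin d)) :
    enSig0 d E x y = enS0k d E (rgSd (s.vx none) (s.vx x) (s.vx y)) ∧ s.vx x ∈ rgStar G (s.vx none) := by
  have hinj : Function.Injective s.vx := by
    intro a b hab
    cases a with
    | none =>
      cases b with
      | none => rfl
      | some j =>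
        exfalso
        have := s.2.2 j
        have h2 : s.1.1 = s.1.2 j := hab
        rw [← h2] at this
        exact G.loopless.irrefl _ this
    | some i =>
      cases b with
      | none =>
        exfalso
        have := s.2.2 i
        have h2 : s.1.2 i = s.1.1 := hab
        rw [h2] at this
        exact G.loopless.irrefl _ this
      | some j =>
        have h2 : s.1.2 i = s.1.2 j := hab
        rw [s.2.1 h2]
  constructor
  · unfold enSig0 rgSd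
    by_cases hxy : x = y
    · subst hxy
      simp [enS0k]
    · have h1 : s.vx x ≠ s.vx y := fun h => hxy (hinj h)
      rw [if_neg hxy, if_neg h1]
      by_cases h2 : x = none ∨ y = none
      · have h3 : s.vx x = s.vx none ∨ s.vx y = s.vx none := by
          rcases h2 with h | h
          · exact Or.inl (by rw [h])
          · exact Or.inr (by rw [h])
        rw [if_pos h2, if_pos h3]
        simp [enS0k, enP]
      · have h3 : ¬ (s.vx x = s.vx none ∨ s.vx y = s.vx none) := by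
          rintro (h | h)
          · exact h2 (Or.inl (hinj h))
          · exact h2 (Or.inr (hinj h))
        rw [if_neg h2, if_neg h3]
        simp [enS0k]
  · classical
    unfold rgStar
    rw [Finset.mem_filter]
    refine ⟨Finset.mem_univ _, ?_⟩
    cases x with
    | none => exact Or.inl rfl
    | some i => exact Or.inr (s.2.2 i)

/-- one good centre: `|Γ_xy - Σ₀| ≤ (√t + C η)/r`   (`en_imp_gam`, `x7_star_entry`, `en_imp_tv0`, `en_imp_sd`, `Complex.abs_im_le_norm`) -/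
theorem en_imp_good {n d ℓ : ℕ} (hd : 3 ≤ d) (D : EnData n d ℓ) (hE : |D.E| < 2 * Real.sqrt ((d : ℝ) - 1)) (hML : D.M * D.L = 1)
    (hcov : (D.M)ᵀ * D.M = (D.r / D.η) • ((enA D.G - D.E • 1) * (enA D.G - D.E • 1) + D.η ^ 2 • 1)) (hη : 0 < D.η) (hr : D.r = Real.pi * kestenMcKay d D.E) (hr0 : 0 < D.r)
    {C t : ℝ} (hC : ∀ k : ℕ, k ≤ 2 → ‖rgTv d (rgz D.E D.η) k - rgTv d (D.E : ℂ) k‖ ≤ C * D.η) (s : EnLoc D.G d) (hs : rgStD d D.G (rgz D.E D.η) (s.vx none) ≤ t) (x y : Option (Fin d)) :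
    |D.Γ (s.vx x) (s.vx y) - enSig0 d D.E x y| ≤ (Real.sqrt t + C * D.η) / D.r := by
  obtain ⟨h1, hx⟩ := en_imp_sd D.E s x y
  obtain ⟨-, hy⟩ := en_imp_sd D.E s y x
  set k := rgSd (s.vx none) (s.vx x) (s.vx y) with hk
  have hk2 : k ≤ 2 := by
    rw [hk]
    unfold rgSd
    split_ifs <;> norm_num
  have h2 := x7_star_entry d D.G (rgz D.E D.η) hs hx hy
  rw [← hk] at h2
  have h3 : ‖rgG D.G (rgz D.E D.η) (s.vx x) (s.vx y) - rgTv d (rgz D.E D.η) k‖ ≤ Real.sqrt t :=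
    Real.le_sqrt_of_sq_le h2
  have h4 := en_imp_tv0 hd hE k hk2
  rw [← hr] at h4
  have h5 : enSig0 d D.E x y = (rgTv d (D.E : ℂ) k).im / D.r := by
    rw [h1, h4, mul_div_cancel_left₀ _ hr0.ne']
  rw [en_imp_gam D hML hcov hη hr0, h5, ← sub_div, abs_div, abs_of_pos hr0]
  refine div_le_div_of_nonneg_right ?_ hr0.le
  rw [← Complex.sub_im]
  refine (Complex.abs_im_le_norm _).trans ?_
  calc ‖rgG D.G (rgz D.E D.η) (s.vx x) (s.vx y) - rgTv d (D.E : ℂ) k‖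
      = ‖(rgG D.G (rgz D.E D.η) (s.vx x) (s.vx y) - rgTv d (rgz D.E D.η) k) + (rgTv d (rgz D.E D.η) k - rgTv d (D.E : ℂ) k)‖ := by
        congr 1; ring
    _ ≤ _ := norm_add_le _ _
    _ ≤ Real.sqrt t + C * D.η := add_le_add h3 (hC k hk2)

open Classical in
/-- fraction of the bad ordered stars = fraction of the bad centres (`en_avg_vx`) -/
theorem en_imp_bad {n d ℓ : ℕ} (D : EnData n d ℓ) (hG : D.G ∈ regularGraphs n d) {δ t : ℝ} (z : ℂ)
    (h : ∀ s : EnLoc D.G d, rgStD d D.G z (s.vx none) ≤ t → ∀ x y, |D.Γ (s.vx x) (s.vx y) - enSig0 d D.E x y| ≤ δ) :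
    enAvg (fun s : EnLoc D.G d => D.bad δ s) ≤ ((Finset.univ.filter fun o : Fin n => t < rgStD d D.G z o).card : ℝ) / n := by
  have h1 : enAvg (fun s : EnLoc D.G d => D.bad δ s) ≤ enAvg (fun s : EnLoc D.G d => (fun o : Fin n => if t < rgStD d D.G z o then (1 : ℝ) else 0) (s.vx none)) := by
    unfold enAvg
    refine mul_le_mul_of_nonneg_left (Finset.sum_le_sum fun s _ => ?_) (by positivity)
    unfold EnData.bad
    by_cases hs : t < rgStD d D.G z (s.vx none)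
    · simp only [if_pos hs]
      split_ifs <;> norm_num
    · rw [if_pos (h s (not_lt.1 hs))]
      simp only [if_neg hs]
      exact le_refl _
  refine h1.trans (le_of_eq ?_)
  rw [en_avg_vx hG (fun o : Fin n => if t < rgStD d D.G z o then (1 : ℝ) else 0), Finset.card_filter]
  push_cast
  rw [div_eq_inv_mul]

/-- `π ρ_d(E) > 0` in the bulk -/
theorem en_imp_r_pos {d : ℕ} (hd : 3 ≤ d) {E : ℝ} (hE : |E| < 2 * Real.sqrt ((d : ℝ) - 1)) : 0 < Real.pi * kestenMcKay d E := by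
  have h0 := x7_disc_pos hd hE
  have h1 := x7_sq_lt hd hE
  have hd' : (0 : ℝ) < d := by
    have : (3 : ℝ) ≤ d := by exact_mod_cast hd
    linarith
  unfold kestenMcKay
  have := Real.sqrt_pos.2 h0
  have := Real.pi_pos
  positivity

theorem en_imp_U_eq {d : ℕ} (hd : 3 ≤ d) {E : ℝ} (hE : |E| < 2 * Real.sqrt ((d : ℝ) - 1)) : rgPhi d (E : ℂ) = enU d E := by
  rw [x7_phi hd hE]
  rfl

/-- a power of `n` beats a constant -/
theorem en_imp_ev (A : ℝ) {a : ℝ} (ha : 0 < a) : ∀ᶠ n : ℕ in Filter.atTop, A ≤ (n : ℝ) ^ a :=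
  ((tendsto_rpow_atTop ha).comp tendsto_natCast_atTop_atTop).eventually_ge_atTop A

/-- **deterministic part**.   `η = n^-α`, `r = π ρ`, `L, M` from `en_noise`, `b = n^-γ`, `K = 2⌈n^{2γ}⌉ + 2`.   Fields: `sup`: `x7_sup` at `η' = n^{-1+2ε₁}`: `V² ≤ 2 C n^{2ε₁}`, so `|V| ≤ √(2C) n^{ε₁} ≤ n^{α/16}` for large `n`;
`band`: `n^{-1+2ε₁} ≤ n^{-1/2}`;  `typ`: `en_imp_good` (`t = n^{-2α}`: `(n^-α + C n^-α)/r ≤ n^{-α/2}` for large `n`), `en_imp_bad`;  `pot`: `x7_det`, `x7_phi` (`= enU`);  `typeOk`: the event -/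
theorem en_imp_det (d : ℕ) (hd : 3 ≤ d) (E : ℝ) (hE : |E| < 2 * Real.sqrt ((d : ℝ) - 1)) (ℓ : ℕ) {γ α c₂ : ℝ} (hP : EnPar d ℓ γ α c₂) {ε₁ C : ℝ} (hε : 0 < ε₁) (hε' : ε₁ ≤ α / 32) (hC : 1 ≤ C) :
    ∃ n₀ : ℕ, ∀ n : ℕ, n₀ ≤ n → ∀ G ∈ regularGraphs n d, EnEv d ℓ E γ α c₂ ε₁ C n G → ∀ (V : Fin n → Fin ℓ → ℝ) (lam : Fin ℓ → ℝ),
      (∀ j, enA G *ᵥ (fun v => V v j) = lam j • fun v => V v j) → (∀ j j', ∑ v, V v j * V v j' = if j = j' then (n : ℝ) else 0) → (∀ j, |lam j - E| ≤ (n : ℝ) ^ (-1 + 2 * ε₁)) →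
        (∀ v j, |V v j| ≤ Real.sqrt (2 * C) * (n : ℝ) ^ ε₁) ∧
        ∃ D : EnData n d ℓ, D.G = G ∧ D.V = V ∧ D.lam = lam ∧ D.E = E ∧ D.r = Real.pi * kestenMcKay d E ∧ D.Ok γ α c₂ := by
  have hα0 := hP.α0
  have hα1 : α ≤ 1 / 32 := by have := hP.αc; have := hP.c1; linarith
  have hr0 := en_imp_r_pos hd hE
  set r := Real.pi * kestenMcKay d E with hr
  obtain ⟨Ct, η₀, hη₀, hLip⟩ := en_imp_tv_lip hd hE
  obtain ⟨n₀, hn₀⟩ := Filter.eventually_atTop.1 ((((en_imp_ev (Real.sqrt (2 * C)) (by positivity : 0 < α / 32)).and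
    (en_imp_ev ((1 + |Ct|) / r) (by positivity : 0 < α / 2))).and (en_imp_ev (η₀⁻¹) hα0)).and (Filter.eventually_ge_atTop 1))
  refine ⟨n₀, fun n hn G hG hEv V lam heig horth hband => ?_⟩
  obtain ⟨⟨⟨e1, e2⟩, e3⟩, e4⟩ := hn₀ n hn
  obtain ⟨v1, v2, v3, v4⟩ := hEv
  have hn0 : (0 : ℝ) < n := by exact_mod_cast e4
  have hn1 : (1 : ℝ) ≤ n := by exact_mod_cast e4
  have hη : (0 : ℝ) < (n : ℝ) ^ (-α) := by positivity
  have hηle : (n : ℝ) ^ (-α) ≤ η₀ := by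
    rw [Real.rpow_neg hn0.le]
    exact inv_le_of_inv_le₀ hη₀ e3
  -- the sup norm
  have hsup : ∀ v j, |V v j| ≤ Real.sqrt (2 * C) * (n : ℝ) ^ ε₁ := by
    intro v j
    have h1 : ∑ v, V v j ^ 2 = n := by
      have := horth j j
      simp only [if_true] at this
      rw [← this]
      exact Finset.sum_congr rfl fun v _ => by ring
    have h2 := x7_sup G (E := E) (η := (n : ℝ) ^ (-1 + 2 * ε₁)) (C := C) (lam := lam j) (by positivity) v1 (fun v => V v j) (heig j) h1 (hband j) v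
    have h3 : 2 * C * n * (n : ℝ) ^ (-1 + 2 * ε₁) = (Real.sqrt (2 * C) * (n : ℝ) ^ ε₁) ^ 2 := by
      rw [mul_pow, Real.sq_sqrt (by linarith), ← Real.rpow_natCast ((n : ℝ) ^ ε₁) 2, ← Real.rpow_mul hn0.le, Real.rpow_add hn0, Real.rpow_neg_one]
      have : ε₁ * ((2 : ℕ) : ℝ) = 2 * ε₁ := by push_cast; ring
      rw [this]
      field_simp
    rw [h3] at h2
    exact abs_le_of_sq_le_sq h2 (by positivity)
  refine ⟨hsup, ?_⟩
  obtain ⟨L, M, hML, hcov⟩ := en_noise G E hη hr0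
  let D : EnData n d ℓ :=
    { G := G, E := E, η := (n : ℝ) ^ (-α), r := r, L := L, M := M, V := V, lam := lam, b := (n : ℝ) ^ (-γ),
      K := 2 * ⌈(n : ℝ) ^ (2 * γ)⌉₊ + 2, K0 := ⟨by omega⟩ }
  refine ⟨D, rfl, rfl, rfl, rfl, rfl, ?_⟩
  have hgood : ∀ s : EnLoc D.G d, rgStD d D.G (rgz E ((n : ℝ) ^ (-α))) (s.vx none) ≤ (n : ℝ) ^ (-(2 * α)) →
      ∀ x y, |D.Γ (s.vx x) (s.vx y) - enSig0 d D.E x y| ≤ (n : ℝ) ^ (-(α / 2)) := by
    intro s hs x y
    have g1 := en_imp_good hd D hE hML hcov hη rfl hr0 (C := Ct) (t := (n : ℝ) ^ (-(2 * α)))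
      (fun k hk => hLip _ hη hηle k hk) s hs x y
    refine g1.trans ?_
    show (Real.sqrt ((n : ℝ) ^ (-(2 * α))) + Ct * (n : ℝ) ^ (-α)) / r ≤ (n : ℝ) ^ (-(α / 2))
    have s1 : Real.sqrt ((n : ℝ) ^ (-(2 * α))) = (n : ℝ) ^ (-α) := by
      rw [Real.sqrt_eq_rpow, ← Real.rpow_mul hn0.le]
      congr 1; ring
    rw [s1]
    have s2 : ((n : ℝ) ^ (-α) + Ct * (n : ℝ) ^ (-α)) / r ≤ (1 + |Ct|) / r * (n : ℝ) ^ (-α) := by
      rw [div_mul_eq_mul_div]
      refine div_le_div_of_nonneg_right ?_ hr0.le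
      have := mul_le_mul_of_nonneg_right (le_abs_self Ct) hη.le
      linarith
    refine s2.trans ((mul_le_mul_of_nonneg_right e2 hη.le).trans (le_of_eq ?_))
    rw [← Real.rpow_add hn0]
    congr 1; ring
  exact
    { reg := hG
      η_eq := rfl
      b_eq := rfl
      K_eq := rfl
      ML := hML
      cov := hcov
      eig := heig
      orth := horth
      sup := fun v j => (hsup v j).trans (by
        have : (n : ℝ) ^ (α / 16) = (n : ℝ) ^ (α / 32) * (n : ℝ) ^ (α / 32) := by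
          rw [← Real.rpow_add hn0]; congr 1; ring
        rw [this]
        exact mul_le_mul e1 (Real.rpow_le_rpow_of_exponent_le hn1 hε') (by positivity) (by positivity))
      band := fun j => (hband j).trans (Real.rpow_le_rpow_of_exponent_le hn1 (by linarith))
      typ := by
        have b1 := en_imp_bad D hG (δ := (n : ℝ) ^ (-(α / 2))) (t := (n : ℝ) ^ (-(2 * α))) (rgz E ((n : ℝ) ^ (-α))) hgood
        refine b1.trans ?_
        rw [div_le_iff₀ hn0]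
        exact v2.trans (le_of_eq (mul_comm _ _))
      pot := by
        have p1 := x7_det G E hη
        have p2 : (2 * (n : ℝ))⁻¹ * Real.log ((enA D.G - D.E • 1) * (enA D.G - D.E • 1) + D.η ^ 2 • 1).det
            = x7Pot G (rgz E ((n : ℝ) ^ (-α))) := p1
        rw [p2]
        have := en_imp_U_eq hd hE
        show _ ≤ enU d E + _
        rw [← this]
        exact v3
      typeOk := v4 }

/-- **EXIT of IMP** -/
theorem en_import (d : ℕ) (hd : 3 ≤ d) (E : ℝ) (hE : |E| < 2 * Real.sqrt ((d : ℝ) - 1)) (ℓ : ℕ) (h1 : X1 d E) (h2 : X2 d E) (h3 : X3 d E) :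
    ∃ γ α c₂ : ℝ, EnPar d ℓ γ α c₂ ∧ ∀ ε₁ : ℝ, 0 < ε₁ → ε₁ ≤ α / 32 → ∃ C₀ : ℝ, 1 ≤ C₀ ∧
      RgWhp d fun n G => ∀ (V : Fin n → Fin ℓ → ℝ) (lam : Fin ℓ → ℝ),
        (∀ j, enA G *ᵥ (fun v => V v j) = lam j • fun v => V v j) → (∀ j j', ∑ v, V v j * V v j' = if j = j' then (n : ℝ) else 0) → (∀ j, |lam j - E| ≤ (n : ℝ) ^ (-1 + 2 * ε₁)) →
          (∀ v j, |V v j| ≤ C₀ * (n : ℝ) ^ ε₁) ∧
          ∃ D : EnData n d ℓ, D.G = G ∧ D.V = V ∧ D.lam = lam ∧ D.E = E ∧ D.r = Real.pi * kestenMcKay d E ∧ D.Ok γ α c₂ := by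
  obtain ⟨γ, α, c₂, hP, H⟩ := en_imp_whp d hd E ℓ h1 h2 h3
  refine ⟨γ, α, c₂, hP, fun ε₁ hε hε' => ?_⟩
  obtain ⟨C, hC, hw⟩ := H ε₁ hε hε'
  obtain ⟨n₀, hdet⟩ := en_imp_det d hd E hE ℓ hP hε hε' hC
  refine ⟨Real.sqrt (2 * C), ?_, en_whp_mono hw n₀ fun n hn G hG hEv => hdet n hn G hG hEv⟩
  rw [show (1 : ℝ) = Real.sqrt 1 by simp]
  exact Real.sqrt_le_sqrt (by linarith)

end

end Claimed.Agent.R287
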